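import Crest.Agent.R214.BV0Defs

/-! Row 214, module BV0: periodic subsets of the line. -/

set_option autoImplicit false

open MeasureTheory Set Filter Topology
open scoped ENNReal
open Crest.GeometryTopology.PeriodicPerimeter

noncomputable section

namespace Crest.Agent.R214

variable {A : Set ℝ}

/-! ### part A -/

theorem len_nonneg (A : Set ℝ) : 0 ≤ len A := ENNReal.toReal_nonneg

theorem len_le_one (A : Set ℝ) : len A ≤ 1 := by
  unfold len
  refine ENNReal.toReal_le_of_le_ofReal zero_le_one ?_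
  refine (measure_mono inter_subset_right).trans ?_
  simp

theorem oneA_add_int (hp : ∀ t, t + 1 ∈ A ↔ t ∈ A) (k : ℤ) (t : ℝ) : t + k ∈ A ↔ t ∈ A := by
  induction k using Int.induction_on with
  | zero => simp
  | succ n ih => rw [← ih, ← hp (t + ((n : ℤ) : ℝ))]; push_cast; rw [add_assoc]
  | pred n ih =>
    rw [← ih, ← hp (t + ((-(n : ℤ) - 1 : ℤ) : ℝ))]
    push_cast
    rw [show t + (-(n : ℝ) - 1) + 1 = t + -(n : ℝ) by ring]

theorem volume_inter_Ico (hA : MeasurableSet A) (hp : ∀ t, t + 1 ∈ A ↔ t ∈ A) (c : ℝ) :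
    volume (A ∩ Ico c (c + 1)) = ENNReal.ofReal (len A) := by
  have h1 : volume (A ∩ Ioc c (c + 1)) = volume (A ∩ Ioc 0 (0 + 1)) := by
    refine (isAddFundamentalDomain_Ioc one_pos c).measure_set_eq
      (isAddFundamentalDomain_Ioc one_pos 0) hA fun g => ?_
    obtain ⟨g, k, rfl⟩ := g
    ext t
    have := oneA_add_int hp k t
    simpa [AddSubgroup.vadd_def, add_comm] using this
  have h2 : ∀ a b : ℝ, volume (A ∩ Ico a b) = volume (A ∩ Ioc a b) := fun a b =>
    measure_congr ((ae_eq_refl A).inter Ico_ae_eq_Ioc)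
  unfold len
  rw [ENNReal.ofReal_toReal, h2, h2, h1, zero_add]
  exact ((measure_mono inter_subset_right).trans_lt (by simp)).ne

theorem measurableSet_arc (c m : ℝ) : MeasurableSet (arc c m) := by
  have : arc c m = ⋃ k : ℤ, {t : ℝ | |t - c - k| < m / 2} := by
    ext t; simp [arc]
  rw [this]
  exact MeasurableSet.iUnion fun k => (isOpen_lt (by fun_prop) continuous_const).measurableSet

theorem arc_add_one (c m t : ℝ) : t + 1 ∈ arc c m ↔ t ∈ arc c m := by
  constructor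
  · rintro ⟨k, hk⟩
    refine ⟨k - 1, ?_⟩
    push_cast
    rwa [show t - c - (k - 1) = t + 1 - c - k by ring]
  · rintro ⟨k, hk⟩
    refine ⟨k + 1, ?_⟩
    push_cast
    rwa [show t + 1 - c - (k + 1) = t - c - k by ring]

theorem len_arc (c : ℝ) {m : ℝ} (h0 : 0 ≤ m) (h1 : m ≤ 1) : len (arc c m) = m := by
  have h := volume_inter_Ico (measurableSet_arc c m) (arc_add_one c m) (c - 1 / 2)
  have e : arc c m ∩ Ico (c - 1 / 2) (c - 1 / 2 + 1) = Ioo (c - m / 2) (c + m / 2) := by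
    ext t
    constructor
    · rintro ⟨⟨k, hk⟩, ht1, ht2⟩
      rw [abs_lt] at hk
      have k1 : (k : ℝ) < 1 := by linarith [hk.1]
      have k2 : (-1 : ℝ) < k := by linarith [hk.2]
      have k3 : k < 1 := by exact_mod_cast k1
      have k4 : -1 < k := by exact_mod_cast k2
      obtain rfl : k = 0 := by omega
      simp only [Int.cast_zero, sub_zero] at hk
      exact ⟨by linarith [hk.1], by linarith [hk.2]⟩
    · rintro ⟨ht1, ht2⟩
      refine ⟨⟨0, ?_⟩, by linarith, by linarith⟩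
      rw [Int.cast_zero, sub_zero, abs_lt]
      exact ⟨by linarith, by linarith⟩
  rw [e, Real.volume_Ioo, show c + m / 2 - (c - m / 2) = m by ring] at h
  exact ((ENNReal.ofReal_eq_ofReal_iff h0 (len_nonneg _)).1 h).symm

theorem oneA_window (hA : MeasurableSet A) {h a b : ℝ} (hh : 0 < h) (hab : a ≤ b) :
    ENNReal.ofReal |(volume (A ∩ Icc b (b + h))).toReal - (volume (A ∩ Icc a (a + h))).toReal| ≤
      volume {t ∈ Ico a b | ¬ (t + h ∈ A ↔ t ∈ A)} := by
  set D : Set ℝ := {t ∈ Ico a b | ¬ (t + h ∈ A ↔ t ∈ A)} with hD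
  set S : Set ℝ := {t ∈ Ico a b | t + h ∈ A} with hS
  set T : Set ℝ := A ∩ Ico a b with hT
  have fin : ∀ U : Set ℝ, U ⊆ Icc a (b + h) → volume U ≠ ∞ := fun U hU =>
    ((measure_mono hU).trans_lt (by simp)).ne
  have hI : Ico a b ⊆ Icc a (b + h) := fun t ht => ⟨ht.1, by linarith [ht.2]⟩
  have fD : volume D ≠ ∞ := fin D fun t ht => hI ht.1
  have fS : volume S ≠ ∞ := fin S fun t ht => hI ht.1
  have fT : volume T ≠ ∞ := fin T fun t ht => hI ht.2
  have fb : volume (A ∩ Icc b (b + h)) ≠ ∞ := fin _ fun t ht => ⟨hab.trans ht.2.1, ht.2.2⟩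
  have fa : volume (A ∩ Icc a (a + h)) ≠ ∞ := fin _ fun t ht => ⟨ht.2.1, by linarith [ht.2.2]⟩
  have e1 : volume (A ∩ Icc a (b + h)) = volume T + volume (A ∩ Icc b (b + h)) := by
    rw [← measure_union _ (hA.inter measurableSet_Icc), hT, ← inter_union_distrib_left,
      Ico_union_Icc_eq_Icc hab (by linarith)]
    exact Set.disjoint_left.2 fun t ht ht' => absurd ht.2.2 (not_lt.2 ht'.2.1)
  have e2 : volume (A ∩ Icc a (b + h)) =
      volume (A ∩ Icc a (a + h)) + volume (A ∩ Ioc (a + h) (b + h)) := by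
    rw [← measure_union _ (hA.inter measurableSet_Ioc), ← inter_union_distrib_left,
      Icc_union_Ioc_eq_Icc (by linarith) (by linarith)]
    exact Set.disjoint_left.2 fun t ht ht' => absurd ht'.2.1 (not_lt.2 ht.2.2)
  have e3 : volume (A ∩ Ioc (a + h) (b + h)) = volume S := by
    rw [← measure_congr ((ae_eq_refl A).inter Ico_ae_eq_Ioc),
      ← measure_preimage_add_right volume h]
    congr 1
    ext t
    simp only [hS, mem_preimage, mem_inter_iff, mem_Ico, mem_ofPred_eq, add_le_add_iff_right,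
      add_lt_add_iff_right]
    tauto
  have l1 : volume S ≤ volume T + volume D := by
    refine (measure_mono fun t ht => ?_).trans (measure_union_le T D)
    by_cases h' : t ∈ A
    · exact Or.inl ⟨h', ht.1⟩
    · exact Or.inr ⟨ht.1, fun e => h' (e.1 ht.2)⟩
  have l2 : volume T ≤ volume S + volume D := by
    refine (measure_mono fun t ht => ?_).trans (measure_union_le S D)
    by_cases h' : t + h ∈ A
    · exact Or.inl ⟨ht.2, h'⟩
    · exact Or.inr ⟨ht.2, fun e => h' (e.2 ht.1)⟩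
  have e4 : (volume T).toReal + (volume (A ∩ Icc b (b + h))).toReal =
      (volume (A ∩ Icc a (a + h))).toReal + (volume S).toReal := by
    rw [← ENNReal.toReal_add fT fb, ← ENNReal.toReal_add fa fS, ← e1, e2, e3]
  have l1' := ENNReal.toReal_mono (ENNReal.add_ne_top.2 ⟨fT, fD⟩) l1
  have l2' := ENNReal.toReal_mono (ENNReal.add_ne_top.2 ⟨fS, fD⟩) l2
  rw [ENNReal.toReal_add fT fD] at l1'
  rw [ENNReal.toReal_add fS fD] at l2'
  refine ENNReal.ofReal_le_of_le_toReal (abs_le.2 ⟨by linarith, by linarith⟩)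

/-- window averages: `u h x = |A ∩ [x - h/2, x + h/2]|`. Moving the window from `p` to `q ≥ p` changes it
by at most the mass of the shift set in `[p - h/2, q - h/2]`. -/
theorem window_sub_le (hA : MeasurableSet A) {h p q : ℝ} (hh : 0 < h) (hpq : p ≤ q) :
    ENNReal.ofReal |(volume (A ∩ Icc (q - h / 2) (q + h / 2))).toReal -
        (volume (A ∩ Icc (p - h / 2) (p + h / 2))).toReal| ≤
      volume {t ∈ Ico (p - h / 2) (q - h / 2) | ¬ (t + h ∈ A ↔ t ∈ A)} := by
  have := oneA_window hA (a := p - h / 2) (b := q - h / 2) hh (by linarith)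
  rwa [show q - h / 2 + h = q + h / 2 by ring, show p - h / 2 + h = p + h / 2 by ring] at this

/-- density one -/
def Dens (A : Set ℝ) (p : ℝ) : Prop :=
  Tendsto (fun k : ℕ => ((k : ℝ) + 1) *
    (volume (A ∩ Icc (p - 1 / ((k : ℝ) + 1) / 2) (p + 1 / ((k : ℝ) + 1) / 2))).toReal) atTop (𝓝 1)

/-- density zero -/
def Dens0 (A : Set ℝ) (p : ℝ) : Prop :=
  Tendsto (fun k : ℕ => ((k : ℝ) + 1) *
    (volume (A ∩ Icc (p - 1 / ((k : ℝ) + 1) / 2) (p + 1 / ((k : ℝ) + 1) / 2))).toReal) atTop (𝓝 0)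

/-- Lebesgue density theorem (`Besicovitch.ae_tendsto_measure_inter_div_of_measurableSet`) -/
theorem ae_dens (hA : MeasurableSet A) :
    ∀ᵐ p, (p ∈ A → Dens A p) ∧ (p ∉ A → Dens0 A p) := by
  filter_upwards [Besicovitch.ae_tendsto_measure_inter_div_of_measurableSet volume hA] with p hp
  have hr : Tendsto (fun k : ℕ => 1 / ((k : ℝ) + 1) / 2) atTop (𝓝[>] 0) := by
    refine tendsto_nhdsWithin_iff.2 ⟨?_, Eventually.of_forall fun k => ?_⟩
    · simpa using (tendsto_one_div_add_atTop_nhds_zero_nat (𝕜 := ℝ)).div_const 2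
    · exact mem_Ioi.2 (by positivity)
  have key : ∀ c : ℝ≥0∞, c ≠ ∞ → A.indicator (1 : ℝ → ℝ≥0∞) p = c →
      Tendsto (fun k : ℕ => ((k : ℝ) + 1) * (volume (A ∩ Icc (p - 1 / ((k : ℝ) + 1) / 2)
        (p + 1 / ((k : ℝ) + 1) / 2))).toReal) atTop (𝓝 c.toReal) := by
    intro c hc e
    rw [e] at hp
    refine ((ENNReal.tendsto_toReal hc).comp (hp.comp hr)).congr fun k => ?_
    have hk : (0 : ℝ) < (k : ℝ) + 1 := by positivity
    simp only [Function.comp_apply]
    rw [Real.volume_closedBall, Real.closedBall_eq_Icc, ENNReal.toReal_div,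
      ENNReal.toReal_ofReal (by positivity)]
    field_simp
  constructor
  · intro h
    simpa [Dens] using key 1 ENNReal.one_ne_top (by simp [h])
  · intro h
    simpa [Dens0] using key 0 ENNReal.zero_ne_top (by simp [h])

theorem oneA_shift (hp : ∀ t, t + 1 ∈ A ↔ t ∈ A) (p r : ℝ) (k : ℤ) :
    volume (A ∩ Icc (p + k - r) (p + k + r)) = volume (A ∩ Icc (p - r) (p + r)) := by
  rw [← measure_preimage_add_right volume (k : ℝ)]
  congr 1
  ext t
  simp only [mem_preimage, mem_inter_iff, mem_Icc, oneA_add_int hp]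
  constructor
  · rintro ⟨h1, h2, h3⟩
    exact ⟨h1, by linarith, by linarith⟩
  · rintro ⟨h1, h2, h3⟩
    exact ⟨h1, by linarith, by linarith⟩

theorem Dens.add_int (hp : ∀ t, t + 1 ∈ A ↔ t ∈ A) {p : ℝ} (h : Dens A p) (k : ℤ) :
    Dens A (p + k) := by
  unfold Dens at h ⊢
  simpa only [oneA_shift hp] using h

theorem Dens0.add_int (hp : ∀ t, t + 1 ∈ A ↔ t ∈ A) {p : ℝ} (h : Dens0 A p) (k : ℤ) :
    Dens0 A (p + k) := by
  unfold Dens0 at h ⊢
  simpa only [oneA_shift hp] using h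

/-! ### part B -/

/-- the normalised window average -/
def v1Win (A : Set ℝ) (k : ℕ) (p : ℝ) : ℝ := ((k : ℝ) + 1) *
  (volume (A ∩ Icc (p - 1 / ((k : ℝ) + 1) / 2) (p + 1 / ((k : ℝ) + 1) / 2))).toReal

/-- the shift set -/
def v1Sh (A : Set ℝ) (h : ℝ) : Set ℝ := {t | ¬ (t + h ∈ A ↔ t ∈ A)}

/-- the scaled mass of the shift set between two windows -/
def v1Mass (A : Set ℝ) (k : ℕ) (p q : ℝ) : ℝ≥0∞ := ((k : ℝ≥0∞) + 1) *
  volume (v1Sh A (1 / ((k : ℝ) + 1)) ∩ Ico (p - 1 / ((k : ℝ) + 1) / 2) (q - 1 / ((k : ℝ) + 1) / 2))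

theorem v1Sh_meas (hA : MeasurableSet A) (h : ℝ) : MeasurableSet (v1Sh A h) := by
  have h1 : MeasurableSet {t : ℝ | t + h ∈ A} := (measurable_add_const h) hA
  have e : v1Sh A h = ({t : ℝ | t + h ∈ A} \ A) ∪ (A \ {t : ℝ | t + h ∈ A}) := by
    ext t
    simp only [v1Sh, mem_ofPred_eq, mem_union, Set.mem_sdiff]
    tauto
  rw [e]
  exact (h1.diff hA).union (hA.diff h1)

theorem v1Mass_ge (hA : MeasurableSet A) (k : ℕ) {p q : ℝ} (hpq : p ≤ q) :
    ENNReal.ofReal |v1Win A k q - v1Win A k p| ≤ v1Mass A k p q := by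
  have hk : (0 : ℝ) < (k : ℝ) + 1 := by positivity
  have h1 := window_sub_le hA (h := 1 / ((k : ℝ) + 1)) (by positivity) hpq
  unfold v1Win v1Mass
  rw [← mul_sub, abs_mul, abs_of_pos hk, ENNReal.ofReal_mul hk.le,
    ENNReal.ofReal_add (Nat.cast_nonneg k) zero_le_one, ENNReal.ofReal_natCast, ENNReal.ofReal_one]
  refine mul_le_mul_right (h1.trans (le_of_eq ?_)) _
  congr 1
  ext t
  simp only [v1Sh, mem_ofPred_eq, mem_inter_iff]
  tauto

theorem v1Mass_add (A : Set ℝ) (k : ℕ) {p q r : ℝ} (hpq : p ≤ q) (hqr : q ≤ r) :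
    v1Mass A k p q + v1Mass A k q r = v1Mass A k p r := by
  unfold v1Mass
  rw [← mul_add, ← Ico_union_Ico_eq_Ico (a := p - 1 / ((k : ℝ) + 1) / 2)
    (b := q - 1 / ((k : ℝ) + 1) / 2) (c := r - 1 / ((k : ℝ) + 1) / 2) (by linarith) (by linarith)]
  congr 1
  rw [← Measure.restrict_apply' measurableSet_Ico, ← Measure.restrict_apply' measurableSet_Ico,
    ← Measure.restrict_apply' (measurableSet_Ico.union measurableSet_Ico),
    Measure.restrict_union Ico_disjoint_Ico_same measurableSet_Ico, Measure.add_apply]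

theorem v1Mass_one (hA : MeasurableSet A) (hp : ∀ t, t + 1 ∈ A ↔ t ∈ A) (k : ℕ) (p : ℝ) :
    v1Mass A k p (p + 1) = ((k : ℝ≥0∞) + 1) * dsh A (1 / ((k : ℝ) + 1)) := by
  have hper : ∀ t, t + 1 ∈ v1Sh A (1 / ((k : ℝ) + 1)) ↔ t ∈ v1Sh A (1 / ((k : ℝ) + 1)) := by
    intro t
    simp only [v1Sh, mem_ofPred_eq]
    rw [add_right_comm, hp, hp]
  have h1 := volume_inter_Ico (v1Sh_meas hA _) hper (p - 1 / ((k : ℝ) + 1) / 2)
  have h2 := volume_inter_Ico (v1Sh_meas hA _) hper 0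
  unfold v1Mass
  rw [show p + 1 - 1 / ((k : ℝ) + 1) / 2 = p - 1 / ((k : ℝ) + 1) / 2 + 1 by ring, h1, ← h2, zero_add]
  congr 1
  unfold dsh
  congr 1
  ext t
  simp only [v1Sh, mem_ofPred_eq, mem_inter_iff]
  tauto

theorem v1_le_of {f : ℕ → ℝ≥0∞} {L : ℝ≥0∞} (hf : Tendsto f atTop (𝓝 L))
    (h : ∀ k : ℕ, f k ≤ ((k : ℝ≥0∞) + 1) * dsh A (1 / ((k : ℝ) + 1))) : L ≤ V1 A := by
  rw [← hf.liminf_eq]
  exact liminf_le_liminf (Eventually.of_forall h)

theorem v1_tendsto_down {p q : ℝ} (h1 : Dens A p) (h0 : Dens0 A q) :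
    Tendsto (fun k => ENNReal.ofReal |v1Win A k q - v1Win A k p|) atTop (𝓝 1) := by
  have h : Tendsto (fun k => |v1Win A k q - v1Win A k p|) atTop (𝓝 |0 - 1|) := (h0.sub h1).abs
  simpa using ENNReal.tendsto_ofReal h

theorem v1_tendsto_up {p q : ℝ} (h1 : Dens A p) (h0 : Dens0 A q) :
    Tendsto (fun k => ENNReal.ofReal |v1Win A k p - v1Win A k q|) atTop (𝓝 1) := by
  simpa only [abs_sub_comm] using v1_tendsto_down h1 h0

theorem two_le_V1_of (hA : MeasurableSet A) (hp : ∀ t, t + 1 ∈ A ↔ t ∈ A) {p q : ℝ} (h1 : Dens A p)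
    (h0 : Dens0 A q) (hpq : p ≤ q) (hq : q ≤ p + 1) : 2 ≤ V1 A := by
  have h2 : Dens A (p + 1) := by simpa using h1.add_int hp 1
  have h3 := (v1_tendsto_down h1 h0).add (v1_tendsto_up h2 h0)
  rw [one_add_one_eq_two] at h3
  refine v1_le_of h3 fun k => ?_
  rw [← v1Mass_one hA hp k p, ← v1Mass_add A k hpq hq]
  exact add_le_add (v1Mass_ge hA k hpq) (v1Mass_ge hA k hq)

theorem four_le_V1_of (hA : MeasurableSet A) (hp : ∀ t, t + 1 ∈ A ↔ t ∈ A) {p q p' q' : ℝ}
    (h1 : Dens A p) (h0 : Dens0 A q) (h1' : Dens A p') (h0' : Dens0 A q') (hpq : p ≤ q) (hqp : q ≤ p')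
    (hpq' : p' ≤ q') (hq : q' ≤ p + 1) : 4 ≤ V1 A := by
  have h2 : Dens A (p + 1) := by simpa using h1.add_int hp 1
  have h3 := (((v1_tendsto_down h1 h0).add (v1_tendsto_up h1' h0)).add
    (v1_tendsto_down h1' h0')).add (v1_tendsto_up h2 h0')
  rw [show (1 : ℝ≥0∞) + 1 + 1 + 1 = 4 by norm_num] at h3
  refine v1_le_of h3 fun k => ?_
  rw [← v1Mass_one hA hp k p, ← v1Mass_add A k ((hpq.trans hqp).trans hpq') hq,
    ← v1Mass_add A k (hpq.trans hqp) hpq', ← v1Mass_add A k hpq hqp]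
  exact add_le_add (add_le_add (add_le_add (v1Mass_ge hA k hpq) (v1Mass_ge hA k hqp))
    (v1Mass_ge hA k hpq')) (v1Mass_ge hA k hq)

theorem two_le_V1 (hA : MeasurableSet A) (hp : ∀ t, t + 1 ∈ A ↔ t ∈ A) (h0 : 0 < len A)
    (h1 : len A < 1) : 2 ≤ V1 A := by
  have hd := ae_dens hA
  have hA0 : volume (A ∩ Ico (0 : ℝ) (0 + 1)) ≠ 0 := by
    rw [volume_inter_Ico hA hp 0]
    exact (ENNReal.ofReal_pos.2 h0).ne'
  obtain ⟨p, hpA, hpd⟩ := Measure.exists_mem_of_measure_ne_zero_of_ae hA0 (ae_restrict_of_ae hd)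
  have hA1 : volume (Ico p (p + 1) \ A) ≠ 0 := by
    intro h
    have h2 := measure_inter_add_sdiff (μ := volume) (Ico p (p + 1)) hA
    rw [h, add_zero, inter_comm, volume_inter_Ico hA hp p, Real.volume_Ico, add_sub_cancel_left,
      ENNReal.ofReal_eq_ofReal_iff h0.le zero_le_one] at h2
    exact h1.ne h2
  obtain ⟨q, hqA, hqd⟩ := Measure.exists_mem_of_measure_ne_zero_of_ae hA1 (ae_restrict_of_ae hd)
  exact two_le_V1_of hA hp (hpd.1 hpA.1) (hqd.2 hqA.2) hqA.1.1 hqA.1.2.le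

theorem b2_per_int (hp : ∀ t, t + 1 ∈ A ↔ t ∈ A) (k : ℤ) (t : ℝ) : t + k ∈ A ↔ t ∈ A := by
  induction k using Int.induction_on with
  | zero => simp
  | succ i ih =>
    rw [← ih, ← hp (t + ((i : ℤ) : ℝ))]
    push_cast
    rw [add_assoc]
  | pred i ih =>
    rw [← ih, ← hp (t + ((-(i : ℤ) - 1 : ℤ) : ℝ))]
    push_cast
    rw [show t + (-(i : ℝ) - 1) + 1 = t + -(i : ℝ) by ring]

theorem b2_key (hA : MeasurableSet A) (hp : ∀ t, t + 1 ∈ A ↔ t ∈ A) {q a b : ℝ} (hqa : q ≤ a)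
    (hab : a ≤ b) (hbq : b ≤ q + 1)
    (h : ∀ᵐ x, x ∈ Ioo q (q + 1) → (x ∈ A ↔ x ∈ Ioo a b)) :
    ∃ c, A =ᵐ[volume] arc c (len A) := by
  have hne : ∀ r : ℝ, ∀ᵐ x : ℝ, x ≠ r := fun r => by
    rw [ae_iff]; simp
  have hlen : len A = b - a := by
    have h1 := volume_inter_Ico hA hp q
    have h2 : (A ∩ Ico q (q + 1) : Set ℝ) =ᵐ[volume] Ioo a b := by
      filter_upwards [h, hne q] with x hx hxq
      apply propext
      constructor
      · rintro ⟨h3, h4, h5⟩
        exact (hx ⟨lt_of_le_of_ne h4 (Ne.symm hxq), h5⟩).1 h3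
      · intro h3
        have h4 : x ∈ Ioo q (q + 1) := ⟨lt_of_le_of_lt hqa h3.1, lt_of_lt_of_le h3.2 hbq⟩
        exact ⟨(hx h4).2 h3, h4.1.le, h4.2⟩
    rw [measure_congr h2, Real.volume_Ioo] at h1
    exact ((ENNReal.ofReal_eq_ofReal_iff (by linarith) (len_nonneg A)).1 h1).symm
  refine ⟨(a + b) / 2, ?_⟩
  rw [hlen]
  have h3 : ∀ᵐ x : ℝ, ∀ k : ℤ, (x + k ∈ Ioo q (q + 1) → (x + k ∈ A ↔ x + k ∈ Ioo a b)) ∧ x ≠ q - k := by
    rw [ae_all_iff]
    intro k
    exact ((measurePreserving_add_right volume (k : ℝ)).quasiMeasurePreserving.ae h).and (hne _)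
  filter_upwards [h3] with x hx
  apply propext
  obtain ⟨h4, h5⟩ := hx (-⌊x - q⌋)
  have h6 := Int.floor_le (x - q)
  have h7 := Int.lt_floor_add_one (x - q)
  have h8 : x + ((-⌊x - q⌋ : ℤ) : ℝ) ∈ Ioo q (q + 1) := by
    push_cast at h5 ⊢
    refine ⟨lt_of_le_of_ne (by linarith) fun h9 => h5 (by linarith), by linarith⟩
  have h9 := (b2_per_int hp (-⌊x - q⌋) x).symm.trans (h4 h8)
  change x ∈ A ↔ x ∈ arc ((a + b) / 2) (b - a)
  rw [h9]
  push_cast at h8 ⊢
  constructor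
  · rintro ⟨h10, h11⟩
    exact ⟨⌊x - q⌋, abs_lt.2 ⟨by linarith, by linarith⟩⟩
  · rintro ⟨k, hk⟩
    obtain ⟨h10, h11⟩ := abs_lt.1 hk
    have h12 : (k : ℝ) < ⌊x - q⌋ + 1 := by linarith [h8.1, h8.2]
    have h13 : (⌊x - q⌋ : ℝ) < k + 1 := by linarith [h8.1, h8.2]
    have h14 : k < ⌊x - q⌋ + 1 := by exact_mod_cast h12
    have h15 : ⌊x - q⌋ < k + 1 := by exact_mod_cast h13
    have h16 : k = ⌊x - q⌋ := by omega
    rw [← h16]
    exact ⟨by linarith, by linarith⟩

/-- take `q` of density zero (if there is none, `A` is full); the points of density one in `(q, q+1)`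
have no point of density zero between them, so up to a null set `A ∩ (q, q+1)` is the interval between
their infimum and supremum -/
theorem arc_of_V1_lt (hA : MeasurableSet A) (hp : ∀ t, t + 1 ∈ A ↔ t ∈ A) (h : V1 A < 4) :
    ∃ c, A =ᵐ[volume] arc c (len A) := by
  have hne : ∀ r : ℝ, ∀ᵐ x : ℝ, x ≠ r := fun r => by
    rw [ae_iff]; simp
  by_cases h0 : ∃ q, Dens0 A q
  · obtain ⟨q, hq⟩ := h0
    set D : Set ℝ := {p | p ∈ Ioo q (q + 1) ∧ Dens A p} with hD
    rcases D.eq_empty_or_nonempty with hE | hN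
    · refine b2_key hA hp (q := q) (a := q) (b := q) le_rfl le_rfl (by linarith) ?_
      filter_upwards [ae_dens hA] with x hx hxq
      constructor
      · intro h1
        have : x ∈ D := ⟨hxq, hx.1 h1⟩
        rw [hE] at this
        exact this.elim
      · intro h1
        exact absurd (h1.1.trans h1.2) (lt_irrefl _)
    · have hb : BddBelow D := ⟨q, fun p hp' => hp'.1.1.le⟩
      have hb' : BddAbove D := ⟨q + 1, fun p hp' => hp'.1.2.le⟩
      refine b2_key hA hp (q := q) (a := sInf D) (b := sSup D)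
        (le_csInf hN fun p hp' => hp'.1.1.le) (csInf_le_csSup hN hb hb')
        (csSup_le hN fun p hp' => hp'.1.2.le) ?_
      filter_upwards [ae_dens hA, hne (sInf D), hne (sSup D)] with x hx h1 h2 hxq
      constructor
      · intro h3
        have h4 : x ∈ D := ⟨hxq, hx.1 h3⟩
        exact ⟨lt_of_le_of_ne (csInf_le hb h4) (Ne.symm h1), lt_of_le_of_ne (le_csSup hb' h4) h2⟩
      · intro h3
        by_contra h4
        obtain ⟨p, hp1, hp2⟩ := exists_lt_of_csInf_lt hN h3.1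
        obtain ⟨p', hp1', hp2'⟩ := exists_lt_of_lt_csSup hN h3.2
        have hq1 : Dens0 A (q + 1) := by simpa using hq.add_int hp 1
        exact absurd h (not_lt.2 (four_le_V1_of hA hp hp1.2 (hx.2 h4) hp1'.2 hq1 hp2.le hp2'.le
          hp1'.1.2.le (by linarith [hp1.1.1])))
  · refine b2_key hA hp (q := 0) (a := 0) (b := 0 + 1) le_rfl (by linarith) le_rfl ?_
    filter_upwards [ae_dens hA] with x hx hxq
    exact ⟨fun _ => hxq, fun _ => by_contra fun h1 => h0 ⟨x, hx.2 h1⟩⟩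

end Crest.Agent.R214
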