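import Crest.Agent.R214.BV0Per
import Crest.Agent.R214.BV0One

/-! Row 214, module BV0: slicing. -/

set_option autoImplicit false

open MeasureTheory Set Filter Topology
open scoped ENNReal RealInnerProductSpace ContDiff
open Crest.GeometryTopology.PeriodicPerimeter

noncomputable section

namespace Crest.Agent.R214

variable {n : ℕ} {E : Set (X n)} {μ : Measure (X n)} {w : X n → X n}

/-! ### part A -/

theorem measurableSet_sec (hE : MeasurableSet E) (i : Fin n) (x : X n) : MeasurableSet (sec E i x) :=
  (by fun_prop : Measurable fun t : ℝ => x + t • (ev i : X n)) hE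

theorem sec_add_one (hp : IsLatticePeriodic E) (i : Fin n) (x : X n) (t : ℝ) :
    t + 1 ∈ sec E i x ↔ t ∈ sec E i x := by
  have h := hp _ (hasIntegerCoords_ev i 1) (x + t • ev i)
  show x + (t + 1) • ev i ∈ E ↔ x + t • ev i ∈ E
  rw [add_smul, ← add_assoc]
  simpa using h

theorem per_sec (hp : IsLatticePeriodic E) (i : Fin n) : Per (sec E i) := by
  intro v hv x
  ext t
  show x + v + t • ev i ∈ E ↔ x + t • ev i ∈ E
  rw [add_right_comm]
  exact hp v hv _

theorem len_sec_eq (hE : MeasurableSet E) (i : Fin n) (x : X n) :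
    len (sec E i x) = ∫ t in Ico (0 : ℝ) 1, chi E (x + t • ev i) := by
  have e : (fun t : ℝ => chi E (x + t • ev i)) = (sec E i x).indicator fun _ => (1 : ℝ) := by
    funext t
    by_cases h : x + t • ev i ∈ E
    · rw [chi, indicator_of_mem h, indicator_of_mem (show t ∈ sec E i x from h)]
    · rw [chi, indicator_of_notMem h, indicator_of_notMem (show t ∉ sec E i x from h)]
  rw [e, integral_indicator (measurableSet_sec hE i x), Measure.restrict_restrict (measurableSet_sec hE i x)]
  simp [len, Measure.real]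

theorem sliceA_measurable_vol {S : Set (X n × ℝ)} (hS : MeasurableSet S) :
    Measurable fun x : X n => volume {t : ℝ | (x, t) ∈ S} :=
  measurable_measure_prodMk_left hS

theorem measurable_len_sec (hE : MeasurableSet E) (i : Fin n) : Measurable fun x => len (sec E i x) := by
  have h1 : MeasurableSet {z : X n × ℝ | z.1 + z.2 • ev i ∈ E} :=
    (by fun_prop : Measurable fun z : X n × ℝ => z.1 + z.2 • (ev i : X n)) hE
  have h2 : MeasurableSet {z : X n × ℝ | z.2 ∈ Ico (0 : ℝ) 1} := measurable_snd measurableSet_Ico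
  exact (sliceA_measurable_vol (h1.inter h2)).ennreal_toReal

theorem sliceA_vol_shift {A B : Set ℝ} (hA : MeasurableSet A) (hp : ∀ t, t + 1 ∈ A ↔ t ∈ A) (s : ℝ)
    (hB : ∀ t, t ∈ B ↔ t + s ∈ A) : volume (B ∩ Ico (0 : ℝ) 1) = volume (A ∩ Ico (0 : ℝ) 1) := by
  have h1 := volume_inter_Ico hA hp s
  have h0 := volume_inter_Ico hA hp 0
  rw [zero_add] at h0
  rw [h0, ← h1, ← measure_preimage_add_right volume s (A ∩ Ico s (s + 1))]
  congr 1
  ext t
  simp only [mem_inter_iff, mem_preimage, mem_Ico, hB]
  constructor <;> rintro ⟨a, b, c⟩ <;> exact ⟨a, by linarith, by linarith⟩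

theorem sliceA_mem_sec_shift (i : Fin n) (s : ℝ) (x : X n) (t : ℝ) :
    t ∈ sec E i (x + s • ev i) ↔ t + s ∈ sec E i x := by
  show x + s • ev i + t • ev i ∈ E ↔ x + (t + s) • ev i ∈ E
  rw [add_smul, add_assoc, add_comm (s • ev i)]

theorem indep_len_sec (hE : MeasurableSet E) (hp : IsLatticePeriodic E) (i : Fin n) :
    Indep i fun x => len (sec E i x) := by
  intro s x
  show len _ = len _
  unfold len
  rw [sliceA_vol_shift (measurableSet_sec hE i x) (sec_add_one hp i x) s (sliceA_mem_sec_shift i s x)]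

theorem integral_len_sec (hE : MeasurableSet E) (hp : IsLatticePeriodic E) (i : Fin n) :
    ∫ x in unitCell n, len (sec E i x) = periodicVolume E := by
  have hb : ∀ x, ‖chi E x‖ ≤ 1 := fun x => by
    unfold chi
    by_cases hx : x ∈ E <;> simp [hx]
  simp_rw [len_sec_eq hE]
  rw [integral_cell_avg (Per.chi hp) (measurable_chi hE).stronglyMeasurable hb i, chi,
    integral_indicator hE, Measure.restrict_restrict hE]
  simp [periodicVolume, Measure.real]

theorem measurable_dsh_sec (hE : MeasurableSet E) (i : Fin n) (h : ℝ) :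
    Measurable fun x => dsh (sec E i x) h := by
  have h1 : MeasurableSet {z : X n × ℝ | z.1 + z.2 • ev i ∈ E} :=
    (by fun_prop : Measurable fun z : X n × ℝ => z.1 + z.2 • (ev i : X n)) hE
  have h3 : MeasurableSet {z : X n × ℝ | z.1 + (z.2 + h) • ev i ∈ E} :=
    (by fun_prop : Measurable fun z : X n × ℝ => z.1 + (z.2 + h) • (ev i : X n)) hE
  have h2 : MeasurableSet {z : X n × ℝ | z.2 ∈ Ico (0 : ℝ) 1} := measurable_snd measurableSet_Ico
  have h4 : MeasurableSet {z : X n × ℝ | z.2 ∈ Ico (0 : ℝ) 1 ∧
      ¬ (z.1 + (z.2 + h) • ev i ∈ E ↔ z.1 + z.2 • ev i ∈ E)} :=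
    h2.inter (h3.iff h1).compl
  exact sliceA_measurable_vol h4

theorem measurable_V1_sec (hE : MeasurableSet E) (i : Fin n) : Measurable fun x => V1 (sec E i x) :=
  Measurable.liminf fun _ => (measurable_dsh_sec hE i _).const_mul _

theorem indep_V1_sec (hE : MeasurableSet E) (hp : IsLatticePeriodic E) (i : Fin n) :
    Indep i fun x => V1 (sec E i x) := by
  intro s x
  have key : ∀ h : ℝ, dsh (sec E i (x + s • ev i)) h = dsh (sec E i x) h := by
    intro h
    have mA := measurableSet_sec hE i x
    have m1 : MeasurableSet {t : ℝ | t + h ∈ sec E i x} := (measurable_add_const h) mA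
    have m2 : MeasurableSet {t : ℝ | ¬ (t + h ∈ sec E i x ↔ t ∈ sec E i x)} := (m1.iff mA).compl
    have := sliceA_vol_shift (B := {t : ℝ | ¬ (t + h ∈ sec E i (x + s • ev i) ↔
      t ∈ sec E i (x + s • ev i))}) m2 (fun t => by
        simp only [mem_ofPred_eq]
        rw [add_right_comm, sec_add_one hp, sec_add_one hp]) s (fun t => by
        simp only [mem_ofPred_eq, sliceA_mem_sec_shift]
        rw [add_right_comm])
    unfold dsh
    rw [inter_comm, inter_comm _ (Ico (0 : ℝ) 1)] at this
    exact this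
  show V1 _ = V1 _
  unfold V1
  simp only [key]

/-! ### part B -/

theorem sliceB_integrable_coord (h : GG E μ w) (i : Fin n) : Integrable (fun x => w x i) μ :=
  (EuclideanSpace.proj i : X n →L[ℝ] ℝ).integrable_comp h.int

theorem sliceB_measurable_coord (h : GG E μ w) (i : Fin n) : Measurable fun x => w x i :=
  (EuclideanSpace.proj i : X n →L[ℝ] ℝ).continuous.measurable.comp h.meas

theorem sliceB_norm_chi (E : Set (X n)) (x : X n) : ‖chi E x‖ ≤ 1 := by
  unfold chi
  by_cases hx : x ∈ E <;> simp [hx]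

theorem sliceB_measurable_r (i : Fin n) : Measurable fun z : X n × ℝ => z.1 - z.2 • ev i :=
  (by fun_prop : Continuous fun z : X n × ℝ => z.1 - z.2 • ev i).measurable

theorem sliceB_integrable_prod (h : GG E μ w) (i : Fin n) (a : ℝ) {f : X n → ℝ} (mf : Measurable f)
    {C : ℝ} (hC : ∀ x, ‖f x‖ ≤ C) :
    Integrable (fun z : X n × ℝ => f (z.1 - z.2 • ev i) * w z.1 i)
      (μ.prod (volume.restrict (Ico (0 : ℝ) a))) := by
  have := h.fin
  have h1 : Integrable (fun z : X n × ℝ => w z.1 i) (μ.prod (volume.restrict (Ico (0 : ℝ) a))) :=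
    (sliceB_integrable_coord h i).comp_fst _
  exact h1.bdd_mul (c := C) (mf.comp (sliceB_measurable_r i)).aestronglyMeasurable
    (Eventually.of_forall fun z => hC _)

theorem sliceB_ftc {f : X n → ℝ} (hd : ContDiff ℝ 1 f) (i : Fin n) {a : ℝ} (ha : 0 ≤ a) (x : X n) :
    ∫ s in Ico (0 : ℝ) a, pd i f (x - s • ev i) = f x - f (x - a • ev i) := by
  have hc : Continuous fun y => pd i f y :=
    (hd.continuous_fderiv (by norm_num)).clm_apply continuous_const
  have hder : ∀ s ∈ uIcc (0 : ℝ) a, HasDerivAt (fun s : ℝ => - f (x - s • ev i))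
      (pd i f (x - s • ev i)) s := by
    intro s _
    have h1 : HasDerivAt (fun s : ℝ => x - s • ev i) (- ev i) s := by
      simpa using ((hasDerivAt_id s).smul_const (ev i : X n)).const_sub x
    have h2 := ((hd.differentiable (by norm_num)) (x - s • ev i)).hasFDerivAt.comp_hasDerivAt s h1
    have h3 := h2.neg
    rw [map_neg, neg_neg] at h3
    exact h3
  have hint : IntervalIntegrable (fun s : ℝ => pd i f (x - s • ev i)) volume 0 a :=
    (hc.comp (by fun_prop)).intervalIntegrable _ _
  have := intervalIntegral.integral_eq_sub_of_hasDerivAt hder hint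
  rw [intervalIntegral.integral_of_le ha, ← integral_Ico_eq_integral_Ioc] at this
  rw [this]
  simp
  ring

theorem sliceB_smooth (h : GG E μ w) (hE : MeasurableSet E) (hp : IsLatticePeriodic E) (i : Fin n)
    {a : ℝ} (ha : 0 ≤ a) {f : X n → ℝ} (hd : ContDiff ℝ 1 f) (hf : Per f) :
    ∫ x in unitCell n, f x * (chi E (x + a • ev i) - chi E x) =
      ∫ z : X n × ℝ, f (z.1 - z.2 • ev i) * (- w z.1 i) ∂(μ.prod (volume.restrict (Ico (0 : ℝ) a))) := by
  have := h.fin
  obtain ⟨C, hC⟩ := hf.bounded hd.continuous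
  have mf : Measurable f := hd.continuous.measurable
  have mchi := measurable_chi hE
  have hc : Continuous fun y => pd i f y :=
    (hd.continuous_fderiv (by norm_num)).clm_apply continuous_const
  have hpd : Per fun y => pd i f y := fun v hv x => by
    simp only [pd]; rw [hf.fderiv v hv x]
  obtain ⟨D, hD⟩ := hpd.bounded hc
  have hfs : ∀ c : X n, Per fun x => f (x - c) := fun c => by
    simpa [sub_eq_add_neg] using hf.add_const (-c)
  have ib : ∀ (u : X n → ℝ) (c : X n), Measurable u → (∀ x, ‖u x‖ ≤ C) →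
      Integrable (fun x => u x * chi E (x + c)) (volume.restrict (unitCell n)) := by
    intro u c mu hu
    refine Integrable.of_bound (C := C * 1)
      (mu.mul (mchi.comp (measurable_id.add_const c))).aestronglyMeasurable
      (Eventually.of_forall fun x => ?_)
    rw [norm_mul]
    exact mul_le_mul (hu x) (sliceB_norm_chi E _) (norm_nonneg _) ((norm_nonneg _).trans (hu x))
  have e1 : ∫ x in unitCell n, f x * chi E (x + a • ev i) =
      ∫ x in unitCell n, f (x - a • ev i) * chi E x := by
    have hper : Per fun x => f (x - a • ev i) * chi E x := fun v hv x => by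
      have := hfs (a • ev i) v hv x
      simp only at this ⊢
      rw [this, Per.chi hp v hv x]
    rw [← integral_cell_add hper (a • ev i)]
    simp
  have i1 := ib f (a • ev i) mf hC
  have i2 : Integrable (fun x => f x * chi E x) (volume.restrict (unitCell n)) := by
    simpa using ib f 0 mf hC
  have i3 : Integrable (fun x => f (x - a • ev i) * chi E x) (volume.restrict (unitCell n)) := by
    simpa using ib (fun x => f (x - a • ev i)) 0 (mf.comp (measurable_id.sub_const _)) fun x => hC _
  have e2 : ∫ x in unitCell n, f x * (chi E (x + a • ev i) - chi E x) =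
      - ∫ x in E ∩ unitCell n, ∫ s in Ico (0 : ℝ) a, pd i f (x - s • ev i) := by
    simp_rw [mul_sub]
    rw [integral_sub i1 i2, e1, ← integral_sub i3 i2, ← Measure.restrict_restrict hE,
      ← integral_indicator hE, ← integral_neg]
    refine integral_congr_ae (Eventually.of_forall fun x => ?_)
    simp only [sliceB_ftc hd i ha, chi]
    by_cases hx : x ∈ E <;> simp [hx]
  have : IsFiniteMeasure (volume.restrict (E ∩ unitCell n)) :=
    ⟨by
      rw [Measure.restrict_apply_univ]
      exact (measure_mono inter_subset_right).trans_lt (by rw [volume_unitCell]; exact ENNReal.one_lt_top)⟩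
  have i4 : Integrable (Function.uncurry fun (x : X n) (s : ℝ) => pd i f (x - s • ev i))
      ((volume.restrict (E ∩ unitCell n)).prod (volume.restrict (Ico (0 : ℝ) a))) :=
    Integrable.of_bound (C := D) (hc.measurable.comp (sliceB_measurable_r i)).aestronglyMeasurable
      (Eventually.of_forall fun z => hD _)
  have e3 : ∀ s : ℝ, ∫ x in E ∩ unitCell n, pd i f (x - s • ev i) =
      ∫ x, f (x - s • ev i) * w x i ∂μ := by
    intro s
    rw [← h.eq_coord (f := fun x => f (x - s • ev i))
      (hd.comp (contDiff_id.sub contDiff_const)) (hfs _) i]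
    refine integral_congr_ae (Eventually.of_forall fun x => ?_)
    simp only [pd]
    rw [fderiv_comp_sub]
  rw [e2, integral_integral_swap i4]
  simp_rw [e3, mul_neg]
  rw [integral_neg, integral_prod_symm _ (sliceB_integrable_prod h i a mf hC)]

/-- difference quotient identity: for `C¹` `f` apply `eq_coord` to `x ↦ ∫ s in 0..h, f (x - s • ev i)`,
then `ext_of_per` with `Ω₂ = X n × ℝ` -/
theorem GG.shift_eq (h : GG E μ w) (hE : MeasurableSet E) (hp : IsLatticePeriodic E) (i : Fin n)
    {a : ℝ} (ha : 0 ≤ a) {f : X n → ℝ} (hf : Per f) (mf : Measurable f) {C : ℝ} (hC : ∀ x, ‖f x‖ ≤ C) :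
    ∫ x in unitCell n, f x * (chi E (x + a • ev i) - chi E x) =
      - ∫ x, (∫ s in Ico (0 : ℝ) a, f (x - s • ev i)) * w x i ∂μ := by
  have := h.fin
  have mchi := measurable_chi hE
  have m1 : Measurable fun x : X n => chi E (x + a • ev i) - chi E x :=
    (mchi.comp (measurable_id.add_const _)).sub mchi
  have i1 : Integrable (fun x : X n => chi E (x + a • ev i) - chi E x)
      (volume.restrict (unitCell n)) :=
    Integrable.of_bound (C := 1 + 1) m1.aestronglyMeasurable (Eventually.of_forall fun x =>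
      (norm_sub_le _ _).trans (add_le_add (sliceB_norm_chi E _) (sliceB_norm_chi E _)))
  have key := ext_of_per (μ₁ := volume.restrict (unitCell n))
    (μ₂ := μ.prod (volume.restrict (Ico (0 : ℝ) a))) (r₁ := id)
    (r₂ := fun z : X n × ℝ => z.1 - z.2 • ev i) measurable_id (sliceB_measurable_r i)
    (a₁ := fun x : X n => chi E (x + a • ev i) - chi E x) (a₂ := fun z : X n × ℝ => - w z.1 i) m1
    ((sliceB_measurable_coord h i).comp measurable_fst).neg i1
    ((sliceB_integrable_coord h i).comp_fst _).neg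
    (fun f hd hf => sliceB_smooth h hE hp i ha hd hf) hf mf hC
  simp only [id] at key
  rw [key]
  simp_rw [mul_neg]
  rw [integral_neg, integral_prod _ (sliceB_integrable_prod h i a mf hC)]
  simp_rw [integral_mul_const]

/-- general weight -/
theorem GG.shift_le (h : GG E μ w) (hE : MeasurableSet E) (hp : IsLatticePeriodic E) (i : Fin n)
    {a : ℝ} (ha : 0 ≤ a) {g : X n → ℝ≥0∞} (hg : Per g) (mg : Measurable g) :
    ∫⁻ x in unitCell n, g x * ‖chi E (x + a • ev i) - chi E x‖ₑ ≤
      ∫⁻ x, (∫⁻ s in Ico (0 : ℝ) a, g (x - s • ev i)) * ‖w x i‖ₑ ∂μ := by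
  have := h.fin
  have mchi := measurable_chi hE
  set d : X n → ℝ := fun x => chi E (x + a • ev i) - chi E x with hdd
  have m1 : Measurable d := (mchi.comp (measurable_id.add_const _)).sub mchi
  have pdd : Per d := fun v hv x => by
    have := ((Per.chi hp).add_const (a • ev i)) v hv x
    simp only [hdd] at this ⊢
    rw [this, Per.chi hp v hv x]
  have dsq : ∀ x, d x * d x = ‖d x‖ := fun x => by
    simp only [hdd, chi]
    by_cases h1 : x + a • ev i ∈ E <;> by_cases h2 : x ∈ E <;> simp [h1, h2]
  have dle : ∀ x, ‖d x‖ ≤ 1 := fun x => by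
    simp only [hdd, chi]
    by_cases h1 : x + a • ev i ∈ E <;> by_cases h2 : x ∈ E <;> simp [h1, h2]
  have step : ∀ k : ℕ, ∫⁻ x in unitCell n, min (g x) k * ‖d x‖ₑ ≤
      ∫⁻ x, (∫⁻ s in Ico (0 : ℝ) a, g (x - s • ev i)) * ‖w x i‖ₑ ∂μ := by
    intro k
    have hne : ∀ x, min (g x) (k : ℝ≥0∞) ≠ ⊤ := fun x =>
      ne_top_of_le_ne_top (ENNReal.natCast_ne_top k) (min_le_right _ _)
    have mk : Measurable fun x => (min (g x) (k : ℝ≥0∞)).toReal := (mg.min measurable_const).ennreal_toReal
    have hk : ∀ x, (min (g x) (k : ℝ≥0∞)).toReal ≤ k := fun x => by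
      have := ENNReal.toReal_mono (ENNReal.natCast_ne_top k) (min_le_right (g x) (k : ℝ≥0∞))
      simpa using this
    set f : X n → ℝ := fun x => (min (g x) (k : ℝ≥0∞)).toReal * d x with hff
    have pf : Per f := fun v hv x => by
      simp only [hff]
      rw [hg v hv x, pdd v hv x]
    have mf : Measurable f := mk.mul m1
    have bf : ∀ x, ‖f x‖ ≤ k := fun x => by
      simp only [hff]
      rw [norm_mul, Real.norm_of_nonneg ENNReal.toReal_nonneg]
      calc _ ≤ (k : ℝ) * 1 := mul_le_mul (hk x) (dle x) (norm_nonneg _) (Nat.cast_nonneg k)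
        _ = k := mul_one _
    have ef : ∀ x, ‖f x‖ₑ ≤ g x := fun x => by
      simp only [hff]
      rw [enorm_mul, Real.enorm_toReal (hne x)]
      calc _ ≤ g x * 1 := mul_le_mul' (min_le_left _ _) (by
            rw [← ofReal_norm]; exact ENNReal.ofReal_le_one.2 (dle x))
        _ = g x := mul_one _
    have key := h.shift_eq hE hp i ha pf mf bf
    have e1 : ∀ x, min (g x) k * ‖d x‖ₑ = ENNReal.ofReal (f x * d x) := fun x => by
      simp only [hff]
      rw [mul_assoc, dsq, ENNReal.ofReal_mul ENNReal.toReal_nonneg, ENNReal.ofReal_toReal (hne x),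
        ofReal_norm]
    have i1 : Integrable (fun x => f x * d x) (volume.restrict (unitCell n)) := by
      refine Integrable.of_bound (C := k * 1) (mf.mul m1).aestronglyMeasurable
        (Eventually.of_forall fun x => ?_)
      rw [norm_mul]
      exact mul_le_mul (bf x) (dle x) (norm_nonneg _) (Nat.cast_nonneg k)
    simp_rw [e1]
    rw [← ofReal_integral_eq_lintegral_ofReal i1 (Eventually.of_forall fun x => by
      simp only [hff, Pi.zero_apply]
      rw [mul_assoc, dsq]
      positivity)]
    change ENNReal.ofReal (∫ x in unitCell n, f x * (chi E (x + a • ev i) - chi E x)) ≤ _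
    rw [key]
    refine (Real.ofReal_le_enorm _).trans ?_
    rw [enorm_neg]
    refine (enorm_integral_le_lintegral_enorm _).trans (lintegral_mono fun x => ?_)
    rw [enorm_mul]
    gcongr
    exact (enorm_integral_le_lintegral_enorm _).trans (lintegral_mono fun s => ef _)
  have e : ∀ x, g x * ‖d x‖ₑ = ⨆ k : ℕ, min (g x) k * ‖d x‖ₑ := fun x => by
    rw [← ENNReal.iSup_mul]
    congr 1
    have : ⨆ k : ℕ, min (g x) (k : ℝ≥0∞) = min (g x) (⨆ k : ℕ, (k : ℝ≥0∞)) := by
      exact (inf_iSup_eq (g x) fun k : ℕ => (k : ℝ≥0∞)).symm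
    rw [this, ENNReal.iSup_natCast]
    simp
  change ∫⁻ x in unitCell n, g x * ‖d x‖ₑ ≤ _
  simp_rw [e]
  rw [lintegral_iSup]
  · exact iSup_le step
  · exact fun k => (mg.min measurable_const).mul m1.enorm
  · intro k l hkl x
    simp only
    gcongr

/-! ### part C -/

theorem slice_le_mul_liminf (c : ℝ≥0∞) (u : ℕ → ℝ≥0∞) :
    c * liminf u atTop ≤ liminf (fun k => c * u k) atTop := by
  rw [liminf_eq_iSup_iInf_of_nat, liminf_eq_iSup_iInf_of_nat, ENNReal.mul_iSup]
  refine iSup_mono fun N => le_iInf₂ fun k hk => ?_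
  gcongr
  exact iInf₂_le k hk

theorem slice_le_dsh (hE : MeasurableSet E) (i : Fin n) (x : X n) (a : ℝ) :
    dsh (sec E i x) a =
      ∫⁻ t in Ico (0 : ℝ) 1, ‖chi E (x + t • ev i + a • ev i) - chi E (x + t • ev i)‖ₑ := by
  have hm : MeasurableSet {t : ℝ | ¬ (t + a ∈ sec E i x ↔ t ∈ sec E i x)} := by
    have h1 := measurableSet_sec hE i x
    have h2 : MeasurableSet {t : ℝ | t + a ∈ sec E i x} := measurable_add_const a h1
    exact (measurableSet_setOfPred.2
      ((measurableSet_setOfPred.1 h2).iff (measurableSet_setOfPred.1 h1))).compl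
  have h3 : ∀ t : ℝ, ‖chi E (x + t • ev i + a • ev i) - chi E (x + t • ev i)‖ₑ =
      {t : ℝ | ¬ (t + a ∈ sec E i x ↔ t ∈ sec E i x)}.indicator 1 t := by
    intro t
    have e : x + t • ev i + a • ev i = x + (t + a) • ev i := by rw [add_smul, add_assoc]
    rw [e]
    by_cases h1 : x + (t + a) • ev i ∈ E <;> by_cases h2 : x + t • ev i ∈ E <;>
      simp [chi, sec, h1, h2]
  simp_rw [h3]
  rw [lintegral_indicator_one hm, Measure.restrict_apply hm, dsh, inter_comm]
  rfl

/-- slicing inequality (Fatou + `lintegral_cell_avg` + `shift_le`) -/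
theorem GG.slice_le (h : GG E μ w) (hE : MeasurableSet E) (hp : IsLatticePeriodic E) (i : Fin n)
    {g : X n → ℝ≥0∞} (hg : Per g) (mg : Measurable g) (hi : Indep i g) :
    ∫⁻ x in unitCell n, g x * V1 (sec E i x) ≤ ∫⁻ x, g x * ‖w x i‖ₑ ∂μ := by
  have key : ∀ k : ℕ, ∫⁻ x in unitCell n,
      g x * (((k : ℝ≥0∞) + 1) * dsh (sec E i x) (1 / ((k : ℝ) + 1))) ≤
        ∫⁻ x, g x * ‖w x i‖ₑ ∂μ := by
    intro k
    set a : ℝ := 1 / ((k : ℝ) + 1) with ha
    have ha0 : 0 ≤ a := by positivity
    have hk : ((k : ℝ≥0∞) + 1) * ENNReal.ofReal a = 1 := by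
      have e : ((k : ℝ≥0∞) + 1) = ENNReal.ofReal ((k : ℝ) + 1) := by
        rw [ENNReal.ofReal_add (by positivity) zero_le_one, ENNReal.ofReal_natCast,
          ENNReal.ofReal_one]
      rw [e, ← ENNReal.ofReal_mul (by positivity), ha, mul_one_div_cancel (by positivity),
        ENNReal.ofReal_one]
    have hkt : ((k : ℝ≥0∞) + 1) ≠ ⊤ := by simp
    set G : X n → ℝ≥0∞ := fun y => g y * ‖chi E (y + a • ev i) - chi E y‖ₑ with hG
    have mG : Measurable G :=
      mg.mul (((measurable_chi hE).comp (measurable_add_const _)).sub (measurable_chi hE)).enorm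
    have pG : Per G := fun v hv y => by
      simp only [hG]
      rw [hg v hv y, Per.chi hp v hv y, add_right_comm, Per.chi hp v hv]
    have h1 : ∀ x, g x * (((k : ℝ≥0∞) + 1) * dsh (sec E i x) a) =
        ((k : ℝ≥0∞) + 1) * ∫⁻ t in Ico (0 : ℝ) 1, G (x + t • ev i) := by
      intro x
      rw [mul_left_comm, slice_le_dsh hE, ← lintegral_const_mul]
      · simp only [hG, hi _ x]
      · have c1 : Measurable fun t : ℝ => x + t • ev i := by fun_prop
        exact (((measurable_chi hE).comp (c1.add_const _)).sub ((measurable_chi hE).comp c1)).enorm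
    simp_rw [h1]
    rw [lintegral_const_mul' _ _ hkt, lintegral_cell_avg pG mG i]
    have h2 := h.shift_le hE hp i ha0 hg mg
    have h3 : ∀ x, (∫⁻ s in Ico (0 : ℝ) a, g (x - s • ev i)) * ‖w x i‖ₑ =
        ENNReal.ofReal a * (g x * ‖w x i‖ₑ) := by
      intro x
      have h4 : ∀ s : ℝ, g (x - s • ev i) = g x := fun s => by
        rw [sub_eq_add_neg, ← neg_smul, hi]
      simp_rw [h4]
      rw [setLIntegral_const, Real.volume_Ico, sub_zero]
      ring
    simp_rw [h3] at h2
    rw [lintegral_const_mul' _ _ ENNReal.ofReal_ne_top] at h2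
    calc ((k : ℝ≥0∞) + 1) * ∫⁻ x in unitCell n, G x
        ≤ ((k : ℝ≥0∞) + 1) * (ENNReal.ofReal a * ∫⁻ x, g x * ‖w x i‖ₑ ∂μ) := by gcongr
      _ = _ := by rw [← mul_assoc, hk, one_mul]
  calc ∫⁻ x in unitCell n, g x * V1 (sec E i x)
      ≤ ∫⁻ x in unitCell n, liminf (fun k : ℕ =>
          g x * (((k : ℝ≥0∞) + 1) * dsh (sec E i x) (1 / ((k : ℝ) + 1)))) atTop :=
        lintegral_mono fun x => slice_le_mul_liminf _ _
    _ ≤ liminf (fun k : ℕ => ∫⁻ x in unitCell n,
          g x * (((k : ℝ≥0∞) + 1) * dsh (sec E i x) (1 / ((k : ℝ) + 1)))) atTop :=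
        lintegral_liminf_le fun k => mg.mul ((measurable_dsh_sec hE i _).const_mul _)
    _ ≤ _ := liminf_le_of_frequently_le' (Frequently.of_forall key)

theorem GG.slice_two (h : GG E μ w) (hE : MeasurableSet E) (hp : IsLatticePeriodic E) (i : Fin n)
    {g : X n → ℝ≥0∞} (hg : Per g) (mg : Measurable g) (hi : Indep i g) :
    ∫⁻ x in unitCell n ∩ {x | 0 < len (sec E i x) ∧ len (sec E i x) < 1}, 2 * g x ≤
      ∫⁻ x, g x * ‖w x i‖ₑ ∂μ := by
  have hm : MeasurableSet (unitCell n ∩ {x | 0 < len (sec E i x) ∧ len (sec E i x) < 1}) :=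
    measurableSet_unitCell.inter
      ((measurableSet_lt measurable_const (measurable_len_sec hE i)).inter
        (measurableSet_lt (measurable_len_sec hE i) measurable_const))
  refine le_trans ?_ (h.slice_le hE hp i hg mg hi)
  refine le_trans ?_ (lintegral_mono_set (inter_subset_left :
    unitCell n ∩ {x | 0 < len (sec E i x) ∧ len (sec E i x) < 1} ⊆ unitCell n))
  refine setLIntegral_mono' hm fun x hx => ?_
  rw [mul_comm]
  gcongr
  exact two_le_V1 (measurableSet_sec hE i x) (sec_add_one hp i x) hx.2.1 hx.2.2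

/-- the projection of `|w_i| μ` along `ev i` is absolutely continuous: a null periodic set of lines
parallel to `ev i` carries no `|w_i| μ` mass (`shift_eq` with `f = 1_N · g(x - ..)`; see the task text) -/
theorem GG.null_lines (h : GG E μ w) (hE : MeasurableSet E) (hp : IsLatticePeriodic E) (i : Fin n)
    {N : Set (X n)} (mN : MeasurableSet N) (pN : IsLatticePeriodic N)
    (iN : ∀ (t : ℝ) (x : X n), x + t • ev i ∈ N ↔ x ∈ N) (h0 : volume (N ∩ unitCell n) = 0) :
    ∀ᵐ x ∂μ, x ∈ N → w x i = 0 := by
  have := h.fin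
  have mw : Measurable fun x => w x i := (measurable_pi_apply i).comp
    ((WithLp.measurable_ofLp 2 _).comp h.meas)
  have iw : Integrable (fun x => w x i) μ :=
    h.int.mono mw.aestronglyMeasurable (ae_of_all _ fun x => PiLp.norm_apply_le (w x) i)
  have hchi : ∀ x, ‖chi N x‖ ≤ 1 := fun x => by
    by_cases hx : x ∈ N <;> simp [chi, hx]
  set c : X n → ℝ := fun x => chi N x * w x i with hc
  have mc : Measurable c := (measurable_chi mN).mul mw
  have ic : Integrable c μ :=
    iw.bdd_mul (measurable_chi mN).aestronglyMeasurable (ae_of_all _ hchi)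
  have step : ∀ f : X n → ℝ, ContDiff ℝ 1 f → Per f → ∫ x, f x * c x ∂μ = 0 := by
    intro f hd hf
    obtain ⟨C, hC⟩ := hf.bounded hd.continuous
    have huc := Metric.uniformContinuous_iff.1 (hf.uniformContinuous hd.continuous)
    have ifc : Integrable (fun x => f x * c x) μ :=
      ic.bdd_mul hd.continuous.aestronglyMeasurable (ae_of_all _ hC)
    have bound : ∀ ε : ℝ, 0 < ε → |∫ x, f x * c x ∂μ| ≤ ε * ∫ x, ‖c x‖ ∂μ := by
      intro ε hε
      obtain ⟨δ, hδ, hδ'⟩ := huc ε hε
      have hs := h.shift_eq hE hp i hδ.le (f := fun x => f x * chi N x)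
        (fun v hv x => by simp only [hf v hv x, Per.chi pN v hv x])
        (hd.continuous.measurable.mul (measurable_chi mN)) (C := C) (fun x => by
          rw [norm_mul]
          exact (mul_le_of_le_one_right (norm_nonneg _) (hchi x)).trans (hC x))
      have hl : ∫ x in unitCell n, f x * chi N x * (chi E (x + δ • ev i) - chi E x) = 0 := by
        refine integral_eq_zero_of_ae ?_
        have h1 : ∀ᵐ x ∂volume.restrict (unitCell n), x ∉ N := by
          rw [ae_iff]
          simp only [not_not, Set.ofPred_mem_eq]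
          rw [Measure.restrict_apply mN, h0]
        filter_upwards [h1] with x hx
        simp [chi, hx]
      set I : X n → ℝ := fun x => ∫ s in Ico (0 : ℝ) δ, f (x - s • ev i) with hI
      have hr : ∀ x, (∫ s in Ico (0 : ℝ) δ, f (x - s • ev i) * chi N (x - s • ev i)) * w x i =
          I x * c x := by
        intro x
        have h4 : ∀ s : ℝ, chi N (x - s • ev i) = chi N x := fun s => by
          have := iN (-s) x
          rw [neg_smul, ← sub_eq_add_neg] at this
          by_cases hx : x ∈ N
          · simp [chi, hx, this.2 hx]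
          · simp [chi, hx, mt this.1 hx]
        simp_rw [h4]
        rw [integral_mul_const, mul_assoc]
      rw [hl] at hs
      simp_rw [hr] at hs
      have hs' : ∫ x, I x * c x ∂μ = 0 := neg_eq_zero.1 hs.symm
      have mI : StronglyMeasurable I :=
        StronglyMeasurable.integral_prod_right' (ν := volume.restrict (Ico (0 : ℝ) δ))
          (f := fun p : X n × ℝ => f (p.1 - p.2 • ev i))
          (hd.continuous.comp (by fun_prop)).stronglyMeasurable
      have hclose : ∀ x, ‖δ * f x - I x‖ ≤ ε * δ := by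
        intro x
        have c1 : Continuous fun s : ℝ => f (x - s • ev i) := hd.continuous.comp (by fun_prop)
        have i1 : IntegrableOn (fun s : ℝ => f (x - s • ev i)) (Ico (0 : ℝ) δ) :=
          c1.integrableOn_Icc.mono_set Ico_subset_Icc_self
        have e1 : δ * f x - I x = ∫ s in Ico (0 : ℝ) δ, (f x - f (x - s • ev i)) := by
          have i0 : IntegrableOn (fun _ : ℝ => f x) (Ico (0 : ℝ) δ) :=
            continuous_const.integrableOn_Icc.mono_set Ico_subset_Icc_self
          rw [integral_sub i0 i1, setIntegral_const]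
          simp [hδ.le, hI]
        rw [e1]
        refine (norm_setIntegral_le_of_norm_le_const (C := ε) (by simp) fun s hs => ?_).trans ?_
        · rw [← dist_eq_norm]
          refine (hδ' ?_).le
          rw [dist_eq_norm, sub_sub_cancel, norm_smul]
          simp [abs_of_nonneg hs.1, hs.2]
        · simp [hδ.le]
      have iI : Integrable (fun x => (δ * f x - I x) * c x) μ :=
        ic.bdd_mul ((hd.continuous.aestronglyMeasurable.const_mul δ).sub mI.aestronglyMeasurable)
          (ae_of_all _ hclose)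
      have iI' : Integrable (fun x => I x * c x) μ := by
        have := (ifc.const_mul δ).sub iI
        refine this.congr (ae_of_all _ fun x => ?_)
        simp only [Pi.sub_apply]
        ring
      have e2 : δ * ∫ x, f x * c x ∂μ = ∫ x, (δ * f x - I x) * c x ∂μ := by
        rw [← integral_const_mul, ← sub_zero (∫ x, δ * (f x * c x) ∂μ), ← hs',
          ← integral_sub (ifc.const_mul δ) iI']
        exact integral_congr_ae (ae_of_all _ fun x => by ring)
      have e3 : ‖∫ x, (δ * f x - I x) * c x ∂μ‖ ≤ ∫ x, ε * δ * ‖c x‖ ∂μ :=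
        norm_integral_le_of_norm_le (ic.norm.const_mul _) (ae_of_all _ fun x => by
          rw [norm_mul]
          exact mul_le_mul_of_nonneg_right (hclose x) (norm_nonneg _))
      rw [← e2, integral_const_mul, norm_mul, Real.norm_of_nonneg hδ.le, Real.norm_eq_abs] at e3
      refine le_of_mul_le_mul_left ?_ hδ
      linarith
    have hM : 0 ≤ ∫ x, ‖c x‖ ∂μ := integral_nonneg fun x => norm_nonneg _
    refine abs_nonpos_iff.1 (le_of_forall_pos_le_add fun ε hε => ?_)
    refine (bound (ε / (∫ x, ‖c x‖ ∂μ + 1)) (by positivity)).trans ?_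
    rw [zero_add, div_mul_eq_mul_div, div_le_iff₀ (by positivity)]
    nlinarith
  have key := ext_of_per (μ₁ := μ) (μ₂ := μ) (r₁ := id) (r₂ := id) measurable_id measurable_id
    (a₁ := c) (a₂ := fun _ => 0) mc measurable_const ic (integrable_zero _ _ _)
    (fun f hd hf => by simpa using step f hd hf)
    (f := fun x => if 0 ≤ w x i then 1 else -1)
    (fun v hv x => by simp only [h.per v hv x])
    (Measurable.ite (measurableSet_le measurable_const mw) measurable_const measurable_const)
    (C := 1) (fun x => by split_ifs <;> simp)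
  have e : ∀ x, (if 0 ≤ w x i then (1 : ℝ) else -1) * c x = ‖c x‖ := by
    intro x
    by_cases hx : x ∈ N
    · by_cases h1 : 0 ≤ w x i
      · simp [hc, chi, hx, h1, abs_of_nonneg h1]
      · simp [hc, chi, hx, h1, abs_of_neg (not_le.1 h1)]
    · simp [hc, chi, hx]
  simp only [id, mul_zero, integral_zero, e] at key
  have h5 := (integral_eq_zero_iff_of_nonneg (fun x => norm_nonneg (c x)) ic.norm).1 key
  filter_upwards [h5] with x hx hN
  simpa [hc, chi, hN] using hx

end Crest.Agent.R214
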