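import Crest.Agent.R214.BV0Riesz
import Crest.Agent.R214.BV0Slice

/-! Row 214, module BV0 (umbrella import). -/
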