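import Crest.Agent.R214.BV0Defs

/-! Row 214, module BV0: the unit cell as a fundamental domain (auxiliary file for `BV0Cell`). -/

set_option autoImplicit false

open MeasureTheory Set Filter Topology
open scoped ENNReal RealInnerProductSpace Pointwise
open Crest.GeometryTopology.PeriodicPerimeter

noncomputable section

namespace Crest.Agent.R214.CellB

variable {n : ℕ}

/-- the standard basis -/
abbrev bas (n : ℕ) : Module.Basis (Fin n) ℝ (X n) := (EuclideanSpace.basisFun (Fin n) ℝ).toBasis

/-- the integer lattice -/
abbrev Lat (n : ℕ) : AddSubgroup (X n) := (Submodule.span ℤ (Set.range (bas n))).toAddSubgroup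

theorem cell_eq : unitCell n = ZSpan.fundamentalDomain (bas n) := by
  ext x
  simp [unitCell, ZSpan.fundamentalDomain, bas]

theorem fd : IsAddFundamentalDomain (Lat n) (unitCell n) volume := by
  rw [cell_eq]
  exact ZSpan.isAddFundamentalDomain' (bas n) volume

theorem lat_int (g : Lat n) : HasIntegerCoords (g : X n) := by
  intro i
  have h := ((bas n).mem_span_iff_repr_mem ℤ (g : X n)).1 g.2 i
  obtain ⟨m, hm⟩ := h
  refine ⟨m, ?_⟩
  simpa [bas] using hm.symm

instance : Countable (Lat n) := by
  have : Countable (Submodule.span ℤ (Set.range (bas n))) := inferInstance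
  exact this

theorem per_vadd {F : Type*} {f : X n → F} (hf : Per f) (g : Lat n) (x : X n) :
    f (g +ᵥ x) = f x := by
  have := hf _ (lat_int g) x
  rw [add_comm] at this
  exact this

theorem shift_eq (c : X n) :
    {x : X n | ∀ i, c i ≤ x i ∧ x i < c i + 1} = (fun x => x + c) '' unitCell n := by
  ext x
  constructor
  · intro hx
    refine ⟨x - c, fun i => ?_, by simp⟩
    have := hx i
    simp only [PiLp.sub_apply]
    constructor <;> linarith [this.1, this.2]
  · rintro ⟨y, hy, rfl⟩ i
    have := hy i
    simp only [PiLp.add_apply]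
    constructor <;> linarith [this.1, this.2]

theorem fd_shift (c : X n) :
    IsAddFundamentalDomain (Lat n) ((fun x => x + c) '' unitCell n) volume := by
  have h := (fd (n := n)).vadd_of_comm c
  have e : c +ᵥ unitCell n = (fun x => x + c) '' unitCell n := by
    ext x
    simp only [Set.mem_vadd_set, vadd_eq_add, Set.mem_image, add_comm c]
  rwa [e] at h

theorem lintegral_shift {f : X n → ℝ≥0∞} (hf : Per f) (c : X n) :
    ∫⁻ x in {x : X n | ∀ i, c i ≤ x i ∧ x i < c i + 1}, f x = ∫⁻ x in unitCell n, f x := by
  rw [shift_eq]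
  exact (fd_shift c).setLIntegral_eq fd f (per_vadd hf)

theorem integral_shift {F : Type*} [NormedAddCommGroup F] [NormedSpace ℝ F] {f : X n → F}
    (hf : Per f) (c : X n) :
    ∫ x in {x : X n | ∀ i, c i ≤ x i ∧ x i < c i + 1}, f x = ∫ x in unitCell n, f x := by
  rw [shift_eq]
  exact (fd_shift c).setIntegral_eq fd (per_vadd hf)

theorem lintegral_add {f : X n → ℝ≥0∞} (hf : Per f) (c : X n) :
    ∫⁻ x in unitCell n, f (x + c) = ∫⁻ x in unitCell n, f x := by
  rw [← lintegral_shift hf c, shift_eq]
  exact (measurePreserving_add_right volume c).setLIntegral_comp_emb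
    (measurableEmbedding_addRight c) f _

theorem integral_add {F : Type*} [NormedAddCommGroup F] [NormedSpace ℝ F] {f : X n → F}
    (hf : Per f) (c : X n) : ∫ x in unitCell n, f (x + c) = ∫ x in unitCell n, f x := by
  rw [← integral_shift hf c, shift_eq]
  exact ((measurePreserving_add_right volume c).setIntegral_image_emb
    (measurableEmbedding_addRight c) f _).symm

theorem null_of_cell {N : Set (X n)} (hN : IsLatticePeriodic N)
    (h : volume (N ∩ unitCell n) = 0) : volume N = 0 := by
  refine (fd (n := n)).measure_zero_of_invariant N (fun g => ?_) h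
  ext x
  rw [Set.mem_vadd_set_iff_neg_vadd_mem]
  have := hN _ (lat_int (-g)) x
  rw [add_comm] at this
  exact this

end Crest.Agent.R214.CellB
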