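import Crest.Agent.R214.BV0Defs
import Crest.Agent.R214.BV0CellB1

/-! Row 214, module BV0: integrals of periodic functions over the unit cell. -/

set_option autoImplicit false

open MeasureTheory Set Filter Topology
open scoped ENNReal RealInnerProductSpace
open Crest.GeometryTopology.PeriodicPerimeter

noncomputable section

namespace Crest.Agent.R214

variable {n : ℕ}

/-! ### part A -/

theorem measurableSet_unitCell : MeasurableSet (unitCell n) := by
  have : unitCell n = ⋂ i, (fun x : X n => x i) ⁻¹' Ico (0 : ℝ) 1 := by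
    ext x; simp [unitCell]
  rw [this]
  exact MeasurableSet.iInter fun i => measurableSet_Ico.preimage (by fun_prop)

theorem volume_unitCell : volume (unitCell n) = 1 := by
  have : unitCell n = (WithLp.ofLp : X n → Fin n → ℝ) ⁻¹' Set.pi univ fun _ => Ico (0 : ℝ) 1 := by
    ext x; simp [unitCell]
  rw [this, (PiLp.volume_preserving_ofLp (Fin n)).measure_preimage
    (MeasurableSet.univ_pi fun _ => measurableSet_Ico).nullMeasurableSet]
  simp [volume_pi_pi]

instance isFiniteMeasure_cell : IsFiniteMeasure (volume.restrict (unitCell n)) :=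
  ⟨by rw [Measure.restrict_apply_univ, volume_unitCell]; exact ENNReal.one_lt_top⟩

theorem measurable_frac : Measurable (frac : X n → X n) := by
  refine (WithLp.measurable_toLp 2 _).comp (measurable_pi_lambda _ fun i => ?_)
  exact measurable_fract.comp (by fun_prop)

theorem frac_mem (x : X n) : frac x ∈ unitCell n :=
  fun i => ⟨Int.fract_nonneg (x i), Int.fract_lt_one (x i)⟩

theorem frac_of_mem {x : X n} (hx : x ∈ unitCell n) : frac x = x := by
  ext i
  exact Int.fract_eq_self.2 (hx i)

theorem hasIntegerCoords_frac_sub (x : X n) : HasIntegerCoords (frac x - x) := fun i =>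
  ⟨-⌊x i⌋, by
    show Int.fract (x i) - x i = _
    rw [Int.fract_sub_self]; simp⟩

theorem per_frac : Per (frac : X n → X n) := by
  intro v hv x
  ext i
  obtain ⟨m, hm⟩ := hv i
  show Int.fract (x i + v i) = Int.fract (x i)
  rw [hm, Int.fract_add_intCast]

theorem Per.comp_frac {F : Type*} {f : X n → F} (hf : Per f) (x : X n) : f (frac x) = f x := by
  have := hf _ (hasIntegerCoords_frac_sub x) x
  rwa [add_sub_cancel] at this

theorem hasIntegerCoords_ev (i : Fin n) (k : ℤ) : HasIntegerCoords ((k : ℝ) • ev i) := by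
  intro j
  by_cases h : j = i
  · exact ⟨k, by simp [h]⟩
  · exact ⟨0, by simp [h]⟩

theorem Per.chi {E : Set (X n)} (hE : IsLatticePeriodic E) : Per (chi E) := by
  intro v hv x
  by_cases h : x ∈ E
  · rw [R214.chi, indicator_of_mem h, indicator_of_mem ((hE v hv x).2 h)]
  · rw [R214.chi, indicator_of_notMem h, indicator_of_notMem fun k => h ((hE v hv x).1 k)]

theorem measurable_chi {E : Set (X n)} (hE : MeasurableSet E) : Measurable (chi E) :=
  measurable_const.indicator hE

theorem Per.add_const {F : Type*} {f : X n → F} (hf : Per f) (c : X n) : Per fun x => f (x + c) := by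
  intro v hv x
  show f (x + v + c) = f (x + c)
  rw [add_right_comm, hf v hv]

theorem Per.fderiv {F : Type*} [NormedAddCommGroup F] [NormedSpace ℝ F] {f : X n → F} (hf : Per f) :
    Per (fderiv ℝ f) := by
  intro v hv x
  rw [← fderiv_comp_add_right v]
  congr 1
  exact funext fun y => hf v hv y

theorem norm_le_of_mem_unitCell {x : X n} (hx : x ∈ unitCell n) : ‖x‖ ≤ √n := by
  rw [EuclideanSpace.norm_eq]
  refine Real.sqrt_le_sqrt ?_
  calc ∑ i, ‖x i‖ ^ 2 ≤ ∑ _i : Fin n, (1 : ℝ) := Finset.sum_le_sum fun i _ => by
        rw [Real.norm_of_nonneg (hx i).1]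
        exact pow_le_one₀ (hx i).1 (hx i).2.le
    _ = n := by simp

theorem Per.bounded {F : Type*} [SeminormedAddCommGroup F] {f : X n → F} (hf : Per f)
    (hc : Continuous f) : ∃ C, ∀ x, ‖f x‖ ≤ C := by
  obtain ⟨C, hC⟩ := (isCompact_closedBall (0 : X n) √n).exists_bound_of_continuousOn hc.continuousOn
  refine ⟨C, fun x => ?_⟩
  rw [← hf.comp_frac]
  exact hC _ (mem_closedBall_zero_iff.2 (norm_le_of_mem_unitCell (frac_mem x)))

theorem Per.uniformContinuous {F : Type*} [SeminormedAddCommGroup F] {f : X n → F} (hf : Per f)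
    (hc : Continuous f) : UniformContinuous f := by
  have h := (isCompact_closedBall (0 : X n) (√n + 1)).uniformContinuousOn_of_continuous
    hc.continuousOn
  rw [Metric.uniformContinuousOn_iff] at h
  refine Metric.uniformContinuous_iff.2 fun ε hε => ?_
  obtain ⟨δ, hδ, h⟩ := h ε hε
  refine ⟨min δ 1, lt_min hδ one_pos, fun {a b} hab => ?_⟩
  have h1 := norm_le_of_mem_unitCell (frac_mem a)
  have hd : dist (frac a) (b + (frac a - a)) = dist a b := by
    rw [dist_eq_norm, dist_eq_norm]
    congr 1
    abel
  rw [← hf.comp_frac a, ← hf _ (hasIntegerCoords_frac_sub a) b]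
  refine h _ (mem_closedBall_zero_iff.2 (by linarith)) _ (mem_closedBall_zero_iff.2 ?_)
    (hd ▸ hab.trans_le (min_le_left _ _))
  have h2 := norm_le_norm_add_norm_sub' (b + (frac a - a)) (frac a)
  rw [← dist_eq_norm, dist_comm, hd] at h2
  linarith [hab.trans_le (min_le_right _ _)]

theorem Per.integrable {F : Type*} [NormedAddCommGroup F] {f : X n → F} (hf : Per f)
    (hc : Continuous f) (μ : Measure (X n)) [IsFiniteMeasure μ] : Integrable f μ := by
  obtain ⟨C, hC⟩ := hf.bounded hc
  exact Integrable.of_bound hc.aestronglyMeasurable C (Eventually.of_forall hC)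

theorem continuous_divergence {φ : X n → X n} (hφ : ContDiff ℝ 1 φ) : Continuous (divergence φ) := by
  have h := hφ.continuous_fderiv one_ne_zero
  unfold divergence
  fun_prop

theorem Per.divergence {φ : X n → X n} (hφ : Per φ) : Per (divergence φ) := by
  intro v hv x
  unfold Crest.GeometryTopology.PeriodicPerimeter.divergence
  rw [hφ.fderiv v hv x]

theorem divergence_eq_sum {φ : X n → X n} (hφ : Differentiable ℝ φ) (x : X n) :
    divergence φ x = ∑ i, pd i (fun y => φ y i) x := by
  refine Finset.sum_congr rfl fun i _ => ?_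
  have h := ((EuclideanSpace.proj i : X n →L[ℝ] ℝ).hasFDerivAt.comp x (hφ x).hasFDerivAt).fderiv
  show _ = fderiv ℝ (EuclideanSpace.proj i ∘ φ) x (ev i)
  rw [h]
  rfl

theorem divergence_smul_ev {f : X n → ℝ} (hf : Differentiable ℝ f) (i : Fin n) (x : X n) :
    divergence (fun y => f y • ev i) x = pd i f x := by
  unfold divergence
  rw [fderiv_smul_const (hf x), Finset.sum_eq_single i]
  · simp
  · intro j _ hj
    simp [hj]
  · simp

/-! ### part B -/

/-- use `ZSpan.isAddFundamentalDomain`, `IsAddFundamentalDomain.setLIntegral_eq` -/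
theorem lintegral_cell_add {f : X n → ℝ≥0∞} (hf : Per f) (c : X n) :
    ∫⁻ x in unitCell n, f (x + c) = ∫⁻ x in unitCell n, f x :=
  CellB.lintegral_add hf c

theorem integral_cell_add {F : Type*} [NormedAddCommGroup F] [NormedSpace ℝ F] {f : X n → F}
    (hf : Per f) (c : X n) : ∫ x in unitCell n, f (x + c) = ∫ x in unitCell n, f x :=
  CellB.integral_add hf c

/-- the shifted cell is as good as the cell -/
theorem lintegral_cell_shift {f : X n → ℝ≥0∞} (hf : Per f) (c : X n) :
    ∫⁻ x in {x : X n | ∀ i, c i ≤ x i ∧ x i < c i + 1}, f x = ∫⁻ x in unitCell n, f x :=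
  CellB.lintegral_shift hf c

theorem integral_cell_shift {F : Type*} [NormedAddCommGroup F] [NormedSpace ℝ F] {f : X n → F}
    (hf : Per f) (c : X n) :
    ∫ x in {x : X n | ∀ i, c i ≤ x i ∧ x i < c i + 1}, f x = ∫ x in unitCell n, f x :=
  CellB.integral_shift hf c

/-- a periodic set is null iff its part in the cell is null -/
theorem null_of_cell {N : Set (X n)} (hN : IsLatticePeriodic N) (h : volume (N ∩ unitCell n) = 0) :
    volume N = 0 :=
  CellB.null_of_cell hN h

/-- Fubini along one coordinate, without splitting coordinates -/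
theorem lintegral_cell_avg {f : X n → ℝ≥0∞} (hf : Per f) (hm : Measurable f) (i : Fin n) :
    ∫⁻ x in unitCell n, ∫⁻ t in Ico (0 : ℝ) 1, f (x + t • ev i) = ∫⁻ x in unitCell n, f x := by
  have hmm : Measurable (Function.uncurry fun (x : X n) (t : ℝ) => f (x + t • ev i)) :=
    hm.comp (by fun_prop : Measurable fun p : X n × ℝ => p.1 + p.2 • ev i)
  rw [lintegral_lintegral_swap hmm.aemeasurable]
  simp only [lintegral_cell_add hf]
  rw [lintegral_const, Measure.restrict_apply_univ, Real.volume_Ico]
  simp

theorem integral_cell_avg {F : Type*} [NormedAddCommGroup F] [NormedSpace ℝ F] [CompleteSpace F]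
    {f : X n → F} (hf : Per f) (hm : StronglyMeasurable f) {C : ℝ} (hC : ∀ x, ‖f x‖ ≤ C) (i : Fin n) :
    ∫ x in unitCell n, ∫ t in Ico (0 : ℝ) 1, f (x + t • ev i) = ∫ x in unitCell n, f x := by
  have hmm : StronglyMeasurable (Function.uncurry fun (x : X n) (t : ℝ) => f (x + t • ev i)) :=
    hm.comp_measurable (by fun_prop : Measurable fun p : X n × ℝ => p.1 + p.2 • ev i)
  have hint : Integrable (Function.uncurry fun (x : X n) (t : ℝ) => f (x + t • ev i))
      ((volume.restrict (unitCell n)).prod (volume.restrict (Ico (0 : ℝ) 1))) :=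
    Integrable.of_bound hmm.aestronglyMeasurable C (Eventually.of_forall fun p => hC _)
  rw [integral_integral_swap hint]
  simp only [integral_cell_add hf]
  rw [integral_const]
  simp

/-- differentiate the constant function `t ↦ ∫ f (x + t • ev i)` under the integral sign -/
theorem integral_cell_pd {f : X n → ℝ} (hf : Per f) (hd : ContDiff ℝ 1 f) (i : Fin n) :
    ∫ x in unitCell n, pd i f x = 0 := by
  have hper : Per (pd i f) := fun v hv x => by
    simp only [pd]; rw [hf.fderiv v hv x]
  have hc : Continuous (pd i f) := (hd.continuous_fderiv one_ne_zero).clm_apply continuous_const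
  obtain ⟨C, hC⟩ := hper.bounded hc
  rw [← integral_cell_avg hper hc.stronglyMeasurable hC i]
  have h0 : ∀ x : X n, ∫ t in Ico (0 : ℝ) 1, pd i f (x + t • ev i) = 0 := by
    intro x
    have hder : ∀ t ∈ uIcc (0 : ℝ) 1,
        HasDerivAt (fun s : ℝ => f (x + s • ev i)) (pd i f (x + t • ev i)) t := by
      intro t _
      have h1 : HasDerivAt (fun s : ℝ => x + s • ev i) (ev i) t := by
        simpa using ((hasDerivAt_id t).smul_const (ev i)).const_add x
      exact ((hd.differentiable one_ne_zero) (x + t • ev i)).hasFDerivAt.comp_hasDerivAt t h1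
    have hcc : Continuous fun t : ℝ => pd i f (x + t • ev i) := hc.comp (by fun_prop)
    have h2 := intervalIntegral.integral_eq_sub_of_hasDerivAt hder (hcc.intervalIntegrable 0 1)
    rw [intervalIntegral.integral_of_le zero_le_one, integral_Ioc_eq_integral_Ioo] at h2
    rw [integral_Ico_eq_integral_Ioo, h2]
    have h3 := hf _ (hasIntegerCoords_ev i 1) x
    simp only [Int.cast_one] at h3
    rw [h3]; simp
  simp only [h0, integral_zero]

theorem integral_cell_divergence {φ : X n → X n} (hφ : Per φ) (hd : ContDiff ℝ 1 φ) :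
    ∫ x in unitCell n, divergence φ x = 0 := by
  have hdiff : Differentiable ℝ φ := hd.differentiable one_ne_zero
  have hi : ∀ i : Fin n, ContDiff ℝ 1 (fun y => φ y i) := fun i =>
    (contDiff_euclidean.1 hd) i
  have hp : ∀ i : Fin n, Per (fun y => φ y i) := fun i v hv x => by
    simp only [hφ v hv x]
  simp only [divergence_eq_sum hdiff]
  rw [integral_finsetSum]
  · exact Finset.sum_eq_zero fun i _ => integral_cell_pd (hp i) (hi i) i
  · intro i _
    have hper : Per (pd i (fun y => φ y i)) := fun v hv x => by
      simp only [pd]; rw [(hp i).fderiv v hv x]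
    have hc : Continuous (pd i (fun y => φ y i)) :=
      ((hi i).continuous_fderiv one_ne_zero).clm_apply continuous_const
    exact hper.integrable hc _

end Crest.Agent.R214
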