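import Crest.Prelude.Def_PeriodicPerimeter

/-! Row 214, module BV0: definitions (periodic functions, Gauss-Green pairs, sections, mollifier). -/

set_option autoImplicit false

open MeasureTheory Set Filter Topology
open scoped ENNReal RealInnerProductSpace
open Crest.GeometryTopology.PeriodicPerimeter

noncomputable section

namespace Crest.Agent.R214

/-- Euclidean space -/
abbrev X (n : ℕ) : Type := EuclideanSpace ℝ (Fin n)

variable {n : ℕ}

/-- the basis vector -/
abbrev ev (i : Fin n) : X n := EuclideanSpace.single i 1

/-- lattice periodic functions -/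
def Per {F : Type*} (f : X n → F) : Prop := ∀ v, HasIntegerCoords v → ∀ x, f (x + v) = f x

/-- functions that do not depend on the coordinate `i` -/
def Indep {F : Type*} (i : Fin n) (f : X n → F) : Prop := ∀ (t : ℝ) (x : X n), f (x + t • ev i) = f x

/-- the partial derivative -/
abbrev pd {F : Type*} [NormedAddCommGroup F] [NormedSpace ℝ F] (i : Fin n) (f : X n → F) (x : X n) : F :=
  fderiv ℝ f x (ev i)

/-- coordinatewise fractional part -/
def frac (x : X n) : X n := WithLp.toLp 2 fun i => Int.fract (x i)

/-- the real valued indicator function -/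
def chi (E : Set (X n)) : X n → ℝ := E.indicator fun _ => 1

/-- Gauss-Green pair: `- D χ_E = w μ` on the torus. `μ` is any finite measure on `ℝⁿ` (only its image on
the torus matters), `w` is periodic. -/
structure GG (E : Set (X n)) (μ : Measure (X n)) (w : X n → X n) : Prop where
  fin : IsFiniteMeasure μ
  per : Per w
  meas : Measurable w
  int : Integrable w μ
  eq : ∀ φ : X n → X n, ContDiff ℝ 1 φ → Per φ →
    ∫ x in E ∩ unitCell n, divergence φ x = ∫ x, ⟪φ x, w x⟫ ∂μ

/-- the section of `E` along the line through `x` in direction `i` -/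
def sec (E : Set (X n)) (i : Fin n) (x : X n) : Set ℝ := {t | x + t • ev i ∈ E}

/-- length of one period of a subset of the line -/
def len (A : Set ℝ) : ℝ := (volume (A ∩ Ico (0 : ℝ) 1)).toReal

/-- length of the part of one period that changes under the shift by `h` -/
def dsh (A : Set ℝ) (h : ℝ) : ℝ≥0∞ := volume {t ∈ Ico (0 : ℝ) 1 | ¬ (t + h ∈ A ↔ t ∈ A)}

/-- one dimensional variation (number of essential boundary points in one period) -/
def V1 (A : Set ℝ) : ℝ≥0∞ := liminf (fun k : ℕ => ((k : ℝ≥0∞) + 1) * dsh A (1 / ((k : ℝ) + 1))) atTop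

/-- the periodic arc with centre `c` and length `m` -/
def arc (c m : ℝ) : Set ℝ := {t | ∃ k : ℤ, |t - c - k| < m / 2}

/-- bump of outer radius `1 / (k + 1)` -/
def bump (n k : ℕ) : ContDiffBump (0 : X n) :=
  ⟨1 / (2 * ((k : ℝ) + 1)), 1 / ((k : ℝ) + 1), by positivity, by
    have : (0 : ℝ) < (k : ℝ) + 1 := by positivity
    exact one_div_lt_one_div_of_lt this (by linarith)⟩

/-- the mollifier kernel -/
def rho (n k : ℕ) : X n → ℝ := (bump n k).normed volume

/-- mollification -/
def moll {F : Type*} [NormedAddCommGroup F] [NormedSpace ℝ F] (k : ℕ) (u : X n → F) (x : X n) : F :=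
  ∫ y, rho n k y • u (x - y)

end Crest.Agent.R214
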