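import Crest.Agent.R214.BV0Moll

/-! Row 214, module BV0: density of smooth periodic functions, uniqueness of representations. -/

set_option autoImplicit false

open MeasureTheory Set Filter Topology
open scoped ENNReal RealInnerProductSpace ContDiff
open Crest.GeometryTopology.PeriodicPerimeter

noncomputable section

namespace Crest.Agent.R214

variable {n : ℕ}

/-! ### part A -/

/-- radial retraction onto the unit ball loses at most a factor two -/
theorem dense_retract {F : Type*} [NormedAddCommGroup F] [NormedSpace ℝ F] (v u : F) (hu : ‖u‖ ≤ 1) :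
    ‖(max 1 ‖v‖)⁻¹ • v‖ ≤ 1 ∧ ‖(max 1 ‖v‖)⁻¹ • v - u‖ ≤ 2 * ‖u - v‖ := by
  rcases le_total ‖v‖ 1 with h | h
  · rw [max_eq_left h, inv_one, one_smul, norm_sub_rev]
    exact ⟨h, by linarith [norm_nonneg (u - v)]⟩
  · rw [max_eq_right h]
    have h0 : 0 < ‖v‖ := by linarith
    have h1 : ‖(‖v‖)⁻¹ • v‖ = 1 := by
      rw [norm_smul, norm_inv, norm_norm, inv_mul_cancel₀ h0.ne']
    refine ⟨h1.le, ?_⟩
    have h2 : ‖(‖v‖)⁻¹ • v - v‖ = ‖v‖ - 1 := by
      have : (‖v‖)⁻¹ • v - v = ((‖v‖)⁻¹ - 1) • v := by rw [sub_smul, one_smul]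
      rw [this, norm_smul, Real.norm_eq_abs, abs_of_nonpos (by
        have := inv_le_one_of_one_le₀ h
        linarith)]
      field_simp
      ring
    have h3 : ‖v‖ - ‖u‖ ≤ ‖u - v‖ := by
      rw [norm_sub_rev]; exact norm_sub_norm_le v u
    have h4 : ‖(‖v‖)⁻¹ • v - u‖ ≤ ‖(‖v‖)⁻¹ • v - v‖ + ‖v - u‖ := norm_sub_le_norm_sub_add_norm_sub _ _ _
    rw [norm_sub_rev v u] at h4
    linarith

/-- push `μ` to the compact torus `Fin n → UnitAddCircle`, approximate `f ∘ section` there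
(`Integrable.exists_boundedContinuous_integral_sub_le`), retract radially to the unit ball -/
theorem exists_cont_approx {F : Type*} [NormedAddCommGroup F] [NormedSpace ℝ F] [CompleteSpace F]
    [SecondCountableTopology F] [MeasurableSpace F] [BorelSpace F] (μ : Measure (X n))
    [IsFiniteMeasure μ] {f : X n → F} (hf : Per f) (hm : Measurable f) (h1 : ∀ x, ‖f x‖ ≤ 1) {ε : ℝ}
    (hε : 0 < ε) :
    ∃ g : X n → F, Continuous g ∧ Per g ∧ (∀ x, ‖g x‖ ≤ 1) ∧ ∫ x, ‖g x - f x‖ ∂μ ≤ ε := by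
  classical
  let q : X n → (Fin n → UnitAddCircle) := fun x i => ((x i : ℝ) : UnitAddCircle)
  have hq : Continuous q := by
    refine continuous_pi fun i => ?_
    exact (AddCircle.continuous_mk' 1).comp (by fun_prop)
  let s : (Fin n → UnitAddCircle) → X n := fun z =>
    WithLp.toLp 2 fun i => (AddCircle.equivIco 1 0 (z i) : ℝ)
  have hs : Measurable s := by
    refine (WithLp.measurable_toLp 2 _).comp (measurable_pi_lambda _ fun i => ?_)
    exact measurable_subtype_coe.comp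
      ((AddCircle.measurableEquivIco 1 0).measurable.comp (measurable_pi_apply i))
  have hqv : ∀ v, HasIntegerCoords v → ∀ x, q (x + v) = q x := by
    intro v hv x
    funext i
    obtain ⟨m, hm⟩ := hv i
    simp only [q, PiLp.add_apply, hm, AddCircle.coe_add]
    have : ((m : ℝ) : UnitAddCircle) = 0 := by
      rw [AddCircle.coe_eq_zero_iff]; exact ⟨m, by simp⟩
    rw [this, add_zero]
  have hsq : ∀ x, f (s (q x)) = f x := by
    intro x
    have : s (q x) = x + (s (q x) - x) := by abel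
    rw [this]
    refine hf _ (fun i => ?_) x
    have h0 : ((AddCircle.equivIco 1 0 (q x i) : ℝ) : UnitAddCircle) = ((x i : ℝ) : UnitAddCircle) :=
      AddCircle.coe_equivIco
    have h2 : (((AddCircle.equivIco 1 0 (q x i) : ℝ) - x i : ℝ) : UnitAddCircle) = 0 := by
      rw [AddCircle.coe_sub, h0, sub_self]
    rw [AddCircle.coe_eq_zero_iff] at h2
    obtain ⟨m, hm⟩ := h2
    exact ⟨m, by simpa [s] using hm.symm⟩
  have hint : Integrable (f ∘ s) (μ.map q) :=
    Integrable.of_bound (hm.comp hs).aestronglyMeasurable 1 (ae_of_all _ fun z => h1 _)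
  obtain ⟨g, hg, -⟩ := hint.exists_boundedContinuous_integral_sub_le (half_pos hε)
  have hgq : Continuous fun x => g (q x) := g.continuous.comp hq
  refine ⟨fun x => (max 1 ‖g (q x)‖)⁻¹ • g (q x), ?_, ?_, fun x => (dense_retract _ _ (h1 x)).1, ?_⟩
  · refine Continuous.smul (Continuous.inv₀ (continuous_const.max hgq.norm) fun x => ?_) hgq
    exact (lt_of_lt_of_le one_pos (le_max_left _ _)).ne'
  · intro v hv x
    simp only [hqv v hv x]
  · have hmm : Measurable fun z => ‖(f ∘ s) z - g z‖ :=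
      ((hm.comp hs).sub g.continuous.measurable).norm
    rw [integral_map hq.measurable.aemeasurable hmm.aestronglyMeasurable] at hg
    simp only [Function.comp, hsq] at hg
    have hi : Integrable (fun x => ‖f x - g (q x)‖) μ := by
      refine Integrable.norm (Integrable.sub ?_ ?_)
      · exact Integrable.of_bound hm.aestronglyMeasurable 1 (ae_of_all _ h1)
      · exact Integrable.of_bound hgq.aestronglyMeasurable ‖g‖
          (ae_of_all _ fun x => g.norm_coe_le_norm _)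
    calc ∫ x, ‖(max 1 ‖g (q x)‖)⁻¹ • g (q x) - f x‖ ∂μ ≤ ∫ x, 2 * ‖f x - g (q x)‖ ∂μ :=
          integral_mono_of_nonneg (ae_of_all _ fun x => norm_nonneg _) (hi.const_mul 2)
            (ae_of_all _ fun x => (dense_retract _ _ (h1 x)).2)
      _ ≤ ε := by rw [integral_const_mul]; linarith

/-- `exists_cont_approx` + `moll_unif` -/
theorem exists_smooth_approx {F : Type*} [NormedAddCommGroup F] [NormedSpace ℝ F] [CompleteSpace F]
    [SecondCountableTopology F] [MeasurableSpace F] [BorelSpace F] (μ : Measure (X n))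
    [IsFiniteMeasure μ] {f : X n → F} (hf : Per f) (hm : Measurable f) (h1 : ∀ x, ‖f x‖ ≤ 1) {ε : ℝ}
    (hε : 0 < ε) :
    ∃ g : X n → F, ContDiff ℝ ∞ g ∧ Per g ∧ (∀ x, ‖g x‖ ≤ 1) ∧ ∫ x, ‖g x - f x‖ ∂μ ≤ ε := by
  obtain ⟨g, hgc, hgp, hg1, hg⟩ := exists_cont_approx μ hf hm h1 (half_pos hε)
  have hM : 0 ≤ μ.real univ := measureReal_nonneg
  obtain ⟨k, hk⟩ := (moll_unif hgp hgc (ε := ε / 2 / (μ.real univ + 1)) (by positivity)).exists
  have hsm := contDiff_moll hgc.aestronglyMeasurable hg1 k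
  refine ⟨moll k g, hsm, hgp.moll k, norm_moll_le hg1 k, ?_⟩
  have hi : Integrable (fun x => ‖g x - f x‖) μ := by
    refine Integrable.norm (Integrable.sub ?_ ?_)
    · exact Integrable.of_bound hgc.aestronglyMeasurable 1 (ae_of_all _ hg1)
    · exact Integrable.of_bound hm.aestronglyMeasurable 1 (ae_of_all _ h1)
  calc ∫ x, ‖moll k g x - f x‖ ∂μ ≤ ∫ x, (ε / 2 / (μ.real univ + 1) + ‖g x - f x‖) ∂μ :=
        integral_mono_of_nonneg (ae_of_all _ fun x => norm_nonneg _) ((integrable_const _).add hi)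
          (ae_of_all _ fun x => (norm_sub_le_norm_sub_add_norm_sub _ (g x) _).trans
            (add_le_add (hk x) le_rfl))
    _ = μ.real univ * (ε / 2 / (μ.real univ + 1)) + ∫ x, ‖g x - f x‖ ∂μ := by
        rw [integral_add (integrable_const _) hi, integral_const, smul_eq_mul]
    _ ≤ ε := by
        have : μ.real univ * (ε / 2 / (μ.real univ + 1)) ≤ ε / 2 := by
          rw [← mul_div_assoc, div_le_iff₀ (by positivity)]
          nlinarith
        linarith

/-! ### part B -/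

theorem ext_aux_fin {Ω : Type*} [MeasurableSpace Ω] {μ : Measure Ω} (r : Ω → X n) {a : Ω → ℝ}
    (ha : Integrable a μ) : IsFiniteMeasure ((μ.withDensity fun z => ‖a z‖ₑ).map r) := by
  have : IsFiniteMeasure (μ.withDensity fun z => ‖a z‖ₑ) :=
    isFiniteMeasure_withDensity (ne_of_lt ha.2)
  infer_instance

theorem ext_aux_int {Ω : Type*} [MeasurableSpace Ω] {μ : Measure Ω} {r : Ω → X n}
    (hr : Measurable r) {a : Ω → ℝ} (ha : Integrable a μ) {u : X n → ℝ} (hu : Measurable u) {C : ℝ}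
    (hC : ∀ x, ‖u x‖ ≤ C) : Integrable (fun z => u (r z) * a z) μ :=
  ha.bdd_mul (c := C) (hu.comp hr).aestronglyMeasurable (Eventually.of_forall fun z => hC _)

theorem ext_aux_le {Ω : Type*} [MeasurableSpace Ω] {μ : Measure Ω} {r : Ω → X n}
    (hr : Measurable r) {a : Ω → ℝ} (ma : Measurable a) {u : X n → ℝ}
    (hu : Measurable u) :
    |∫ z, u (r z) * a z ∂μ| ≤ ∫ x, ‖u x‖ ∂((μ.withDensity fun z => ‖a z‖ₑ).map r) := by
  rw [integral_map hr.aemeasurable hu.norm.aestronglyMeasurable]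
  have h1 : (fun z => ‖a z‖ₑ) = fun z => ((‖a z‖₊ : NNReal) : ℝ≥0∞) := rfl
  rw [h1, integral_withDensity_eq_integral_smul ma.nnnorm]
  refine (abs_integral_le_integral_abs).trans (le_of_eq ?_)
  refine integral_congr_ae (Eventually.of_forall fun z => ?_)
  simp only [NNReal.smul_def, coe_nnnorm, Real.norm_eq_abs, smul_eq_mul, abs_mul]
  ring

theorem ext_aux_one {Ω₁ Ω₂ : Type*} [MeasurableSpace Ω₁] [MeasurableSpace Ω₂] {μ₁ : Measure Ω₁}
    {μ₂ : Measure Ω₂} {r₁ : Ω₁ → X n} {r₂ : Ω₂ → X n} (hr₁ : Measurable r₁) (hr₂ : Measurable r₂)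
    {a₁ : Ω₁ → ℝ} {a₂ : Ω₂ → ℝ} (ma₁ : Measurable a₁) (ma₂ : Measurable a₂) (ha₁ : Integrable a₁ μ₁)
    (ha₂ : Integrable a₂ μ₂)
    (h : ∀ f : X n → ℝ, ContDiff ℝ 1 f → Per f →
      ∫ z, f (r₁ z) * a₁ z ∂μ₁ = ∫ z, f (r₂ z) * a₂ z ∂μ₂)
    {f : X n → ℝ} (hf : Per f) (hm : Measurable f) (hC : ∀ x, ‖f x‖ ≤ 1) :
    ∫ z, f (r₁ z) * a₁ z ∂μ₁ = ∫ z, f (r₂ z) * a₂ z ∂μ₂ := by
  have := ext_aux_fin r₁ ha₁
  have := ext_aux_fin r₂ ha₂
  set ν₁ : Measure (X n) := (μ₁.withDensity fun z => ‖a₁ z‖ₑ).map r₁ with hν₁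
  set ν₂ : Measure (X n) := (μ₂.withDensity fun z => ‖a₂ z‖ₑ).map r₂ with hν₂
  refine eq_of_forall_dist_le fun ε hε => ?_
  obtain ⟨g, hg, pg, bg, hε'⟩ := exists_smooth_approx (ν₁ + ν₂) hf hm hC hε
  have mg : Measurable g := hg.continuous.measurable
  have hgf := h g (hg.of_le (by exact_mod_cast le_top)) pg
  have md : Measurable fun x => g x - f x := mg.sub hm
  have bd : ∀ x, ‖g x - f x‖ ≤ 2 := fun x => (norm_sub_le _ _).trans (by linarith [bg x, hC x])
  have id : ∀ (ν : Measure (X n)) [IsFiniteMeasure ν], Integrable (fun x => ‖g x - f x‖) ν := by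
    intro ν _
    exact Integrable.of_bound md.norm.aestronglyMeasurable 2
      (Eventually.of_forall fun x => by rw [norm_norm]; exact bd x)
  rw [integral_add_measure (id ν₁) (id ν₂)] at hε'
  have e₁ := ext_aux_le (μ := μ₁) hr₁ ma₁ md
  have e₂ := ext_aux_le (μ := μ₂) hr₂ ma₂ md
  have s₁ : ∫ z, (g (r₁ z) - f (r₁ z)) * a₁ z ∂μ₁ =
      ∫ z, g (r₁ z) * a₁ z ∂μ₁ - ∫ z, f (r₁ z) * a₁ z ∂μ₁ := by
    rw [← integral_sub (ext_aux_int hr₁ ha₁ mg bg) (ext_aux_int hr₁ ha₁ hm hC)]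
    exact integral_congr_ae (Eventually.of_forall fun z => by simp only [sub_mul])
  have s₂ : ∫ z, (g (r₂ z) - f (r₂ z)) * a₂ z ∂μ₂ =
      ∫ z, g (r₂ z) * a₂ z ∂μ₂ - ∫ z, f (r₂ z) * a₂ z ∂μ₂ := by
    rw [← integral_sub (ext_aux_int hr₂ ha₂ mg bg) (ext_aux_int hr₂ ha₂ hm hC)]
    exact integral_congr_ae (Eventually.of_forall fun z => by simp only [sub_mul])
  rw [s₁] at e₁
  rw [s₂] at e₂
  rw [Real.dist_eq, abs_le]
  have := abs_le.1 e₁
  have := abs_le.1 e₂
  constructor <;> linarith [this.1, this.2, (abs_le.1 e₁).1, (abs_le.1 e₁).2]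

/-- two parametrised signed measures that agree on `C¹` periodic functions agree on bounded measurable
periodic functions (`exists_smooth_approx` for the measure
`(μ₁.withDensity ‖a₁‖ₑ).map r₁ + (μ₂.withDensity ‖a₂‖ₑ).map r₂`, after scaling `f`) -/
theorem ext_of_per {Ω₁ Ω₂ : Type*} [MeasurableSpace Ω₁] [MeasurableSpace Ω₂] {μ₁ : Measure Ω₁}
    {μ₂ : Measure Ω₂} {r₁ : Ω₁ → X n} {r₂ : Ω₂ → X n} (hr₁ : Measurable r₁) (hr₂ : Measurable r₂)
    {a₁ : Ω₁ → ℝ} {a₂ : Ω₂ → ℝ} (ma₁ : Measurable a₁) (ma₂ : Measurable a₂) (ha₁ : Integrable a₁ μ₁)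
    (ha₂ : Integrable a₂ μ₂)
    (h : ∀ f : X n → ℝ, ContDiff ℝ 1 f → Per f →
      ∫ z, f (r₁ z) * a₁ z ∂μ₁ = ∫ z, f (r₂ z) * a₂ z ∂μ₂)
    {f : X n → ℝ} (hf : Per f) (hm : Measurable f) {C : ℝ} (hC : ∀ x, ‖f x‖ ≤ C) :
    ∫ z, f (r₁ z) * a₁ z ∂μ₁ = ∫ z, f (r₂ z) * a₂ z ∂μ₂ := by
  have hC0 : 0 ≤ C := (norm_nonneg _).trans (hC 0)
  have hpos : 0 < C + 1 := by linarith
  have key := ext_aux_one hr₁ hr₂ ma₁ ma₂ ha₁ ha₂ h (f := fun x => (C + 1)⁻¹ * f x)
    (fun v hv x => by simp only [hf v hv x]) (hm.const_mul _) (fun x => by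
      rw [norm_mul, Real.norm_of_nonneg (inv_nonneg.2 hpos.le), inv_mul_le_iff₀ hpos]
      linarith [hC x])
  simp only [mul_assoc, integral_const_mul] at key
  exact mul_left_cancel₀ (inv_ne_zero hpos.ne') key

/-- one-homogeneous integrands do not depend on the representation `w μ` of a vector measure on the torus.
Proof: push both measures to the cell by `frac`, `τ = μ₁ + μ₂`, `μ_j = f_j τ` (rnDeriv), then
`f₁ • w₁ = f₂ • w₂` `τ`-a.e. by `ext_of_per` applied to `indicator A 1 ∘ frac` and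
`Integrable.ae_eq_of_forall_setIntegral_eq`. -/
theorem lintegral_hom_eq {F : Type*} [NormedAddCommGroup F] [NormedSpace ℝ F] [FiniteDimensional ℝ F]
    [MeasurableSpace F] [BorelSpace F] {μ₁ μ₂ : Measure (X n)} [IsFiniteMeasure μ₁] [IsFiniteMeasure μ₂]
    {w₁ w₂ : X n → F} (p₁ : Per w₁) (p₂ : Per w₂) (m₁ : Measurable w₁) (m₂ : Measurable w₂)
    (i₁ : Integrable w₁ μ₁) (i₂ : Integrable w₂ μ₂)
    (h : ∀ f : X n → ℝ, ContDiff ℝ 1 f → Per f → ∫ x, f x • w₁ x ∂μ₁ = ∫ x, f x • w₂ x ∂μ₂)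
    {H : X n → F → ℝ≥0∞} (hH : Measurable (Function.uncurry H)) (hp : Per H)
    (hom : ∀ x v (c : ℝ), 0 ≤ c → H x (c • v) = ENNReal.ofReal c * H x v) :
    ∫⁻ x, H x (w₁ x) ∂μ₁ = ∫⁻ x, H x (w₂ x) ∂μ₂ := by
  have : CompleteSpace F := FiniteDimensional.complete ℝ F
  set ν₁ : Measure (X n) := μ₁.map frac with hν₁
  set ν₂ : Measure (X n) := μ₂.map frac with hν₂
  set τ : Measure (X n) := ν₁ + ν₂ with hτ
  have : IsFiniteMeasure ν₁ := by rw [hν₁]; infer_instance
  have : IsFiniteMeasure ν₂ := by rw [hν₂]; infer_instance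
  have : IsFiniteMeasure τ := by rw [hτ]; infer_instance
  have : SigmaFinite τ := IsFiniteMeasure.toSigmaFinite τ
  have hld : ∀ (ν : Measure (X n)) [IsFiniteMeasure ν], ν.HaveLebesgueDecomposition τ := fun ν _ =>
    Measure.haveLebesgueDecomposition_of_finiteMeasure
  have := hld ν₁
  have := hld ν₂
  have ac₁ : ν₁ ≪ τ := Measure.absolutelyContinuous_of_le (Measure.le_add_right le_rfl)
  have ac₂ : ν₂ ≪ τ := Measure.absolutelyContinuous_of_le (Measure.le_add_left le_rfl)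
  have intν : ∀ {μ : Measure (X n)} {w : X n → F}, Per w → Measurable w → Integrable w μ →
      Integrable w (μ.map frac) := fun {μ w} p m i => by
    rw [integrable_map_measure m.aestronglyMeasurable measurable_frac.aemeasurable]
    have : w ∘ frac = w := funext fun x => p.comp_frac x
    rwa [this]
  have setν : ∀ {μ : Measure (X n)} {w : X n → F}, Per w → Measurable w → Integrable w μ →
      ∀ {A : Set (X n)}, MeasurableSet A → ∀ L : F →L[ℝ] ℝ,
      L (∫ x in A, w x ∂(μ.map frac)) = ∫ x, chi A (frac x) * L (w x) ∂μ := fun {μ w} p m i {A} hA L => by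
    have mL : Measurable fun x => L (w x) := L.continuous.measurable.comp m
    rw [← L.integral_comp_comm (intν p m i).integrableOn, ← integral_indicator hA,
      integral_map measurable_frac.aemeasurable (mL.indicator hA).aestronglyMeasurable]
    refine integral_congr_ae (Eventually.of_forall fun x => ?_)
    by_cases hx : frac x ∈ A
    · simp [chi, hx, p.comp_frac x]
    · simp [chi, hx]
  have key : (fun x => (ν₁.rnDeriv τ x).toReal • w₁ x) =ᵐ[τ] fun x => (ν₂.rnDeriv τ x).toReal • w₂ x := by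
    refine Integrable.ae_eq_of_forall_setIntegral_eq _ _
      ((integrable_rnDeriv_smul_iff ac₁).2 (intν p₁ m₁ i₁))
      ((integrable_rnDeriv_smul_iff ac₂).2 (intν p₂ m₂ i₂)) fun A hA _ => ?_
    rw [setIntegral_rnDeriv_smul ac₁ hA, setIntegral_rnDeriv_smul ac₂ hA]
    refine (SeparatingDual.eq_iff_forall_dual_eq (R := ℝ)).2 fun L => ?_
    rw [setν p₁ m₁ i₁ hA L, setν p₂ m₂ i₂ hA L]
    refine ext_of_per (r₁ := id) (r₂ := id) measurable_id measurable_id
      (L.continuous.measurable.comp m₁) (L.continuous.measurable.comp m₂)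
      (L.integrable_comp i₁) (L.integrable_comp i₂) (fun f hf hpf => ?_)
      (f := fun x => chi A (frac x)) (fun v hv x => by simp only [per_frac v hv x])
      ((measurable_chi hA).comp measurable_frac) (C := 1) (fun x => ?_)
    · obtain ⟨C, hC⟩ := hpf.bounded hf.continuous
      have e : ∀ {μ : Measure (X n)} {w : X n → F}, Integrable w μ →
          ∫ z, f (id z) * (L ∘ w) z ∂μ = L (∫ z, f z • w z ∂μ) := fun {μ w} i => by
        have hi : Integrable (fun z => f z • w z) μ :=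
          i.bdd_smul C hf.continuous.aestronglyMeasurable (Eventually.of_forall hC)
        rw [← L.integral_comp_comm hi]
        simp
      rw [e i₁, e i₂, h f hf hpf]
    · by_cases hx : frac x ∈ A <;> simp [chi, hx]
  have red : ∀ {μ : Measure (X n)} [IsFiniteMeasure μ] {w : X n → F}, Per w → Measurable w →
      μ.map frac ≪ τ →
      ∫⁻ x, H x (w x) ∂μ = ∫⁻ x, H x (((μ.map frac).rnDeriv τ x).toReal • w x) ∂τ :=
    fun {μ} _ {w} p m ac => by
      have mH : Measurable fun x => H x (w x) := hH.comp (measurable_id.prodMk m)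
      have e1 : ∫⁻ x, H x (w x) ∂μ = ∫⁻ x, H x (w x) ∂(μ.map frac) := by
        rw [lintegral_map mH measurable_frac]
        exact lintegral_congr fun x => by rw [hp.comp_frac x, p.comp_frac x]
      have := hld (μ.map frac)
      rw [e1, ← lintegral_rnDeriv_mul ac mH.aemeasurable]
      refine lintegral_congr_ae ?_
      filter_upwards [Measure.rnDeriv_lt_top (μ.map frac) τ] with x hx
      rw [hom x _ _ ENNReal.toReal_nonneg, ENNReal.ofReal_toReal hx.ne]
  rw [red p₁ m₁ ac₁, red p₂ m₂ ac₂]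
  refine lintegral_congr_ae ?_
  filter_upwards [key] with x hx
  rw [← hν₁, ← hν₂, hx]

end Crest.Agent.R214
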