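import Crest.Agent.R214.BV0Cell

/-! Row 214, module BV0: mollification of periodic functions. -/

set_option autoImplicit false

open MeasureTheory Set Filter Topology
open scoped ENNReal RealInnerProductSpace ContDiff
open Crest.GeometryTopology.PeriodicPerimeter

noncomputable section

namespace Crest.Agent.R214

variable {n : ℕ} {F : Type*} [NormedAddCommGroup F] [NormedSpace ℝ F] [CompleteSpace F]

/-! ### part A -/

theorem rho_nonneg (k : ℕ) (x : X n) : 0 ≤ rho n k x := by
  exact (bump n k).nonneg_normed x

theorem rho_neg (k : ℕ) (x : X n) : rho n k (-x) = rho n k x := by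
  exact (bump n k).normed_neg x

theorem integral_rho (k : ℕ) : ∫ x, rho n k x = 1 := by
  exact (bump n k).integral_normed

theorem contDiff_rho (k : ℕ) : ContDiff ℝ ∞ (rho n k) := by
  exact (bump n k).contDiff_normed

theorem hasCompactSupport_rho (k : ℕ) : HasCompactSupport (rho n k) := by
  exact (bump n k).hasCompactSupport_normed

theorem rho_eq_zero (k : ℕ) {x : X n} (hx : 1 / ((k : ℝ) + 1) ≤ ‖x‖) : rho n k x = 0 := by
  by_contra h
  have h1 : x ∈ Function.support ((bump n k).normed volume) := h
  rw [ContDiffBump.support_normed_eq, mem_ball_zero_iff] at h1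
  exact absurd h1 (not_lt.mpr hx)

theorem moll_eq_convolution (k : ℕ) (u : X n → F) :
    moll k u = MeasureTheory.convolution (rho n k) u (ContinuousLinearMap.lsmul ℝ ℝ) volume := by
  funext x
  rfl

theorem Per.moll {u : X n → F} (hu : Per u) (k : ℕ) : Per (moll k u) := by
  intro v hv x
  unfold R214.moll
  congr 1
  funext y
  rw [show x + v - y = (x - y) + v by abel, hu v hv]

theorem Indep.moll {u : X n → F} {i : Fin n} (hu : Indep i u) (k : ℕ) : Indep i (moll k u) := by
  intro t x
  unfold R214.moll
  congr 1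
  funext y
  rw [show x + t • ev i - y = (x - y) + t • ev i by abel, hu t]

theorem locallyIntegrable_of_bdd {G : Type*} [NormedAddCommGroup G] {u : X n → G}
    (hu : AEStronglyMeasurable u volume) {C : ℝ} (hC : ∀ x, ‖u x‖ ≤ C) :
    LocallyIntegrable u volume := by
  intro x
  refine ⟨Metric.ball x 1, Metric.ball_mem_nhds x one_pos, ?_⟩
  exact Measure.integrableOn_of_bounded (M := C) measure_ball_lt_top.ne hu (ae_of_all _ hC)

theorem integrable_rho (k : ℕ) : Integrable (rho n k) := (bump n k).integrable_normed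

theorem aestronglyMeasurable_sub_left {G : Type*} [TopologicalSpace G] {u : X n → G}
    (hu : AEStronglyMeasurable u volume) (x : X n) :
    AEStronglyMeasurable (fun y => u (x - y)) volume :=
  hu.comp_measurePreserving (Measure.measurePreserving_sub_left volume x)

omit [CompleteSpace F] in
theorem integrable_rho_smul {u : X n → F} (hu : AEStronglyMeasurable u volume) {C : ℝ}
    (hC : ∀ x, ‖u x‖ ≤ C) (k : ℕ) (x : X n) : Integrable (fun y => rho n k y • u (x - y)) := by
  refine Integrable.mono' ((integrable_rho (n := n) k).mul_const C)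
    ((integrable_rho k).aestronglyMeasurable.smul (aestronglyMeasurable_sub_left hu x))
    (ae_of_all _ fun y => ?_)
  rw [norm_smul, Real.norm_of_nonneg (rho_nonneg k y)]
  exact mul_le_mul_of_nonneg_left (hC _) (rho_nonneg k y)

theorem contDiff_moll {u : X n → F} (hu : AEStronglyMeasurable u volume) {C : ℝ}
    (hC : ∀ x, ‖u x‖ ≤ C) (k : ℕ) : ContDiff ℝ ∞ (moll k u) := by
  rw [moll_eq_convolution]
  exact (hasCompactSupport_rho k).contDiff_convolution_left _ (contDiff_rho k)
    (locallyIntegrable_of_bdd hu hC)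

theorem norm_moll_le {u : X n → F} {C : ℝ} (hC : ∀ x, ‖u x‖ ≤ C) (k : ℕ) (x : X n) :
    ‖moll k u x‖ ≤ C := by
  have h := norm_integral_le_of_norm_le (f := fun y => rho n k y • u (x - y))
    ((integrable_rho (n := n) k).mul_const C) (ae_of_all _ fun y => by
      rw [norm_smul, Real.norm_of_nonneg (rho_nonneg k y)]
      exact mul_le_mul_of_nonneg_left (hC _) (rho_nonneg k y))
  rwa [integral_mul_const, integral_rho, one_mul] at h

theorem moll_mono {u v : X n → ℝ} (hu : AEStronglyMeasurable u volume)
    (hv : AEStronglyMeasurable v volume) {C : ℝ} (hCu : ∀ x, ‖u x‖ ≤ C) (hCv : ∀ x, ‖v x‖ ≤ C)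
    (h : ∀ x, u x ≤ v x) (k : ℕ) (x : X n) : moll k u x ≤ moll k v x := by
  refine integral_mono (integrable_rho_smul hu hCu k x) (integrable_rho_smul hv hCv k x) fun y => ?_
  exact mul_le_mul_of_nonneg_left (h _) (rho_nonneg k y)

theorem moll_const (c : F) (k : ℕ) (x : X n) : moll k (fun _ : X n => c) x = c := by
  unfold moll
  rw [integral_smul_const, integral_rho, one_smul]

theorem moll_clm {G : Type*} [NormedAddCommGroup G] [NormedSpace ℝ G] [CompleteSpace G]
    (L : F →L[ℝ] G) {u : X n → F} (hu : AEStronglyMeasurable u volume) {C : ℝ}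
    (hC : ∀ x, ‖u x‖ ≤ C) (k : ℕ) (x : X n) : moll k (fun y => L (u y)) x = L (moll k u x) := by
  unfold moll
  rw [← L.integral_comp_comm (integrable_rho_smul hu hC k x)]
  simp only [map_smul]

/-- uniform convergence for continuous periodic functions -/
theorem moll_unif {u : X n → F} (hu : Per u) (hc : Continuous u) {ε : ℝ} (hε : 0 < ε) :
    ∀ᶠ k in atTop, ∀ x, ‖moll k u x - u x‖ ≤ ε := by
  obtain ⟨δ, hδ, h⟩ := Metric.uniformContinuous_iff.mp (hu.uniformContinuous hc) ε hε
  have ht : Tendsto (fun k : ℕ => 1 / ((k : ℝ) + 1)) atTop (𝓝 0) :=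
    tendsto_one_div_add_atTop_nhds_zero_nat
  filter_upwards [ht.eventually (gt_mem_nhds hδ)] with k hk x
  rw [← dist_eq_norm, moll_eq_convolution]
  refine (bump n k).dist_normed_convolution_le hc.aestronglyMeasurable fun y hy => ?_
  exact (h (lt_trans (Metric.mem_ball.mp hy) hk)).le

/-- `ContDiffBump.ae_convolution_tendsto_right_of_locallyIntegrable` -/
theorem moll_tendsto_ae {u : X n → F} (hu : AEStronglyMeasurable u volume) {C : ℝ}
    (hC : ∀ x, ‖u x‖ ≤ C) : ∀ᵐ x, Tendsto (fun k => moll k u x) atTop (𝓝 (u x)) := by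
  have ht : Tendsto (fun k : ℕ => (bump n k).rOut) atTop (𝓝 0) :=
    tendsto_one_div_add_atTop_nhds_zero_nat
  have h := ContDiffBump.ae_convolution_tendsto_right_of_locallyIntegrable (μ := volume)
    (φ := fun k => bump n k) (K := 2) ht (Eventually.of_forall fun k => by
      show 1 / ((k : ℝ) + 1) ≤ 2 * (1 / (2 * ((k : ℝ) + 1)))
      have : (0 : ℝ) < (k : ℝ) + 1 := by positivity
      apply le_of_eq
      field_simp) (locallyIntegrable_of_bdd hu hC)
  exact h

theorem moll_tendsto_L1 {u : X n → F} (hu : AEStronglyMeasurable u volume) {C : ℝ}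
    (hC : ∀ x, ‖u x‖ ≤ C) :
    Tendsto (fun k => ∫ x in unitCell n, ‖moll k u x - u x‖) atTop (𝓝 0) := by
  have h := tendsto_integral_of_dominated_convergence (μ := volume.restrict (unitCell n))
    (F := fun k x => ‖moll k u x - u x‖) (f := fun _ => (0 : ℝ)) (fun _ => C + C)
    (fun k => (((contDiff_moll hu hC k).continuous.aestronglyMeasurable).sub hu.restrict).norm)
    (integrable_const _)
    (fun k => ae_of_all _ fun x => by
      rw [norm_norm]
      exact (norm_sub_le _ _).trans (add_le_add (norm_moll_le hC k x) (hC x)))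
    (ae_restrict_of_ae ((moll_tendsto_ae hu hC).mono fun x hx => by
      have := (hx.sub_const (u x)).norm
      rwa [sub_self, norm_zero] at this))
  simpa using h

/-! ### part B -/

theorem integrable_cell_prod_aux {κ : X n → ℝ} (hκ : Continuous κ) (hs : HasCompactSupport κ)
    {g : X n × X n → ℝ} (mg : Measurable g) {C : ℝ} (hC : ∀ p, ‖g p‖ ≤ C) :
    Integrable (fun p : X n × X n => κ p.2 * g p) ((volume.restrict (unitCell n)).prod volume) := by
  have : IsFiniteMeasure (volume.restrict (unitCell n)) :=
    ⟨by rw [Measure.restrict_apply_univ, volume_unitCell]; exact ENNReal.one_lt_top⟩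
  have h1 : Integrable (fun p : X n × X n => κ p.2) ((volume.restrict (unitCell n)).prod volume) :=
    (hκ.integrable_of_hasCompactSupport hs).comp_snd _
  exact h1.mul_bdd mg.aestronglyMeasurable (Eventually.of_forall hC)

/-- adjointness for a general continuous compactly supported kernel (Fubini + `integral_cell_add`) -/
theorem integral_cell_conv {κ : X n → ℝ} (hκ : Continuous κ) (hs : HasCompactSupport κ)
    {u v : X n → ℝ} (hu : Per u) (hv : Per v) (mu : Measurable u) (mv : Measurable v) {C : ℝ}
    (hCu : ∀ x, ‖u x‖ ≤ C) (hCv : ∀ x, ‖v x‖ ≤ C) :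
    ∫ x in unitCell n, v x * ∫ y, κ y * u (x - y) =
      ∫ x in unitCell n, (∫ y, κ (-y) * v (x - y)) * u x := by
  have hb : ∀ a b : X n, ‖v a * u b‖ ≤ C * C := fun a b => by
    rw [norm_mul]
    exact mul_le_mul (hCv a) (hCu b) (norm_nonneg _) ((norm_nonneg _).trans (hCv a))
  have i1 := integrable_cell_prod_aux hκ hs (g := fun p => v p.1 * u (p.1 - p.2)) (by fun_prop)
    (fun p => hb _ _)
  have i2 := integrable_cell_prod_aux hκ hs (g := fun p => v (p.1 + p.2) * u p.1) (by fun_prop)
    (fun p => hb _ _)
  calc ∫ x in unitCell n, v x * ∫ y, κ y * u (x - y)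
      = ∫ x in unitCell n, ∫ y, κ y * (v x * u (x - y)) := by
        refine integral_congr_ae (Eventually.of_forall fun x => ?_)
        show v x * ∫ y, κ y * u (x - y) = ∫ y, κ y * (v x * u (x - y))
        rw [← integral_const_mul]
        exact integral_congr_ae (Eventually.of_forall fun y => by ring)
    _ = ∫ y, ∫ x in unitCell n, κ y * (v x * u (x - y)) := integral_integral_swap i1
    _ = ∫ y, ∫ x in unitCell n, κ y * (v (x + y) * u x) := by
        refine integral_congr_ae (Eventually.of_forall fun y => ?_)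
        have hp : Per fun x => κ y * (v x * u (x - y)) := by
          intro w hw x
          show κ y * (v (x + w) * u (x + w - y)) = κ y * (v x * u (x - y))
          rw [hv w hw, add_sub_right_comm, hu w hw]
        show ∫ x in unitCell n, κ y * (v x * u (x - y)) = ∫ x in unitCell n, κ y * (v (x + y) * u x)
        rw [← integral_cell_add hp y]
        simp only [add_sub_cancel_right]
    _ = ∫ x in unitCell n, ∫ y, κ y * (v (x + y) * u x) := (integral_integral_swap i2).symm
    _ = ∫ x in unitCell n, (∫ y, κ (-y) * v (x - y)) * u x := by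
        refine integral_congr_ae (Eventually.of_forall fun x => ?_)
        show ∫ y, κ y * (v (x + y) * u x) = (∫ y, κ (-y) * v (x - y)) * u x
        rw [← integral_mul_const, ← integral_neg_eq_self]
        refine integral_congr_ae (Eventually.of_forall fun y => ?_)
        show κ (-y) * (v (x + -y) * u x) = κ (-y) * v (x - y) * u x
        rw [← sub_eq_add_neg]; ring

theorem integral_cell_moll {u v : X n → ℝ} (hu : Per u) (hv : Per v) (mu : Measurable u)
    (mv : Measurable v) {C : ℝ} (hCu : ∀ x, ‖u x‖ ≤ C) (hCv : ∀ x, ‖v x‖ ≤ C) (k : ℕ) :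
    ∫ x in unitCell n, v x * moll k u x = ∫ x in unitCell n, moll k v x * u x := by
  have := integral_cell_conv (contDiff_rho (n := n) k).continuous (hasCompactSupport_rho k)
    hu hv mu mv hCu hCv
  simpa only [moll, smul_eq_mul, rho_neg] using this

theorem pd_moll {u : X n → ℝ} (mu : Measurable u) {C : ℝ} (hCu : ∀ x, ‖u x‖ ≤ C) (k : ℕ) (i : Fin n)
    (x : X n) : pd i (moll k u) x = ∫ y, pd i (rho n k) y * u (x - y) := by
  have hl : LocallyIntegrable u volume :=
    (memLp_top_of_bound mu.aestronglyMeasurable C (Eventually.of_forall hCu)).locallyIntegrable le_top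
  have h1 : ContDiff ℝ 1 (rho n k) := (contDiff_rho k).of_le (by exact_mod_cast le_top)
  have hd := (hasCompactSupport_rho (n := n) k).hasFDerivAt_convolution_left
    (ContinuousLinearMap.lsmul ℝ ℝ) h1 hl x
  have he := ((hasCompactSupport_rho (n := n) k).fderiv ℝ).convolutionExists_left
    ((ContinuousLinearMap.lsmul ℝ ℝ : ℝ →L[ℝ] ℝ →L[ℝ] ℝ).precompL (X n))
    (h1.continuous_fderiv one_ne_zero) hl x
  show fderiv ℝ (moll k u) x (ev i) = _
  rw [moll_eq_convolution, hd.fderiv, convolution_def, ContinuousLinearMap.integral_apply he]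
  refine integral_congr_ae (Eventually.of_forall fun y => ?_)
  simp

theorem pd_rho_neg (k : ℕ) (i : Fin n) (y : X n) : pd i (rho n k) (-y) = - pd i (rho n k) y := by
  have hd : Differentiable ℝ (rho n k) := (contDiff_rho k).differentiable (by simp)
  have h : rho n k = fun x => rho n k (-x) := funext fun x => (rho_neg k x).symm
  have h2 : HasFDerivAt (fun x : X n => rho n k (-x))
      ((fderiv ℝ (rho n k) (-y)).comp (-ContinuousLinearMap.id ℝ (X n))) y :=
    (hd (-y)).hasFDerivAt.comp y (hasFDerivAt_id y).neg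
  rw [← h] at h2
  show fderiv ℝ (rho n k) (-y) (ev i) = - fderiv ℝ (rho n k) y (ev i)
  rw [h2.fderiv]
  simp

/-- integration by parts through the mollifier -/
theorem integral_cell_pd_moll {u v : X n → ℝ} (hu : Per u) (hv : Per v) (mu : Measurable u)
    (mv : Measurable v) {C : ℝ} (hCu : ∀ x, ‖u x‖ ≤ C) (hCv : ∀ x, ‖v x‖ ≤ C) (k : ℕ) (i : Fin n) :
    ∫ x in unitCell n, v x * pd i (moll k u) x = - ∫ x in unitCell n, pd i (moll k v) x * u x := by
  have h1 : ContDiff ℝ 1 (rho n k) := (contDiff_rho k).of_le (by exact_mod_cast le_top)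
  have hc : Continuous (pd i (rho n k)) :=
    (h1.continuous_fderiv one_ne_zero).clm_apply continuous_const
  have hs : HasCompactSupport (pd i (rho n k)) :=
    (hasCompactSupport_rho (n := n) k).fderiv_apply (𝕜 := ℝ) (ev i)
  have := integral_cell_conv hc hs hu hv mu mv hCu hCv
  simp only [pd_moll mu hCu, pd_moll mv hCv]
  rw [this, ← integral_neg]
  refine integral_congr_ae (Eventually.of_forall fun x => ?_)
  simp only [pd_rho_neg, neg_mul, integral_neg]

end Crest.Agent.R214
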