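import Crest.Agent.R214.BV0Dense

/-! Row 214, module BV0: Gauss-Green pairs and the perimeter. -/

set_option autoImplicit false

open MeasureTheory Set Filter Topology
open scoped ENNReal RealInnerProductSpace ContDiff symmDiff
open Crest.GeometryTopology.PeriodicPerimeter

noncomputable section

namespace Crest.Agent.R214

variable {n : ℕ} {E : Set (X n)} {μ : Measure (X n)} {w : X n → X n}

/-! ### part A -/

theorem perA_intOn {g : X n → ℝ} (hg : Per g) (hc : Continuous g) (A : Set (X n)) :
    IntegrableOn g (A ∩ unitCell n) :=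
  IntegrableOn.mono_set (hg.integrable hc (volume.restrict (unitCell n))) inter_subset_right

theorem perA_setInt (g : X n → ℝ) {A : Set (X n)} (hA : MeasurableSet A) :
    ∫ x in A ∩ unitCell n, g x = ∫ x in unitCell n, A.indicator g x := by
  rw [setIntegral_indicator hA, inter_comm]

theorem perA_meas (h : Measurable w) {φ : X n → X n} (hd : ContDiff ℝ 1 φ) :
    Measurable fun x => ⟪φ x, w x⟫ := hd.continuous.measurable.inner h

theorem GG.eq_coord (h : GG E μ w) {f : X n → ℝ} (hd : ContDiff ℝ 1 f) (hf : Per f) (i : Fin n) :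
    ∫ x in E ∩ unitCell n, pd i f x = ∫ x, f x * w x i ∂μ := by
  have k := h.eq (fun y => f y • ev i) (hd.smul contDiff_const) (fun v hv x => by simp only [hf v hv x])
  simp only [divergence_smul_ev (hd.differentiable one_ne_zero), real_inner_smul_left,
    EuclideanSpace.inner_single_left, map_one, one_mul] at k
  exact k

theorem GG.of_coord [IsFiniteMeasure μ] (hp : Per w) (hm : Measurable w) (hi : Integrable w μ)
    (h : ∀ (i : Fin n) (f : X n → ℝ), ContDiff ℝ 1 f → Per f →
      ∫ x in E ∩ unitCell n, pd i f x = ∫ x, f x * w x i ∂μ) : GG E μ w := by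
  refine ⟨inferInstance, hp, hm, hi, fun φ hd hφ => ?_⟩
  have hd' : ∀ i, ContDiff ℝ 1 fun y => φ y i := fun i => contDiff_euclidean.1 hd i
  have hp' : ∀ i, Per fun y => φ y i := fun i v hv x => by simp only [hφ v hv x]
  simp only [divergence_eq_sum (hd.differentiable one_ne_zero)]
  rw [integral_finsetSum _ fun i _ => perA_intOn (g := pd i fun y => φ y i)
    (fun v hv x => by simp only [pd, (hp' i).fderiv v hv x])
    (((hd' i).continuous_fderiv one_ne_zero).clm_apply continuous_const) E]
  simp only [fun i => h i _ (hd' i) (hp' i)]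
  rw [← integral_finsetSum _ fun i _ => ?_]
  · refine integral_congr_ae (Eventually.of_forall fun x => ?_)
    simp only [PiLp.inner_apply, RCLike.inner_apply, conj_trivial, mul_comm]
  · obtain ⟨C, hC⟩ := (hp' i).bounded (hd' i).continuous
    exact (hi.eval_piLp i).bdd_mul (hd' i).continuous.aestronglyMeasurable (Eventually.of_forall hC)

/-- the measure may be moved by lattice vectors (e.g. `r = frac`, or into a shifted cell) -/
theorem GG.remap (h : GG E μ w) {r : X n → X n} (hr : Measurable r)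
    (hi : ∀ x, HasIntegerCoords (r x - x)) : GG E (μ.map r) w := by
  have := h.fin
  have key : ∀ {F : Type} {g : X n → F}, Per g → ∀ x, g (r x) = g x := fun {_ g} hg x => by
    rw [← hg _ (hi x) x, add_sub_cancel]
  refine ⟨inferInstance, h.per, h.meas, ?_, fun φ hd hφ => ?_⟩
  · rw [integrable_map_measure h.meas.aestronglyMeasurable hr.aemeasurable]
    exact h.int.congr (Eventually.of_forall fun x => (key h.per x).symm)
  · rw [integral_map hr.aemeasurable (perA_meas h.meas hd).aestronglyMeasurable, h.eq φ hd hφ]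
    simp only [key h.per, key hφ]

theorem GG.compl (h : GG E μ w) (hE : MeasurableSet E) : GG Eᶜ μ fun x => - w x := by
  refine ⟨h.fin, fun v hv x => by simp only [h.per v hv x], h.meas.neg, h.int.neg,
    fun φ hd hφ => ?_⟩
  have k := integral_inter_add_sdiff (μ := volume) (s := unitCell n) hE
    (hφ.divergence.integrable (continuous_divergence hd) _)
  rw [integral_cell_divergence hφ hd, inter_comm, h.eq φ hd hφ, Set.sdiff_eq, inter_comm] at k
  simp only [inner_neg_right, integral_neg]
  linarith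

theorem GG.congr (h : GG E μ w) {E' : Set (X n)}
    (hE : (E' ∩ unitCell n : Set (X n)) =ᵐ[volume] (E ∩ unitCell n : Set (X n))) : GG E' μ w :=
  ⟨h.fin, h.per, h.meas, h.int, fun φ hd hφ => (setIntegral_congr_set hE).trans (h.eq φ hd hφ)⟩

theorem GG.translate (h : GG E μ w) (hE : MeasurableSet E) (hp : IsLatticePeriodic E) (c : X n) :
    GG {x | x - c ∈ E} (μ.map fun x => x + c) fun x => w (x - c) := by
  classical
  have := h.fin
  have hm : Measurable fun x => w (x - c) := h.meas.comp (measurable_sub_const c)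
  have hE' : MeasurableSet {x | x - c ∈ E} := measurable_sub_const c hE
  refine ⟨inferInstance, fun v hv x => by simp only [add_sub_right_comm, h.per v hv], hm, ?_,
    fun φ hd hφ => ?_⟩
  · rw [integrable_map_measure hm.aestronglyMeasurable (measurable_add_const c).aemeasurable]
    exact h.int.congr (Eventually.of_forall fun x => by simp)
  · rw [integral_map (measurable_add_const c).aemeasurable (perA_meas hm hd).aestronglyMeasurable]
    simp only [add_sub_cancel_right]
    rw [← h.eq (fun x => φ (x + c)) (hd.comp (contDiff_id.add contDiff_const)) (hφ.add_const c),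
      perA_setInt _ hE', perA_setInt _ hE, ← integral_cell_add (c := c)]
    · refine integral_congr_ae (Eventually.of_forall fun x => ?_)
      simp only [indicator, divergence, fderiv_comp_add_right]
      exact if_congr (by simp) rfl rfl
    · intro v hv x
      simp only [indicator, hφ.divergence v hv x]
      exact if_congr (by simp only [mem_ofPred_eq, add_sub_right_comm, hp v hv]) rfl rfl

theorem le_perimeter (E : Set (X n)) {φ : X n → X n} (hd : ContDiff ℝ 1 φ) (hp : Per φ)
    (h1 : ∀ x, ‖φ x‖ ≤ 1) :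
    ENNReal.ofReal (∫ x in E ∩ unitCell n, divergence φ x) ≤ periodicPerimeter E :=
  le_iSup_of_le (f := fun φ : {φ : X n → X n // IsAdmissibleField φ} =>
    ENNReal.ofReal (∫ x in E ∩ unitCell n, divergence φ.1 x)) ⟨φ, hd, hp, h1⟩ le_rfl

theorem perimeter_le_of {P : ℝ≥0∞} (h : ∀ φ : X n → X n, ContDiff ℝ 1 φ → Per φ → (∀ x, ‖φ x‖ ≤ 1) →
    ENNReal.ofReal (∫ x in E ∩ unitCell n, divergence φ x) ≤ P) : periodicPerimeter E ≤ P :=
  iSup_le fun φ => h φ.1 φ.2.1 φ.2.2.1 φ.2.2.2

/-- parametrised upper bound (no injectivity, no periodicity of the data) -/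
theorem perimeter_le_param {Ω : Type*} [MeasurableSpace Ω] {m : Measure Ω} {r : Ω → X n} {a : Ω → X n}
    (h : ∀ φ : X n → X n, ContDiff ℝ 1 φ → Per φ →
      ∫ x in E ∩ unitCell n, divergence φ x = ∫ z, ⟪φ (r z), a z⟫ ∂m) :
    periodicPerimeter E ≤ ∫⁻ z, ‖a z‖ₑ ∂m := by
  refine perimeter_le_of fun φ hd hp h1 => ?_
  rw [h φ hd hp]
  refine (Real.ofReal_le_enorm _).trans ((enorm_integral_le_lintegral_enorm _).trans
    (lintegral_mono fun z => ?_))
  rw [← ofReal_norm, ← ofReal_norm]
  exact ENNReal.ofReal_le_ofReal ((norm_inner_le_norm _ _).trans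
    (mul_le_of_le_one_left (norm_nonneg _) (h1 _)))

/-- lower semicontinuity -/
theorem perimeter_le_liminf {ι : Type*} {l : Filter ι} {Es : ι → Set (X n)}
    (hE : MeasurableSet E) (hEs : ∀ k, MeasurableSet (Es k))
    (h : Tendsto (fun k => volume ((Es k ∆ E) ∩ unitCell n)) l (𝓝 0)) :
    periodicPerimeter E ≤ liminf (fun k => periodicPerimeter (Es k)) l := by
  rcases l.eq_or_neBot with rfl | hl
  · simp
  refine perimeter_le_of fun φ hd hp h1 => ?_
  have hi : Integrable (divergence φ) (volume.restrict (unitCell n)) :=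
    hp.divergence.integrable (continuous_divergence hd) _
  have t1 : Tendsto (fun k => ∫ x in Es k ∆ E, ‖divergence φ x‖ ∂(volume.restrict (unitCell n))) l
      (𝓝 0) := hi.norm.tendsto_setIntegral_nhds_zero (h.congr fun k => by
        simp only [Function.comp, Measure.restrict_apply ((hEs k).symmDiff hE)])
  have t2 : Tendsto (fun k => ∫ x in Es k ∩ unitCell n, divergence φ x) l
      (𝓝 (∫ x in E ∩ unitCell n, divergence φ x)) := by
    rw [tendsto_iff_norm_sub_tendsto_zero]
    refine squeeze_zero (fun _ => norm_nonneg _) (fun k => ?_) t1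
    rw [perA_setInt _ (hEs k), perA_setInt _ hE, ← integral_sub (hi.indicator (hEs k))
      (hi.indicator hE), ← integral_indicator ((hEs k).symmDiff hE)]
    refine norm_integral_le_of_norm_le (hi.norm.indicator ((hEs k).symmDiff hE))
      (Eventually.of_forall fun x => ?_)
    by_cases a : x ∈ Es k <;> by_cases b : x ∈ E <;> simp [indicator, mem_symmDiff, a, b]
  rw [← ((ENNReal.continuous_ofReal.tendsto _).comp t2).liminf_eq]
  exact liminf_le_liminf (Eventually.of_forall fun k => le_perimeter _ hd hp h1)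

/-! ### part B -/

/-- `≥`: approximate `w / ‖w‖` in `L¹(‖w‖ μ)` by `exists_smooth_approx` -/
theorem GG.perimeter_eq (h : GG E μ w) : periodicPerimeter E = ∫⁻ x, ‖w x‖ₑ ∂μ := by
  have := h.fin
  refine le_antisymm (perimeter_le_param (r := id) (a := w) (m := μ) fun φ hd hp => h.eq φ hd hp) ?_
  rw [← ofReal_integral_norm_eq_lintegral_enorm h.int]
  refine ENNReal.le_of_forall_pos_le_add fun ε hε _ => ?_
  have mw : Measurable fun x => ‖w x‖₊ := h.meas.nnnorm
  have : IsFiniteMeasure (μ.withDensity fun x => ((‖w x‖₊ : NNReal) : ℝ≥0∞)) :=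
    isFiniteMeasure_withDensity h.int.2.ne
  have hfp : Per fun x => ‖w x‖⁻¹ • w x := fun v hv x => by simp only [h.per v hv x]
  have hfm : Measurable fun x => ‖w x‖⁻¹ • w x := h.meas.norm.inv.smul h.meas
  have hf1 : ∀ x, ‖‖w x‖⁻¹ • w x‖ ≤ 1 := fun x => by
    rw [norm_smul, norm_inv, norm_norm]
    exact inv_mul_le_one
  obtain ⟨g, gd, gp, g1, ge⟩ := exists_smooth_approx
    (μ.withDensity fun x => ((‖w x‖₊ : NNReal) : ℝ≥0∞)) hfp hfm hf1 (ε := (ε : ℝ)) hε
  rw [integral_withDensity_eq_integral_smul mw] at ge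
  have gd1 : ContDiff ℝ 1 g := gd.of_le (by simp)
  have gm : Measurable g := gd.continuous.measurable
  have i1 : Integrable (fun x => ‖w x‖₊ • ‖g x - ‖w x‖⁻¹ • w x‖) μ := by
    refine (h.int.norm.const_mul 2).mono' ?_ (Eventually.of_forall fun x => ?_)
    · exact (mw.smul (gm.sub hfm).norm).aestronglyMeasurable
    · rw [NNReal.smul_def, smul_eq_mul, coe_nnnorm, norm_mul, norm_norm, norm_norm, mul_comm]
      refine mul_le_mul_of_nonneg_right ?_ (norm_nonneg _)
      refine (norm_sub_le _ _).trans ?_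
      linarith [g1 x, hf1 x]
  have i2 : Integrable (fun x => ⟪g x, w x⟫) μ := by
    refine h.int.norm.mono' (gm.inner h.meas).aestronglyMeasurable (Eventually.of_forall fun x => ?_)
    refine (norm_inner_le_norm _ _).trans ?_
    exact mul_le_of_le_one_left (norm_nonneg _) (g1 x)
  have key : ∫ x, ‖w x‖ ∂μ ≤ (∫ x, ⟪g x, w x⟫ ∂μ) + ε := by
    refine le_trans ?_ (add_le_add_right ge _)
    rw [← integral_add i2 i1]
    refine integral_mono h.int.norm (i2.add i1) fun x => ?_
    have e1 : ⟪‖w x‖⁻¹ • w x, w x⟫ = ‖w x‖ := by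
      rw [real_inner_smul_left, real_inner_self_eq_norm_sq]
      by_cases hw : ‖w x‖ = 0
      · simp [hw]
      · field_simp
    have e2 : ⟪g x - ‖w x‖⁻¹ • w x, w x⟫ = ⟪g x, w x⟫ - ‖w x‖ := by rw [inner_sub_left, e1]
    have e3 := abs_real_inner_le_norm (g x - ‖w x‖⁻¹ • w x) (w x)
    have e4 := neg_abs_le ⟪g x - ‖w x‖⁻¹ • w x, w x⟫
    simp only [NNReal.smul_def, smul_eq_mul, coe_nnnorm]
    nlinarith
  calc ENNReal.ofReal (∫ x, ‖w x‖ ∂μ) ≤ ENNReal.ofReal ((∫ x, ⟪g x, w x⟫ ∂μ) + ε) :=
        ENNReal.ofReal_le_ofReal key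
    _ ≤ ENNReal.ofReal (∫ x, ⟪g x, w x⟫ ∂μ) + ENNReal.ofReal ε := ENNReal.ofReal_add_le
    _ ≤ periodicPerimeter E + ε := by
        rw [ENNReal.ofReal_coe_nnreal, ← h.eq g gd1 gp]
        exact add_le_add_left (le_perimeter E gd1 gp g1) _

theorem GG.perimeter_toReal (h : GG E μ w) : (periodicPerimeter E).toReal = ∫ x, ‖w x‖ ∂μ := by
  rw [h.perimeter_eq, ← ofReal_integral_norm_eq_lintegral_enorm h.int,
    ENNReal.toReal_ofReal (integral_nonneg fun x => norm_nonneg _)]

theorem GG.perimeter_ne_top (h : GG E μ w) : periodicPerimeter E ≠ ⊤ := by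
  rw [h.perimeter_eq]
  exact h.int.2.ne

theorem GG.integral_smul_apply (h : GG E μ w) {f : X n → ℝ} (hd : ContDiff ℝ 1 f) (hf : Per f)
    (i : Fin n) : (∫ x, f x • w x ∂μ) i = ∫ x in E ∩ unitCell n, pd i f x := by
  obtain ⟨C, hC⟩ := hf.bounded hd.continuous
  have hi : Integrable (fun x => f x • w x) μ := by
    refine (h.int.norm.const_mul C).mono'
      (hd.continuous.measurable.smul h.meas).aestronglyMeasurable (Eventually.of_forall fun x => ?_)
    rw [norm_smul]
    exact mul_le_mul_of_nonneg_right (hC x) (norm_nonneg _)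
  have := (EuclideanSpace.proj (𝕜 := ℝ) i).integral_comp_comm hi
  rw [h.eq_coord hd hf i]
  simpa using this.symm

theorem GG.lintegral_hom_eq (h : GG E μ w) {μ' : Measure (X n)} {w' : X n → X n} (h' : GG E μ' w')
    {H : X n → X n → ℝ≥0∞} (hH : Measurable (Function.uncurry H)) (hp : Per H)
    (hom : ∀ x v (c : ℝ), 0 ≤ c → H x (c • v) = ENNReal.ofReal c * H x v) :
    ∫⁻ x, H x (w x) ∂μ = ∫⁻ x, H x (w' x) ∂μ' := by
  have := h.fin
  have := h'.fin
  refine Crest.Agent.R214.lintegral_hom_eq h.per h'.per h.meas h'.meas h.int h'.int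
    (fun f hd hf => ?_) hH hp hom
  ext i
  rw [h.integral_smul_apply hd hf i, h'.integral_smul_apply hd hf i]

/-- a parametrised formula for one partial derivative extends to bounded measurable test functions -/
theorem GG.coord_param (h : GG E μ w) (i : Fin n) {Ω : Type*} [MeasurableSpace Ω] {m : Measure Ω}
    {r : Ω → X n} (hr : Measurable r) {a : Ω → ℝ} (ma : Measurable a) (ha : Integrable a m)
    (hf : ∀ f : X n → ℝ, ContDiff ℝ 1 f → Per f →
      ∫ x in E ∩ unitCell n, pd i f x = ∫ z, f (r z) * a z ∂m)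
    {f : X n → ℝ} (hp : Per f) (hm : Measurable f) {C : ℝ} (hC : ∀ x, ‖f x‖ ≤ C) :
    ∫ x, f x * w x i ∂μ = ∫ z, f (r z) * a z ∂m := by
  have mi : Measurable fun x => w x i := (EuclideanSpace.proj (𝕜 := ℝ) i).continuous.measurable.comp h.meas
  have ii : Integrable (fun x => w x i) μ := (EuclideanSpace.proj (𝕜 := ℝ) i).integrable_comp h.int
  exact ext_of_per (μ₁ := μ) (μ₂ := m) (r₁ := id) measurable_id hr mi ma ii ha
    (fun g gd gp => (h.eq_coord gd gp i).symm.trans (hf g gd gp)) hp hm hC

/-- integration by parts for the mollified indicator -/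
theorem GG.integral_pd_moll (h : GG E μ w) (hE : MeasurableSet E) (hp : IsLatticePeriodic E)
    {v : X n → ℝ} (hv : Per v) (mv : Measurable v) {C : ℝ} (hC : ∀ x, ‖v x‖ ≤ C) (k : ℕ) (i : Fin n) :
    ∫ x in unitCell n, v x * pd i (moll k (chi E)) x = - ∫ x, moll k v x * w x i ∂μ := by
  have c1 : ∀ x, ‖chi E x‖ ≤ max C 1 := fun x => by
    refine le_trans ?_ (le_max_right _ _)
    unfold chi
    by_cases hx : x ∈ E <;> simp [hx]
  have c2 : ∀ x, ‖v x‖ ≤ max C 1 := fun x => (hC x).trans (le_max_left _ _)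
  rw [integral_cell_pd_moll (Per.chi hp) hv (measurable_chi hE) mv c1 c2 k i,
    ← h.eq_coord ((contDiff_moll mv.aestronglyMeasurable hC k).of_le (by simp)) (hv.moll k) i,
    inter_comm, ← setIntegral_indicator hE]
  congr 1
  refine integral_congr_ae (Eventually.of_forall fun x => ?_)
  unfold chi
  by_cases hx : x ∈ E <;> simp [hx]

end Crest.Agent.R214
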