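import Crest.Agent.R214.BV0Per

/-! Row 214, module BV0: existence of the perimeter measure and of the unit normal. -/

set_option autoImplicit false

open MeasureTheory Set Filter Topology
open scoped ENNReal RealInnerProductSpace ContDiff CompactlySupported
open Crest.GeometryTopology.PeriodicPerimeter

noncomputable section

namespace Crest.Agent.R214

variable {n : ℕ}

/-- Hahn-Banach and Riesz-Markov-Kakutani -/
theorem hb_riesz {K V : Type*} [MetricSpace K] [CompactSpace K] [MeasurableSpace K] [BorelSpace K]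
    [AddCommGroup V] [Module ℝ V] (ι : V →ₗ[ℝ] C(K, ℝ)) (L : V →ₗ[ℝ] ℝ) {P : ℝ} (hP : 0 ≤ P)
    (h : ∀ v (c : ℝ), 0 ≤ c → (∀ k, ι v k ≤ c) → L v ≤ P * c) :
    ∃ Λ : Measure K, IsFiniteMeasure Λ ∧ Λ univ ≤ ENNReal.ofReal P ∧ ∀ v, L v = ∫ k, ι v k ∂Λ := by
  obtain ⟨s, hs⟩ := ι.rangeRestrict.exists_rightInverse_of_surjective ι.range_rangeRestrict
  have hs' : ∀ w : LinearMap.range ι, ι (s w) = w := fun w =>
    congrArg Subtype.val (LinearMap.congr_fun hs w)
  have hle : ∀ (f : C(K, ℝ)) (k : K), max (f k) 0 ≤ ‖f ⊔ 0‖ := fun f k =>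
    (le_abs_self _).trans ((f ⊔ 0).norm_coe_le_norm k)
  have hN : ∀ v, L v ≤ P * ‖ι v ⊔ 0‖ := fun v =>
    h v _ (norm_nonneg _) fun k => (le_max_left _ _).trans (hle _ k)
  obtain ⟨g, hg, hgN⟩ := exists_extension_of_le_sublinear
    (⟨LinearMap.range ι, L.comp s⟩ : C(K, ℝ) →ₗ.[ℝ] ℝ) (fun f => P * ‖f ⊔ 0‖)
    (fun c hc f => by
      have e : (c • f) ⊔ 0 = c • (f ⊔ 0) := by
        ext k
        simp only [ContinuousMap.sup_apply, ContinuousMap.smul_apply, ContinuousMap.zero_apply,
          smul_eq_mul]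
        rw [mul_max_of_nonneg _ _ hc.le, mul_zero]
      rw [e, norm_smul, Real.norm_of_nonneg hc.le]
      ring)
    (fun f f' => by
      rw [← mul_add]
      refine mul_le_mul_of_nonneg_left ?_ hP
      refine (ContinuousMap.norm_le _ (by positivity)).2 fun k => ?_
      simp only [ContinuousMap.sup_apply, ContinuousMap.add_apply, ContinuousMap.zero_apply]
      rw [Real.norm_of_nonneg (le_max_right _ _)]
      have h1 := hle f k
      have h2 := hle f' k
      refine max_le ?_ (by positivity)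
      linarith [le_max_left (f k) 0, le_max_left (f' k) 0])
    (fun w => by
      have := hN (s w)
      rw [hs'] at this
      exact this)
  have hz : ∀ v, ι v = 0 → L v ≤ 0 := fun v hv => by simpa [hv] using hN v
  have hLg : ∀ v, L v = g (ι v) := by
    intro v
    have h1 : g (ι v) = L (s ⟨ι v, LinearMap.mem_range_self ι v⟩) :=
      hg ⟨ι v, LinearMap.mem_range_self ι v⟩
    have h2 := hz (v - s ⟨ι v, LinearMap.mem_range_self ι v⟩) (by rw [map_sub, hs', sub_self])
    have h3 := hz (s ⟨ι v, LinearMap.mem_range_self ι v⟩ - v) (by rw [map_sub, hs', sub_self])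
    rw [map_sub] at h2 h3
    linarith
  have hpos : ∀ f : C(K, ℝ), (∀ k, f k ≤ 0) → g f ≤ 0 := fun f hf => by
    have e : f ⊔ 0 = 0 := by
      ext k
      simp only [ContinuousMap.sup_apply, ContinuousMap.zero_apply]
      exact max_eq_right (hf k)
    simpa [e] using hgN f
  let Λ : C_c(K, ℝ) →ₚ[ℝ] ℝ :=
    { toFun f := g f.toContinuousMap
      map_add' f f' := by
        rw [← map_add]
        rfl
      map_smul' c f := by
        rw [RingHom.id_apply, ← map_smul]
        rfl
      monotone' f f' hff' := by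
        have := hpos (f.toContinuousMap - f'.toContinuousMap) fun k => sub_nonpos.2 (hff' k)
        rw [map_sub] at this
        show g f.toContinuousMap ≤ g f'.toContinuousMap
        linarith }
  have hint : ∀ φ : C(K, ℝ), ∫ x, φ x ∂(RealRMK.rieszMeasure Λ) = g φ := fun φ =>
    RealRMK.integral_rieszMeasure Λ ⟨φ, HasCompactSupport.of_compactSpace _⟩
  refine ⟨RealRMK.rieszMeasure Λ, inferInstance, ?_, fun v => by rw [hint, hLg]⟩
  have h1 := hint 1
  have h2 := hgN 1
  have h3 : ‖(1 : C(K, ℝ)) ⊔ 0‖ ≤ 1 := (ContinuousMap.norm_le _ zero_le_one).2 fun k => by simp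
  simp only [ContinuousMap.one_apply, integral_const, smul_eq_mul, mul_one] at h1
  rw [← ofReal_measureReal]
  refine ENNReal.ofReal_le_ofReal ?_
  rw [h1]
  nlinarith

/-- the periodic `C¹` fields -/
def fields (n : ℕ) : Submodule ℝ (X n → X n) where
  carrier := {φ | ContDiff ℝ 1 φ ∧ Per φ}
  add_mem' := fun {a b} ha hb => ⟨ha.1.add hb.1, fun v hv x => by
    simp only [Pi.add_apply, ha.2 v hv x, hb.2 v hv x]⟩
  zero_mem' := ⟨contDiff_const, fun _ _ _ => rfl⟩
  smul_mem' := fun c {a} ha => ⟨ha.1.const_smul c, fun v hv x => by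
    simp only [Pi.smul_apply, ha.2 v hv x]⟩

theorem divergence_add' {a b : X n → X n} (ha : ContDiff ℝ 1 a) (hb : ContDiff ℝ 1 b) (x : X n) :
    divergence (a + b) x = divergence a x + divergence b x := by
  unfold divergence
  rw [fderiv_add (ha.differentiable one_ne_zero x) (hb.differentiable one_ne_zero x),
    ← Finset.sum_add_distrib]
  rfl

theorem divergence_smul' {a : X n → X n} (ha : ContDiff ℝ 1 a) (c : ℝ) (x : X n) :
    divergence (c • a) x = c * divergence a x := by
  unfold divergence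
  rw [fderiv_const_smul (ha.differentiable one_ne_zero x), Finset.mul_sum]
  rfl

/-- the flux functional -/
def flux (E : Set (X n)) : fields n →ₗ[ℝ] ℝ where
  toFun φ := ∫ x in E ∩ unitCell n, divergence φ.1 x
  map_add' a b := by
    have : IsFiniteMeasure (volume.restrict (E ∩ unitCell n)) :=
      isFiniteMeasure_of_le _ (Measure.restrict_mono inter_subset_right le_rfl)
    rw [← integral_add (a.2.2.divergence.integrable (continuous_divergence a.2.1) _)
      (b.2.2.divergence.integrable (continuous_divergence b.2.1) _)]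
    exact integral_congr_ae (Eventually.of_forall fun x => divergence_add' a.2.1 b.2.1 x)
  map_smul' c a := by
    rw [RingHom.id_apply, smul_eq_mul, ← integral_const_mul]
    exact integral_congr_ae (Eventually.of_forall fun x => divergence_smul' a.2.1 c x)

theorem flux_le {E : Set (X n)} (hP : periodicPerimeter E ≠ ⊤) (φ : fields n) {c : ℝ} (hc : 0 ≤ c)
    (h : ∀ x, ‖φ.1 x‖ ≤ c) : flux E φ ≤ (periodicPerimeter E).toReal * c := by
  rcases hc.eq_or_lt with rfl | hc
  · have : φ = 0 := Subtype.ext (funext fun x => norm_le_zero_iff.1 (h x))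
    rw [this, map_zero, mul_zero]
  · have h1 := le_perimeter E (c⁻¹ • φ).2.1 (c⁻¹ • φ).2.2 fun x => by
      show ‖c⁻¹ • φ.1 x‖ ≤ 1
      rw [norm_smul, Real.norm_of_nonneg (inv_pos.2 hc).le]
      exact (inv_mul_le_iff₀ hc).2 (by simpa using h x)
    have h2 : flux E (c⁻¹ • φ) ≤ (periodicPerimeter E).toReal :=
      (ENNReal.ofReal_le_iff_le_toReal hP).1 h1
    rw [map_smul, smul_eq_mul, inv_mul_le_iff₀ hc] at h2
    linarith

theorem norm_le_of_mem_cell {x : X n} (hx : x ∈ unitCell n) : ‖x‖ ≤ Real.sqrt n := by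
  rw [EuclideanSpace.norm_eq]
  refine Real.sqrt_le_sqrt ?_
  calc ∑ i, ‖x i‖ ^ 2 ≤ ∑ _i : Fin n, (1 : ℝ) := Finset.sum_le_sum fun i _ => by
        have := hx i
        rw [Real.norm_of_nonneg this.1]
        nlinarith [this.1, this.2]
    _ = n := by simp

theorem exists_GG_aux {E : Set (X n)} (hP : periodicPerimeter E ≠ ⊤) :
    ∃ (σ : Measure (X n)) (w : X n → X n), GG E σ w ∧ (∀ x, ‖w x‖ ≤ 1) ∧ σ (unitCell n)ᶜ = 0 ∧
      σ univ ≤ periodicPerimeter E := by
  let B₀ := Metric.closedBall (0 : X n) (Real.sqrt n)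
  let B := Metric.closedBall (0 : X n) 1
  have : CompactSpace B₀ := isCompact_iff_compactSpace.1 (isCompact_closedBall _ _)
  have : CompactSpace B := isCompact_iff_compactSpace.1 (isCompact_closedBall _ _)
  have : Nonempty B := ⟨⟨0, Metric.mem_closedBall_self zero_le_one⟩⟩
  have hB : ∀ u : B, ‖(u : X n)‖ ≤ 1 := fun u => mem_closedBall_zero_iff.1 u.2
  let ι : fields n →ₗ[ℝ] C(B₀ × B, ℝ) :=
    { toFun φ := ⟨fun k => ⟪φ.1 k.1, (k.2 : X n)⟫, by
        have := φ.2.1.continuous
        fun_prop⟩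
      map_add' a b := by
        ext k
        exact inner_add_left (𝕜 := ℝ) (a.1 k.1) (b.1 k.1) (k.2 : X n)
      map_smul' c a := by
        ext k
        exact real_inner_smul_left (a.1 k.1) (k.2 : X n) c }
  obtain ⟨Λ, hΛ, hΛP, hL⟩ := hb_riesz ι (flux E) (P := (periodicPerimeter E).toReal)
    ENNReal.toReal_nonneg fun φ c hc h => flux_le hP φ hc fun x => by
      rw [← φ.2.2.comp_frac x]
      have hx : frac x ∈ B₀ := mem_closedBall_zero_iff.2 (norm_le_of_mem_cell (frac_mem x))
      by_cases h0 : φ.1 (frac x) = 0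
      · rw [h0, norm_zero]
        exact hc
      · have hn : 0 < ‖φ.1 (frac x)‖ := norm_pos_iff.2 h0
        have hu : ‖φ.1 (frac x)‖⁻¹ • φ.1 (frac x) ∈ B := mem_closedBall_zero_iff.2 (by
          rw [norm_smul, Real.norm_of_nonneg (inv_pos.2 hn).le, inv_mul_cancel₀ hn.ne'])
        have := h (⟨frac x, hx⟩, ⟨_, hu⟩)
        change ⟪φ.1 (frac x), ‖φ.1 (frac x)‖⁻¹ • φ.1 (frac x)⟫ ≤ c at this
        rw [real_inner_smul_right, real_inner_self_eq_norm_mul_norm, ← mul_assoc,
          inv_mul_cancel₀ hn.ne', one_mul] at this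
        exact this
  rw [ENNReal.ofReal_toReal hP] at hΛP
  have hT : Measurable fun k : B₀ × B => ((frac (k.1 : X n), k.2) : X n × B) :=
    (measurable_frac.comp (measurable_subtype_coe.comp measurable_fst)).prodMk measurable_snd
  let ρ : Measure (X n × B) := Λ.map fun k => (frac (k.1 : X n), k.2)
  let ν₀ : X n → X n := fun x => ∫ u, (u : X n) ∂ρ.condKernel x
  have hν₀m : Measurable ν₀ :=
    (StronglyMeasurable.integral_kernel_prod_right' (κ := ρ.condKernel)
      (f := fun p : X n × B => (p.2 : X n))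
      (continuous_subtype_val.comp continuous_snd).stronglyMeasurable).measurable
  have hν₀ : ∀ x, ‖ν₀ x‖ ≤ 1 := fun x => by
    simpa using norm_integral_le_of_norm_le_const (μ := ρ.condKernel x)
      (f := fun u : B => (u : X n)) (C := 1) (Eventually.of_forall hB)
  have hc : ρ.fst (unitCell n)ᶜ = 0 := by
    rw [Measure.fst_apply measurableSet_unitCell.compl,
      Measure.map_apply hT (measurable_fst measurableSet_unitCell.compl)]
    convert measure_empty (μ := Λ)
    ext k
    simp [frac_mem]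
  have hae : ∀ᵐ x ∂ρ.fst, x ∈ unitCell n := hc
  refine ⟨ρ.fst, fun x => ν₀ (frac x), ⟨inferInstance, fun v hv x => by rw [per_frac v hv x],
    hν₀m.comp measurable_frac, ?_, fun φ hd hp => ?_⟩, fun x => hν₀ _, hc, ?_⟩
  · exact Integrable.of_bound (hν₀m.comp measurable_frac).aestronglyMeasurable 1
      (Eventually.of_forall fun x => hν₀ _)
  · have hcont : Continuous fun p : X n × B => ⟪φ p.1, (p.2 : X n)⟫ := by
      have := hd.continuous
      fun_prop
    obtain ⟨C, hC⟩ := hp.bounded hd.continuous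
    have hint : Integrable (fun p : X n × B => ⟪φ p.1, (p.2 : X n)⟫) (ρ.fst.compProd ρ.condKernel) :=
      Integrable.of_bound hcont.aestronglyMeasurable C (Eventually.of_forall fun p =>
        (norm_inner_le_norm _ _).trans (by
          nlinarith [hC p.1, hB p.2, norm_nonneg (φ p.1), norm_nonneg (p.2 : X n)]))
    have e1 : ∫ x in E ∩ unitCell n, divergence φ x = ∫ p : X n × B, ⟪φ p.1, (p.2 : X n)⟫ ∂ρ := by
      rw [integral_map hT.aemeasurable hcont.aestronglyMeasurable]
      refine (hL ⟨φ, hd, hp⟩).trans (integral_congr_ae (Eventually.of_forall fun k => ?_))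
      show ⟪φ k.1, (k.2 : X n)⟫ = ⟪φ (frac k.1), (k.2 : X n)⟫
      rw [hp.comp_frac]
    rw [e1]
    conv_lhs => rw [← ρ.disintegrate ρ.condKernel]
    rw [Measure.integral_compProd hint]
    refine integral_congr_ae (hae.mono fun x hx => ?_)
    show ∫ u : B, ⟪φ x, (u : X n)⟫ ∂ρ.condKernel x = ⟪φ x, ν₀ (frac x)⟫
    rw [frac_of_mem hx]
    exact integral_inner (Integrable.of_bound continuous_subtype_val.aestronglyMeasurable 1
      (Eventually.of_forall hB)) _
  · rw [Measure.fst_univ, Measure.map_apply hT MeasurableSet.univ]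
    exact hΛP

theorem exists_GG [NeZero n] {E : Set (X n)} (hP : periodicPerimeter E ≠ ⊤) :
    ∃ (σ : Measure (X n)) (ν : X n → X n), GG E σ ν ∧ (∀ x, ‖ν x‖ = 1) ∧ σ (unitCell n)ᶜ = 0 ∧
      σ univ = periodicPerimeter E := by
  classical
  obtain ⟨σ, w, h, hw, hc, hu⟩ := exists_GG_aux hP
  have := h.fin
  have hw' : ∀ x, ‖w x‖ₑ ≤ 1 := fun x => by
    rw [← ofReal_norm, ← ENNReal.ofReal_one]
    exact ENNReal.ofReal_le_ofReal (hw x)
  have h1 : ∫⁻ x, ‖w x‖ₑ ∂σ ≤ ∫⁻ _x, 1 ∂σ := lintegral_mono hw'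
  have h2 : ∫⁻ _x, (1 : ℝ≥0∞) ∂σ = σ univ := by simp
  have h3 := h.perimeter_eq
  have hae : (fun x => ‖w x‖ₑ) =ᵐ[σ] fun _ => 1 :=
    ae_eq_of_ae_le_of_lintegral_le (Eventually.of_forall hw') (by rw [← h3]; exact hP)
      aemeasurable_const (by rw [h2, ← h3]; exact hu)
  have hae' : ∀ᵐ x ∂σ, (if ‖w x‖ = 1 then w x else ev 0) = w x := hae.mono fun x hx => by
    have : ‖w x‖ = 1 := by
      have := congrArg ENNReal.toReal hx
      simpa using this
    rw [if_pos this]
  have hm : Measurable fun x => if ‖w x‖ = 1 then w x else ev 0 :=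
    Measurable.ite (measurableSet_eq_fun h.meas.norm measurable_const) h.meas measurable_const
  refine ⟨σ, fun x => if ‖w x‖ = 1 then w x else ev 0, ⟨h.fin, fun v hv x => by rw [h.per v hv x], hm,
    h.int.congr (hae'.mono fun x hx => hx.symm), fun φ hd hp => ?_⟩, fun x => ?_, hc, ?_⟩
  · rw [h.eq φ hd hp]
    exact integral_congr_ae (hae'.mono fun x hx => by simp only [hx])
  · by_cases hx : ‖w x‖ = 1
    · show ‖if ‖w x‖ = 1 then w x else ev 0‖ = 1
      rw [if_pos hx, hx]
    · simp [if_neg hx]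
  · exact le_antisymm hu (by rw [h3, ← h2]; exact h1)

end Crest.Agent.R214
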