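import Crest.Agent.R214.DSSig

/-! Row 214: smooth compactly supported approximation of a unit field (helper34). -/

set_option autoImplicit false
open MeasureTheory Set Filter Topology

noncomputable section
namespace Crest.Agent.R214.DS

theorem divB_retract (v u : E3) (hu : ‖u‖ ≤ 1) :
    ‖(max 1 ‖v‖)⁻¹ • v‖ ≤ 1 ∧ ‖(max 1 ‖v‖)⁻¹ • v - u‖ ≤ 2 * ‖u - v‖ := by
  rcases le_total ‖v‖ 1 with h | h
  · rw [max_eq_left h, inv_one, one_smul, norm_sub_rev]
    exact ⟨h, by linarith [norm_nonneg (u - v)]⟩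
  · rw [max_eq_right h]
    have h0 : 0 < ‖v‖ := by linarith
    have h1 : ‖(‖v‖)⁻¹ • v‖ = 1 := by
      rw [norm_smul, norm_inv, norm_norm, inv_mul_cancel₀ h0.ne']
    refine ⟨h1.le, ?_⟩
    have h2 : ‖(‖v‖)⁻¹ • v - v‖ = ‖v‖ - 1 := by
      have : (‖v‖)⁻¹ • v - v = ((‖v‖)⁻¹ - 1) • v := by rw [sub_smul, one_smul]
      rw [this, norm_smul, Real.norm_eq_abs, abs_of_nonpos (by
        have := inv_le_one_of_one_le₀ h
        linarith)]
      field_simp
      ring
    have h3 : ‖v‖ - ‖u‖ ≤ ‖u - v‖ := by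
      rw [norm_sub_rev]; exact norm_sub_norm_le v u
    have h4 : ‖(‖v‖)⁻¹ • v - u‖ ≤ ‖(‖v‖)⁻¹ • v - v‖ + ‖v - u‖ :=
      norm_sub_le_norm_sub_add_norm_sub _ _ _
    rw [norm_sub_rev v u] at h4
    linarith

theorem divB_isOpen_cube : IsOpen cube := by
  have : cube = ⋂ j : Fin 3, (fun x : E3 => x j) ⁻¹' Ioo 0 1 := by
    ext x; simp [cube]
  rw [this]
  exact isOpen_iInter_of_finite fun j => isOpen_Ioo.preimage (by fun_prop)

theorem divB_compact {φ : E3 → ℝ} (hs : tsupport φ ⊆ cube) : HasCompactSupport φ := by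
  refine (isCompact_closedBall (0 : E3) 2).of_isClosed_subset (isClosed_tsupport _) fun x hx => ?_
  have h := hs hx
  rw [mem_closedBall_zero_iff, EuclideanSpace.norm_eq, Real.sqrt_le_left (by norm_num),
    Fin.sum_univ_three]
  simp only [Real.norm_eq_abs, sq_abs]
  nlinarith [(h 0).1, (h 0).2, (h 1).1, (h 1).2, (h 2).1, (h 2).2]

/-- a field of length at most one is the `L¹` limit of smooth fields with support in `U` -/
theorem divB_approx (σ : Measure E3) [IsFiniteMeasure σ] {U : Set E3} (hU : IsOpen U)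
    (h0 : σ Uᶜ = 0) {N : E3 → E3} (hN : Measurable N) (h1 : ∀ x, ‖N x‖ ≤ 1) {ε : ℝ} (hε : 0 < ε) :
    ∃ φ : E3 → E3, ContDiff ℝ 1 φ ∧ tsupport φ ⊆ U ∧ (∀ x, ‖φ x‖ ≤ 1) ∧
      ∫ x, ‖φ x - N x‖ ∂σ ≤ ε := by
  obtain ⟨δ, hδ, hδε⟩ : ∃ δ > 0, 2 * δ * σ.real univ + δ + 2 * δ ≤ ε := by
    have := measureReal_nonneg (μ := σ) (s := univ)
    refine ⟨ε / (2 * σ.real univ + 3), by positivity, le_of_eq ?_⟩
    field_simp
    ring
  have iN : Integrable N σ :=
    Integrable.of_bound hN.aestronglyMeasurable 1 (Eventually.of_forall h1)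
  obtain ⟨g, hg, ig⟩ := iN.exists_boundedContinuous_integral_sub_le hδ
  obtain ⟨K, hKU, hK, hKσ⟩ := hU.measurableSet.exists_isCompact_sdiff_lt (μ := σ) (measure_ne_top _ _)
    (ENNReal.ofReal_pos.2 hδ).ne'
  obtain ⟨c, c1, -, cs, c01⟩ := exists_continuousMap_one_of_isCompact_subset_isOpen hK hU hKU
  have hc : Continuous fun x => c x • ((max 1 ‖g x‖)⁻¹ • g x) := by
    refine c.continuous.smul (Continuous.smul (Continuous.inv₀
      (continuous_const.max g.continuous.norm) fun x => ?_) g.continuous)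
    exact (lt_of_lt_of_le one_pos (le_max_left _ _)).ne'
  obtain ⟨k, k1, k2, k3⟩ := hc.exists_contDiff_approx 1 (ε := fun _ => δ) continuous_const fun _ => hδ
  have hb : ∀ x, ‖c x • ((max 1 ‖g x‖)⁻¹ • g x)‖ ≤ 1 := fun x => by
    rw [norm_smul, Real.norm_of_nonneg (c01 x).1]
    exact mul_le_one₀ (c01 x).2 (norm_nonneg _) (divB_retract _ _ (h1 x)).1
  have kb : ∀ x, ‖k x‖ ≤ 1 + δ := fun x => by
    have := k2 x
    rw [dist_eq_norm] at this
    linarith [norm_sub_norm_le (k x) (c x • ((max 1 ‖g x‖)⁻¹ • g x)), hb x]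
  have hp : 0 < 1 + δ := by linarith
  have fb : ∀ x, ‖(1 + δ)⁻¹ • k x‖ ≤ 1 := fun x => by
    rw [norm_smul, Real.norm_of_nonneg (by positivity), inv_mul_le_iff₀ hp, mul_one]
    exact kb x
  refine ⟨fun x => (1 + δ)⁻¹ • k x, (by exact_mod_cast k1 : ContDiff ℝ 1 k).const_smul _,
    (closure_mono fun x hx => ?_).trans cs, fb, ?_⟩
  · have : k x ≠ 0 := fun e => hx (by simp [e])
    exact fun e => k3 this (by simp [e])
  · have pt : ∀ x, ‖(1 + δ)⁻¹ • k x - N x‖ ≤
        2 * δ + Kᶜ.indicator (fun _ => (1 : ℝ)) x + 2 * ‖N x - g x‖ := fun x => by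
      have a1 : ‖(1 + δ)⁻¹ • k x - k x‖ ≤ δ := by
        have : (1 + δ)⁻¹ • k x - k x = -(δ • (1 + δ)⁻¹ • k x) := by
          rw [smul_smul, ← neg_smul]
          nth_rw 2 [← one_smul ℝ (k x)]
          rw [← sub_smul]
          congr 1
          field_simp
          ring
        rw [this, norm_neg, norm_smul, Real.norm_of_nonneg hδ.le]
        nlinarith [fb x]
      have a2 := k2 x
      rw [dist_eq_norm] at a2
      obtain ⟨r1, r2⟩ := divB_retract (g x) _ (h1 x)
      have a3 : ‖c x • ((max 1 ‖g x‖)⁻¹ • g x) - (max 1 ‖g x‖)⁻¹ • g x‖ ≤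
          Kᶜ.indicator (fun _ => (1 : ℝ)) x := by
        by_cases hx : x ∈ K
        · simp [c1 hx, hx]
        · rw [indicator_of_mem (mem_compl hx)]
          nth_rw 2 [← one_smul ℝ ((max 1 ‖g x‖)⁻¹ • g x)]
          rw [← sub_smul, norm_smul, Real.norm_eq_abs]
          refine mul_le_one₀ (abs_le.2 ⟨?_, ?_⟩) (norm_nonneg _) r1 <;> linarith [(c01 x).1, (c01 x).2]
      have t1 := norm_sub_le_norm_sub_add_norm_sub ((1 + δ)⁻¹ • k x) (k x) (N x)
      have t2 := norm_sub_le_norm_sub_add_norm_sub (k x) (c x • ((max 1 ‖g x‖)⁻¹ • g x)) (N x)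
      have t3 := norm_sub_le_norm_sub_add_norm_sub (c x • ((max 1 ‖g x‖)⁻¹ • g x))
        ((max 1 ‖g x‖)⁻¹ • g x) (N x)
      linarith
    have i1 : Integrable (Kᶜ.indicator fun _ => (1 : ℝ)) σ :=
      (integrable_const 1).indicator hK.measurableSet.compl
    have i2 : Integrable (fun x => 2 * ‖N x - g x‖) σ := (iN.sub ig).norm.const_mul 2
    have hKr : σ.real Kᶜ ≤ δ := by
      have : σ Kᶜ ≤ ENNReal.ofReal δ := by
        calc σ Kᶜ ≤ σ (U \ K ∪ Uᶜ) := measure_mono fun x hx => by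
              by_cases h : x ∈ U
              exacts [Or.inl ⟨h, hx⟩, Or.inr h]
          _ ≤ σ (U \ K) + σ Uᶜ := measure_union_le _ _
          _ ≤ _ := by rw [h0, add_zero]; exact hKσ.le
      exact ENNReal.toReal_le_of_le_ofReal hδ.le this
    refine (integral_mono_of_nonneg (Eventually.of_forall fun x => norm_nonneg _)
      (((integrable_const (2 * δ)).add i1).add i2) (Eventually.of_forall pt)).trans ?_
    simp only [Pi.add_apply]
    have i3 : Integrable (fun x => 2 * δ + Kᶜ.indicator (fun _ => (1 : ℝ)) x) σ :=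
      (integrable_const _).add i1
    rw [integral_add i3 i2, integral_add (integrable_const _) i1,
      integral_const, integral_indicator_const _ hK.measurableSet.compl, integral_const_mul]
    simp only [smul_eq_mul, mul_one]
    linarith

theorem divB_tendsto {F : ℕ → Set E3} {E : Set E3} (hF : ∀ n, MeasurableSet (F n))
    (hE : MeasurableSet E) (h : Tendsto (fun n => volume (symmDiff (F n) E)) atTop (𝓝 0))
    {ψ : E3 → ℝ} (hψ : Integrable ψ) :
    Tendsto (fun n => ∫ x in F n, ψ x) atTop (𝓝 (∫ x in E, ψ x)) := by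
  have h1 : Tendsto (fun n => ∫ x in F n \ E, ψ x) atTop (𝓝 0) :=
    hψ.tendsto_setIntegral_nhds_zero (tendsto_of_tendsto_of_tendsto_of_le_of_le tendsto_const_nhds h
      (fun _ => zero_le) fun n => measure_mono le_sup_left)
  have h2 : Tendsto (fun n => ∫ x in E \ F n, ψ x) atTop (𝓝 0) :=
    hψ.tendsto_setIntegral_nhds_zero (tendsto_of_tendsto_of_tendsto_of_le_of_le tendsto_const_nhds h
      (fun _ => zero_le) fun n => measure_mono le_sup_right)
  have := (h1.sub h2).const_add (∫ x in E, ψ x)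
  rw [sub_zero, add_zero] at this
  refine this.congr fun n => ?_
  have a := integral_inter_add_sdiff (s := F n) hE hψ.integrableOn
  have b := integral_inter_add_sdiff (s := E) (hF n) hψ.integrableOn
  rw [inter_comm] at b
  linarith

end Crest.Agent.R214.DS
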