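import Crest.Agent.R214.DSSig
import Crest.Agent.R214.DSDivB

/-! Row 214: Gauss-Green for down-sets, perimeter as a supremum over `C¹_c` fields, lower semicontinuity. -/

set_option autoImplicit false
open MeasureTheory Set Filter Topology

noncomputable section
namespace Crest.Agent.R214.DS

variable {E : Set E3}

theorem divA_hasDerivAt_ins (i : Fin 3) (w : ℝ × ℝ) (t : ℝ) :
    HasDerivAt (fun s => ins i s w) (EuclideanSpace.single i (1 : ℝ) : E3) t := by
  have : (fun s => ins i s w) = fun s : ℝ => ins i 0 w + s • (EuclideanSpace.single i (1 : ℝ) : E3) := by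
    funext s; ext j
    rcases fin3_cases i j with rfl | rfl | rfl
    · simp
    · have : i + 1 ≠ i := by fin_cases i <;> decide
      simp [this]
    · have : i + 2 ≠ i := by fin_cases i <;> decide
      simp [this]
  rw [this]
  simpa using ((hasDerivAt_id t).smul_const (EuclideanSpace.single i (1 : ℝ) : E3)).const_add (ins i 0 w)

theorem divA_isBounded_cube : Bornology.IsBounded cube := by
  refine (Metric.isBounded_closedBall (x := (0 : E3)) (r := 2)).subset fun x hx => ?_
  rw [mem_closedBall_zero_iff, EuclideanSpace.norm_eq]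
  refine Real.sqrt_le_iff.2 ⟨by norm_num, ?_⟩
  have h0 := hx 0; have h1 := hx 1; have h2 := hx 2
  simp only [Fin.sum_univ_three, Real.norm_eq_abs, sq_abs]
  nlinarith [h0.1, h0.2, h1.1, h1.2, h2.1, h2.2]

/-- `mu E i = - D_i χ_E` in the open cube -/
theorem IsDS.integral_pd (hE : IsDS E) (i : Fin 3) {φ : E3 → ℝ} (hφ : ContDiff ℝ 1 φ)
    (hs : tsupport φ ⊆ cube) :
    ∫ x in E, fderiv ℝ φ x (EuclideanSpace.single i 1) = ∫ x, φ x ∂(mu E i) := by
  have hcs : HasCompactSupport φ :=
    Metric.isCompact_of_isClosed_isBounded (isClosed_tsupport φ) (divA_isBounded_cube.subset hs)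
  have hc : Continuous fun x => fderiv ℝ φ x (EuclideanSpace.single i (1 : ℝ) : E3) :=
    (hφ.continuous_fderiv one_ne_zero).clm_apply continuous_const
  have hcs' : HasCompactSupport fun x => fderiv ℝ φ x (EuclideanSpace.single i (1 : ℝ) : E3) :=
    hcs.fderiv_apply ℝ _
  obtain ⟨C, hC⟩ := hcs'.exists_bound_of_continuous hc
  have hz : ∀ x, x ∉ cube → φ x = 0 := fun x hx => image_eq_zero_of_notMem_tsupport fun h => hx (hs h)
  rw [hE.integral_eq i hc.measurable (C := C) (fun x => by simpa using hC x),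
    hE.integral_mu i hφ.continuous.measurable]
  have h1 : ∀ w : ℝ × ℝ, ∫ t in (0 : ℝ)..(ht E i w),
      fderiv ℝ φ (ins i t w) (EuclideanSpace.single i (1 : ℝ) : E3) = φ (gr E i w) := by
    intro w
    have hci : Continuous fun t : ℝ => ins i t w :=
      (continuous_ins i).comp (continuous_id.prodMk continuous_const)
    rw [intervalIntegral.integral_eq_sub_of_hasDerivAt (f := fun t => φ (ins i t w))
      (fun t _ => ((hφ.differentiable one_ne_zero _).hasFDerivAt).comp_hasDerivAt t
        (divA_hasDerivAt_ins i w t)) ((hc.comp hci).intervalIntegrable _ _)]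
    rw [hz (ins i 0 w) (fun h => lt_irrefl _ ((ins_mem_cube i 0 w).1 h).1.1), sub_zero]
    rfl
  simp only [h1]
  refine setIntegral_eq_of_subset_of_forall_diff_eq_zero measurableSet_sq (fun w hw => hw.1) ?_
  intro w hw
  refine hz _ fun h => hw.2 ?_
  have := (ins_mem_cube i _ w).1 h
  exact ⟨hw.1, this.1.1, this.1.2⟩

/-- the perimeter is approached by smooth fields with compact support in the open cube -/
theorem IsDS.exists_field (hE : IsDS E) {ε : ℝ} (hε : 0 < ε) :
    ∃ φ : Fin 3 → E3 → ℝ, (∀ i, ContDiff ℝ 1 (φ i)) ∧ (∀ i, tsupport (φ i) ⊆ cube) ∧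
      (∀ x, ∑ i, φ i x ^ 2 ≤ 1) ∧ per E - ε ≤ ∑ i, ∫ x, φ i x ∂(mu E i) := by
  obtain ⟨N, hN⟩ : ∃ N : E3 → E3, ∀ x, N x = WithLp.toLp 2 fun i => nu E i x := ⟨_, fun _ => rfl⟩
  have hNi : ∀ x i, N x i = nu E i x := fun x i => by rw [hN]
  have hsq : ∀ v : E3, ∑ i, v i ^ 2 = ‖v‖ ^ 2 := fun v => by
    rw [EuclideanSpace.real_norm_sq_eq]
  have N1 : ∀ x, ‖N x‖ ≤ 1 := fun x => by
    rw [← sq_le_one_iff₀ (norm_nonneg _), ← hsq]
    simpa only [hNi] using nu_sq_le E x
  have mN : Measurable N := by
    rw [funext hN]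
    exact (WithLp.measurable_toLp 2 _).comp (measurable_pi_lambda _ fun i => measurable_nu E i)
  obtain ⟨φ, c1, cs, b1, hφ⟩ := divB_approx (sig E) divB_isOpen_cube hE.sig_compl_cube mN N1 hε
  have ci : ∀ i, ContDiff ℝ 1 fun x => φ x i := fun i => (contDiff_euclidean.1 c1) i
  refine ⟨fun i x => φ x i, ci, fun i => (closure_mono fun x hx => ?_).trans cs, fun x => ?_, ?_⟩
  · exact fun e => hx (by simp [e])
  · rw [hsq]; exact (sq_le_one_iff₀ (norm_nonneg _)).2 (b1 x)
  · have ii : ∀ i, Integrable (fun x => φ x i * nu E i x) (sig E) := fun i =>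
      Integrable.of_bound ((ci i).continuous.measurable.mul (measurable_nu E i)).aestronglyMeasurable 1
        (Eventually.of_forall fun x => by
          rw [norm_mul, Real.norm_of_nonneg (nu_nonneg E i x)]
          exact mul_le_one₀ ((PiLp.norm_apply_le _ _).trans (b1 x)) (nu_nonneg E i x) (nu_le_one E i x))
    have i2 : Integrable (fun x => ‖φ x - N x‖) (sig E) :=
      Integrable.of_bound (c1.continuous.measurable.sub mN).norm.aestronglyMeasurable 2
        (Eventually.of_forall fun x => by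
          rw [norm_norm]; linarith [norm_sub_le (φ x) (N x), b1 x, N1 x])
    simp only [integral_mu_nu]
    rw [← integral_finsetSum _ fun i _ => ii i]
    calc per E - ε ≤ ∫ x, (1 - ‖φ x - N x‖) ∂(sig E) := by
          rw [integral_sub (integrable_const _) i2, integral_const, smul_eq_mul, mul_one, per_eq_real]
          linarith
      _ ≤ _ := by
          refine integral_mono_ae ((integrable_const _).sub i2) (integrable_finsetSum _ fun i _ => ii i) ?_
          filter_upwards [nu_sq_ae E] with x hx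
          have e1 : ∑ i, φ x i * nu E i x = inner ℝ (N x) (φ x) := by
            simp [PiLp.inner_apply, hNi]
          have e2 : inner ℝ (N x) (N x) = (1 : ℝ) := by
            rw [real_inner_self_eq_norm_sq, ← hsq]; simpa only [hNi] using hx
          have e3 := real_inner_le_norm (N x) (N x - φ x)
          rw [inner_sub_right, e2, norm_sub_rev] at e3
          rw [e1]
          nlinarith [N1 x, norm_nonneg (φ x - N x)]

/-- lower semicontinuity under `L¹` convergence -/
theorem per_le_of_tendsto {F : ℕ → Set E3} (hF : ∀ n, IsDS (F n)) (hE : IsDS E)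
    (h : Tendsto (fun n => volume (symmDiff (F n) E)) atTop (𝓝 0)) {P : ℝ}
    (hP : ∀ ε > 0, ∃ᶠ n in atTop, per (F n) ≤ P + ε) : per E ≤ P := by
  refine le_of_forall_pos_le_add fun ε hε => ?_
  obtain ⟨φ, c1, cs, b1, hφ⟩ := hE.exists_field (half_pos hε)
  have t : Tendsto (fun n => ∑ i, ∫ x, φ i x ∂(mu (F n) i)) atTop
      (𝓝 (∑ i, ∫ x, φ i x ∂(mu E i))) := by
    refine tendsto_finsetSum _ fun i _ => ?_
    simp only [← fun n => (hF n).integral_pd i (c1 i) (cs i), ← hE.integral_pd i (c1 i) (cs i)]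
    refine divB_tendsto (fun n => (hF n).meas) hE.meas h ?_
    exact (((c1 i).continuous_fderiv one_ne_zero).clm_apply continuous_const).integrable_of_hasCompactSupport
      ((divB_compact (cs i)).fderiv_apply ℝ _)
  have := isClosed_Iic.mem_of_frequently_of_tendsto ((hP _ (half_pos hε)).mono fun n hn =>
    (cal (F n) φ (fun i => (c1 i).continuous.measurable) b1).trans hn) t
  have := mem_Iic.1 this
  linarith

theorem divA_ht_le {F : Set E3} (hE : IsDS E) (hF : IsDS F) {i : Fin 3} {w : ℝ × ℝ}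
    (h : ∀ᵐ t : ℝ, ins i t w ∈ E ↔ ins i t w ∈ F) : ht E i w ≤ ht F i w := by
  by_contra hlt
  push Not at hlt
  have h0 : volume (Ioo (ht F i w) (ht E i w)) = 0 := by
    refine measure_mono_null (fun t htt => ?_) (ae_iff.1 h)
    intro hiff
    exact absurd (hF.le_ht (hiff.1 (hE.mem_of_lt_ht ((ht_nonneg F i w).trans_lt htt.1) htt.2)))
      (not_le.2 htt.1)
  rw [Real.volume_Ioo, ENNReal.ofReal_eq_zero] at h0
  linarith

theorem divA_ht_ae {F : Set E3} (hE : IsDS E) (hF : IsDS F) (h : E =ᵐ[volume] F) (i : Fin 3) :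
    ht E i =ᵐ[volume] ht F i := by
  have h1 : ∀ᵐ x : E3, x ∈ E ↔ x ∈ F := h.mono fun x hx => Iff.of_eq hx
  have h2 : ∀ᵐ p : ℝ × (ℝ × ℝ), ins i p.1 p.2 ∈ E ↔ ins i p.1 p.2 ∈ F :=
    (measurePreserving_ins i).quasiMeasurePreserving.ae h1
  have h3 : ∀ᵐ p : (ℝ × ℝ) × ℝ ∂(volume.prod volume), ins i p.2 p.1 ∈ E ↔ ins i p.2 p.1 ∈ F :=
    (Measure.measurePreserving_swap (μ := (volume : Measure (ℝ × ℝ)))
      (ν := (volume : Measure ℝ))).quasiMeasurePreserving.ae h2
  filter_upwards [Measure.ae_ae_of_ae_prod h3] with w hw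
  exact le_antisymm (divA_ht_le hE hF hw) (divA_ht_le hF hE (hw.mono fun t h => h.symm))

/-- `mu` only depends on the class of `E` up to null sets -/
theorem mu_congr {F : Set E3} (hE : IsDS E) (hF : IsDS F) (h : E =ᵐ[volume] F) (i : Fin 3) :
    mu E i = mu F i := by
  have h1 := divA_ht_ae hE hF h i
  have h2 : dom E i =ᵐ[volume] dom F i := by
    filter_upwards [h1] with w hw
    change (w ∈ dom E i) = (w ∈ dom F i)
    simp only [dom, mem_setOf_eq, hw]
  unfold mu
  rw [Measure.restrict_congr_set h2]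
  refine Measure.map_congr (ae_restrict_of_ae ?_)
  filter_upwards [h1] with w hw
  simp only [gr, hw]

theorem per_congr {F : Set E3} (hE : IsDS E) (hF : IsDS F) (h : E =ᵐ[volume] F) : per E = per F := by
  have h1 : mu E = mu F := funext (mu_congr hE hF h)
  unfold per sig nrm th tau
  rw [h1]

end Crest.Agent.R214.DS
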