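import Crest.Agent.R214.StDefs
import Crest.Agent.R214.DSDiv

/-! Row 214, BRIDGE torus - cube: the folding map. -/

set_option autoImplicit false

open MeasureTheory Set Filter Topology
open scoped ENNReal RealInnerProductSpace
open Crest.GeometryTopology.PeriodicPerimeter

noncomputable section

namespace Crest.Agent.R214

/-- the folding map from the torus onto the closed unit cube -/
def fold (x : X 3) : X 3 := WithLp.toLp 2 fun k => 2 * dz (x k)

/-- the down-set of the unit cube attached to a symmetric decreasing periodic set -/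
def cubeOf (F : Set (X 3)) : Set (X 3) := {u | u ∈ DS.cube ∧ (1 / 2 : ℝ) • u ∈ F}

@[simp] theorem fold_apply (x : X 3) (k : Fin 3) : fold x k = 2 * dz (x k) := rfl

theorem continuous_fold : Continuous fold := by
  have := continuous_dz
  unfold fold
  fun_prop

theorem per_fold : Per fold := fun v hv x => by
  ext k
  obtain ⟨m, hm⟩ := hv k
  simp only [fold_apply, PiLp.add_apply, hm, dz_add_int]

theorem dz_dz (t : ℝ) : dz (dz t) = dz t := by
  rw [dz_of_abs_le, abs_of_nonneg (dz_nonneg t)]
  rw [abs_of_nonneg (dz_nonneg t)]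
  exact dz_le_half t

theorem Down.mem_iff {F : Set (X 3)} (h : Down F) (x : X 3) : (1 / 2 : ℝ) • fold x ∈ F ↔ x ∈ F := by
  have e : ∀ k, dz (((1 / 2 : ℝ) • fold x) k) = dz (x k) := fun k => by
    rw [PiLp.smul_apply, fold_apply, smul_eq_mul, ← mul_assoc]
    norm_num [dz_dz]
  exact ⟨fun hx => h _ hx _ fun k => (e k).ge, fun hx => h _ hx _ fun k => (e k).le⟩

theorem Down.periodic {F : Set (X 3)} (h : Down F) : IsLatticePeriodic F := fun v hv x => by
  rw [← h.mem_iff, per_fold v hv, h.mem_iff]

theorem Down.fold_mem {F : Set (X 3)} (h : Down F) {x : X 3} (hx : fold x ∈ DS.cube) :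
    fold x ∈ cubeOf F ↔ x ∈ F := by
  rw [cubeOf, mem_ofPred_eq, h.mem_iff]
  exact and_iff_right hx

theorem Down.isDS {F : Set (X 3)} (h : Down F) (hm : MeasurableSet F) : DS.IsDS (cubeOf F) where
  meas := DS.measurableSet_cube.inter (hm.preimage (measurable_const_smul (1 / 2 : ℝ)))
  sub := fun _ hu => hu.1
  down := fun x hx y hy hxy => ⟨hy, h _ hx.2 _ fun k => by
    have h1 := hx.1 k
    have h2 := hy k
    have h3 := hxy k
    simp only [PiLp.smul_apply, smul_eq_mul]
    rw [dz_of_abs_le, dz_of_abs_le] <;> rw [abs_of_nonneg (by linarith)]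
    · rw [abs_of_nonneg (by linarith)]
      linarith
    · linarith
    · linarith⟩

/-- the tent map preserves Lebesgue measure (`{t | 2 * dz t < a} = arc 0 a`, `len_arc`) -/
theorem measurePreserving_tent :
    MeasurePreserving (fun t : ℝ => 2 * dz t) (volume.restrict (Ico 0 1)) (volume.restrict (Ioo 0 1)) := by
  have hm : Measurable fun t : ℝ => 2 * dz t := (continuous_const.mul continuous_dz).measurable
  refine ⟨hm, ?_⟩
  refine ext_of_generate_finite (range Iio)
    (BorelSpace.measurable_eq.trans (borel_eq_generateFrom_Iio ℝ)) isPiSystem_Iio ?_ ?_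
  · rintro _ ⟨a, rfl⟩
    rw [Measure.map_apply hm measurableSet_Iio, Measure.restrict_apply (hm measurableSet_Iio),
      Measure.restrict_apply measurableSet_Iio]
    rcases le_or_gt a 0 with h0 | h0
    · have e1 : (fun t : ℝ => 2 * dz t) ⁻¹' Iio a ∩ Ico 0 1 = ∅ :=
        eq_empty_of_forall_notMem fun t ht => by
          have h1 : 2 * dz t < a := ht.1
          have := dz_nonneg t
          linarith
      have e2 : Iio a ∩ Ioo (0 : ℝ) 1 = ∅ :=
        eq_empty_of_forall_notMem fun t ht => by
          have h1 : t < a := ht.1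
          have := ht.2.1
          linarith
      rw [e1, e2]
    rcases le_or_gt a 1 with h1 | h1
    · have e1 : (fun t : ℝ => 2 * dz t) ⁻¹' Iio a = arc 0 a := by
        ext t
        rw [mem_arc_iff, sub_zero, mem_preimage, mem_Iio]
        constructor <;> intro h <;> linarith
      have e2 : Iio a ∩ Ioo (0 : ℝ) 1 = Ioo 0 a := by
        ext t
        exact ⟨fun h => ⟨h.2.1, h.1⟩, fun h => ⟨h.2, h.1, h.2.trans_le h1⟩⟩
      have e3 := len_arc 0 h0.le h1
      have e4 : volume (arc 0 a ∩ Ico (0 : ℝ) 1) ≠ ⊤ :=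
        ((measure_mono inter_subset_right).trans_lt (by simp)).ne
      rw [e1, e2, Real.volume_Ioo, sub_zero, ← ENNReal.ofReal_toReal e4]
      exact congrArg ENNReal.ofReal e3
    · have e1 : (fun t : ℝ => 2 * dz t) ⁻¹' Iio a ∩ Ico 0 1 = Ico 0 1 :=
        inter_eq_right.2 fun t _ => by
          show 2 * dz t < a
          have := dz_le_half t
          linarith
      have e2 : Iio a ∩ Ioo (0 : ℝ) 1 = Ioo 0 1 := inter_eq_right.2 fun t ht => ht.2.trans h1
      rw [e1, e2, Real.volume_Ioo, Real.volume_Ico]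
  · rw [Measure.map_apply hm MeasurableSet.univ, preimage_univ, Measure.restrict_apply_univ,
      Measure.restrict_apply_univ, Real.volume_Ioo, Real.volume_Ico]

/-- `measurePreserving_pi` + `PiLp.volume_preserving_toLp` / `ofLp` + `Measure.restrict_pi_pi` -/
theorem measurePreserving_fold :
    MeasurePreserving fold (volume.restrict (unitCell 3)) (volume.restrict DS.cube) := by
  have h1 : MeasurePreserving (WithLp.ofLp : X 3 → Fin 3 → ℝ) (volume.restrict (unitCell 3))
      (volume.restrict (Set.pi univ fun _ => Ico (0 : ℝ) 1)) := by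
    have e : unitCell 3 = (WithLp.ofLp : X 3 → Fin 3 → ℝ) ⁻¹' Set.pi univ fun _ => Ico (0 : ℝ) 1 := by
      ext x; simp [unitCell]
    rw [e]
    exact (PiLp.volume_preserving_ofLp (Fin 3)).restrict_preimage
      (MeasurableSet.univ_pi fun _ => measurableSet_Ico)
  have h2 : MeasurePreserving (fun (a : Fin 3 → ℝ) i => 2 * dz (a i))
      (volume.restrict (Set.pi univ fun _ => Ico (0 : ℝ) 1))
      (volume.restrict (Set.pi univ fun _ => Ioo (0 : ℝ) 1)) := by
    rw [volume_pi, Measure.restrict_pi_pi, Measure.restrict_pi_pi]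
    exact measurePreserving_pi _ _ (f := fun _ t => 2 * dz t) fun _ => measurePreserving_tent
  have h3 : MeasurePreserving (WithLp.toLp 2 : (Fin 3 → ℝ) → X 3)
      (volume.restrict (Set.pi univ fun _ => Ioo (0 : ℝ) 1)) (volume.restrict DS.cube) := by
    have e : (Set.pi univ fun _ => Ioo (0 : ℝ) 1) = (WithLp.toLp 2 : (Fin 3 → ℝ) → X 3) ⁻¹' DS.cube := by
      ext x; simp [DS.cube]
    rw [e]
    exact (PiLp.volume_preserving_toLp (Fin 3)).restrict_preimage DS.measurableSet_cube
  exact h3.comp (h2.comp h1)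

theorem null_preimage_fold {N : Set (X 3)} (h : volume (N ∩ DS.cube) = 0) : volume (fold ⁻¹' N) = 0 := by
  have h1 : (volume.restrict DS.cube) N = 0 := by
    rw [Measure.restrict_apply' DS.measurableSet_cube]; exact h
  have h2 := measurePreserving_fold.quasiMeasurePreserving.preimage_null h1
  rw [Measure.restrict_apply' measurableSet_unitCell] at h2
  refine null_of_cell (fun v hv x => ?_) h2
  simp only [mem_preimage, per_fold v hv x]

theorem ae_fold_mem : ∀ᵐ x : X 3, fold x ∈ DS.cube := by
  have := null_preimage_fold (N := DS.cubeᶜ) (by simp)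
  rw [ae_iff]
  exact this

theorem Down.ae_eq_preimage {F D : Set (X 3)} (h : Down F) (hD : cubeOf F =ᵐ[volume] D) :
    F =ᵐ[volume] fold ⁻¹' D := by
  have h0 : volume ({u | ¬ (u ∈ cubeOf F ↔ u ∈ D)} ∩ DS.cube) = 0 := by
    refine measure_mono_null inter_subset_left ?_
    have := eventuallyEq_set.1 hD
    exact ae_iff.1 this
  have h1 := null_preimage_fold h0
  have h2 : ∀ᵐ x : X 3, (fold x ∈ cubeOf F ↔ fold x ∈ D) := ae_iff.2 h1
  rw [eventuallyEq_set]
  filter_upwards [h2, ae_fold_mem] with x hx1 hx2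
  rw [← h.fold_mem hx2, hx1, mem_preimage]

theorem Down.vol_cubeOf {F : Set (X 3)} (h : Down F) (hm : MeasurableSet F) :
    DS.vol (cubeOf F) = periodicVolume F := by
  have h1 := measurePreserving_fold.measure_preimage (h.isDS hm).meas.nullMeasurableSet
  rw [Measure.restrict_apply' measurableSet_unitCell,
    Measure.restrict_apply' DS.measurableSet_cube, inter_eq_left.2 (h.isDS hm).sub] at h1
  have h2 : (F ∩ unitCell 3 : Set (X 3)) =ᵐ[volume] (fold ⁻¹' cubeOf F ∩ unitCell 3 : Set (X 3)) :=
    (h.ae_eq_preimage (ae_eq_refl _)).inter (ae_eq_refl _)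
  rw [DS.vol, ← h1, ← measure_congr h2]
  rfl

theorem Down.setIntegral_fold {F : Set (X 3)} (h : Down F) (hm : MeasurableSet F) {g : X 3 → ℝ}
    (hg : Continuous g) : ∫ x in F ∩ unitCell 3, g (fold x) = ∫ u in cubeOf F, g u := by
  have h2 : (F ∩ unitCell 3 : Set (X 3)) =ᵐ[volume] (fold ⁻¹' cubeOf F ∩ unitCell 3 : Set (X 3)) :=
    (h.ae_eq_preimage (ae_eq_refl _)).inter (ae_eq_refl _)
  have hD := (h.isDS hm).meas
  have h3 := measurePreserving_fold.restrict_preimage hD
  rw [Measure.restrict_restrict (hD.preimage continuous_fold.measurable),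
    Measure.restrict_restrict hD, inter_eq_left.2 (h.isDS hm).sub] at h3
  rw [setIntegral_congr_set h2, ← h3.map_eq,
    integral_map continuous_fold.measurable.aemeasurable hg.aestronglyMeasurable]

end Crest.Agent.R214
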