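import Crest.Agent.R214.BrFold

/-! Row 214, BRIDGE torus - cube: the three models. -/

set_option autoImplicit false

open MeasureTheory Set Filter Topology
open scoped ENNReal RealInnerProductSpace
open Crest.GeometryTopology.PeriodicPerimeter

noncomputable section

namespace Crest.Agent.R214

/-- periodic ball in terms of `dz` -/
def ballZ (r : ℝ) : Set (X 3) := {x | dz (x 0) ^ 2 + dz (x 1) ^ 2 + dz (x 2) ^ 2 < r ^ 2}

/-- periodic tube along the axis `i` -/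
def tubeZ (i : Fin 3) (r : ℝ) : Set (X 3) := {x | dz (x (i + 1)) ^ 2 + dz (x (i + 2)) ^ 2 < r ^ 2}

/-- periodic slab across the axis `i`, centred at the origin -/
def slabZ (i : Fin 3) (w : ℝ) : Set (X 3) := {x | dz (x i) < w / 2}

theorem brm_dz_sq (t : ℝ) : dz t ^ 2 = (t - round t) ^ 2 := sq_abs _

theorem brm_dz_sq_le (t : ℝ) (a : ℤ) : dz t ^ 2 ≤ (t - a) ^ 2 := by
  rw [← sq_abs (t - a)]
  exact pow_le_pow_left₀ (dz_nonneg t) (dz_le t a) 2

theorem periodicBall_eq {r : ℝ} (hr : 0 ≤ r) : periodicBall r = ballZ r := by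
  have key : ∀ x v : X 3, dist x v < r ↔
      (x 0 - v 0) ^ 2 + (x 1 - v 1) ^ 2 + (x 2 - v 2) ^ 2 < r ^ 2 := by
    intro x v
    rw [← pow_lt_pow_iff_left₀ dist_nonneg hr two_ne_zero, EuclideanSpace.dist_eq,
      Real.sq_sqrt (Finset.sum_nonneg fun _ _ => sq_nonneg _), Fin.sum_univ_three]
    simp only [Real.dist_eq, sq_abs]
  ext x
  constructor
  · rintro ⟨v, hv, h⟩
    rw [key] at h
    obtain ⟨a, ha⟩ := hv 0
    obtain ⟨b, hb⟩ := hv 1
    obtain ⟨c, hc⟩ := hv 2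
    rw [ha, hb, hc] at h
    have h0 := brm_dz_sq_le (x 0) a
    have h1 := brm_dz_sq_le (x 1) b
    have h2 := brm_dz_sq_le (x 2) c
    show dz (x 0) ^ 2 + dz (x 1) ^ 2 + dz (x 2) ^ 2 < r ^ 2
    linarith
  · intro h
    refine ⟨WithLp.toLp 2 fun k => (round (x k) : ℝ), fun k => ⟨round (x k), rfl⟩, ?_⟩
    rw [key]
    have h' : dz (x 0) ^ 2 + dz (x 1) ^ 2 + dz (x 2) ^ 2 < r ^ 2 := h
    simpa only [brm_dz_sq] using h'

theorem periodicTube_eq (r : ℝ) : periodicTube r = tubeZ 2 r := by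
  ext x
  show (∃ a b : ℤ, (x 0 - a) ^ 2 + (x 1 - b) ^ 2 < r ^ 2) ↔ dz (x 0) ^ 2 + dz (x 1) ^ 2 < r ^ 2
  constructor
  · rintro ⟨a, b, h⟩
    have h0 := brm_dz_sq_le (x 0) a
    have h1 := brm_dz_sq_le (x 1) b
    linarith
  · intro h
    exact ⟨round (x 0), round (x 1), by simpa only [brm_dz_sq] using h⟩

theorem congruent_aux (τ : Equiv.Perm (Fin 3)) (c : X 3) {F M : Set (X 3)}
    (h : F =ᵐ[volume] {y : X 3 | (WithLp.toLp 2 fun k => (y - c) (τ k) : X 3) ∈ M}) :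
    CongruentModNull F M := by
  refine ⟨fun x => WithLp.toLp 2 fun k => 1 * x (τ.symm k) + c k,
    ⟨τ.symm, fun _ => 1, c, fun _ => Or.inl rfl, fun _ _ => rfl⟩, ?_⟩
  rw [measure_symmDiff_eq_zero_iff]
  refine h.trans (Eq.eventuallyEq (Set.ext fun y => ⟨fun hy => ⟨_, hy, ?_⟩, ?_⟩))
  · ext k
    simp
  · rintro ⟨x, hx, rfl⟩
    refine mem_ofPred_eq ▸ Set.mem_of_eq_of_mem (s := M) ?_ hx
    ext k
    simp

theorem congruent_null (i : Fin 3) (t : ℝ) : ∀ᵐ y : X 3, ∀ a : ℤ, y i ≠ t + a := by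
  refine ae_all_iff.2 fun a => ?_
  exact (PiLp.volume_preserving_ofLp (Fin 3)).quasiMeasurePreserving.ae
    (Measure.ae_eval_ne (fun _ : Fin 3 => (volume : Measure ℝ)) i (t + a))

theorem congruent_ballZ {r : ℝ} (hr : 0 ≤ r) {F : Set (X 3)} (c : X 3)
    (h : F =ᵐ[volume] {x : X 3 | x - c ∈ ballZ r}) : CongruentModNull F (periodicBall r) := by
  rw [periodicBall_eq hr]
  exact congruent_aux 1 c h

theorem congruent_tubeZ (i : Fin 3) (r : ℝ) {F : Set (X 3)} (c : X 3)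
    (h : F =ᵐ[volume] {x : X 3 | x - c ∈ tubeZ i r}) : CongruentModNull F (periodicTube r) := by
  rw [periodicTube_eq]
  refine congruent_aux (Equiv.addRight (i + 1)) c ?_
  have e1 : ∀ i : Fin 3, Equiv.addRight (i + 1) (2 + 1) = i + 1 := by decide
  have e2 : ∀ i : Fin 3, Equiv.addRight (i + 1) (2 + 2) = i + 2 := by decide
  simpa only [tubeZ, mem_ofPred_eq, e1, e2] using h

theorem congruent_slabZ (i : Fin 3) (w : ℝ) {F : Set (X 3)} (c : X 3)
    (h : F =ᵐ[volume] {x : X 3 | x - c ∈ slabZ i w}) : CongruentModNull F (periodicSlab w) := by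
  refine congruent_aux (Equiv.addRight i) (WithLp.toLp 2 fun k => c k - w / 2) (h.trans ?_)
  filter_upwards [congruent_null i (c i - w / 2)] with y hy
  refine propext ?_
  show dz (y i - c i) < w / 2 ↔ ∃ a : ℤ, (a : ℝ) ≤ y (0 + i) - (c (0 + i) - w / 2) ∧
    y (0 + i) - (c (0 + i) - w / 2) < a + w
  rw [zero_add, ← mem_arc_iff]
  refine exists_congr fun a => ?_
  have := hy a
  rw [abs_lt]
  exact ⟨fun k => ⟨by linarith [k.1], by linarith [k.2]⟩, fun k =>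
    ⟨lt_of_le_of_ne (by linarith [k.1]) fun e => this (by linarith), by linarith [k.2]⟩⟩

theorem Down.ae_ballZ {F : Set (X 3)} (h : Down F) {R : ℝ}
    (hD : cubeOf F =ᵐ[volume] {u : X 3 | u ∈ DS.cube ∧ u 0 ^ 2 + u 1 ^ 2 + u 2 ^ 2 < R ^ 2}) :
    F =ᵐ[volume] ballZ (R / 2) := by
  refine (h.ae_eq_preimage hD).trans ?_
  filter_upwards [ae_fold_mem] with x hx
  refine propext ?_
  show (fold x ∈ DS.cube ∧ fold x 0 ^ 2 + fold x 1 ^ 2 + fold x 2 ^ 2 < R ^ 2) ↔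
    dz (x 0) ^ 2 + dz (x 1) ^ 2 + dz (x 2) ^ 2 < (R / 2) ^ 2
  rw [and_iff_right hx]
  simp only [fold_apply]
  constructor <;> intro k <;> linarith

theorem Down.ae_tubeZ {F : Set (X 3)} (h : Down F) (i : Fin 3) {R : ℝ}
    (hD : cubeOf F =ᵐ[volume] {u : X 3 | u ∈ DS.cube ∧ u (i + 1) ^ 2 + u (i + 2) ^ 2 < R ^ 2}) :
    F =ᵐ[volume] tubeZ i (R / 2) := by
  refine (h.ae_eq_preimage hD).trans ?_
  filter_upwards [ae_fold_mem] with x hx
  refine propext ?_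
  show (fold x ∈ DS.cube ∧ fold x (i + 1) ^ 2 + fold x (i + 2) ^ 2 < R ^ 2) ↔
    dz (x (i + 1)) ^ 2 + dz (x (i + 2)) ^ 2 < (R / 2) ^ 2
  rw [and_iff_right hx]
  simp only [fold_apply]
  constructor <;> intro k <;> linarith

theorem Down.ae_slabZ {F : Set (X 3)} (h : Down F) (i : Fin 3) {w : ℝ}
    (hD : cubeOf F =ᵐ[volume] {u : X 3 | u ∈ DS.cube ∧ u i < w}) : F =ᵐ[volume] slabZ i w := by
  refine (h.ae_eq_preimage hD).trans ?_
  filter_upwards [ae_fold_mem] with x hx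
  refine propext ?_
  show (fold x ∈ DS.cube ∧ fold x i < w) ↔ dz (x i) < w / 2
  rw [and_iff_right hx]
  simp only [fold_apply]
  constructor <;> intro k <;> linarith

end Crest.Agent.R214
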