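import Crest.Agent.R214.BrModel

/-! Row 214, BRIDGE torus - cube: the perimeter inequality. -/

set_option autoImplicit false

open MeasureTheory Set Filter Topology
open scoped ENNReal RealInnerProductSpace
open Crest.GeometryTopology.PeriodicPerimeter

noncomputable section

namespace Crest.Agent.R214

/-- the sign of the derivative of `dz` -/
def sg (t : ℝ) : ℝ := if t - round t < 0 then -1 else 1

theorem sg_mul_self (t : ℝ) : sg t * sg t = 1 := by
  unfold sg
  split_ifs <;> norm_num

theorem sg_add_int (t : ℝ) (k : ℤ) : sg (t + k) = sg t := by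
  have : t + k - (round (t + k) : ℝ) = t - round t := by
    rw [round_add_intCast]
    push_cast
    ring
  simp only [sg, this]

theorem dz_eq_sg (t : ℝ) : dz t = sg t * (t - round t) := by
  unfold dz sg
  split_ifs with h
  · rw [abs_of_neg h]
    ring
  · rw [abs_of_nonneg (not_lt.1 h), one_mul]

theorem local_dz {t : ℝ} (h0 : 0 < dz t) (h1 : dz t < 1 / 2) :
    ∀ᶠ s in 𝓝 t, sg s = sg t ∧ dz s = sg t * (s - round t) := by
  have hc : ContinuousAt (fun s : ℝ => s - round t) t := by fun_prop
  have ha := abs_lt.1 h1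
  have e1 : ∀ᶠ s : ℝ in 𝓝 t, -(1 / 2 : ℝ) < s - round t := continuousAt_const.eventually_lt hc ha.1
  have e2 : ∀ᶠ s : ℝ in 𝓝 t, s - round t < 1 / 2 := hc.eventually_lt continuousAt_const ha.2
  have e3 : ∀ᶠ s : ℝ in 𝓝 t, (s - round t < 0 ↔ t - round t < 0) := by
    rcases lt_trichotomy (t - round t) 0 with h | h | h
    · exact (hc.eventually_lt continuousAt_const h).mono fun s hs => iff_of_true hs h
    · simp [dz, h] at h0
    · exact (continuousAt_const.eventually_lt hc h).mono fun s hs => iff_of_false hs.not_gt h.not_gt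
  filter_upwards [e1, e2, e3] with s h1 h2 h3
  have hr : round s = round t := round_eq_iff.2 ⟨by linarith, by linarith⟩
  have hs : sg s = sg t := by simp only [sg, hr, h3]
  exact ⟨hs, by rw [dz_eq_sg, hs, hr]⟩

/-- diagonal matrices -/
def diagL (a : Fin 3 → ℝ) : X 3 →L[ℝ] X 3 :=
  LinearMap.toContinuousLinearMap
    { toFun y := WithLp.toLp 2 fun k => a k * y k
      map_add' y z := by
        ext k
        simp [mul_add]
      map_smul' c y := by
        ext k
        simp [mul_left_comm] }

@[simp] theorem diagL_apply (a : Fin 3 → ℝ) (y : X 3) (k : Fin 3) : diagL a y k = a k * y k := rfl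

theorem diagL_ev (a : Fin 3 → ℝ) (i : Fin 3) : diagL a (ev i) = a i • ev i := by
  ext k
  by_cases h : k = i
  · subst h
    simp
  · simp [h]

theorem local_fold {x : X 3} (hx : fold x ∈ DS.cube) : ∃ b : X 3,
    ∀ᶠ y in 𝓝 x, (∀ k, sg (y k) = sg (x k)) ∧ fold y = diagL (fun k => 2 * sg (x k)) y + b := by
  refine ⟨WithLp.toLp 2 fun k => -(2 * sg (x k) * round (x k)), ?_⟩
  have : ∀ k, ∀ᶠ y : X 3 in 𝓝 x, sg (y k) = sg (x k) ∧ dz (y k) = sg (x k) * (y k - round (x k)) :=
    fun k => by
      have hk := hx k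
      rw [fold_apply] at hk
      have hc : ContinuousAt (fun y : X 3 => y k) x := by fun_prop
      exact hc.eventually (local_dz (by linarith [hk.1]) (by linarith [hk.2]))
  filter_upwards [eventually_all.2 this] with y hy
  refine ⟨fun k => (hy k).1, ?_⟩
  ext k
  simp only [fold_apply, PiLp.add_apply, diagL_apply, (hy k).2]
  ring

theorem lift_local {g : X 3 → ℝ} (hg : ContDiff ℝ 1 g) (hs : tsupport g ⊆ DS.cube) (i : Fin 3)
    (x : X 3) : ContDiffAt ℝ 1 (fun y : X 3 => sg (y i) * g (fold y)) x ∧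
      pd i (fun y : X 3 => sg (y i) * g (fold y)) x = 2 * pd i g (fold x) := by
  by_cases hx : fold x ∈ DS.cube
  · obtain ⟨b, hb⟩ := local_fold hx
    set L := diagL fun k => 2 * sg (x k) with hL
    have he : (fun y : X 3 => sg (y i) * g (fold y)) =ᶠ[𝓝 x] fun y => sg (x i) * g (L y + b) :=
      hb.mono fun y hy => by simp only [hy.1 i, hy.2]
    have hfx : fold x = L x + b := hb.self_of_nhds.2
    refine ⟨ContDiffAt.congr_of_eventuallyEq ?_ he, ?_⟩
    · exact (contDiff_const.mul (hg.comp (L.contDiff.add contDiff_const))).contDiffAt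
    · have h1 : HasFDerivAt (fun y => g (L y + b)) ((fderiv ℝ g (L x + b)).comp L) x :=
        (hg.differentiable one_ne_zero _).hasFDerivAt.comp x (L.hasFDerivAt.add_const b)
      have h2 := (h1.const_mul (sg (x i))).congr_of_eventuallyEq he
      unfold pd
      rw [h2.fderiv, hfx]
      simp only [smul_apply, ContinuousLinearMap.comp_apply, hL, diagL_ev,
        map_smul, smul_eq_mul]
      have := sg_mul_self (x i)
      linear_combination (2 * fderiv ℝ g (diagL (fun k => 2 * sg (x k)) x + b) (ev i)) * this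
  · have hn : fold x ∉ tsupport g := fun h => hx (hs h)
    have h0 : g =ᶠ[𝓝 (fold x)] 0 := notMem_tsupport_iff_eventuallyEq.1 hn
    have he : (fun y : X 3 => sg (y i) * g (fold y)) =ᶠ[𝓝 x] fun _ => 0 :=
      (continuous_fold.continuousAt.eventually h0).mono fun y hy => by
        simp only [hy, Pi.zero_apply, mul_zero]
    refine ⟨contDiffAt_const.congr_of_eventuallyEq he, ?_⟩
    unfold pd
    rw [he.fderiv_eq, h0.fderiv_eq]
    simp

theorem Down.two_per_le {F : Set (X 3)} (h : Down F) (hm : MeasurableSet F) :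
    ENNReal.ofReal (2 * DS.per (cubeOf F)) ≤ periodicPerimeter F := by
  have hD := h.isDS hm
  refine ENNReal.le_of_forall_pos_le_add fun ε hε _ => ?_
  obtain ⟨φ, hd, hs, h1, hle⟩ := hD.exists_field (ε := ε / 2) (by positivity)
  let Φ : X 3 → X 3 := fun y => WithLp.toLp 2 fun i => sg (y i) * φ i (fold y)
  have hΦd : ContDiff ℝ 1 Φ :=
    contDiff_euclidean.2 fun i => contDiff_iff_contDiffAt.2 fun x => (lift_local (hd i) (hs i) i x).1
  have hΦp : Per Φ := fun v hv x => by
    ext i
    obtain ⟨m, hm⟩ := hv i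
    show sg ((x + v) i) * φ i (fold (x + v)) = sg (x i) * φ i (fold x)
    rw [per_fold v hv, PiLp.add_apply, hm, sg_add_int]
  have hΦ1 : ∀ x, ‖Φ x‖ ≤ 1 := fun x => by
    rw [EuclideanSpace.norm_eq, Real.sqrt_le_one]
    refine le_of_eq_of_le (Finset.sum_congr rfl fun i _ => ?_) (h1 (fold x))
    show ‖sg (x i) * φ i (fold x)‖ ^ 2 = _
    rw [Real.norm_eq_abs, sq_abs, mul_pow, sq (sg _), sg_mul_self, one_mul]
  have hc : ∀ i, Continuous (pd i (φ i)) := fun i =>
    ((hd i).continuous_fderiv one_ne_zero).clm_apply continuous_const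
  have hdiv : ∀ x, divergence Φ x = (fun u => ∑ i, 2 * pd i (φ i) u) (fold x) := fun x => by
    rw [divergence_eq_sum (hΦd.differentiable one_ne_zero)]
    exact Finset.sum_congr rfl fun i _ => (lift_local (hd i) (hs i) i x).2
  have hfin : IsFiniteMeasure (volume.restrict (cubeOf F)) := by
    refine ⟨?_⟩
    rw [Measure.restrict_apply_univ]
    refine lt_of_le_of_lt (measure_mono fun u hu => ?_) (volume_unitCell (n := 3) ▸ ENNReal.one_lt_top)
    exact fun k => ⟨(hu.1 k).1.le, (hu.1 k).2⟩
  have hint : ∀ i, Integrable (fun u => 2 * pd i (φ i) u) (volume.restrict (cubeOf F)) := fun i => by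
    have hK : IsCompact (Metric.closedBall (0 : X 3) (Real.sqrt (3 : ℕ))) := isCompact_closedBall _ _
    refine ((continuous_const.mul (hc i)).continuousOn.integrableOn_compact hK).mono_set fun u hu => ?_
    exact mem_closedBall_zero_iff.2 (norm_le_of_mem_cell fun k => ⟨(hu.1 k).1.le, (hu.1 k).2⟩)
  have key : ∫ x in F ∩ unitCell 3, divergence Φ x = 2 * ∑ i, ∫ x, φ i x ∂(DS.mu (cubeOf F) i) := by
    simp_rw [hdiv]
    rw [h.setIntegral_fold hm (g := fun u => ∑ i, 2 * pd i (φ i) u)
      (continuous_finsetSum _ fun i _ => continuous_const.mul (hc i)),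
      integral_finsetSum _ fun i _ => hint i, Finset.mul_sum]
    refine Finset.sum_congr rfl fun i _ => ?_
    rw [integral_const_mul, ← hD.integral_pd i (hd i) (hs i)]
  have h2 := le_perimeter F hΦd hΦp hΦ1
  rw [key] at h2
  calc ENNReal.ofReal (2 * DS.per (cubeOf F))
      ≤ ENNReal.ofReal (2 * ∑ i, ∫ x, φ i x ∂(DS.mu (cubeOf F) i) + ε) :=
        ENNReal.ofReal_le_ofReal (by linarith)
    _ ≤ ENNReal.ofReal (2 * ∑ i, ∫ x, φ i x ∂(DS.mu (cubeOf F) i)) + ENNReal.ofReal ε :=
        ENNReal.ofReal_add_le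
    _ ≤ periodicPerimeter F + ε := by
        rw [ENNReal.ofReal_coe_nnreal]
        gcongr

end Crest.Agent.R214
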