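import Mathlib

/-! Row 214, case `|T| = 3` (the down-set touches all three far walls): pure real inequality. -/

set_option autoImplicit false

namespace Crest.Agent.R214.T3

open Real

inductive Tr
  | leaf (Ab psi al be : ℚ)
  | emp (Ab psi : ℚ)
  | sl (m : ℚ) (a b : Tr)
  | sc (m : ℚ) (a b : Tr)

def PL : ℚ := 314159 / 100000
def PU : ℚ := 31416 / 10000

def okA (l1 Ab psi : ℚ) : Bool :=
  decide (0 ≤ l1) && (decide (1 ≤ Ab) || (decide (PU ≤ 2 * l1 * Ab) && decide (2 * PU ≤ 9 * Ab))) &&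
    ((decide (2 * l1 * Ab ≤ PU) && decide (Ab - l1 / PU * Ab ^ 2 ≤ psi)) || decide (PU ≤ 4 * l1 * psi))

def chk : Tr → ℚ → ℚ → ℚ → ℚ → Bool
  | .leaf Ab psi al be, l1, l2, c1, c2 =>
      okA l1 Ab psi && decide ((c2 + l2 * al) ^ 2 < PL * (1 - al)) &&
      (decide (1 / 2 ≤ be) || (decide (0 ≤ be) && decide ((c2 + l2 * be) ^ 2 < PL * be)) ||
        (decide (0 < l1) && decide (Ab - c1 ≤ l1 * be))) &&
      decide (be ≤ al) &&
      (decide (Ab ^ 2 / 3 ≤ (al - be) ^ 2) || decide (Ab * (psi - c1) ≤ (al - be) ^ 2))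
  | .emp Ab psi, l1, _, c1, _ => okA l1 Ab psi && decide (psi < c1)
  | .sl m a b, l1, l2, c1, c2 => chk a l1 m c1 c2 && chk b m l2 c1 c2
  | .sc m a b, l1, l2, c1, c2 => chk a l1 l2 c1 m && chk b l1 l2 m c2

/-- polynomial form of the hypotheses -/
structure H (V lam A c a0 a1 : ℝ) : Prop where
  hV : 0 < V
  hV2 : V ≤ 1 / 2
  hl0 : 0 ≤ lam
  hc0 : 0 ≤ c
  hA1 : A ≤ 1
  hAV : A ^ 2 ≤ π * V
  hlam : lam ^ 2 * V ≤ π / 4 ∨ V ≤ 4 * π / 81
  h3 : 2 * A ≤ 3 * (c + lam * V)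
  hN : c + lam * V < A
  ha1 : 0 ≤ a1
  ha1V : a1 ≤ V
  ha0V : V ≤ a0
  hCS : (a0 - a1) ^ 2 ≤ A * (A - c - lam * V)
  w0 : π * (1 - a0) ≤ (c + lam * a0) ^ 2
  w1 : π * a1 ≤ (c + lam * a1) ^ 2

theorem pl_le : ((PL : ℚ) : ℝ) ≤ π := by
  have := Real.pi_gt_d6
  unfold PL; push_cast; linarith

theorem le_pu : π ≤ ((PU : ℚ) : ℝ) := by
  have := Real.pi_lt_d4
  unfold PU; push_cast; linarith

theorem H.bounds {V lam A c a0 a1 : ℝ} (h : H V lam A c a0 a1) {l1 Ab psi : ℚ}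
    (hk : okA l1 Ab psi = true) (hl : (l1 : ℝ) ≤ lam) :
    A ≤ Ab ∧ A - lam * V ≤ psi := by
  simp only [okA, Bool.and_eq_true, Bool.or_eq_true, decide_eq_true_eq] at hk
  obtain ⟨⟨h0, hA⟩, hp⟩ := hk
  have hpu := le_pu
  have hpi := Real.pi_pos
  have hA0 : 0 < A := by have := h.hN; have := h.hc0; have := mul_nonneg h.hl0 h.hV.le; linarith
  have h0' : (0 : ℝ) ≤ l1 := by exact_mod_cast h0
  have hAb : A ≤ Ab := by
    rcases hA with hA | ⟨hA, hB⟩
    · have : (1 : ℝ) ≤ Ab := by exact_mod_cast hA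
      linarith [h.hA1]
    · have hA' : ((PU : ℚ) : ℝ) ≤ 2 * l1 * Ab := by exact_mod_cast hA
      have hB' : 2 * ((PU : ℚ) : ℝ) ≤ 9 * Ab := by exact_mod_cast hB
      have hAb0 : (0 : ℝ) < Ab := by linarith
      by_contra hc
      rw [not_le] at hc
      rcases h.hlam with h1 | h1
      · have e1 : π < 2 * lam * A := by
          have : 2 * (l1 : ℝ) * Ab ≤ 2 * lam * Ab := by nlinarith
          have hl' : 0 < lam := by
            by_contra hh
            have : (l1 : ℝ) = 0 := by linarith [not_lt.mp hh]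
            rw [this] at hA'; linarith
          nlinarith
        have e2 : (lam * A) ^ 2 ≤ π * (π / 4) := by
          calc (lam * A) ^ 2 = lam ^ 2 * A ^ 2 := by ring
            _ ≤ lam ^ 2 * (π * V) := by gcongr; exact h.hAV
            _ = π * (lam ^ 2 * V) := by ring
            _ ≤ π * (π / 4) := by gcongr
        nlinarith
      · have e2 : A ^ 2 ≤ π * (4 * π / 81) := h.hAV.trans (by gcongr)
        have e1 : 2 * π < 9 * A := by linarith
        nlinarith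
  refine ⟨hAb, ?_⟩
  have hpu0 : (0 : ℝ) < ((PU : ℚ) : ℝ) := by linarith
  set mu : ℝ := (l1 : ℝ) / ((PU : ℚ) : ℝ) with hmu
  have hmu0 : 0 ≤ mu := div_nonneg h0' hpu0.le
  have hmul : mu * ((PU : ℚ) : ℝ) = l1 := by rw [hmu]; field_simp
  have e3 : mu * A ^ 2 ≤ lam * V := by
    calc mu * A ^ 2 ≤ mu * (π * V) := by gcongr; exact h.hAV
      _ ≤ mu * (((PU : ℚ) : ℝ) * V) := by gcongr; exact h.hV.le
      _ = l1 * V := by rw [← hmul]; ring
      _ ≤ lam * V := by gcongr; exact h.hV.le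
  rcases hp with ⟨hp1, hp2⟩ | hp
  · have q1 : 2 * (l1 : ℝ) * Ab ≤ ((PU : ℚ) : ℝ) := by exact_mod_cast hp1
    have q2 : (Ab : ℝ) - (l1 : ℝ) / ((PU : ℚ) : ℝ) * (Ab : ℝ) ^ 2 ≤ psi := by exact_mod_cast hp2
    rw [← hmu] at q2
    have q3 : 2 * mu * Ab ≤ 1 := by
      have : 2 * mu * Ab * ((PU : ℚ) : ℝ) ≤ 1 * ((PU : ℚ) : ℝ) := by
        calc 2 * mu * Ab * ((PU : ℚ) : ℝ) = 2 * (mu * ((PU : ℚ) : ℝ)) * Ab := by ring
          _ = 2 * l1 * Ab := by rw [hmul]
          _ ≤ _ := by linarith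
      exact le_of_mul_le_mul_right this hpu0
    have q4 : mu * (A + Ab) ≤ 1 := by nlinarith
    nlinarith [mul_nonneg (sub_nonneg.2 hAb) (sub_nonneg.2 q4)]
  · have q1 : ((PU : ℚ) : ℝ) ≤ 4 * l1 * psi := by exact_mod_cast hp
    have q3 : 1 ≤ 4 * mu * psi := by
      have : 1 * ((PU : ℚ) : ℝ) ≤ 4 * mu * psi * ((PU : ℚ) : ℝ) := by
        calc 1 * ((PU : ℚ) : ℝ) ≤ 4 * l1 * psi := by linarith
          _ = 4 * (mu * ((PU : ℚ) : ℝ)) * psi := by rw [hmul]
          _ = _ := by ring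
      exact le_of_mul_le_mul_right this hpu0
    have hmp : 0 < mu := by
      rcases hmu0.lt_or_eq with hh | hh
      · exact hh
      · rw [← hh] at q3; linarith
    have : mu * (A - mu * A ^ 2) ≤ mu * psi := by nlinarith [sq_nonneg (2 * mu * A - 1)]
    have := le_of_mul_le_mul_left this hmp
    linarith

theorem chk_sound {V lam A c a0 a1 : ℝ} (h : H V lam A c a0 a1) :
    ∀ (t : Tr) (l1 l2 c1 c2 : ℚ), chk t l1 l2 c1 c2 = true → (l1 : ℝ) ≤ lam → lam ≤ l2 →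
      (c1 : ℝ) ≤ c → c ≤ c2 → False := by
  intro t
  induction t with
  | sl m a b iha ihb =>
    intro l1 l2 c1 c2 hk h1 h2 h3 h4
    simp only [chk, Bool.and_eq_true] at hk
    rcases le_total lam m with hm | hm
    · exact iha _ _ _ _ hk.1 h1 hm h3 h4
    · exact ihb _ _ _ _ hk.2 hm h2 h3 h4
  | sc m a b iha ihb =>
    intro l1 l2 c1 c2 hk h1 h2 h3 h4
    simp only [chk, Bool.and_eq_true] at hk
    rcases le_total c m with hm | hm
    · exact iha _ _ _ _ hk.1 h1 h2 h3 hm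
    · exact ihb _ _ _ _ hk.2 h1 h2 hm h4
  | emp Ab psi =>
    intro l1 l2 c1 c2 hk h1 h2 h3 h4
    simp only [chk, Bool.and_eq_true, decide_eq_true_eq] at hk
    have hb := (h.bounds hk.1 h1).2
    have : (psi : ℝ) < c1 := by exact_mod_cast hk.2
    linarith [h.hN]
  | leaf Ab psi al be =>
    intro l1 l2 c1 c2 hk h1 h2 h3 h4
    simp only [chk, Bool.and_eq_true, Bool.or_eq_true, decide_eq_true_eq] at hk
    obtain ⟨⟨⟨⟨hk1, hk2⟩, hk3⟩, hk4⟩, hk5⟩ := hk
    obtain ⟨hAb, hpsi⟩ := h.bounds hk1 h1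
    have hpl := pl_le
    have hpi := Real.pi_pos
    have hpl0 : (0 : ℝ) < ((PL : ℚ) : ℝ) := by unfold PL; push_cast; norm_num
    have hl0 := h.hl0
    have hc0 := h.hc0
    have hV := h.hV
    have hlV := mul_nonneg hl0 hV.le
    have hN := h.hN
    have hA0 : 0 < A := by linarith
    have ha00 : 0 ≤ a0 := by linarith [h.ha0V]
    have e0 : (al : ℝ) < a0 := by
      by_contra hh
      rw [not_lt] at hh
      have q : ((c2 : ℝ) + l2 * al) ^ 2 < ((PL : ℚ) : ℝ) * (1 - al) := by exact_mod_cast hk2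
      have q1 : 0 < 1 - (al : ℝ) := by
        by_contra h5
        rw [not_lt] at h5
        nlinarith [sq_nonneg ((c2 : ℝ) + l2 * al)]
      have q2 : lam * a0 ≤ l2 * al := mul_le_mul h2 hh ha00 (by linarith)
      have q3 : (c + lam * a0) ^ 2 ≤ ((c2 : ℝ) + l2 * al) ^ 2 :=
        pow_le_pow_left₀ (by positivity) (by linarith) 2
      have q4 : ((PL : ℚ) : ℝ) * (1 - al) ≤ π * (1 - a0) :=
        mul_le_mul hpl (by linarith) q1.le hpi.le
      linarith [h.w0]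
    have e1 : a1 ≤ (be : ℝ) := by
      rcases hk3 with (hk3 | ⟨hk3, hk3'⟩) | ⟨hk3, hk3'⟩
      · have : (1 / 2 : ℝ) ≤ be := by
          have := (Rat.cast_le (K := ℝ)).2 hk3
          push_cast at this; exact this
        linarith [h.ha1V, h.hV2]
      · by_contra hh
        rw [not_le] at hh
        have b0 : (0 : ℝ) ≤ be := by exact_mod_cast hk3
        have q : ((c2 : ℝ) + l2 * be) ^ 2 < ((PL : ℚ) : ℝ) * be := by exact_mod_cast hk3'
        have q2 : lam * be ≤ l2 * be := by gcongr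
        have q3 : (c + lam * be) ^ 2 ≤ ((c2 : ℝ) + l2 * be) ^ 2 :=
          pow_le_pow_left₀ (by positivity) (by linarith) 2
        have q4 : ((PL : ℚ) : ℝ) * be ≤ π * be := by gcongr
        have p1 : 0 < π * be - (c + lam * be) ^ 2 := by linarith
        have p2 : 0 < π * V - (c + lam * V) ^ 2 := by
          have : (c + lam * V) ^ 2 < A ^ 2 := pow_lt_pow_left₀ hN (by positivity) (by norm_num)
          linarith [h.hAV]
        have id : (V - be) * (π * a1 - (c + lam * a1) ^ 2) =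
            (V - a1) * (π * be - (c + lam * be) ^ 2) + (a1 - be) * (π * V - (c + lam * V) ^ 2) +
              lam ^ 2 * ((a1 - be) * (V - a1) * (V - be)) := by ring
        have u1 : 0 ≤ V - a1 := by linarith [h.ha1V]
        have u2 : 0 < a1 - be := by linarith
        have u3 : 0 < V - be := by linarith
        have t1 := mul_nonneg u1 p1.le
        have t2 := mul_pos u2 p2
        have t3 : 0 ≤ lam ^ 2 * ((a1 - be) * (V - a1) * (V - be)) := by positivity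
        have t4 : (V - be) * (π * a1 - (c + lam * a1) ^ 2) ≤ 0 :=
          mul_nonpos_of_nonneg_of_nonpos u3.le (by linarith [h.w1])
        linarith
      · have b0 : (0 : ℝ) < l1 := by exact_mod_cast hk3
        have q : (Ab : ℝ) - c1 ≤ l1 * be := by exact_mod_cast hk3'
        have q2 : (l1 : ℝ) * V ≤ lam * V := by gcongr
        have : (l1 : ℝ) * V ≤ l1 * be := by linarith
        have := le_of_mul_le_mul_left this b0
        linarith [h.ha1V]
    have e2 : (be : ℝ) ≤ al := by exact_mod_cast hk4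
    have e3 : ((al : ℝ) - be) ^ 2 < (a0 - a1) ^ 2 :=
      pow_lt_pow_left₀ (by linarith) (by linarith) (by norm_num)
    have hCS := h.hCS
    rcases hk5 with hk5 | hk5
    · have q : (Ab : ℝ) ^ 2 / 3 ≤ ((al : ℝ) - be) ^ 2 := by exact_mod_cast hk5
      have q1 : A * (A - c - lam * V) ≤ A * (A / 3) := by gcongr; linarith [h.h3]
      have q2 : A ^ 2 ≤ (Ab : ℝ) ^ 2 := pow_le_pow_left₀ hA0.le hAb 2
      nlinarith
    · have q : (Ab : ℝ) * (psi - c1) ≤ ((al : ℝ) - be) ^ 2 := by exact_mod_cast hk5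
      have q1 : A * (A - c - lam * V) ≤ Ab * (psi - c1) :=
        mul_le_mul hAb (by linarith) (by linarith) (by linarith)
      linarith

def tA : Tr :=
 (.sl (3/4)
 (.sc (1/4)
 (.leaf 1 1 (389/500) (23/1000)) (.sl (3/8)
 (.leaf 1 1 (199/250) (91/1000)) (.sc (3/8)
 (.leaf 1 (8807/10000) (729/1000) (7/125)) (.sl (9/16)
 (.leaf 1 (8807/10000) (367/500) (99/1000)) (.sc (7/16)
 (.leaf 1 (821/1000) (703/1000) (79/1000)) (.sl (21/32)
 (.leaf 1 (821/1000) (141/200) (103/1000)) (.sc (15/32)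
 (.leaf 1 (989/1250) (69/100) (93/1000)) (.leaf 1 (989/1250) (169/250) (27/250))))))))) (.sc (1/4)
 (.sl (9/8)
 (.leaf 1 (7613/10000) (27/40) (1/40)) (.sc (1/8)
 (.leaf 1 (321/500) (79/125) (3/500)) (.sl (21/16)
 (.leaf 1 (321/500) (63/100) (13/500)) (.sc (3/16)
 (.leaf 1 (5823/10000) (611/1000) (7/500)) (.sl (45/32)
 (.leaf 1 (5823/10000) (609/1000) (27/1000)) (.sc (7/32)
 (.leaf 1 (1381/2500) (3/5) (1/50)) (.sl (93/64)
 (.sc (15/64)
 (.leaf 1 (1381/2500) (121/200) (23/1000)) (.leaf 1 (1381/2500) (599/1000) (27/1000))) (.sc (15/64)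
 (.leaf 1 (43/80) (119/200) (3/125)) (.leaf 1 (43/80) (589/1000) (27/1000)))))))))) (.sl (9/8)
 (.sc (3/8)
 (.sl (15/16)
 (.leaf 1 (7613/10000) (169/250) (59/1000)) (.sc (5/16)
 (.leaf 1 (877/1250) (651/1000) (41/1000)) (.sl (33/32)
 (.leaf 1 (877/1250) (651/1000) (31/500)) (.sc (11/32)
 (.leaf 1 (3359/5000) (639/1000) (13/250)) (.sl (69/64)
 (.leaf 1 (3359/5000) (639/1000) (63/1000)) (.leaf 1 (6569/10000) (627/1000) (8/125))))))) (.sl (15/16)
 (.sc (7/16)
 (.sl (27/32)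
 (.leaf 1 (7613/10000) (169/250) (41/500)) (.sc (13/32)
 (.leaf 1 (1463/2000) (663/1000) (9/125)) (.sl (57/64)
 (.leaf 1 (1463/2000) (663/1000) (21/250)) (.leaf 1 (3583/5000) (13/20) (43/500))))) (.sl (27/32)
 (.sc (15/32)
 (.sl (51/64)
 (.leaf 1 (7613/10000) (169/250) (19/200)) (.leaf 1 (933/1250) (663/1000) (97/1000))) (.sl (51/64)
 (.leaf 1 (7613/10000) (663/1000) (11/100)) (.leaf 1 (933/1250) (13/20) (113/1000)))) (.sc (15/32)
 (.sl (57/64)
 (.leaf 1 (1463/2000) (13/20) (99/1000)) (.leaf 1 (3583/5000) (637/1000) (51/500))) (.sl (57/64)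
 (.leaf 1 (1463/2000) (637/1000) (29/250)) (.leaf 1 (3583/5000) (78/125) (3/25)))))) (.sc (7/16)
 (.sl (33/32)
 (.sc (13/32)
 (.sl (63/64)
 (.leaf 1 (877/1250) (651/1000) (73/1000)) (.leaf 1 (6867/10000) (319/500) (3/40))) (.sl (63/64)
 (.leaf 1 (877/1250) (319/500) (11/125)) (.leaf 1 (6867/10000) (313/500) (9/100)))) (.sc (13/32)
 (.sl (69/64)
 (.leaf 1 (3359/5000) (627/1000) (19/250)) (.leaf 1 (6569/10000) (123/200) (39/500))) (.sl (69/64)
 (.leaf 1 (3359/5000) (307/500) (23/250)) (.leaf 1 (6569/10000) (603/1000) (47/500))))) (.sl (33/32)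
 (.sc (15/32)
 (.sl (63/64)
 (.leaf 1 (877/1250) (5/8) (13/125)) (.leaf 1 (6867/10000) (613/1000) (107/1000))) (.sl (63/64)
 (.leaf 1 (877/1250) (153/250) (123/1000)) (.leaf 1 (6867/10000) (3/5) (127/1000)))) (.sc (15/32)
 (.sl (69/64)
 (.leaf 1 (3359/5000) (301/500) (11/100)) (.leaf 1 (6569/10000) (59/100) (57/500))) (.sl (69/64)
 (.leaf 1 (3359/5000) (589/1000) (131/1000)) (.leaf 1 (6569/10000) (289/500) (17/125)))))))) (.sc (3/8)
 (.sl (21/16)
 (.sc (5/16)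
 (.sl (39/32)
 (.leaf 1 (321/500) (629/1000) (43/1000)) (.sc (9/32)
 (.leaf 1 (6121/10000) (619/1000) (17/500)) (.sl (81/64)
 (.sc (19/64)
 (.leaf 1 (6121/10000) (78/125) (19/500)) (.leaf 1 (6121/10000) (309/500) (43/1000))) (.leaf 1 (1493/2500) (607/1000) (11/250))))) (.sl (39/32)
 (.sc (11/32)
 (.sl (75/64)
 (.leaf 1 (321/500) (157/250) (53/1000)) (.leaf 1 (627/1000) (617/1000) (27/500))) (.sl (75/64)
 (.leaf 1 (321/500) (77/125) (13/200)) (.leaf 1 (627/1000) (121/200) (67/1000)))) (.sc (11/32)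
 (.sl (81/64)
 (.leaf 1 (6121/10000) (303/500) (11/200)) (.leaf 1 (1493/2500) (149/250) (7/125))) (.sl (81/64)
 (.leaf 1 (6121/10000) (297/500) (17/250)) (.leaf 1 (1493/2500) (73/125) (69/1000)))))) (.sc (5/16)
 (.sl (45/32)
 (.sc (9/32)
 (.sl (87/64)
 (.sc (17/64)
 (.leaf 1 (5823/10000) (307/500) (3/100)) (.leaf 1 (5823/10000) (76/125) (7/200))) (.sc (17/64)
 (.leaf 1 (5673/10000) (151/250) (31/1000)) (.leaf 1 (5673/10000) (299/500) (7/200)))) (.sl (87/64)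
 (.leaf 1 (5823/10000) (597/1000) (9/200)) (.leaf 1 (5673/10000) (587/1000) (9/200)))) (.sc (9/32)
 (.sl (93/64)
 (.leaf 1 (1381/2500) (147/250) (9/250)) (.leaf 1 (43/80) (579/1000) (9/250))) (.leaf 1 (1381/2500) (71/125) (47/1000)))) (.sl (45/32)
 (.sc (11/32)
 (.sl (87/64)
 (.leaf 1 (5823/10000) (293/500) (57/1000)) (.leaf 1 (5673/10000) (72/125) (29/500))) (.leaf 1 (5823/10000) (141/250) (73/1000))) (.sc (11/32)
 (.leaf 1 (1381/2500) (557/1000) (3/50)) (.leaf 1 (1381/2500) (273/500) (77/1000)))))) (.sl (21/16)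
 (.sc (7/16)
 (.sl (39/32)
 (.sc (13/32)
 (.sl (75/64)
 (.leaf 1 (321/500) (151/250) (2/25)) (.leaf 1 (627/1000) (593/1000) (41/500))) (.sl (75/64)
 (.leaf 1 (321/500) (74/125) (97/1000)) (.leaf 1 (627/1000) (581/1000) (1/10)))) (.sc (13/32)
 (.sl (81/64)
 (.leaf 1 (6121/10000) (583/1000) (21/250)) (.leaf 1 (1493/2500) (143/250) (43/500))) (.leaf 1 (6121/10000) (561/1000) (53/500)))) (.sl (39/32)
 (.sc (15/32)
 (.sl (75/64)
 (.leaf 1 (321/500) (29/50) (117/1000)) (.leaf 1 (627/1000) (569/1000) (121/1000))) (.sl (75/64)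
 (.leaf 1 (321/500) (567/1000) (141/1000)) (.leaf 1 (627/1000) (557/1000) (147/1000)))) (.sc (15/32)
 (.leaf 1 (6121/10000) (549/1000) (131/1000)) (.sl (81/64)
 (.leaf 1 (6121/10000) (547/1000) (77/500)) (.leaf 1 (1493/2500) (537/1000) (81/500)))))) (.sc (7/16)
 (.sl (45/32)
 (.sc (13/32)
 (.leaf 1 (5823/10000) (553/1000) (91/1000)) (.leaf 1 (5823/10000) (541/1000) (57/500))) (.sc (13/32)
 (.leaf 1 (1381/2500) (267/500) (97/1000)) (.leaf 1 (1381/2500) (523/1000) (31/250)))) (.sl (45/32)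
 (.sc (15/32)
 (.leaf 1 (5823/10000) (53/100) (143/1000)) (.sl (87/64)
 (.leaf 1 (5823/10000) (527/1000) (171/1000)) (.leaf 1 (5673/10000) (259/500) (91/500)))) (.sc (15/32)
 (.leaf 1 (1381/2500) (64/125) (4/25)) (.sl (93/64)
 (.leaf 1 (1381/2500) (509/1000) (197/1000)) (.leaf 1 (43/80) (501/1000) (217/1000)))))))))))

def tB : Tr :=
 (.sl (3/4)
 (.sc (3/4)
 (.sl (3/8)
 (.sc (5/8)
 (.leaf 1 1 (37/50) (37/250)) (.sl (3/16)
 (.sc (11/16)
 (.leaf 1 1 (389/500) (33/200)) (.sl (3/32)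
 (.leaf 1 1 (98/125) (47/250)) (.leaf 1 (4851/5000) (747/1000) (99/500)))) (.sc (11/16)
 (.sl (9/32)
 (.leaf 1 (2351/2500) (93/125) (173/1000)) (.sc (21/32)
 (.leaf 1 (1821/2000) (29/40) (41/250)) (.leaf 1 (1821/2000) (71/100) (91/500)))) (.sl (9/32)
 (.leaf 1 (2351/2500) (89/125) (209/1000)) (.sc (23/32)
 (.leaf 1 (1821/2000) (347/500) (201/1000)) (.leaf 1 (1821/2000) (339/500) (221/1000))))))) (.sc (5/8)
 (.sl (9/16)
 (.sc (9/16)
 (.sl (15/32)
 (.leaf 1 (8807/10000) (737/1000) (123/1000)) (.sc (17/32)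
 (.leaf 1 (2127/2500) (18/25) (113/1000)) (.leaf 1 (2127/2500) (353/500) (129/1000)))) (.sl (15/32)
 (.sc (19/32)
 (.leaf 1 (8807/10000) (723/1000) (139/1000)) (.leaf 1 (8807/10000) (177/250) (31/200))) (.sc (19/32)
 (.leaf 1 (2127/2500) (173/250) (73/500)) (.leaf 1 (2127/2500) (677/1000) (41/250))))) (.sc (9/16)
 (.sl (21/32)
 (.sc (17/32)
 (.leaf 1 (821/1000) (691/1000) (59/500)) (.leaf 1 (821/1000) (677/1000) (27/200))) (.sc (17/32)
 (.sl (45/64)
 (.leaf 1 (989/1250) (677/1000) (121/1000)) (.leaf 1 (3881/5000) (663/1000) (1/8))) (.sl (45/64)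
 (.leaf 1 (989/1250) (663/1000) (139/1000)) (.leaf 1 (3881/5000) (649/1000) (143/1000))))) (.sl (21/32)
 (.sc (19/32)
 (.leaf 1 (821/1000) (663/1000) (77/500)) (.sl (39/64)
 (.leaf 1 (821/1000) (331/500) (169/1000)) (.leaf 1 (8061/10000) (81/125) (87/500)))) (.sc (19/32)
 (.sl (45/64)
 (.leaf 1 (989/1250) (649/1000) (159/1000)) (.leaf 1 (3881/5000) (127/200) (41/250))) (.sl (45/64)
 (.leaf 1 (989/1250) (317/500) (9/50)) (.leaf 1 (3881/5000) (621/1000) (187/1000))))))) (.sl (9/16)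
 (.sc (11/16)
 (.sl (15/32)
 (.sc (21/32)
 (.leaf 1 (8807/10000) (693/1000) (87/500)) (.leaf 1 (8807/10000) (339/500) (193/1000))) (.sc (21/32)
 (.leaf 1 (2127/2500) (331/500) (23/125)) (.sl (33/64)
 (.leaf 1 (2127/2500) (331/500) (199/1000)) (.leaf 1 (8359/10000) (647/1000) (103/500))))) (.sl (15/32)
 (.sc (23/32)
 (.leaf 1 (8807/10000) (331/500) (107/500)) (.leaf 1 (8807/10000) (323/500) (59/250))) (.sc (23/32)
 (.sl (33/64)
 (.leaf 1 (2127/2500) (647/1000) (221/1000)) (.leaf 1 (8359/10000) (79/125) (229/1000))) (.sl (33/64)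
 (.leaf 1 (2127/2500) (631/1000) (49/200)) (.leaf 1 (8359/10000) (77/125) (127/500)))))) (.sc (11/16)
 (.sl (21/32)
 (.sc (21/32)
 (.sl (39/64)
 (.leaf 1 (821/1000) (81/125) (19/100)) (.leaf 1 (8061/10000) (633/1000) (197/1000))) (.sl (39/64)
 (.leaf 1 (821/1000) (633/1000) (213/1000)) (.leaf 1 (8061/10000) (619/1000) (221/1000)))) (.sc (21/32)
 (.sl (45/64)
 (.leaf 1 (989/1250) (31/50) (51/250)) (.leaf 1 (3881/5000) (303/500) (53/250))) (.sl (45/64)
 (.leaf 1 (989/1250) (121/200) (23/100)) (.leaf 1 (3881/5000) (74/125) (6/25))))) (.sl (21/32)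
 (.sc (23/32)
 (.sl (39/64)
 (.leaf 1 (821/1000) (309/500) (119/500)) (.leaf 1 (8061/10000) (151/250) (247/1000))) (.sl (39/64)
 (.leaf 1 (821/1000) (301/500) (53/200)) (.leaf 1 (8061/10000) (147/250) (69/250)))) (.sc (23/32)
 (.sl (45/64)
 (.leaf 1 (989/1250) (59/100) (129/500)) (.leaf 1 (3881/5000) (577/1000) (271/1000))) (.sl (45/64)
 (.leaf 1 (989/1250) (23/40) (29/100)) (.leaf 1 (3881/5000) (281/500) (61/200))))))))) (.sl (3/8)
 (.sc (7/8)
 (.sl (3/16)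
 (.sc (13/16)
 (.sl (3/32)
 (.leaf 1 1 (751/1000) (221/1000)) (.leaf 1 (4851/5000) (357/500) (117/500))) (.sl (3/32)
 (.leaf 1 1 (717/1000) (129/500)) (.leaf 1 (4851/5000) (17/25) (137/500)))) (.sc (13/16)
 (.sl (9/32)
 (.sc (25/32)
 (.leaf 1 (2351/2500) (87/125) (57/250)) (.leaf 1 (2351/2500) (679/1000) (31/125))) (.sc (25/32)
 (.leaf 1 (1821/2000) (331/500) (243/1000)) (.leaf 1 (1821/2000) (129/200) (53/200)))) (.sl (9/32)
 (.sc (27/32)
 (.leaf 1 (2351/2500) (331/500) (27/100)) (.leaf 1 (2351/2500) (161/250) (73/250))) (.sc (27/32)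
 (.leaf 1 (1821/2000) (157/250) (289/1000)) (.leaf 1 (1821/2000) (611/1000) (157/500)))))) (.sl (3/16)
 (.sc (15/16)
 (.sl (3/32)
 (.leaf 1 1 (17/25) (297/1000)) (.leaf 1 (4851/5000) (643/1000) (317/1000))) (.sl (3/32)
 (.leaf 1 1 (321/500) (339/1000)) (.leaf 1 (4851/5000) (121/200) (91/250)))) (.sc (15/16)
 (.sl (9/32)
 (.leaf 1 (2351/2500) (76/125) (17/50)) (.leaf 1 (1821/2000) (72/125) (369/1000))) (.leaf 1 (2351/2500) (539/1000) (167/500))))) (.sc (7/8)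
 (.sl (9/16)
 (.sc (13/16)
 (.sl (15/32)
 (.sc (25/32)
 (.leaf 1 (8807/10000) (63/100) (13/50)) (.leaf 1 (8807/10000) (307/500) (57/200))) (.sc (25/32)
 (.leaf 1 (2127/2500) (601/1000) (281/1000)) (.leaf 1 (2127/2500) (117/200) (311/1000)))) (.sl (15/32)
 (.sc (27/32)
 (.leaf 1 (8807/10000) (597/1000) (39/125)) (.leaf 1 (8807/10000) (29/50) (341/1000))) (.sc (27/32)
 (.leaf 1 (2127/2500) (71/125) (171/500)) (.leaf 1 (2127/2500) (69/125) (167/500))))) (.sc (13/16)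
 (.sl (21/32)
 (.sc (25/32)
 (.sl (39/64)
 (.leaf 1 (821/1000) (587/1000) (147/500)) (.leaf 1 (8061/10000) (573/1000) (77/250))) (.leaf 1 (821/1000) (557/1000) (343/1000))) (.sc (25/32)
 (.leaf 1 (989/1250) (547/1000) (43/125)) (.leaf 1 (989/1250) (133/250) (167/500)))) (.leaf 1 (821/1000) (501/1000) (167/500)))) (.leaf 1 (8807/10000) (219/500) (167/500))))) (.sc (3/4)
 (.sl (9/8)
 (.sc (5/8)
 (.sl (15/16)
 (.sc (9/16)
 (.sl (27/32)
 (.sc (17/32)
 (.sl (51/64)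
 (.leaf 1 (7613/10000) (649/1000) (16/125)) (.leaf 1 (933/1250) (159/250) (33/250))) (.sl (51/64)
 (.leaf 1 (7613/10000) (159/250) (37/250)) (.leaf 1 (933/1250) (623/1000) (19/125)))) (.sc (17/32)
 (.sl (57/64)
 (.leaf 1 (1463/2000) (623/1000) (17/125)) (.leaf 1 (3583/5000) (611/1000) (7/50))) (.sl (57/64)
 (.leaf 1 (1463/2000) (61/100) (79/500)) (.leaf 1 (3583/5000) (299/500) (163/1000))))) (.sl (27/32)
 (.sc (19/32)
 (.sl (51/64)
 (.leaf 1 (7613/10000) (311/500) (169/1000)) (.leaf 1 (933/1250) (609/1000) (7/40))) (.sl (51/64)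
 (.leaf 1 (7613/10000) (76/125) (97/500)) (.leaf 1 (933/1250) (119/200) (201/1000)))) (.sc (19/32)
 (.sl (57/64)
 (.leaf 1 (1463/2000) (149/250) (91/500)) (.leaf 1 (3583/5000) (73/125) (19/100))) (.sl (57/64)
 (.leaf 1 (1463/2000) (583/1000) (21/100)) (.leaf 1 (3583/5000) (571/1000) (11/50)))))) (.sc (9/16)
 (.sl (33/32)
 (.sc (17/32)
 (.sl (63/64)
 (.leaf 1 (877/1250) (599/1000) (29/200)) (.leaf 1 (6867/10000) (147/250) (3/20))) (.sl (63/64)
 (.leaf 1 (877/1250) (293/500) (17/100)) (.leaf 1 (6867/10000) (23/40) (177/1000)))) (.sc (17/32)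
 (.sl (69/64)
 (.leaf 1 (3359/5000) (72/125) (39/250)) (.leaf 1 (6569/10000) (113/200) (163/1000))) (.sl (69/64)
 (.leaf 1 (3359/5000) (563/1000) (37/200)) (.leaf 1 (6569/10000) (553/1000) (39/200))))) (.sl (33/32)
 (.sc (19/32)
 (.sl (63/64)
 (.leaf 1 (877/1250) (573/1000) (99/500)) (.leaf 1 (6867/10000) (561/1000) (26/125))) (.sl (63/64)
 (.sc (39/64)
 (.leaf 1 (877/1250) (283/500) (43/200)) (.leaf 1 (877/1250) (559/1000) (29/125))) (.sc (39/64)
 (.leaf 1 (6867/10000) (111/200) (113/500)) (.leaf 1 (6867/10000) (137/250) (123/500))))) (.sc (19/32)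
 (.sl (69/64)
 (.sc (37/64)
 (.leaf 1 (3359/5000) (557/1000) (101/500)) (.leaf 1 (3359/5000) (11/20) (11/50))) (.sc (37/64)
 (.leaf 1 (6569/10000) (273/500) (213/1000)) (.leaf 1 (6569/10000) (27/50) (117/500)))) (.sl (69/64)
 (.sc (39/64)
 (.leaf 1 (3359/5000) (68/125) (6/25)) (.leaf 1 (3359/5000) (537/1000) (263/1000))) (.sc (39/64)
 (.leaf 1 (6569/10000) (533/1000) (257/1000)) (.leaf 1 (6569/10000) (527/1000) (71/250)))))))) (.sl (15/16)
 (.sc (11/16)
 (.sl (27/32)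
 (.sc (21/32)
 (.sl (51/64)
 (.leaf 1 (7613/10000) (593/1000) (221/1000)) (.leaf 1 (933/1250) (581/1000) (231/1000))) (.sl (51/64)
 (.leaf 1 (7613/10000) (579/1000) (251/1000)) (.leaf 1 (933/1250) (567/1000) (33/125)))) (.sc (21/32)
 (.sl (57/64)
 (.leaf 1 (1463/2000) (569/1000) (121/500)) (.sc (41/64)
 (.leaf 1 (3583/5000) (141/250) (237/1000)) (.leaf 1 (3583/5000) (557/1000) (32/125)))) (.sl (57/64)
 (.leaf 1 (1463/2000) (111/200) (279/1000)) (.leaf 1 (3583/5000) (543/1000) (297/1000))))) (.sl (27/32)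
 (.sc (23/32)
 (.sl (51/64)
 (.leaf 1 (7613/10000) (113/200) (57/200)) (.leaf 1 (933/1250) (69/125) (151/500))) (.sl (51/64)
 (.leaf 1 (7613/10000) (11/20) (81/250)) (.leaf 1 (933/1250) (269/500) (173/500)))) (.sc (23/32)
 (.sl (57/64)
 (.leaf 1 (1463/2000) (541/1000) (161/500)) (.leaf 1 (3583/5000) (529/1000) (347/1000))) (.leaf 1 (1463/2000) (103/200) (167/500))))) (.sc (11/16)
 (.sl (33/32)
 (.sc (21/32)
 (.sl (63/64)
 (.sc (41/64)
 (.leaf 1 (877/1250) (553/1000) (251/1000)) (.leaf 1 (877/1250) (273/500) (34/125))) (.sc (41/64)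
 (.leaf 1 (6867/10000) (541/1000) (67/250)) (.leaf 1 (6867/10000) (107/200) (73/250)))) (.sl (63/64)
 (.sc (43/64)
 (.leaf 1 (877/1250) (539/1000) (59/200)) (.leaf 1 (877/1250) (133/250) (8/25))) (.sc (43/64)
 (.leaf 1 (6867/10000) (66/125) (319/1000)) (.leaf 1 (6867/10000) (521/1000) (167/500))))) (.sc (21/32)
 (.sl (69/64)
 (.sc (41/64)
 (.leaf 1 (3359/5000) (531/1000) (36/125)) (.leaf 1 (3359/5000) (131/250) (159/500))) (.sc (41/64)
 (.leaf 1 (6569/10000) (13/25) (79/250)) (.leaf 1 (6569/10000) (257/500) (167/500)))) (.leaf 1 (3359/5000) (501/1000) (167/500)))) (.leaf 1 (877/1250) (237/500) (167/500))))) (.sc (5/8)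
 (.sl (21/16)
 (.sc (9/16)
 (.sl (39/32)
 (.sc (17/32)
 (.sl (75/64)
 (.leaf 1 (321/500) (111/200) (17/100)) (.leaf 1 (627/1000) (109/200) (179/1000))) (.sl (75/64)
 (.leaf 1 (321/500) (271/500) (103/500)) (.leaf 1 (627/1000) (133/250) (219/1000)))) (.sc (17/32)
 (.sl (81/64)
 (.leaf 1 (6121/10000) (107/200) (189/1000)) (.leaf 1 (1493/2500) (21/40) (101/500))) (.sl (81/64)
 (.leaf 1 (6121/10000) (261/500) (237/1000)) (.sc (35/64)
 (.leaf 1 (1493/2500) (519/1000) (57/250)) (.leaf 1 (1493/2500) (513/1000) (13/50)))))) (.sl (39/32)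
 (.sc (19/32)
 (.sl (75/64)
 (.sc (37/64)
 (.leaf 1 (321/500) (67/125) (227/1000)) (.leaf 1 (321/500) (53/100) (251/1000))) (.sc (37/64)
 (.leaf 1 (627/1000) (263/500) (61/250)) (.leaf 1 (627/1000) (13/25) (137/500)))) (.sl (75/64)
 (.sc (39/64)
 (.leaf 1 (321/500) (523/1000) (7/25)) (.leaf 1 (321/500) (517/1000) (157/500))) (.sc (39/64)
 (.leaf 1 (627/1000) (513/1000) (311/1000)) (.leaf 1 (627/1000) (507/1000) (167/500))))) (.sc (19/32)
 (.sl (81/64)
 (.sc (37/64)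
 (.leaf 1 (6121/10000) (129/250) (67/250)) (.leaf 1 (6121/10000) (51/100) (77/250))) (.sc (37/64)
 (.leaf 1 (1493/2500) (507/1000) (38/125)) (.leaf 1 (1493/2500) (501/1000) (167/500)))) (.leaf 1 (6121/10000) (489/1000) (167/500))))) (.sc (9/16)
 (.sl (45/32)
 (.sc (17/32)
 (.sl (87/64)
 (.leaf 1 (5823/10000) (129/250) (219/1000)) (.leaf 1 (5673/10000) (507/1000) (121/500))) (.sl (87/64)
 (.sc (35/64)
 (.leaf 1 (5823/10000) (51/100) (63/250)) (.leaf 1 (5823/10000) (63/125) (299/1000))) (.sc (35/64)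
 (.leaf 1 (5673/10000) (501/1000) (291/1000)) (.leaf 1 (5673/10000) (99/200) (167/500))))) (.sc (17/32)
 (.sl (93/64)
 (.sc (33/64)
 (.leaf 1 (1381/2500) (63/125) (23/100)) (.leaf 1 (1381/2500) (249/500) (141/500))) (.sc (33/64)
 (.leaf 1 (43/80) (99/200) (269/1000)) (.leaf 1 (43/80) (489/1000) (167/500)))) (.sl (93/64)
 (.leaf 1 (1381/2500) (243/500) (167/500)) (.leaf 1 (43/80) (239/500) (323/1000))))) (.sl (45/32)
 (.sc (19/32)
 (.leaf 1 (5823/10000) (483/1000) (167/500)) (.emp 1 (5823/10000))) (.emp 1 (1381/2500))))) (.sl (21/16)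
 (.sc (11/16)
 (.sl (39/32)
 (.leaf 1 (321/500) (241/500) (167/500)) (.emp 1 (6121/10000))) (.emp 1 (321/500))) (.emp 1 (5823/10000))))) (.sl (9/8)
 (.sc (7/8)
 (.sl (15/16)
 (.leaf 1 (7613/10000) (229/500) (167/500)) (.emp 1 (877/1250))) (.emp 1 (7613/10000))) (.emp 1 (321/500)))))

def tC : Tr :=
 (.sl (9/4)
 (.sc (1/4)
 (.sl (15/8)
 (.sc (1/8)
 (.sl (27/16)
 (.leaf 1 (2613/5000) (297/500) (3/500)) (.leaf (931/1000) (931/2000) (14/25) (3/500))) (.sl (27/16)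
 (.sc (3/16)
 (.sl (51/32)
 (.sc (5/32)
 (.leaf 1 (2613/5000) (301/500) (1/100)) (.sl (99/64)
 (.leaf 1 (2613/5000) (601/1000) (7/500)) (.sc (11/64)
 (.leaf 1 (5077/10000) (597/1000) (3/250)) (.sl (201/128)
 (.leaf 1 (5077/10000) (597/1000) (7/500)) (.leaf 1 (2501/5000) (74/125) (3/200)))))) (.sc (5/32)
 (.leaf (493/500) (308/625) (73/125) (1/100)) (.sl (105/64)
 (.sc (11/64)
 (.leaf (493/500) (308/625) (147/250) (3/250)) (.leaf (493/500) (308/625) (583/1000) (3/200))) (.leaf (479/500) (1197/2500) (287/500) (3/200))))) (.sl (51/32)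
 (.sc (7/32)
 (.sl (99/64)
 (.sc (13/64)
 (.leaf 1 (2613/5000) (149/250) (17/1000)) (.leaf 1 (2613/5000) (591/1000) (1/50))) (.sc (13/64)
 (.leaf 1 (5077/10000) (587/1000) (17/1000)) (.leaf 1 (5077/10000) (581/1000) (1/50)))) (.sl (99/64)
 (.leaf 1 (2613/5000) (29/50) (7/250)) (.leaf 1 (5077/10000) (571/1000) (7/250)))) (.sc (7/32)
 (.sl (105/64)
 (.leaf (493/500) (308/625) (143/250) (21/1000)) (.leaf (479/500) (1197/2500) (563/1000) (21/1000))) (.leaf (493/500) (308/625) (553/1000) (29/1000))))) (.sc (3/16)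
 (.sl (57/32)
 (.leaf (931/1000) (931/2000) (557/1000) (3/200)) (.leaf (441/500) (441/1000) (27/50) (3/200))) (.sl (57/32)
 (.sc (7/32)
 (.leaf (931/1000) (931/2000) (273/500) (21/1000)) (.leaf (931/1000) (931/2000) (67/125) (29/1000))) (.leaf (441/500) (441/1000) (13/25) (3/100)))))) (.sc (1/8)
 (.leaf (419/500) (4189/10000) (1/2) (7/1000)) (.sl (33/16)
 (.sc (3/16)
 (.leaf (419/500) (4189/10000) (51/100) (2/125)) (.leaf (419/500) (4189/10000) (491/1000) (4/125))) (.sc (3/16)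
 (.leaf (381/500) (238/625) (483/1000) (2/125)) (.leaf (381/500) (238/625) (93/200) (17/500)))))) (.sl (15/8)
 (.sc (3/8)
 (.sl (27/16)
 (.sc (5/16)
 (.sl (51/32)
 (.sc (9/32)
 (.leaf 1 (2613/5000) (14/25) (37/1000)) (.leaf 1 (2613/5000) (549/1000) (49/1000))) (.sc (9/32)
 (.leaf (493/500) (308/625) (543/1000) (19/500)) (.leaf (493/500) (308/625) (133/250) (51/1000)))) (.sl (51/32)
 (.sc (11/32)
 (.leaf 1 (2613/5000) (539/1000) (63/1000)) (.leaf 1 (2613/5000) (66/125) (81/1000))) (.leaf (493/500) (308/625) (511/1000) (87/1000)))) (.sc (5/16)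
 (.sl (57/32)
 (.leaf (931/1000) (931/2000) (129/250) (53/1000)) (.leaf (441/500) (441/1000) (501/1000) (11/200))) (.leaf (931/1000) (931/2000) (481/1000) (103/1000)))) (.sl (27/16)
 (.sc (7/16)
 (.sl (51/32)
 (.sc (13/32)
 (.leaf 1 (2613/5000) (517/1000) (21/200)) (.leaf 1 (2613/5000) (253/500) (137/1000))) (.sc (13/32)
 (.leaf (493/500) (308/625) (501/1000) (23/200)) (.leaf (493/500) (308/625) (49/100) (79/500)))) (.sl (51/32)
 (.sc (15/32)
 (.leaf 1 (2613/5000) (99/200) (47/250)) (.sl (99/64)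
 (.leaf 1 (2613/5000) (123/250) (253/1000)) (.sc (31/64)
 (.leaf 1 (5077/10000) (49/100) (117/500)) (.sl (201/128)
 (.leaf 1 (5077/10000) (61/125) (77/250)) (.leaf 1 (2501/5000) (121/250) (329/1000)))))) (.sc (15/32)
 (.sl (105/64)
 (.leaf (493/500) (308/625) (487/1000) (107/500)) (.sc (29/64)
 (.leaf (479/500) (1197/2500) (97/200) (97/500)) (.leaf (479/500) (1197/2500) (479/1000) (77/250)))) (.sl (105/64)
 (.sc (31/64)
 (.leaf (493/500) (308/625) (241/500) (13/40)) (.leaf (493/500) (308/625) (119/250) (63/200))) (.leaf (479/500) (1197/2500) (469/1000) (299/1000)))))) (.sc (7/16)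
 (.sl (57/32)
 (.sc (13/32)
 (.leaf (931/1000) (931/2000) (97/200) (129/1000)) (.leaf (931/1000) (931/2000) (19/40) (103/500))) (.sc (13/32)
 (.leaf (441/500) (441/1000) (47/100) (153/1000)) (.leaf (441/500) (441/1000) (23/50) (67/250)))) (.sl (57/32)
 (.sc (15/32)
 (.leaf (931/1000) (931/2000) (58/125) (293/1000)) (.emp (931/1000) (931/2000))) (.leaf (441/500) (441/1000) (11/25) (1/4)))))) (.sc (3/8)
 (.sl (33/16)
 (.sc (5/16)
 (.leaf (419/500) (4189/10000) (59/125) (31/500)) (.leaf (419/500) (4189/10000) (453/1000) (71/500))) (.sc (5/16)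
 (.leaf (381/500) (238/625) (223/500) (71/1000)) (.sl (69/32)
 (.sc (11/32)
 (.leaf (381/500) (238/625) (9/20) (99/1000)) (.leaf (381/500) (238/625) (11/25) (203/1000))) (.leaf (729/1000) (3643/10000) (107/250) (97/500))))) (.sl (33/16)
 (.sc (7/16)
 (.sl (63/32)
 (.leaf (419/500) (4189/10000) (447/1000) (247/1000)) (.leaf (399/500) (399/1000) (217/500) (43/200))) (.emp (419/500) (4189/10000))) (.leaf (381/500) (238/625) (49/125) (47/250)))))) (.sc (1/4)
 (.sl (21/8)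
 (.sc (1/8)
 (.leaf (699/1000) (3491/10000) (113/250) (7/1000)) (.sl (39/16)
 (.leaf (699/1000) (3491/10000) (441/1000) (37/1000)) (.leaf (699/1000) (3223/10000) (419/1000) (41/1000)))) (.sc (1/8)
 (.leaf (699/1000) (187/625) (411/1000) (7/1000)) (.sl (45/16)
 (.leaf (699/1000) (187/625) (399/1000) (23/500)) (.sc (3/16)
 (.leaf (699/1000) (2793/10000) (99/250) (1/50)) (.leaf (699/1000) (2793/10000) (381/1000) (11/200)))))) (.sl (21/8)
 (.sc (3/8)
 (.sl (39/16)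
 (.sc (5/16)
 (.leaf (699/1000) (3491/10000) (423/1000) (91/1000)) (.leaf (699/1000) (3491/10000) (203/500) (43/250))) (.sc (5/16)
 (.sl (81/32)
 (.leaf (699/1000) (3223/10000) (413/1000) (37/200)) (.leaf (699/1000) (3103/10000) (201/500) (89/500))) (.leaf (699/1000) (3223/10000) (193/500) (159/1000)))) (.emp (699/1000) (3491/10000))) (.sc (3/8)
 (.sl (45/16)
 (.leaf (699/1000) (187/625) (367/1000) (43/250)) (.leaf (699/1000) (2793/10000) (7/20) (4/25))) (.emp (699/1000) (187/625))))))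

def tD : Tr :=
 (.sl (9/4)
 (.sc (3/4)
 (.sl (15/8)
 (.sc (5/8)
 (.sl (27/16)
 (.sc (9/16)
 (.sl (51/32)
 (.sc (17/32)
 (.sl (99/64)
 (.sc (33/64)
 (.leaf 1 (2613/5000) (487/1000) (167/500)) (.leaf 1 (2613/5000) (481/1000) (323/1000))) (.leaf 1 (5077/10000) (473/1000) (81/250))) (.emp 1 (2613/5000))) (.emp (493/500) (308/625))) (.emp 1 (2613/5000))) (.emp (931/1000) (931/2000))) (.emp 1 (2613/5000))) (.emp (419/500) (4189/10000))) (.emp 1 (2613/5000))) (.emp (699/1000) (3491/10000)))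

theorem chkA : chk tA 0 (3 / 2) 0 (1 / 2) = true := by decide +kernel
theorem chkB : chk tB 0 (3 / 2) (1 / 2) 1 = true := by decide +kernel
theorem chkC : chk tC (3 / 2) 3 0 (1 / 2) = true := by decide +kernel
theorem chkD : chk tD (3 / 2) 3 (1 / 2) 1 = true := by decide +kernel

theorem H.false {V lam A c a0 a1 : ℝ} (h : H V lam A c a0 a1) (hl3 : lam ≤ 3) : False := by
  have hc1 : c ≤ 1 := by
    have := mul_nonneg h.hl0 h.hV.le
    linarith [h.hN, h.hA1]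
  rcases le_total lam (3 / 2) with h1 | h1 <;> rcases le_total c (1 / 2) with h2 | h2
  · exact chk_sound h _ _ _ _ _ chkA (by push_cast; exact h.hl0) (by push_cast; exact h1)
      (by push_cast; exact h.hc0) (by push_cast; exact h2)
  · exact chk_sound h _ _ _ _ _ chkB (by push_cast; exact h.hl0) (by push_cast; exact h1)
      (by push_cast; exact h2) (by push_cast; exact hc1)
  · exact chk_sound h _ _ _ _ _ chkC (by push_cast; exact h1) (by push_cast; exact hl3)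
      (by push_cast; exact h.hc0) (by push_cast; exact h2)
  · exact chk_sound h _ _ _ _ _ chkD (by push_cast; exact h1) (by push_cast; exact hl3)
      (by push_cast; exact h2) (by push_cast; exact hc1)

end Crest.Agent.R214.T3

namespace Crest.Agent.R214

open Real

/-- Case `|T| = 3`: in the direction with the largest constant `c` the Cauchy-Schwarz bound on the
drop of the section area contradicts the two wall inequalities. -/
theorem t3_false (V lam A c a0 a1 : ℝ) (hV : 0 < V) (hV2 : V ≤ 1 / 2) (hl0 : 0 ≤ lam)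
    (hl3 : lam ≤ 3) (hA1 : A ≤ 1) (hAV : A ^ 2 ≤ π * V)
    (hlam : lam ^ 2 * V ≤ π / 4 ∨ V ≤ 4 * π / 81)
    (h3 : 2 * A ≤ 3 * (c + lam * V)) (hN : c + lam * V ≤ A)
    (ha1 : 0 ≤ a1) (ha1V : a1 ≤ V) (ha0V : V ≤ a0)
    (hCS : (a0 - a1) ^ 2 ≤ A * (A - c - lam * V))
    (w0 : √(π * (1 - a0)) ≤ c + lam * a0)
    (w1 : min (min (√(π * a1)) 1) (√(π * (1 - a1))) ≤ c + lam * a1) : False := by
  have hpi := Real.pi_gt_three
  have big : ∀ x : ℝ, x ≤ 1 / 2 → 1 < √(π * (1 - x)) := by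
    intro x hx
    apply Real.lt_sqrt_of_sq_lt
    nlinarith
  have hN' : c + lam * V < A := by
    rcases hN.lt_or_eq with h | h
    · exact h
    · exfalso
      have e : A - c - lam * V = 0 := by linarith
      rw [e, mul_zero] at hCS
      have : a0 - a1 = 0 := pow_eq_zero_iff (two_ne_zero) |>.mp (le_antisymm hCS (sq_nonneg _))
      have e0 : a0 = V := by linarith
      rw [e0] at w0
      linarith [big V hV2]
  have hm : c + lam * a1 ≤ c + lam * V := by gcongr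
  have w1' : √(π * a1) ≤ c + lam * a1 := by
    have b := big a1 (by linarith)
    rcases min_le_iff.1 w1 with h | h
    · rcases min_le_iff.1 h with h | h
      · exact h
      · linarith
    · linarith
  have s0 := Real.sqrt_nonneg (π * a1)
  have hA0 : 0 < A := by linarith
  have hc0 : 0 ≤ c := by
    by_contra hc
    rw [not_le] at hc
    set s := √(π * a1) with hs
    have ss : s ^ 2 = π * a1 := Real.sq_sqrt (by positivity)
    have ha : 0 < a1 := by
      rcases ha1.lt_or_eq with h | h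
      · exact h
      · rw [← h] at w1'; linarith
    -- `s * V ≥ a1 * A`
    have k1 : (a1 * A) ^ 2 ≤ (s * V) ^ 2 := by
      calc (a1 * A) ^ 2 = a1 ^ 2 * A ^ 2 := by ring
        _ ≤ a1 ^ 2 * (π * V) := by gcongr
        _ = (π * a1) * (a1 * V) := by ring
        _ ≤ (π * a1) * (V * V) := by gcongr
        _ = (s * V) ^ 2 := by rw [← ss]; ring
    have k2 : a1 * A ≤ s * V := (abs_le_of_sq_le_sq' k1 (by positivity)).2
    have k3 : s * V ≤ (c + lam * a1) * V := by gcongr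
    have k4 : a1 * (c + lam * V) < a1 * A := by gcongr
    nlinarith
  refine T3.H.false (V := V) (lam := lam) (A := A) (c := c) (a0 := a0) (a1 := a1)
    ⟨hV, hV2, hl0, hc0, hA1, hAV, hlam, h3, hN', ha1, ha1V, ha0V, hCS, ?_, ?_⟩ hl3
  · exact (Real.sqrt_le_left (by have := Real.sqrt_nonneg (π * (1 - a0)); linarith)).1 w0
  · exact (Real.sqrt_le_left (by linarith)).1 w1'

end Crest.Agent.R214
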