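import Crest.Agent.R214.IsoDS

/-! Row 214, module CASES: proofs of the basic consequences of `Crit`. -/

set_option autoImplicit false
open MeasureTheory Set Filter Topology Real

noncomputable section
namespace Crest.Agent.R214.B56
open DS Cs

variable {E : Set E3} {lam : ℝ} {c : Fin 3 → ℝ}

theorem integrableOn_sec (hE : IsDS E) (i : Fin 3) : IntegrableOn (sec E i) (Ioo (0:ℝ) 1) :=
  Integrable.of_bound (hE.measurable_sec i).aestronglyMeasurable 1
    (Eventually.of_forall fun t => by
      rw [Real.norm_of_nonneg (sec_nonneg E i t)]; exact hE.sec_le_one i t)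

theorem aone_le_vol (hE : IsDS E) (i : Fin 3) : aone E i ≤ vol E := by
  rw [← hE.integral_sec i]
  have := setIntegral_mono_on (μ := volume) (s := Ioo (0:ℝ) 1) (f := fun _ => aone E i)
    (integrableOn_const (by simp)) (integrableOn_sec hE i) measurableSet_Ioo
    fun t ht => hE.aone_le_sec i ht
  simpa using this

theorem vol_le_azero (hE : IsDS E) (i : Fin 3) : vol E ≤ azero E i := by
  rw [← hE.integral_sec i]
  have := setIntegral_mono_on (μ := volume) (s := Ioo (0:ℝ) 1) (g := fun _ => azero E i)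
    (integrableOn_sec hE i) (integrableOn_const (by simp)) measurableSet_Ioo
    fun t _ => hE.sec_le_azero i t
  simpa using this

theorem dens' (h : Crit E lam c) (i : Fin 3) (g : ℝ → ℝ) (hg : Measurable g)
    (hb : ∃ C, ∀ t, |g t| ≤ C) :
    ∫ x, g (x i) * (1 - nu E i x ^ 2) ∂(sig E) =
      ∫ t in Ioo (0 : ℝ) 1, g t * (c i + lam * sec E i t) := by
  obtain ⟨C, hC⟩ := hb
  have hC0 : 0 < C + 1 := by linarith [(abs_nonneg _).trans (hC 0)]
  have key := h.dens i (fun t => (C + 1)⁻¹ * g t) (measurable_const.mul hg) fun t => by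
    rw [abs_mul, abs_of_pos (inv_pos.2 hC0), inv_mul_le_iff₀ hC0]
    linarith [hC t]
  simp only [mul_assoc, integral_const_mul] at key
  exact mul_left_cancel₀ (inv_pos.2 hC0).ne' key

theorem integrable_nu_sq (E : Set E3) (i : Fin 3) : Integrable (fun x => nu E i x ^ 2) (sig E) :=
  Integrable.of_bound ((measurable_nu E i).pow_const 2).aestronglyMeasurable 1
    (Eventually.of_forall fun x => by
      rw [Real.norm_of_nonneg (sq_nonneg _)]
      exact pow_le_one₀ (nu_nonneg E i x) (nu_le_one E i x))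

theorem integrable_nu (E : Set E3) (i : Fin 3) : Integrable (fun x => nu E i x) (sig E) :=
  Integrable.of_bound (measurable_nu E i).aestronglyMeasurable 1
    (Eventually.of_forall fun x => by
      rw [Real.norm_of_nonneg (nu_nonneg E i x)]; exact nu_le_one E i x)

theorem N_eq (h : Crit E lam c) (i : Fin 3) :
    ∫ x, nu E i x ^ 2 ∂(sig E) = per E - c i - lam * vol E := by
  have key := h.dens i (fun _ => 1) measurable_const (by simp)
  simp only [one_mul] at key
  rw [integral_sub (integrable_const _) (integrable_nu_sq E i),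
    integral_add (integrable_const _) ((integrableOn_sec h.ds i).const_mul lam),
    integral_const_mul, h.ds.integral_sec i] at key
  simp only [integral_const, smul_eq_mul, mul_one, MeasurableSet.univ, measureReal_restrict_apply,
    univ_inter, Real.volume_real_Ioo, sub_zero, zero_le_one, sup_of_le_left, one_mul] at key
  rw [per_eq_real]
  linarith

theorem sum_c (h : Crit E lam c) (i : Fin 3) :
    c i + c (i + 1) + c (i + 2) = 2 * per E - 3 * lam * vol E := by
  have e : ∫ x, (nu E i x ^ 2 + nu E (i + 1) x ^ 2 + nu E (i + 2) x ^ 2) ∂(sig E) = per E := by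
    rw [per_eq_real, integral_congr_ae (g := fun _ => (1:ℝ)) ((nu_sq_ae E).mono fun x hx => by
      rw [sum3 i] at hx; exact hx)]
    simp
  have i2 : Integrable (fun x => nu E i x ^ 2 + nu E (i + 1) x ^ 2) (sig E) :=
    (integrable_nu_sq E _).add (integrable_nu_sq E _)
  rw [integral_add i2 (integrable_nu_sq E _),
    integral_add (integrable_nu_sq E _) (integrable_nu_sq E _), N_eq h, N_eq h, N_eq h] at e
  linarith

theorem cs (h : Crit E lam c) (i : Fin 3) :
    (azero E i - aone E i) ^ 2 ≤ per E * (per E - c i - lam * vol E) := by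
  rw [← N_eq h i, h.ds.azero_eq i, add_sub_cancel_left]
  have hm : (mu E i).real univ = ∫ x, nu E i x ∂(sig E) := by
    have := integral_mu_nu E i (fun _ => 1)
    simpa using this
  have hle := mu_le_per E i
  have hm0 : 0 ≤ (mu E i).real univ := measureReal_nonneg
  set m := (mu E i).real univ
  set N := ∫ x, nu E i x ^ 2 ∂(sig E)
  have q : ∀ s : ℝ, 0 ≤ N - 2 * s * m + s ^ 2 * per E := fun s => by
    have h0 : 0 ≤ ∫ x, (nu E i x ^ 2 - 2 * s * nu E i x + s ^ 2) ∂(sig E) :=
      integral_nonneg fun x => by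
        have := sq_nonneg (nu E i x - s)
        simp only [Pi.zero_apply]; nlinarith
    have i2 : Integrable (fun x => nu E i x ^ 2 - 2 * s * nu E i x) (sig E) :=
      (integrable_nu_sq E i).sub ((integrable_nu E i).const_mul _)
    rw [integral_add i2
      (integrable_const _), integral_sub (integrable_nu_sq E i) ((integrable_nu E i).const_mul _),
      integral_const_mul, ← hm, integral_const, ← per_eq_real, smul_eq_mul] at h0
    linarith
  rcases (per_nonneg E).eq_or_lt with h0 | h0
  · have : m = 0 := by linarith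
    rw [this, ← h0]; simp
  · have := q (m / per E)
    have e : per E * (N - 2 * (m / per E) * m + (m / per E) ^ 2 * per E) = per E * N - m ^ 2 := by
      field_simp; ring
    nlinarith [mul_nonneg h0.le this]

/-- the surface measure of a slab is at least the integral of the slice perimeters -/
theorem slab_le (hE : IsDS E) (i : Fin 3) {a b m : ℝ} (hab : a ≤ b) (ha : 0 ≤ a) (hb : b ≤ 1)
    (hm : ∀ t ∈ Ioo a b, m ≤ pz E i t) {S : Set E3} (hS : ∀ x : E3, x i ∈ Ioo a b → x ∈ S) :
    (b - a) * m ≤ (sig E).real S := by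
  have hsub : Ioo a b ⊆ Ioo (0:ℝ) 1 := Ioo_subset_Ioo ha hb
  have hB : Measurable ((Ioo a b).indicator fun _ : ℝ => (1:ℝ)) :=
    measurable_const.indicator measurableSet_Ioo
  have hC : ∀ t, |(Ioo a b).indicator (fun _ : ℝ => (1:ℝ)) t| ≤ 1 := fun t => by
    by_cases ht : t ∈ Ioo a b <;> simp [ht]
  have h0 : ∀ t, 0 ≤ (Ioo a b).indicator (fun _ : ℝ => (1:ℝ)) t := fun t => by
    by_cases ht : t ∈ Ioo a b <;> simp [ht]
  have key := IsoDS.slice_w hE i hB hC h0
  have hT : MeasurableSet {x : E3 | x i ∈ Ioo a b} := measurableSet_Ioo.preimage (by fun_prop)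
  have hpz : IntegrableOn (pz E i) (Ioo (0:ℝ) 1) := by
    simpa using IsoDS.integrableOn_pz hE i (B := fun _ => 1) measurable_const (C := 1) (by simp)
  have e1 : ∫ t in Ioo (0:ℝ) 1, (Ioo a b).indicator (fun _ : ℝ => (1:ℝ)) t * pz E i t
      = ∫ t in Ioo a b, pz E i t := by
    have : ∀ t, (Ioo a b).indicator (fun _ : ℝ => (1:ℝ)) t * pz E i t
        = (Ioo a b).indicator (pz E i) t := fun t => by
      by_cases ht : t ∈ Ioo a b <;> simp [ht]
    simp only [this]
    rw [setIntegral_indicator measurableSet_Ioo, inter_eq_right.2 hsub]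
  have e2 : (b - a) * m ≤ ∫ t in Ioo a b, pz E i t := by
    have := setIntegral_mono_on (μ := volume) (s := Ioo a b) (f := fun _ => m)
      (integrableOn_const (by simp)) (hpz.mono_set hsub) measurableSet_Ioo hm
    rwa [setIntegral_const, Real.volume_real_Ioo_of_le hab, smul_eq_mul] at this
  have e3 : ∫ x, (Ioo a b).indicator (fun _ : ℝ => (1:ℝ)) (x i) * √(1 - nu E i x ^ 2) ∂(sig E)
      ≤ (sig E).real {x : E3 | x i ∈ Ioo a b} := by
    rw [← integral_indicator_one hT]
    refine integral_mono (IsoDS.integrable_w E i hB hC) ((integrable_const 1).indicator hT)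
      fun x => ?_
    by_cases hx : x i ∈ Ioo a b
    · have hx' : x ∈ {x : E3 | x i ∈ Ioo a b} := hx
      simp only [indicator_of_mem hx, indicator_of_mem hx', one_mul, Pi.one_apply]
      exact Real.sqrt_le_one.2 (by nlinarith [sq_nonneg (nu E i x)])
    · have hx' : x ∉ {x : E3 | x i ∈ Ioo a b} := hx
      simp only [indicator_of_notMem hx, indicator_of_notMem hx', zero_mul, le_refl]
  have e4 : (sig E).real {x : E3 | x i ∈ Ioo a b} ≤ (sig E).real S := measureReal_mono hS
  linarith

theorem near' (h : Crit E lam c) (i : Fin 3) (P : ℝ → ℝ) (hP : Continuous P)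
    (hp : ∀ᶠ t in 𝓝[>] (0 : ℝ), P (sec E i t) ≤ pz E i t) :
    P (azero E i) ≤ c i + lam * azero E i := by
  refine le_of_forall_pos_le_add fun δ hδ => ?_
  have t1 : ∀ᶠ t in 𝓝[>] (0 : ℝ), P (azero E i) - δ / 2 < P (sec E i t) :=
    ((hP.tendsto _).comp (h.ds.tendsto_sec_zero i)).eventually (lt_mem_nhds (by linarith))
  obtain ⟨u, hu, hsub⟩ := (mem_nhdsGT_iff_exists_Ioo_subset).1 (t1.and hp)
  have t2 : ∀ᶠ ε in 𝓝[>] (0 : ℝ), ε ∈ Ioo (0:ℝ) (min u 1) :=
    Ioo_mem_nhdsGT (lt_min hu one_pos)
  obtain ⟨ε, hε, hε'⟩ := (t2.and (h.near i (δ / 2) (by linarith))).exists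
  have key := slab_le h.ds i (a := 0) (b := ε) (m := P (azero E i) - δ / 2) hε.1.le le_rfl
    (hε.2.le.trans (min_le_right _ _))
    (fun t ht => by
      have := hsub (show t ∈ Ioo 0 u from ⟨ht.1, ht.2.trans (hε.2.trans_le (min_le_left _ _))⟩)
      exact this.1.le.trans this.2)
    (S := {x | x i < ε}) fun x hx => hx.2
  have := le_of_mul_le_mul_left ((by rw [sub_zero] at key; exact key.trans hε') :
    ε * (P (azero E i) - δ / 2) ≤ ε * (c i + lam * azero E i + δ / 2)) hε.1
  linarith

theorem far' (h : Crit E lam c) (i : Fin 3) (P : ℝ → ℝ) (hP : Continuous P)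
    (hp : ∀ᶠ t in 𝓝[<] (1 : ℝ), P (sec E i t) ≤ pz E i t) :
    P (aone E i) ≤ c i + lam * aone E i := by
  refine le_of_forall_pos_le_add fun δ hδ => ?_
  have t1 : ∀ᶠ t in 𝓝[<] (1 : ℝ), P (aone E i) - δ / 2 < P (sec E i t) :=
    ((hP.tendsto _).comp (h.ds.tendsto_sec_one i)).eventually (lt_mem_nhds (by linarith))
  obtain ⟨u, hu, hsub⟩ := (mem_nhdsLT_iff_exists_Ioo_subset).1 (t1.and hp)
  have hu' : u < 1 := hu
  have t2 : ∀ᶠ ε in 𝓝[>] (0 : ℝ), ε ∈ Ioo (0:ℝ) (min (1 - u) 1) :=
    Ioo_mem_nhdsGT (lt_min (by linarith) one_pos)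
  obtain ⟨ε, hε, hε'⟩ := (t2.and (h.far i (δ / 2) (by linarith))).exists
  have b1 := hε.2.trans_le (min_le_left _ _)
  have b2 := hε.2.trans_le (min_le_right _ _)
  have key := slab_le h.ds i (a := 1 - ε) (b := 1) (m := P (aone E i) - δ / 2)
    (by linarith [hε.1]) (by linarith) le_rfl
    (fun t ht => by
      have := hsub (show t ∈ Ioo u 1 from ⟨by linarith [ht.1], ht.2⟩)
      exact this.1.le.trans this.2)
    (S := {x | 1 - ε < x i}) fun x hx => hx.1
  have := le_of_mul_le_mul_left ((by rw [sub_sub_cancel] at key; exact key.trans hε') :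
    ε * (P (aone E i) - δ / 2) ≤ ε * (c i + lam * aone E i + δ / 2)) hε.1
  linarith

theorem q_le_p (h : Crit E lam c) (i : Fin 3) :
    ∀ᵐ t ∂(volume.restrict (Ioo (0 : ℝ) 1)), c i + lam * sec E i t ≤ pz E i t := by
  have hpz : IntegrableOn (pz E i) (Ioo (0:ℝ) 1) := by
    simpa using IsoDS.integrableOn_pz h.ds i (B := fun _ => 1) measurable_const (C := 1) (by simp)
  have hq : IntegrableOn (fun t => c i + lam * sec E i t) (Ioo (0:ℝ) 1) :=
    (integrable_const _).add ((integrableOn_sec h.ds i).const_mul lam)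
  refine ae_le_of_forall_setIntegral_le hq hpz fun J hJ _ => ?_
  have hB : Measurable (J.indicator fun _ : ℝ => (1:ℝ)) := measurable_const.indicator hJ
  have hC : ∀ t, |J.indicator (fun _ : ℝ => (1:ℝ)) t| ≤ 1 := fun t => by
    by_cases ht : t ∈ J <;> simp [ht]
  have h0 : ∀ t, 0 ≤ J.indicator (fun _ : ℝ => (1:ℝ)) t := fun t => by
    by_cases ht : t ∈ J <;> simp [ht]
  have e : ∀ u : ℝ → ℝ, ∫ t in Ioo (0:ℝ) 1, J.indicator (fun _ : ℝ => (1:ℝ)) t * u t
      = ∫ t in J, u t ∂(volume.restrict (Ioo (0:ℝ) 1)) := fun u => by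
    rw [← integral_indicator hJ]
    congr 1
    funext t
    by_cases ht : t ∈ J <;> simp [ht]
  rw [← e, ← e, ← h.dens i _ hB hC]
  refine le_trans ?_ (IsoDS.slice_w_ge h.ds i hB hC h0)
  refine integral_mono_of_nonneg (Eventually.of_forall fun x => ?_) (IsoDS.integrable_w E i hB hC)
    (Eventually.of_forall fun x => ?_)
  · exact mul_nonneg (h0 _) (sub_nonneg.2 (pow_le_one₀ (nu_nonneg E i x) (nu_le_one E i x)))
  · refine mul_le_mul_of_nonneg_left (Real.le_sqrt_of_sq_le ?_) (h0 _)
    have a1 : 0 ≤ 1 - nu E i x ^ 2 := sub_nonneg.2 (pow_le_one₀ (nu_nonneg E i x) (nu_le_one E i x))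
    nlinarith [sq_nonneg (nu E i x)]

end Crest.Agent.R214.B56
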