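import Crest.Agent.R214.CsFlux

/-! Row 214, module CASES: the wall conditions. -/

set_option autoImplicit false
open MeasureTheory Set Filter Topology Real

noncomputable section
namespace Crest.Agent.R214.Cs
open DS

variable {E : Set E3} {lam : ℝ} {c : Fin 3 → ℝ}

theorem slab_le (hE : IsDS E) (i : Fin 3) {S : Set ℝ} (hS : MeasurableSet S) {u v m : ℝ}
    (huv : u ≤ v) (he : Ioo (0 : ℝ) 1 ∩ S = Ioo u v) (hm : ∀ t ∈ Ioo u v, m ≤ pz E i t) :
    (v - u) * m ≤ (sig E).real {x | x i ∈ S} := by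
  have hg : Measurable (S.indicator fun _ => (1 : ℝ)) := measurable_const.indicator hS
  have hb : ∀ t, |S.indicator (fun _ => (1 : ℝ)) t| ≤ 1 := fun t => by
    by_cases ht : t ∈ S <;> simp [ht]
  have h0 : ∀ t, 0 ≤ S.indicator (fun _ => (1 : ℝ)) t := fun t => by
    by_cases ht : t ∈ S <;> simp [ht]
  have key := slice_le hE i _ hg ⟨1, hb⟩ h0
  have hmeas : MeasurableSet {x : E3 | x i ∈ S} := by
    have : Measurable fun x : E3 => x i := by fun_prop
    exact this hS
  have e1 : ∫ t in Ioo (0 : ℝ) 1, S.indicator (fun _ => (1 : ℝ)) t * pz E i t =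
      ∫ t in Ioo u v, pz E i t := by
    rw [← he, ← setIntegral_indicator hS]
    refine integral_congr_ae (Eventually.of_forall fun t => ?_)
    by_cases ht : t ∈ S <;> simp [ht]
  have e2 : (v - u) * m ≤ ∫ t in Ioo u v, pz E i t := by
    have hi : IntegrableOn (pz E i) (Ioo u v) volume := by
      refine Measure.integrableOn_of_bounded (M := 2) (by simp)
        (measurable_pz hE i).aestronglyMeasurable (Eventually.of_forall fun t => ?_)
      rw [Real.norm_eq_abs, abs_of_nonneg (pz_nonneg E i t)]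
      exact pz_le_two E i t
    have := setIntegral_mono_on (f := fun _ => m) (g := pz E i) (s := Ioo u v) (μ := volume)
      (integrableOn_const (by simp)) hi measurableSet_Ioo hm
    rw [setIntegral_const, Real.volume_real_Ioo_of_le huv, smul_eq_mul] at this
    exact this
  have e3 : ∫ x, S.indicator (fun _ => (1 : ℝ)) (x i) * √(1 - nu E i x ^ 2) ∂(sig E) ≤
      (sig E).real {x | x i ∈ S} := by
    rw [← integral_indicator_one hmeas]
    refine integral_mono_of_nonneg (Eventually.of_forall fun x => ?_)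
      ((integrable_const (1 : ℝ)).indicator hmeas) (Eventually.of_forall fun x => ?_)
    · exact mul_nonneg (h0 _) (Real.sqrt_nonneg _)
    · by_cases hx : x i ∈ S
      · have hx' : x ∈ {x : E3 | x i ∈ S} := hx
        simp only [indicator_of_mem hx, indicator_of_mem hx', one_mul, Pi.one_apply]
        exact Real.sqrt_le_one.2 (by nlinarith [sq_nonneg (nu E i x)])
      · have hx' : x ∉ {x : E3 | x i ∈ S} := hx
        simp only [indicator_of_notMem hx, indicator_of_notMem hx', zero_mul, le_refl]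
  rw [e1] at key
  linarith

theorem Crit.near_wall (h : Crit E lam c) (i : Fin 3) (P : ℝ → ℝ) (hP : Continuous P)
    (hp : ∀ᶠ t in 𝓝[>] (0 : ℝ), P (sec E i t) ≤ pz E i t) :
    P (azero E i) ≤ c i + lam * azero E i := by
  refine le_of_forall_pos_le_add fun δ hδ => ?_
  have hδ2 : 0 < δ / 2 := by positivity
  have h1 : ∀ᶠ t in 𝓝[>] (0 : ℝ), P (azero E i) - δ / 2 ≤ pz E i t := by
    have := ((hP.tendsto _).comp (h.ds.tendsto_sec_zero i)).eventually
      (lt_mem_nhds (show P (azero E i) - δ / 2 < P (azero E i) by linarith))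
    filter_upwards [this, hp] with t h1 h2 using (le_of_lt h1).trans h2
  obtain ⟨u, hu, hsub⟩ := mem_nhdsGT_iff_exists_Ioo_subset.1 h1
  have hu0 : (0 : ℝ) < min u 1 := lt_min hu zero_lt_one
  obtain ⟨ε, hε, hε'⟩ := ((h.near i _ hδ2).and (Ioo_mem_nhdsGT hu0)).exists
  have hε0 : 0 < ε := hε'.1
  have hεu : ε < u := hε'.2.trans_le (min_le_left _ _)
  have hε1 : ε < 1 := hε'.2.trans_le (min_le_right _ _)
  have := slab_le h.ds i (S := Iio ε) measurableSet_Iio (u := 0) (v := ε)
    (m := P (azero E i) - δ / 2) hε0.le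
    (by ext t; simp only [mem_inter_iff, mem_Ioo, mem_Iio]
        exact ⟨fun ht => ⟨ht.1.1, ht.2⟩, fun ht => ⟨⟨ht.1, ht.2.trans hε1⟩, ht.2⟩⟩)
    (fun t ht => hsub ⟨ht.1, ht.2.trans hεu⟩)
  have h3 : ε * (P (azero E i) - δ / 2) ≤ ε * (c i + lam * azero E i + δ / 2) := by
    simpa using this.trans hε
  have := le_of_mul_le_mul_left h3 hε0
  linarith

theorem Crit.far_wall (h : Crit E lam c) (i : Fin 3) (P : ℝ → ℝ) (hP : Continuous P)
    (hp : ∀ᶠ t in 𝓝[<] (1 : ℝ), P (sec E i t) ≤ pz E i t) :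
    P (aone E i) ≤ c i + lam * aone E i := by
  refine le_of_forall_pos_le_add fun δ hδ => ?_
  have hδ2 : 0 < δ / 2 := by positivity
  have h1 : ∀ᶠ t in 𝓝[<] (1 : ℝ), P (aone E i) - δ / 2 ≤ pz E i t := by
    have := ((hP.tendsto _).comp (h.ds.tendsto_sec_one i)).eventually
      (lt_mem_nhds (show P (aone E i) - δ / 2 < P (aone E i) by linarith))
    filter_upwards [this, hp] with t h1 h2 using (le_of_lt h1).trans h2
  obtain ⟨u, hu, hsub⟩ := mem_nhdsLT_iff_exists_Ioo_subset.1 h1
  have hu1 : u < 1 := hu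
  have hu0 : (0 : ℝ) < min (1 - u) 1 := lt_min (by linarith) zero_lt_one
  obtain ⟨ε, hε, hε'⟩ := ((h.far i _ hδ2).and (Ioo_mem_nhdsGT hu0)).exists
  have hε0 : 0 < ε := hε'.1
  have hεu : ε < 1 - u := hε'.2.trans_le (min_le_left _ _)
  have hε1 : ε < 1 := hε'.2.trans_le (min_le_right _ _)
  have := slab_le h.ds i (S := Ioi (1 - ε)) measurableSet_Ioi (u := 1 - ε) (v := 1)
    (m := P (aone E i) - δ / 2) (by linarith)
    (by ext t; simp only [mem_inter_iff, mem_Ioo, mem_Ioi]
        exact ⟨fun ht => ⟨ht.2, ht.1.2⟩, fun ht => ⟨⟨by linarith [ht.1], ht.2⟩, ht.1⟩⟩)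
    (fun t ht => hsub ⟨by linarith [ht.1], ht.2⟩)
  have h3 : ε * (P (aone E i) - δ / 2) ≤ ε * (c i + lam * aone E i + δ / 2) := by
    simpa using this.trans hε
  have := le_of_mul_le_mul_left h3 hε0
  linarith

theorem Graph.lt_I2' {V a : ℝ} (h : Graph V lam) (hV0 : 0 < V) (hV : V ≤ 1 / 2) (ha0 : 0 < a)
    (ha : a ≤ V) : lam * a < Iso.I2 a := by
  have hpi := pi_pos
  have hpi3 := Real.pi_gt_three
  have hpi4 := Real.pi_lt_d2
  have key : 0 ≤ lam ∧ lam ^ 2 * V < π ∧ lam * V < 1 := by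
    rcases h with h | h | h | h | h
    · obtain ⟨h1, h2, h3⟩ := h
      have h4 : 2 ≤ lam := by
        by_contra hcon
        have hl : lam < 2 := not_le.1 hcon
        have : lam ^ 3 ≤ 2 ^ 3 := by gcongr
        nlinarith
      have h5 : 0 < lam ^ 2 * V := by positivity
      have h6 : lam ^ 2 * V < π := by nlinarith
      refine ⟨h2.le, h6, ?_⟩
      have h7 : 0 < lam * V := by positivity
      by_contra hcon
      have h8 : 1 ≤ lam * V := not_lt.1 hcon
      have h9 : 1 ≤ (lam * V) ^ 2 := by nlinarith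
      have h10 : (lam * V) ^ 2 = lam ^ 2 * V * V := by ring
      have h11 : lam ^ 2 * V * V ≤ π * V := by nlinarith
      nlinarith
    · obtain ⟨h1, h2, h3⟩ := h
      refine ⟨by linarith, ?_, ?_⟩
      · have : lam ^ 2 ≤ 9 := by nlinarith
        rw [h1]; nlinarith
      · rw [h1]; nlinarith
    · obtain ⟨h1, h2, h3, h4⟩ := h
      refine ⟨h3.le, by linarith, ?_⟩
      have h7 : 0 < lam * V := by positivity
      by_contra hcon
      have h8 : 1 ≤ lam * V := not_lt.1 hcon
      have h9 : 1 ≤ (lam * V) ^ 2 := by nlinarith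
      have h10 : 4 * (lam * V) ^ 2 = π * V := by rw [← h4]; ring
      nlinarith
    · obtain ⟨h1, h2, h3⟩ := h
      have hV' : π * V = 1 := by rw [h1]; field_simp
      have h4 : lam * V ≤ 1 / 2 := by nlinarith
      refine ⟨h2, ?_, by linarith⟩
      have : lam ^ 2 * V = lam * (lam * V) := by ring
      nlinarith
    · rw [h.2]; simp [hpi]
  obtain ⟨k0, k1, k2⟩ := key
  have h1 : lam * a < √(π * a) := by
    apply Real.lt_sqrt_of_sq_lt
    have : lam ^ 2 * a ≤ lam ^ 2 * V := by gcongr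
    nlinarith
  have h2 : lam * a < 1 := lt_of_le_of_lt (by gcongr) k2
  have h3 : √(π * a) ≤ √(π * (1 - a)) := Real.sqrt_le_sqrt (by nlinarith)
  unfold Iso.I2
  exact lt_min (lt_min h1 h2) (h1.trans_le h3)

end Crest.Agent.R214.Cs
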