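import Crest.Agent.R214.ZSlice

/-! Row 214, module Z: the dual bound for a down-set; traces on the walls. -/

set_option autoImplicit false
open MeasureTheory Set Filter Topology

noncomputable section
namespace Crest.Agent.R214.Z
open DS Cs

variable {E : Set E3}

/-- The slicing dual bound for a down-set whose flux density in direction `i` is `q`. -/
theorem dual_ds (hE : IsDS E) (i : Fin 3) (q : ℝ → ℝ)
    (hQ : ∀ g : ℝ → ℝ, Measurable g → (∃ C, ∀ t, |g t| ≤ C) →
      ∫ x, g (x i) * (1 - nu E i x ^ 2) ∂(sig E) = ∫ t in Ioo (0 : ℝ) 1, g t * q t)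
    (K w B : ℝ → ℝ) (hK : Measurable K) (hw : Measurable w) (hB : Measurable B)
    (hKb : ∃ C, ∀ α, |K α| ≤ C) (hBb : ∃ C, ∀ α, |B α| ≤ C) (hw1 : ∀ α, |w α| ≤ 1)
    (hB0 : ∀ α, 0 ≤ B α)
    (hdual : ∀ α m s : ℝ, 0 ≤ m → 0 ≤ s → m ^ 2 + s ^ 2 = 1 → K α * s ^ 2 + w α * m + B α * s ≤ 1) :
    (∫ t in Ioo (0 : ℝ) 1, K (sec E i t) * q t) + (∫ t in Ioo (0 : ℝ) 1, B (sec E i t) * pz E i t) +
      ∫ α in Ioo (aone E i) (azero E i), w α ≤ per E := by
  have mi : Measurable fun x : E3 => x i := by fun_prop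
  have hr : ((mu E i).map fun x : E3 => x i) (Ioo 0 1)ᶜ = 0 := by
    rw [Measure.map_apply mi measurableSet_Ioo.compl]
    refine measure_mono_null ?_ (hE.mu_compl_cube i)
    intro x hx hc
    exact hx (hc i)
  have huniv : ((mu E i).map fun x : E3 => x i).real univ = (mu E i).real univ := by
    rw [map_measureReal_apply mi MeasurableSet.univ, preimage_univ]
  have := dual_bound (sig E) (fun x => x i) (nu E i) mi (measurable_nu E i) (nu_nonneg E i)
    (nu_le_one E i) ((mu E i).map fun x : E3 => x i) hr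
    (fun g hg _ => by rw [integral_map mi.aemeasurable hg.aestronglyMeasurable, integral_mu_nu])
    (aone E i) (sec E i) q (pz E i)
    (by
      filter_upwards [hE.sec_ae i] with t ht
      rw [ht, map_measureReal_apply mi measurableSet_Ioi]; rfl)
    hQ (fun g hg ⟨C, hC⟩ h0 => (slice_eq_nonneg hE i hg hC h0).ge)
    K w B hK hw hB hKb hBb hw1 hB0 hdual
  rwa [huniv, ← hE.azero_eq i] at this

/-- area of a subset of the square by horizontal / vertical fibres -/
theorem real_sq_snd {S : Set (ℝ × ℝ)} (hS : MeasurableSet S) (hs : S ⊆ DS.sq) :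
    (volume S).toReal = ∫ t in Ioo (0 : ℝ) 1, volume.real {y | (y, t) ∈ S} := by
  have := setIntegral_sq_snd hS hs (u := fun _ => (1 : ℝ)) measurable_const (C := 1) (by simp)
  simpa [Measure.real] using this

theorem real_sq_fst {S : Set (ℝ × ℝ)} (hS : MeasurableSet S) (hs : S ⊆ DS.sq) :
    (volume S).toReal = ∫ t in Ioo (0 : ℝ) 1, volume.real {x | (t, x) ∈ S} := by
  have := setIntegral_sq_fst hS hs (u := fun _ => (1 : ℝ)) measurable_const (C := 1) (by simp)
  simpa [Measure.real] using this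

theorem integral_bot_slF (hE : IsDS E) (i : Fin 3) :
    ∫ t in Ioo (0 : ℝ) 1, Iso.bot (slF E i t) = aone E (i + 1) := by
  unfold aone
  rw [real_sq_snd (S := {w | w ∈ DS.sq ∧ ht E (i + 1) w = 1}) (measurableSet_sq.inter ((hE.measurable_ht _) (measurableSet_singleton 1)))
    (fun w hw => hw.1)]
  apply setIntegral_congr_fun measurableSet_Ioo
  intro t htt
  simp only
  rw [← (pair_slice hE i t).swap.volume_one]
  congr 1
  ext y
  simp only [DS.sq, slG, mem_ofPred_eq, mem_prod, htt, and_true]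
  exact and_congr_right fun _ => ⟨fun h => le_antisymm (ht_le_one _ _ _) h, fun h => h.ge⟩

theorem integral_bot_slG (hE : IsDS E) (i : Fin 3) :
    ∫ t in Ioo (0 : ℝ) 1, Iso.bot (slG E i t) = aone E (i + 2) := by
  unfold aone
  rw [real_sq_fst (S := {w | w ∈ DS.sq ∧ ht E (i + 2) w = 1}) (measurableSet_sq.inter ((hE.measurable_ht _) (measurableSet_singleton 1)))
    (fun w hw => hw.1)]
  apply setIntegral_congr_fun measurableSet_Ioo
  intro t htt
  simp only
  rw [← (pair_slice hE i t).volume_one]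
  congr 1
  ext y
  simp only [DS.sq, slF, mem_ofPred_eq, mem_prod, htt, true_and]
  exact and_congr_right fun _ => ⟨fun h => le_antisymm (ht_le_one _ _ _) h, fun h => h.ge⟩

end Crest.Agent.R214.Z
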