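import Crest.Agent.R214.CsFlux
import Crest.Agent.R214.CsWall
import Crest.Agent.R214.CsB56
import Crest.Agent.R214.ZDual

/-! Row 214, module CASES: consequences of `Crit`. -/

set_option autoImplicit false
open MeasureTheory Set Filter Topology Real

noncomputable section
namespace Crest.Agent.R214.Cs
open DS

variable {E : Set E3} {lam : ℝ} {c : Fin 3 → ℝ}

theorem integrableOn_sec (hE : IsDS E) (i : Fin 3) : IntegrableOn (sec E i) (Ioo (0 : ℝ) 1) :=
  Measure.integrableOn_of_bounded (M := 1) (by simp) (hE.measurable_sec i).aestronglyMeasurable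
    (Eventually.of_forall fun t => by
      rw [Real.norm_eq_abs, abs_of_nonneg (sec_nonneg E i t)]; exact hE.sec_le_one i t)

theorem integrable_nu_pow (E : Set E3) (i : Fin 3) (n : ℕ) :
    Integrable (fun x => nu E i x ^ n) (sig E) :=
  Integrable.of_bound (C := 1) ((measurable_nu E i).pow_const n).aestronglyMeasurable
    (Eventually.of_forall fun x => by
      rw [Real.norm_eq_abs, abs_of_nonneg (pow_nonneg (nu_nonneg E i x) n)]
      exact pow_le_one₀ (nu_nonneg E i x) (nu_le_one E i x))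

theorem aone_le_vol (hE : IsDS E) (i : Fin 3) : aone E i ≤ vol E := by
  rw [← hE.integral_sec i]
  have := setIntegral_mono_on (μ := volume) (s := Ioo (0 : ℝ) 1) (f := fun _ => aone E i)
    (g := sec E i) (integrable_const _) (integrableOn_sec hE i) measurableSet_Ioo
    fun t ht => hE.aone_le_sec i ht
  simpa using this

theorem vol_le_azero (hE : IsDS E) (i : Fin 3) : vol E ≤ azero E i := by
  rw [← hE.integral_sec i]
  have := setIntegral_mono_on (μ := volume) (s := Ioo (0 : ℝ) 1) (g := fun _ => azero E i)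
    (f := sec E i) (integrableOn_sec hE i) (integrable_const _) measurableSet_Ioo
    fun t _ => hE.sec_le_azero i t
  simpa using this

theorem Crit.dens' (h : Crit E lam c) (i : Fin 3) (g : ℝ → ℝ) (hg : Measurable g)
    (hb : ∃ C, ∀ t, |g t| ≤ C) :
    ∫ x, g (x i) * (1 - nu E i x ^ 2) ∂(sig E) =
      ∫ t in Ioo (0 : ℝ) 1, g t * (c i + lam * sec E i t) := by
  obtain ⟨C, hC⟩ := hb
  have hC0 : 0 ≤ C := (abs_nonneg _).trans (hC 0)
  have hC1 : 0 < C + 1 := by linarith
  have := h.dens i (fun t => g t / (C + 1)) (hg.div_const _) fun t => by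
    rw [abs_div, abs_of_pos hC1, div_le_one hC1]; linarith [hC t]
  simp only [div_mul_eq_mul_div, integral_div] at this
  exact (div_left_inj' hC1.ne').1 this

theorem Crit.N_eq (h : Crit E lam c) (i : Fin 3) :
    ∫ x, nu E i x ^ 2 ∂(sig E) = per E - c i - lam * vol E := by
  have h1 := h.dens i (fun _ => 1) measurable_const (by simp)
  simp only [one_mul] at h1
  rw [integral_sub (integrable_const _) (integrable_nu_pow E i 2),
    integral_add (integrable_const _) ((integrableOn_sec h.ds i).const_mul lam),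
    integral_const_mul, h.ds.integral_sec i] at h1
  simp only [integral_const, smul_eq_mul, mul_one, MeasurableSet.univ, measureReal_restrict_apply,
    univ_inter, Real.volume_real_Ioo, sub_zero] at h1
  rw [per_eq_real]
  norm_num at h1
  linarith

theorem Crit.N_nonneg (h : Crit E lam c) (i : Fin 3) : c i + lam * vol E ≤ per E := by
  have := h.N_eq i
  have h2 : 0 ≤ ∫ x, nu E i x ^ 2 ∂(sig E) := integral_nonneg fun x => sq_nonneg _
  linarith

theorem Crit.sum_c (h : Crit E lam c) (i : Fin 3) :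
    c i + c (i + 1) + c (i + 2) = 2 * per E - 3 * lam * vol E := by
  have h1 : ∫ x, (nu E i x ^ 2 + nu E (i + 1) x ^ 2 + nu E (i + 2) x ^ 2) ∂(sig E) = per E := by
    rw [integral_congr_ae (g := fun _ => (1 : ℝ))]
    · simp [per_eq_real]
    · filter_upwards [nu_sq_ae E] with x hx
      rw [sum3 i] at hx; exact hx
  have i12 : Integrable (fun x => nu E i x ^ 2 + nu E (i + 1) x ^ 2) (sig E) :=
    (integrable_nu_pow E _ 2).add (integrable_nu_pow E _ 2)
  rw [integral_add i12 (integrable_nu_pow E _ 2),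
    integral_add (integrable_nu_pow E _ 2) (integrable_nu_pow E _ 2), h.N_eq, h.N_eq, h.N_eq] at h1
  linarith

theorem Crit.cs (h : Crit E lam c) (i : Fin 3) :
    (azero E i - aone E i) ^ 2 ≤ per E * (per E - c i - lam * vol E) := by
  have e1 : azero E i - aone E i = ∫ x, nu E i x ∂(sig E) := by
    have := integral_mu_nu E i (fun _ => 1)
    simp only [integral_const, smul_eq_mul, mul_one, one_mul] at this
    rw [h.ds.azero_eq i, ← this]; ring
  rw [e1, ← h.N_eq i]
  set M := ∫ x, nu E i x ∂(sig E) with hM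
  set N := ∫ x, nu E i x ^ 2 ∂(sig E) with hN
  have i1 : Integrable (fun x => nu E i x) (sig E) := by simpa using integrable_nu_pow E i 1
  have key : ∀ s : ℝ, 0 ≤ per E * (s * s) + (-2 * M) * s + N := by
    intro s
    have h0 : 0 ≤ ∫ x, (s - nu E i x) ^ 2 ∂(sig E) := integral_nonneg fun x => sq_nonneg _
    have e : ∀ x, (s - nu E i x) ^ 2 = (s * s + (-2 * s) * nu E i x) + nu E i x ^ 2 := fun x => by ring
    simp only [e] at h0
    have i2 : Integrable (fun x => s * s + (-2 * s) * nu E i x) (sig E) :=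
      (integrable_const _).add (i1.const_mul _)
    rw [integral_add i2 (integrable_nu_pow E i 2),
      integral_add (integrable_const _) (i1.const_mul _), integral_const, integral_const_mul] at h0
    rw [per_eq_real]
    simp only [smul_eq_mul] at h0
    rw [← hM, ← hN] at h0
    linarith
  have := discrim_le_zero key
  unfold discrim at this
  nlinarith

/-- near wall condition -/
theorem Crit.near' (h : Crit E lam c) (i : Fin 3) (P : ℝ → ℝ) (hP : Continuous P)
    (hp : ∀ᶠ t in 𝓝[>] (0 : ℝ), P (sec E i t) ≤ pz E i t) :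
    P (azero E i) ≤ c i + lam * azero E i :=
  B56.near' h i P hP hp

/-- far wall condition -/
theorem Crit.far' (h : Crit E lam c) (i : Fin 3) (P : ℝ → ℝ) (hP : Continuous P)
    (hp : ∀ᶠ t in 𝓝[<] (1 : ℝ), P (sec E i t) ≤ pz E i t) :
    P (aone E i) ≤ c i + lam * aone E i :=
  B56.far' h i P hP hp

/-- `q ≤ p` on almost every slice -/
theorem Crit.q_le_p (h : Crit E lam c) (i : Fin 3) :
    ∀ᵐ t ∂(volume.restrict (Ioo (0 : ℝ) 1)), c i + lam * sec E i t ≤ pz E i t := by
  have iq : IntegrableOn (fun t => c i + lam * sec E i t) (Ioo (0 : ℝ) 1) :=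
    (integrable_const _).add ((integrableOn_sec h.ds i).const_mul lam)
  have ip : IntegrableOn (pz E i) (Ioo (0 : ℝ) 1) :=
    Measure.integrableOn_of_bounded (M := 2) (by simp) (measurable_pz h.ds i).aestronglyMeasurable
      (Eventually.of_forall fun t => by
        rw [Real.norm_eq_abs, abs_of_nonneg (pz_nonneg E i t)]; exact pz_le_two E i t)
  refine ae_le_of_forall_setIntegral_le iq ip fun s hs _ => ?_
  have hg : Measurable (s.indicator fun _ : ℝ => (1 : ℝ)) := measurable_const.indicator hs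
  have hb : ∀ t, |s.indicator (fun _ : ℝ => (1 : ℝ)) t| ≤ 1 := fun t => by
    by_cases ht : t ∈ s <;> simp [ht]
  have h0 : ∀ t, 0 ≤ s.indicator (fun _ : ℝ => (1 : ℝ)) t := fun t => by
    by_cases ht : t ∈ s <;> simp [ht]
  have e : ∀ f : ℝ → ℝ, ∫ t in s, f t ∂(volume.restrict (Ioo (0 : ℝ) 1)) =
      ∫ t in Ioo (0 : ℝ) 1, s.indicator (fun _ : ℝ => (1 : ℝ)) t * f t := fun f => by
    rw [← integral_indicator hs]
    congr 1; ext t; by_cases ht : t ∈ s <;> simp [ht]
  rw [e, e, ← h.dens i _ hg hb]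
  refine le_trans ?_ (slice_ge h.ds i _ hg ⟨1, hb⟩ h0)
  have mi : Measurable fun x : E3 => s.indicator (fun _ : ℝ => (1 : ℝ)) (x i) := hg.comp (by fun_prop)
  have hs0 : ∀ x, 0 ≤ 1 - nu E i x ^ 2 := fun x => by nlinarith [nu_nonneg E i x, nu_le_one E i x]
  have hs1 : ∀ x, 1 - nu E i x ^ 2 ≤ 1 := fun x => by nlinarith [nu_nonneg E i x]
  refine integral_mono_of_nonneg (Eventually.of_forall fun x => mul_nonneg (h0 _) (hs0 x)) ?_
    (Eventually.of_forall fun x => mul_le_mul_of_nonneg_left ?_ (h0 _))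
  · refine Integrable.of_bound (C := 1)
      (mi.mul (measurable_const.sub ((measurable_nu E i).pow_const 2)).sqrt).aestronglyMeasurable
      (Eventually.of_forall fun x => ?_)
    rw [Real.norm_eq_abs, abs_mul, abs_of_nonneg (Real.sqrt_nonneg _)]
    exact mul_le_one₀ (hb _) (Real.sqrt_nonneg _) (Real.sqrt_le_one.2 (hs1 x))
  · apply Real.le_sqrt_of_sq_le
    nlinarith [hs0 x, hs1 x]

/-- the slicing dual bound -/
theorem Crit.dual (h : Crit E lam c) (i : Fin 3)
    (K w B : ℝ → ℝ) (hK : Measurable K) (hw : Measurable w) (hB : Measurable B)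
    (hKb : ∃ C, ∀ α, |K α| ≤ C) (hBb : ∃ C, ∀ α, |B α| ≤ C) (hw1 : ∀ α, |w α| ≤ 1)
    (hB0 : ∀ α, 0 ≤ B α)
    (hdual : ∀ α m s : ℝ, 0 ≤ m → 0 ≤ s → m ^ 2 + s ^ 2 = 1 → K α * s ^ 2 + w α * m + B α * s ≤ 1) :
    (∫ t in Ioo (0 : ℝ) 1, K (sec E i t) * (c i + lam * sec E i t)) +
      (∫ t in Ioo (0 : ℝ) 1, B (sec E i t) * pz E i t) +
      ∫ α in Ioo (aone E i) (azero E i), w α ≤ per E :=
  Z.dual_ds h.ds i (fun t => c i + lam * sec E i t) (h.dens' i) K w B hK hw hB hKb hBb hw1 hB0 hdual

theorem Graph.nonneg {V : ℝ} (h : Graph V lam) : 0 ≤ lam := by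
  rcases h with h | h | h | h | h
  · exact h.2.1.le
  · linarith [h.2.1]
  · exact h.2.2.1.le
  · exact h.2.1
  · exact h.2.ge

theorem continuous_I2 : Continuous Iso.I2 := by
  unfold Iso.I2; fun_prop

theorem Crit.wall_far (h : Crit E lam c) (i : Fin 3) :
    Iso.I2 (aone E i) ≤ c i + lam * aone E i := by
  refine h.far' i _ continuous_I2 ?_
  filter_upwards [Ioo_mem_nhdsLT (show (0 : ℝ) < 1 by norm_num)] with t ht using pz_ge_I2 h.ds i ht

/-- `lam a ≤ I2 a` for `0 ≤ a ≤ V`, strictly for `a > 0` -/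
theorem Graph.lt_I2 {V a : ℝ} (h : Graph V lam) (hV0 : 0 < V) (hV : V ≤ 1 / 2) (ha0 : 0 < a)
    (ha : a ≤ V) : lam * a < Iso.I2 a := h.lt_I2' hV0 hV ha0 ha

theorem Crit.c_nonneg (h : Crit E lam c) (i : Fin 3) : 0 ≤ c i := by
  have h1 := h.wall_far i
  rcases (aone_nonneg E i).eq_or_lt with h0 | h0
  · rw [← h0] at h1
    have : Iso.I2 0 = 0 := by
      unfold Iso.I2
      rw [mul_zero, Real.sqrt_zero, min_eq_left zero_le_one, min_eq_left (Real.sqrt_nonneg _)]
    simpa [this] using h1
  · have := h.graph.lt_I2 h.vol_pos h.vol_le h0 (aone_le_vol h.ds i)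
    linarith

theorem Crit.c_eq_zero (h : Crit E lam c) (i : Fin 3) (h0 : aone E i = 0) : c i = 0 :=
  le_antisymm (h.empty i h0) (h.c_nonneg i)

theorem Crit.aone_eq_zero (h : Crit E lam c) (i : Fin 3) (h0 : c i = 0) : aone E i = 0 := by
  have h1 := h.wall_far i
  rcases (aone_nonneg E i).eq_or_lt with h2 | h2
  · exact h2.symm
  · have := h.graph.lt_I2 h.vol_pos h.vol_le h2 (aone_le_vol h.ds i)
    linarith

end Crest.Agent.R214.Cs
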