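import Mathlib

/-!
# Row 214, module ISO: planar down-sets of the unit square (definitions)

A planar down-set of the open unit square is described by its two height functions
`f` (height in the `y` direction over `x`) and `g` (height in the `x` direction over `y`).
`flux f g φ ψ = ∫ φ dμ_x + ∫ ψ dμ_y`, and `pl f g` is the supremum of the flux over Borel
fields of norm at most one (the relative perimeter in the open square).
-/

namespace Crest.Agent.R214.Iso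

open MeasureTheory Set

/-- The two height functions of a planar down-set of the open unit square. -/
structure Pair (f g : ℝ → ℝ) : Prop where
  f_mem : ∀ x ∈ Ioo (0:ℝ) 1, f x ∈ Icc (0:ℝ) 1
  g_mem : ∀ y ∈ Ioo (0:ℝ) 1, g y ∈ Icc (0:ℝ) 1
  fg : ∀ x ∈ Ioo (0:ℝ) 1, ∀ y ∈ Ioo (0:ℝ) 1, y < f x → x ≤ g y
  gf : ∀ x ∈ Ioo (0:ℝ) 1, ∀ y ∈ Ioo (0:ℝ) 1, x < g y → y ≤ f x

/-- The base points over which the graph lies in the open square. -/
def act (f : ℝ → ℝ) : Set ℝ := {x | x ∈ Ioo (0:ℝ) 1 ∧ 0 < f x ∧ f x < 1}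

/-- `∫ φ dμ_x + ∫ ψ dμ_y`; both `φ` and `ψ` take the point as `x y`. -/
noncomputable def flux (f g : ℝ → ℝ) (φ ψ : ℝ → ℝ → ℝ) : ℝ :=
  (∫ y in act g, φ (g y) y) + ∫ x in act f, ψ x (f x)

/-- Borel fields of norm at most one. -/
structure Adm (φ ψ : ℝ → ℝ → ℝ) : Prop where
  mφ : Measurable (Function.uncurry φ)
  mψ : Measurable (Function.uncurry ψ)
  le_one : ∀ x y, φ x y ^ 2 + ψ x y ^ 2 ≤ 1

/-- The planar relative perimeter. -/
noncomputable def pl (f g : ℝ → ℝ) : ℝ :=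
  sSup {t | ∃ φ ψ, Adm φ ψ ∧ t = flux f g φ ψ}

/-- The area below the graph. -/
noncomputable def area (f : ℝ → ℝ) : ℝ := ∫ x in Ioo (0:ℝ) 1, f x

/-- `f(0+)`. For a pair: `h0 = top f`, `U = top g`. -/
noncomputable def top (f : ℝ → ℝ) : ℝ := sSup (f '' Ioo (0:ℝ) 1)

/-- `f(1-)`. For a pair: `h1 = bot f`, `W = bot g`. -/
noncomputable def bot (f : ℝ → ℝ) : ℝ := sInf (f '' Ioo (0:ℝ) 1)

/-- The height function of the reflected complement. -/
def cpl (f : ℝ → ℝ) : ℝ → ℝ := fun x => 1 - f (1 - x)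

/-- The isoperimetric profile of the unit square. -/
noncomputable def I2 (a : ℝ) : ℝ :=
  min (min (Real.sqrt (Real.pi * a)) 1) (Real.sqrt (Real.pi * (1 - a)))

/-- Quarter-disc bound when the extent along one edge is at most `e`. -/
noncomputable def lq (b e : ℝ) : ℝ :=
  if 2 * Real.sqrt (b / Real.pi) ≤ e then Real.sqrt (Real.pi * b) else b / e + Real.pi * e / 4

theorem Adm.abs_φ {φ ψ : ℝ → ℝ → ℝ} (h : Adm φ ψ) (x y : ℝ) : |φ x y| ≤ 1 := by
  have := h.le_one x y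
  rw [← sq_le_one_iff_abs_le_one]; nlinarith [sq_nonneg (ψ x y)]

theorem Adm.abs_ψ {φ ψ : ℝ → ℝ → ℝ} (h : Adm φ ψ) (x y : ℝ) : |ψ x y| ≤ 1 := by
  have := h.le_one x y
  rw [← sq_le_one_iff_abs_le_one]; nlinarith [sq_nonneg (φ x y)]

theorem Adm.swap {φ ψ : ℝ → ℝ → ℝ} (h : Adm φ ψ) :
    Adm (fun x y => ψ y x) (fun x y => φ y x) where
  mφ := h.mψ.comp measurable_swap
  mψ := h.mφ.comp measurable_swap
  le_one x y := by have := h.le_one y x; linarith

theorem adm_zero : Adm (fun _ _ => 0) (fun _ _ => 0) where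
  mφ := measurable_const
  mψ := measurable_const
  le_one _ _ := by norm_num

theorem act_subset (f : ℝ → ℝ) : act f ⊆ Ioo (0:ℝ) 1 := fun _ h => h.1

theorem volume_act_le (f : ℝ → ℝ) : volume (act f) ≤ 1 := by
  have := measure_mono (μ := volume) (act_subset f)
  simpa using this

theorem volume_act_lt_top (f : ℝ → ℝ) : volume (act f) < ⊤ :=
  (volume_act_le f).trans_lt ENNReal.one_lt_top

theorem abs_integral_act_le (f : ℝ → ℝ) (u : ℝ → ℝ) (hu : ∀ x, |u x| ≤ 1) :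
    |∫ x in act f, u x| ≤ 1 := by
  have h := norm_setIntegral_le_of_norm_le_const (μ := volume) (s := act f) (f := u) (C := 1)
    (volume_act_lt_top f) (fun x _ => by simpa using hu x)
  have h2 : volume.real (act f) ≤ 1 := by
    have := ENNReal.toReal_mono ENNReal.one_ne_top (volume_act_le f)
    simpa [Measure.real] using this
  rw [Real.norm_eq_abs] at h
  linarith

theorem flux_le_two (f g : ℝ → ℝ) {φ ψ : ℝ → ℝ → ℝ} (h : Adm φ ψ) : flux f g φ ψ ≤ 2 := by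
  have h1 := abs_integral_act_le g (fun y => φ (g y) y) (fun y => h.abs_φ _ _)
  have h2 := abs_integral_act_le f (fun x => ψ x (f x)) (fun x => h.abs_ψ _ _)
  have := (abs_le.1 h1).2
  have := (abs_le.1 h2).2
  unfold flux; linarith

theorem bddAbove_flux (f g : ℝ → ℝ) :
    BddAbove {t | ∃ φ ψ, Adm φ ψ ∧ t = flux f g φ ψ} :=
  ⟨2, by rintro t ⟨φ, ψ, h, rfl⟩; exact flux_le_two f g h⟩

/-- Every admissible flux is at most the planar perimeter. -/
theorem flux_le_pl (f g : ℝ → ℝ) {φ ψ : ℝ → ℝ → ℝ} (h : Adm φ ψ) : flux f g φ ψ ≤ pl f g :=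
  le_csSup (bddAbove_flux f g) ⟨φ, ψ, h, rfl⟩

theorem pl_le {f g : ℝ → ℝ} {p : ℝ} (h : ∀ φ ψ, Adm φ ψ → flux f g φ ψ ≤ p) : pl f g ≤ p :=
  csSup_le ⟨_, _, _, adm_zero, rfl⟩ (by rintro t ⟨φ, ψ, h', rfl⟩; exact h φ ψ h')

theorem pl_nonneg (f g : ℝ → ℝ) : 0 ≤ pl f g := by
  have := flux_le_pl f g adm_zero
  simpa [flux] using this

theorem pl_le_two (f g : ℝ → ℝ) : pl f g ≤ 2 := pl_le fun _ _ h => flux_le_two f g h

theorem flux_swap (f g : ℝ → ℝ) (φ ψ : ℝ → ℝ → ℝ) :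
    flux g f (fun x y => ψ y x) (fun x y => φ y x) = flux f g φ ψ := by
  unfold flux; ring

theorem pl_swap (f g : ℝ → ℝ) : pl g f = pl f g := by
  have key : ∀ f g : ℝ → ℝ, pl g f ≤ pl f g := fun f g =>
    pl_le fun φ ψ h => by
      rw [← flux_swap g f φ ψ]; exact flux_le_pl f g h.swap
  exact le_antisymm (key f g) (key g f)

theorem Pair.swap {f g : ℝ → ℝ} (h : Pair f g) : Pair g f where
  f_mem := h.g_mem
  g_mem := h.f_mem
  fg x hx y hy hxy := h.gf y hy x hx hxy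
  gf x hx y hy hxy := h.fg y hy x hx hxy

theorem Pair.antitoneOn {f g : ℝ → ℝ} (h : Pair f g) : AntitoneOn f (Ioo (0:ℝ) 1) := by
  intro x hx x' hx' hxx'
  rcases eq_or_lt_of_le hxx' with rfl | hlt
  · exact le_rfl
  by_contra hc
  push Not at hc
  obtain ⟨y, hy1, hy2⟩ := exists_between hc
  have hy : y ∈ Ioo (0:ℝ) 1 :=
    ⟨(h.f_mem x hx).1.trans_lt hy1, hy2.trans_le (h.f_mem x' hx').2⟩
  have h1 := h.fg x' hx' y hy hy2
  have h2 := h.gf x hx y hy (hlt.trans_le h1)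
  linarith

theorem Pair.compl {f g : ℝ → ℝ} (h : Pair f g) : Pair (cpl f) (cpl g) := by
  have hm : ∀ x ∈ Ioo (0:ℝ) 1, 1 - x ∈ Ioo (0:ℝ) 1 := fun x hx =>
    ⟨by linarith [hx.2], by linarith [hx.1]⟩
  refine ⟨fun x hx => ?_, fun y hy => ?_, fun x hx y hy hxy => ?_, fun x hx y hy hxy => ?_⟩
  · have := h.f_mem _ (hm x hx)
    exact ⟨by simp only [cpl]; linarith [this.2], by simp only [cpl]; linarith [this.1]⟩
  · have := h.g_mem _ (hm y hy)
    exact ⟨by simp only [cpl]; linarith [this.2], by simp only [cpl]; linarith [this.1]⟩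
  · simp only [cpl] at hxy ⊢
    by_contra hc
    push Not at hc
    have := h.gf _ (hm x hx) _ (hm y hy) (by linarith)
    linarith
  · simp only [cpl] at hxy ⊢
    by_contra hc
    push Not at hc
    have := h.fg _ (hm x hx) _ (hm y hy) (by linarith)
    linarith

theorem compl_compl (f : ℝ → ℝ) : cpl (cpl f) = f := by
  funext x; simp [cpl]

/-! ### `top` and `bot` -/

theorem image_nonempty (f : ℝ → ℝ) : (f '' Ioo (0:ℝ) 1).Nonempty :=
  ⟨f (1/2), 1/2, ⟨by norm_num, by norm_num⟩, rfl⟩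

theorem Pair.le_top {f g : ℝ → ℝ} (h : Pair f g) {x : ℝ} (hx : x ∈ Ioo (0:ℝ) 1) : f x ≤ top f :=
  le_csSup ⟨1, by rintro _ ⟨x, hx, rfl⟩; exact (h.f_mem x hx).2⟩ ⟨x, hx, rfl⟩

theorem Pair.bot_le {f g : ℝ → ℝ} (h : Pair f g) {x : ℝ} (hx : x ∈ Ioo (0:ℝ) 1) : bot f ≤ f x :=
  csInf_le ⟨0, by rintro _ ⟨x, hx, rfl⟩; exact (h.f_mem x hx).1⟩ ⟨x, hx, rfl⟩

theorem top_le {f : ℝ → ℝ} {c : ℝ} (h : ∀ x ∈ Ioo (0:ℝ) 1, f x ≤ c) : top f ≤ c :=
  csSup_le (image_nonempty f) (by rintro _ ⟨x, hx, rfl⟩; exact h x hx)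

theorem le_bot {f : ℝ → ℝ} {c : ℝ} (h : ∀ x ∈ Ioo (0:ℝ) 1, c ≤ f x) : c ≤ bot f :=
  le_csInf (image_nonempty f) (by rintro _ ⟨x, hx, rfl⟩; exact h x hx)

theorem exists_of_lt_top {f : ℝ → ℝ} {c : ℝ} (h : c < top f) : ∃ x ∈ Ioo (0:ℝ) 1, c < f x := by
  by_contra hc
  push Not at hc
  exact absurd (top_le hc) (not_le.2 h)

theorem exists_of_bot_lt {f : ℝ → ℝ} {c : ℝ} (h : bot f < c) : ∃ x ∈ Ioo (0:ℝ) 1, f x < c := by
  by_contra hc
  push Not at hc
  exact absurd (le_bot hc) (not_le.2 h)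

theorem Pair.top_le_one {f g : ℝ → ℝ} (h : Pair f g) : top f ≤ 1 :=
  top_le fun x hx => (h.f_mem x hx).2

theorem Pair.bot_nonneg {f g : ℝ → ℝ} (h : Pair f g) : 0 ≤ bot f :=
  le_bot fun x hx => (h.f_mem x hx).1

theorem Pair.bot_le_top {f g : ℝ → ℝ} (h : Pair f g) : bot f ≤ top f :=
  (h.bot_le (x := 1/2) ⟨by norm_num, by norm_num⟩).trans (h.le_top ⟨by norm_num, by norm_num⟩)

/-- Nestedness: `top` is monotone. -/
theorem Pair.top_mono {f g f' : ℝ → ℝ} (h : Pair f g) (hle : ∀ x ∈ Ioo (0:ℝ) 1, f' x ≤ f x) :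
    top f' ≤ top f := top_le fun x hx => (hle x hx).trans (h.le_top hx)

/-- Nestedness: `bot` is monotone. -/
theorem Pair.bot_mono {f g f' : ℝ → ℝ} (h : Pair f g) (hle : ∀ x ∈ Ioo (0:ℝ) 1, f x ≤ f' x) :
    bot f ≤ bot f' := le_bot fun x hx => (h.bot_le hx).trans (hle x hx)

theorem Pair.eq_one {f g : ℝ → ℝ} (h : Pair f g) {x : ℝ} (hx : x ∈ Ioo (0:ℝ) 1)
    (hW : x < bot g) : f x = 1 := by
  refine le_antisymm (h.f_mem x hx).2 ?_
  by_contra hc
  push Not at hc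
  obtain ⟨y, hy1, hy2⟩ := exists_between hc
  have hy : y ∈ Ioo (0:ℝ) 1 := ⟨(h.f_mem x hx).1.trans_lt hy1, hy2⟩
  have := h.gf x hx y hy (hW.trans_le (h.swap.bot_le hy))
  linarith

theorem Pair.eq_zero {f g : ℝ → ℝ} (h : Pair f g) {x : ℝ} (hx : x ∈ Ioo (0:ℝ) 1)
    (hU : top g < x) : f x = 0 := by
  refine le_antisymm ?_ (h.f_mem x hx).1
  by_contra hc
  push Not at hc
  obtain ⟨y, hy1, hy2⟩ := exists_between hc
  have hy : y ∈ Ioo (0:ℝ) 1 := ⟨hy1, hy2.trans_le (h.f_mem x hx).2⟩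
  have := (h.fg x hx y hy hy2).trans (h.swap.le_top hy)
  linarith

theorem Pair.pos {f g : ℝ → ℝ} (h : Pair f g) {x : ℝ} (hx : x ∈ Ioo (0:ℝ) 1)
    (hU : x < top g) : 0 < f x := by
  obtain ⟨y, hy, hxy⟩ := exists_of_lt_top hU
  exact hy.1.trans_le (h.gf x hx y hy hxy)

theorem Pair.lt_one {f g : ℝ → ℝ} (h : Pair f g) {x : ℝ} (hx : x ∈ Ioo (0:ℝ) 1)
    (hW : bot g < x) : f x < 1 := by
  obtain ⟨y, hy, hxy⟩ := exists_of_bot_lt hW
  by_contra hc
  push Not at hc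
  have := h.fg x hx y hy (hy.2.trans_le hc)
  linarith

theorem Pair.Ioo_subset_act {f g : ℝ → ℝ} (h : Pair f g) : Ioo (bot g) (top g) ⊆ act f := by
  intro x hx
  have hx' : x ∈ Ioo (0:ℝ) 1 :=
    ⟨h.swap.bot_nonneg.trans_lt hx.1, hx.2.trans_le h.swap.top_le_one⟩
  exact ⟨hx', h.pos hx' hx.2, h.lt_one hx' hx.1⟩

theorem Pair.act_subset_Icc {f g : ℝ → ℝ} (h : Pair f g) : act f ⊆ Icc (bot g) (top g) := by
  rintro x ⟨hx, h0, h1⟩
  constructor
  · by_contra hc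
    push Not at hc
    exact absurd (h.eq_one hx hc) h1.ne
  · by_contra hc
    push Not at hc
    exact absurd (h.eq_zero hx hc) h0.ne'

theorem Pair.act_ae_eq {f g : ℝ → ℝ} (h : Pair f g) :
    act f =ᵐ[volume] Ioo (bot g) (top g) := by
  refine (ae_eq_set.2 ⟨?_, ?_⟩)
  · refine measure_mono_null (sdiff_subset_sdiff_left h.act_subset_Icc) ?_
    exact (ae_eq_set.1 (Ioo_ae_eq_Icc (μ := volume) (a := bot g) (b := top g))).2
  · rw [sdiff_eq_empty.2 h.Ioo_subset_act]; exact measure_empty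

/-- Integrals over the active set are interval integrals over `(W, U)`. -/
theorem Pair.integral_act {f g : ℝ → ℝ} (h : Pair f g) (u : ℝ → ℝ) :
    ∫ x in act f, u x = ∫ x in bot g..top g, u x := by
  rw [setIntegral_congr_set h.act_ae_eq, intervalIntegral.integral_of_le h.swap.bot_le_top,
    integral_Ioc_eq_integral_Ioo]

/-- A positive trace on the far wall `x = 1` forces `U = 1`. -/
theorem Pair.top_eq_one {f g : ℝ → ℝ} (h : Pair f g) (h1 : 0 < bot f) : top g = 1 := by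
  refine le_antisymm h.swap.top_le_one ?_
  have hb : bot f ≤ 1 := h.bot_le_top.trans h.top_le_one
  have hy : bot f / 2 ∈ Ioo (0:ℝ) 1 := ⟨by linarith, by linarith⟩
  have := h.swap.eq_one hy (by linarith)
  rw [← this]; exact h.swap.le_top hy

theorem top_compl {f g : ℝ → ℝ} (h : Pair f g) : top (cpl f) = 1 - bot f := by
  have hm : ∀ x ∈ Ioo (0:ℝ) 1, 1 - x ∈ Ioo (0:ℝ) 1 := fun x hx =>
    ⟨by linarith [hx.2], by linarith [hx.1]⟩
  apply le_antisymm
  · exact top_le fun x hx => by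
      have := h.bot_le (hm x hx); simp only [cpl]; linarith
  · have : 1 - top (cpl f) ≤ bot f := le_bot fun x hx => by
      have := h.compl.le_top (hm x hx); simp only [cpl, sub_sub_cancel] at this; linarith
    linarith

theorem bot_compl {f g : ℝ → ℝ} (h : Pair f g) : bot (cpl f) = 1 - top f := by
  have := top_compl h.compl
  rw [compl_compl] at this
  linarith

end Crest.Agent.R214.Iso
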