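import Crest.Agent.R214.DS
import Crest.Agent.R214.IsoDefs

/-! Row 214, module CASES: the output of the first variation (`Crit`) and the three models. -/

set_option autoImplicit false
open MeasureTheory Set Filter Topology Real

noncomputable section
namespace Crest.Agent.R214.Cs
open DS

/-- planar perimeter of the slice `x_i = t` -/
def pz (E : Set E3) (i : Fin 3) (t : ℝ) : ℝ := Iso.pl (slF E i t) (slG E i t)

/-- `lam` lies in the superdifferential at `V ≤ 1/2` of the profile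
`min ((9π/2)^(1/3) V^(2/3)) (√(π V)) 1` of the cube -/
def Graph (V lam : ℝ) : Prop :=
  (V ≤ 4 * π / 81 ∧ 0 < lam ∧ 3 * lam ^ 3 * V = 4 * π) ∨
  (V = 4 * π / 81 ∧ 9 / 4 ≤ lam ∧ lam ≤ 3) ∨
  (4 * π / 81 ≤ V ∧ V ≤ 1 / π ∧ 0 < lam ∧ 4 * lam ^ 2 * V = π) ∨
  (V = 1 / π ∧ 0 ≤ lam ∧ lam ≤ π / 2) ∨
  (1 / π ≤ V ∧ lam = 0)

/-- What the first variation gives for a minimiser of `per - profile (vol)` with value `≤ 0`. -/
structure Crit (E : Set E3) (lam : ℝ) (c : Fin 3 → ℝ) : Prop where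
  ds : IsDS E
  vol_pos : 0 < vol E
  vol_le : vol E ≤ 1 / 2
  per_ball : per E ^ 3 ≤ 9 * π / 2 * vol E ^ 2
  per_tube : per E ^ 2 ≤ π * vol E
  per_slab : per E ≤ 1
  graph : Graph (vol E) lam
  /-- the push of `(1 - ν_i²) σ` to the axis has density `c_i + lam a_i(t)` -/
  dens : ∀ (i : Fin 3) (g : ℝ → ℝ), Measurable g → (∀ t, |g t| ≤ 1) →
    ∫ x, g (x i) * (1 - nu E i x ^ 2) ∂(sig E) = ∫ t in Ioo (0 : ℝ) 1, g t * (c i + lam * sec E i t)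
  /-- deleting the slab `x_i < ε` -/
  near : ∀ (i : Fin 3) (δ : ℝ), 0 < δ → ∀ᶠ ε in 𝓝[>] (0 : ℝ),
    (sig E).real {x | x i < ε} ≤ ε * (c i + lam * azero E i + δ)
  /-- deleting the slab `1 - ε < x_i` -/
  far : ∀ (i : Fin 3) (δ : ℝ), 0 < δ → ∀ᶠ ε in 𝓝[>] (0 : ℝ),
    (sig E).real {x | 1 - ε < x i} ≤ ε * (c i + lam * aone E i + δ)
  /-- inserting an empty slab at the far wall -/
  empty : ∀ i : Fin 3, aone E i = 0 → c i ≤ 0

/-- octant of a ball -/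
def ballO (r : ℝ) : Set E3 := {x | x ∈ cube ∧ x 0 ^ 2 + x 1 ^ 2 + x 2 ^ 2 < r ^ 2}

/-- quarter of a tube along the axis `i` -/
def tubeO (i : Fin 3) (r : ℝ) : Set E3 := {x | x ∈ cube ∧ x (i + 1) ^ 2 + x (i + 2) ^ 2 < r ^ 2}

/-- slab across the axis `i` -/
def slabO (i : Fin 3) (w : ℝ) : Set E3 := {x | x ∈ cube ∧ x i < w}

/-- `E` is one of the three models, in the right range of volumes, with the right perimeter -/
def Model (E : Set E3) : Prop :=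
  (vol E ≤ 4 * π / 81 ∧ per E ^ 3 = 9 * π / 2 * vol E ^ 2 ∧
    ∃ r, 0 < r ∧ π * r ^ 3 / 6 = vol E ∧ E =ᵐ[volume] ballO r) ∨
  (4 * π / 81 ≤ vol E ∧ vol E ≤ 1 / π ∧ per E ^ 2 = π * vol E ∧
    ∃ i r, 0 < r ∧ π * r ^ 2 / 4 = vol E ∧ E =ᵐ[volume] tubeO i r) ∨
  (1 / π ≤ vol E ∧ per E = 1 ∧ ∃ i, E =ᵐ[volume] slabO i (vol E))

end Crest.Agent.R214.Cs
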