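import Crest.Agent.R214.LawCell

/-! # Row 214, Lawson case (helper50): certificate, part 1 -/

set_option autoImplicit false

open Real Set Finset

namespace Crest.Agent.R214.Law

theorem row_1250000 : rowOK 1250000 1280000 0
    [(460000, 500000, 500000, 20, 40, 1813),
     (500000, 500000, 500000, 20, 40, 1816),
     (570000, 500000, 500000, 20, 40, 1823),
     (1000000, 500000, 500000, 25, 50, 1846)] = true := by
  decide +kernel

theorem row_1280000 : rowOK 1280000 1330000 0
    [(435000, 500000, 500000, 25, 50, 1783),
     (460000, 500000, 500000, 20, 40, 1785),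
     (480000, 500000, 500000, 20, 40, 1788),
     (505000, 500000, 500000, 20, 40, 1791),
     (545000, 500000, 500000, 20, 40, 1797),
     (1000000, 500000, 500000, 25, 50, 1810)] = true := by
  decide +kernel

theorem row_1330000 : rowOK 1330000 1350000 0
    [(485000, 500000, 500000, 20, 40, 1771),
     (560000, 500000, 500000, 20, 40, 1781),
     (1000000, 500000, 500000, 25, 50, 1806)] = true := by
  decide +kernel

theorem row_1350000 : rowOK 1350000 1380000 0
    [(480000, 500000, 500000, 20, 40, 1754),
     (545000, 500000, 500000, 20, 40, 1764),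
     (1000000, 500000, 500000, 25, 50, 1785)] = true := by
  decide +kernel

theorem row_1380000 : rowOK 1380000 1410000 0
    [(485000, 500000, 500000, 20, 40, 1736),
     (550000, 500000, 500000, 20, 40, 1750),
     (1000000, 500000, 500000, 25, 50, 1772)] = true := by
  decide +kernel

theorem row_1410000 : rowOK 1410000 1460000 0
    [(470000, 500000, 500000, 20, 40, 1708),
     (515000, 500000, 500000, 20, 40, 1720),
     (555000, 500000, 500000, 20, 40, 1734),
     (600000, 500000, 500000, 20, 40, 1751),
     (1000000, 500000, 480000, 25, 50, 1776)] = true := by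
  decide +kernel

theorem row_1460000 : rowOK 1460000 1500000 0
    [(490000, 500000, 500000, 20, 40, 1685),
     (530000, 500000, 500000, 20, 40, 1705),
     (555000, 500000, 500000, 20, 40, 1720),
     (570000, 500000, 480000, 20, 40, 1732),
     (580000, 500000, 480000, 25, 50, 1740),
     (595000, 500000, 460000, 20, 40, 1746),
     (1000000, 500000, 460000, 25, 50, 1755)] = true := by
  decide +kernel

theorem part1 {lam V A W a0 : ℝ} (H : Data lam V A W a0) (hW0 : 0 ≤ W) (hW : W ≤ 1)
    (h1 : ((1250000 : ℕ) : ℝ) ≤ lam * 1000000) (h2 : lam * 1000000 ≤ ((1500000 : ℕ) : ℝ)) : False := by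
  have w0 : ((0 : ℕ) : ℝ) ≤ W * 1000000 := by push_cast; positivity
  rcases le_total (lam * 1000000) ((1280000 : ℕ) : ℝ) with h | h1
  · exact row_false H h1 h hW _ 0 row_1250000 w0
  rcases le_total (lam * 1000000) ((1330000 : ℕ) : ℝ) with h | h1
  · exact row_false H h1 h hW _ 0 row_1280000 w0
  rcases le_total (lam * 1000000) ((1350000 : ℕ) : ℝ) with h | h1
  · exact row_false H h1 h hW _ 0 row_1330000 w0
  rcases le_total (lam * 1000000) ((1380000 : ℕ) : ℝ) with h | h1
  · exact row_false H h1 h hW _ 0 row_1350000 w0
  rcases le_total (lam * 1000000) ((1410000 : ℕ) : ℝ) with h | h1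
  · exact row_false H h1 h hW _ 0 row_1380000 w0
  rcases le_total (lam * 1000000) ((1460000 : ℕ) : ℝ) with h | h1
  · exact row_false H h1 h hW _ 0 row_1410000 w0
  exact row_false H h1 h2 hW _ 0 row_1460000 w0

end Crest.Agent.R214.Law
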