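import Crest.Agent.R214.LawCell

/-! # Row 214, Lawson case (helper50): certificate, part 2 -/

set_option autoImplicit false

open Real Set Finset

namespace Crest.Agent.R214.Law

theorem row_1500000 : rowOK 1500000 1520000 0
    [(500000, 500000, 500000, 20, 40, 1674),
     (530000, 500000, 500000, 20, 40, 1699),
     (545000, 500000, 480000, 20, 40, 1711),
     (555000, 500000, 480000, 20, 40, 1718),
     (565000, 500000, 460000, 25, 50, 1723),
     (585000, 500000, 460000, 20, 40, 1728),
     (1000000, 550000, 370000, 25, 50, 1740)] = true := by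
  decide +kernel

theorem row_1520000 : rowOK 1520000 1535000 0
    [(500000, 500000, 500000, 20, 40, 1666),
     (525000, 500000, 480000, 20, 40, 1692),
     (535000, 500000, 480000, 20, 40, 1702),
     (545000, 500000, 460000, 20, 40, 1706),
     (555000, 500000, 460000, 25, 50, 1711),
     (575000, 500000, 460000, 20, 40, 1716),
     (1000000, 550000, 370000, 25, 50, 1727)] = true := by
  decide +kernel

theorem row_1535000 : rowOK 1535000 1545000 0
    [(500000, 500000, 500000, 20, 40, 1661),
     (525000, 500000, 480000, 20, 40, 1687),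
     (535000, 500000, 460000, 20, 40, 1697),
     (545000, 500000, 460000, 20, 40, 1701),
     (565000, 500000, 460000, 20, 40, 1706),
     (1000000, 550000, 370000, 25, 50, 1717)] = true := by
  decide +kernel

theorem row_1545000 : rowOK 1545000 1560000 0
    [(500000, 500000, 500000, 20, 40, 1653),
     (520000, 500000, 480000, 20, 40, 1680),
     (530000, 500000, 460000, 20, 40, 1688),
     (535000, 500000, 460000, 20, 40, 1692),
     (545000, 500000, 460000, 25, 50, 1695),
     (560000, 500000, 460000, 20, 40, 1699),
     (1000000, 550000, 390000, 25, 50, 1707)] = true := by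
  decide +kernel

theorem row_1560000 : rowOK 1560000 1575000 0
    [(495000, 500000, 500000, 20, 40, 1645),
     (515000, 500000, 480000, 20, 40, 1671),
     (525000, 500000, 460000, 20, 40, 1679),
     (535000, 500000, 460000, 20, 40, 1683),
     (550000, 500000, 460000, 20, 40, 1688),
     (1000000, 550000, 390000, 25, 50, 1695)] = true := by
  decide +kernel

theorem row_1575000 : rowOK 1575000 1590000 0
    [(490000, 500000, 500000, 20, 40, 1637),
     (510000, 500000, 480000, 20, 40, 1662),
     (520000, 500000, 460000, 20, 40, 1670),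
     (535000, 500000, 460000, 25, 50, 1674),
     (570000, 550000, 390000, 20, 40, 1681),
     (1000000, 550000, 370000, 25, 50, 1700)] = true := by
  decide +kernel

theorem part2 {lam V A W a0 : ℝ} (H : Data lam V A W a0) (hW0 : 0 ≤ W) (hW : W ≤ 1)
    (h1 : ((1500000 : ℕ) : ℝ) ≤ lam * 1000000) (h2 : lam * 1000000 ≤ ((1590000 : ℕ) : ℝ)) : False := by
  have w0 : ((0 : ℕ) : ℝ) ≤ W * 1000000 := by push_cast; positivity
  rcases le_total (lam * 1000000) ((1520000 : ℕ) : ℝ) with h | h1
  · exact row_false H h1 h hW _ 0 row_1500000 w0
  rcases le_total (lam * 1000000) ((1535000 : ℕ) : ℝ) with h | h1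
  · exact row_false H h1 h hW _ 0 row_1520000 w0
  rcases le_total (lam * 1000000) ((1545000 : ℕ) : ℝ) with h | h1
  · exact row_false H h1 h hW _ 0 row_1535000 w0
  rcases le_total (lam * 1000000) ((1560000 : ℕ) : ℝ) with h | h1
  · exact row_false H h1 h hW _ 0 row_1545000 w0
  rcases le_total (lam * 1000000) ((1575000 : ℕ) : ℝ) with h | h1
  · exact row_false H h1 h hW _ 0 row_1560000 w0
  exact row_false H h1 h2 hW _ 0 row_1575000 w0

end Crest.Agent.R214.Law
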