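import Crest.Agent.R214.LawCell

/-! # Row 214, Lawson case (helper50): certificate, part 3 -/

set_option autoImplicit false

open Real Set Finset

namespace Crest.Agent.R214.Law

theorem row_1590000 : rowOK 1590000 1610000 0
    [(485000, 500000, 500000, 20, 40, 1626),
     (505000, 500000, 480000, 20, 40, 1651),
     (515000, 500000, 460000, 20, 40, 1658),
     (530000, 500000, 460000, 25, 50, 1663),
     (565000, 550000, 390000, 20, 40, 1670),
     (1000000, 550000, 370000, 25, 50, 1688)] = true := by
  decide +kernel

theorem row_1610000 : rowOK 1610000 1630000 0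
    [(480000, 500000, 480000, 20, 40, 1616),
     (505000, 500000, 480000, 20, 40, 1640),
     (530000, 500000, 460000, 20, 40, 1649),
     (1000000, 550000, 390000, 25, 50, 1661)] = true := by
  decide +kernel

theorem row_1630000 : rowOK 1630000 1660000 0
    [(470000, 500000, 480000, 20, 40, 1600),
     (495000, 500000, 480000, 20, 40, 1623),
     (520000, 500000, 460000, 20, 40, 1632),
     (1000000, 550000, 390000, 25, 50, 1643)] = true := by
  decide +kernel

theorem row_1660000 : rowOK 1660000 1710000 0
    [(460000, 500000, 480000, 20, 40, 1575),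
     (485000, 500000, 460000, 20, 40, 1597),
     (510000, 500000, 460000, 20, 40, 1606),
     (1000000, 500000, 460000, 25, 50, 1616)] = true := by
  decide +kernel

theorem row_1710000 : rowOK 1710000 1760000 0
    [(455000, 500000, 480000, 20, 40, 1551),
     (1000000, 550000, 390000, 25, 50, 1573)] = true := by
  decide +kernel

theorem row_1760000 : rowOK 1760000 1790000 0
    [(1000000, 550000, 390000, 25, 50, 1536)] = true := by
  decide +kernel

theorem row_1790000 : rowOK 1790000 1840000 0
    [(1000000, 550000, 390000, 25, 50, 1513)] = true := by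
  decide +kernel

theorem row_1840000 : rowOK 1840000 1890000 0
    [(1000000, 550000, 390000, 25, 50, 1490)] = true := by
  decide +kernel

theorem row_1890000 : rowOK 1890000 1990000 0
    [(1000000, 550000, 390000, 25, 50, 1445)] = true := by
  decide +kernel

theorem row_1990000 : rowOK 1990000 2090000 0
    [(1000000, 550000, 370000, 25, 50, 1403)] = true := by
  decide +kernel

theorem row_2090000 : rowOK 2090000 2290000 0
    [(1000000, 550000, 370000, 25, 50, 1325)] = true := by
  decide +kernel

theorem row_2290000 : rowOK 2290000 2490000 0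
    [(1000000, 550000, 350000, 25, 50, 1255)] = true := by
  decide +kernel

theorem row_2490000 : rowOK 2490000 2690000 0
    [(1000000, 600000, 260000, 25, 50, 1191)] = true := by
  decide +kernel

theorem row_2690000 : rowOK 2690000 3000000 0
    [(1000000, 600000, 260000, 25, 50, 1103)] = true := by
  decide +kernel

theorem part3 {lam V A W a0 : ℝ} (H : Data lam V A W a0) (hW0 : 0 ≤ W) (hW : W ≤ 1)
    (h1 : ((1590000 : ℕ) : ℝ) ≤ lam * 1000000) (h2 : lam * 1000000 ≤ ((3000000 : ℕ) : ℝ)) : False := by
  have w0 : ((0 : ℕ) : ℝ) ≤ W * 1000000 := by push_cast; positivity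
  rcases le_total (lam * 1000000) ((1610000 : ℕ) : ℝ) with h | h1
  · exact row_false H h1 h hW _ 0 row_1590000 w0
  rcases le_total (lam * 1000000) ((1630000 : ℕ) : ℝ) with h | h1
  · exact row_false H h1 h hW _ 0 row_1610000 w0
  rcases le_total (lam * 1000000) ((1660000 : ℕ) : ℝ) with h | h1
  · exact row_false H h1 h hW _ 0 row_1630000 w0
  rcases le_total (lam * 1000000) ((1710000 : ℕ) : ℝ) with h | h1
  · exact row_false H h1 h hW _ 0 row_1660000 w0
  rcases le_total (lam * 1000000) ((1760000 : ℕ) : ℝ) with h | h1
  · exact row_false H h1 h hW _ 0 row_1710000 w0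
  rcases le_total (lam * 1000000) ((1790000 : ℕ) : ℝ) with h | h1
  · exact row_false H h1 h hW _ 0 row_1760000 w0
  rcases le_total (lam * 1000000) ((1840000 : ℕ) : ℝ) with h | h1
  · exact row_false H h1 h hW _ 0 row_1790000 w0
  rcases le_total (lam * 1000000) ((1890000 : ℕ) : ℝ) with h | h1
  · exact row_false H h1 h hW _ 0 row_1840000 w0
  rcases le_total (lam * 1000000) ((1990000 : ℕ) : ℝ) with h | h1
  · exact row_false H h1 h hW _ 0 row_1890000 w0
  rcases le_total (lam * 1000000) ((2090000 : ℕ) : ℝ) with h | h1
  · exact row_false H h1 h hW _ 0 row_1990000 w0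
  rcases le_total (lam * 1000000) ((2290000 : ℕ) : ℝ) with h | h1
  · exact row_false H h1 h hW _ 0 row_2090000 w0
  rcases le_total (lam * 1000000) ((2490000 : ℕ) : ℝ) with h | h1
  · exact row_false H h1 h hW _ 0 row_2290000 w0
  rcases le_total (lam * 1000000) ((2690000 : ℕ) : ℝ) with h | h1
  · exact row_false H h1 h hW _ 0 row_2490000 w0
  exact row_false H h1 h2 hW _ 0 row_2690000 w0

end Crest.Agent.R214.Law
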