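import Crest.Agent.R214.LawCert0
import Crest.Agent.R214.LawCert1
import Crest.Agent.R214.LawCert2
import Crest.Agent.R214.LawCert3

/-! # Row 214, Lawson case (helper50): the final contradiction -/

set_option autoImplicit false

open Real Set Finset

namespace Crest.Agent.R214.Law

/-- No configuration of Lawson type has `A ≤ min 1 √(π V)`. -/
theorem lawson_false {lam V A W a0 : ℝ} (h0 : 0 < lam) (h3 : lam ≤ 3) (hW0 : 0 ≤ W) (hW : W ≤ 1)
    (ha : a0 ≤ 1) (H : Data lam V A W a0) : False := by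
  rcases le_or_gt (1 / 2) lam with h | h
  · have h1 : ((500000 : ℕ) : ℝ) ≤ lam * 1000000 := by push_cast; linarith
    rcases le_total (lam * 1000000) ((1250000 : ℕ) : ℝ) with h | h1
    · exact part0 H hW0 hW h1 h
    rcases le_total (lam * 1000000) ((1500000 : ℕ) : ℝ) with h | h1
    · exact part1 H hW0 hW h1 h
    rcases le_total (lam * 1000000) ((1590000 : ℕ) : ℝ) with h | h1
    · exact part2 H hW0 hW h1 h
    exact part3 H hW0 hW h1 (by push_cast; linarith)
  have a0p := H.a0_pos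
  have key := H.Z (1 / 2) 0 a0 1 (fun _ => 1) (fun _ => 1) (by norm_num) le_rfl (by norm_num) a0p
    (by simp) fun j _ => ⟨zero_le_one, zero_le_one, by norm_num, fun a p _ _ hp => by
      simpa using hp.1⟩
  simp only [add_zero, range_one, sum_singleton, mul_one] at key
  have e1 := istar1 (η := 1 / 2 * lam) H.A1 H.A2 (by positivity) (by linarith [Real.pi_gt_three])
  have e2 := H.base.1
  have e3 : (lam * a0) ^ 2 ≤ lam ^ 2 := by
    rw [mul_pow]; exact mul_le_of_le_one_right (sq_nonneg _) (pow_le_one₀ a0p.le ha)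
  nlinarith [mul_le_mul_of_nonneg_left (show a0 ≤ A - 1 / 2 * lam * V by linarith) Real.pi_pos.le]

/-- The same, from the bound for monotone multipliers. -/
theorem lawson_false' {lam V A W a0 : ℝ} (h0 : 0 < lam) (h3 : lam ≤ 3) (hW0 : 0 ≤ W) (hW : W ≤ 1)
    (ha0 : 0 < a0) (ha : a0 ≤ 1) (hV : 0 ≤ V) (hA : A ≤ 1) (hA' : A ^ 2 ≤ π * V)
    (base : Hole W a0 (lam * a0)) (Z : FunZ lam V A W a0) : False :=
  lawson_false h0 h3 hW0 hW ha ⟨hV, hA, hA', ha0, base, stepZ_of_funZ h0 Z⟩

end Crest.Agent.R214.Law
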