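import Crest.Agent.R214.CsMain
import Crest.Agent.R214.LawNum

/-! Row 214, module CASES: the final statement. -/

set_option autoImplicit false

namespace Crest.Agent.R214.Cs

theorem lawsonFalse : LawsonFalse :=
  fun _ _ _ _ _ h0 h3 hV _ hA hA' hVa ha hW0 hW base Z =>
    Law.lawson_false' h0 h3 hW0 hW (hV.trans_le hVa) ha hV.le hA hA' base Z

theorem cases {E : Set DS.E3} {lam : ℝ} {c : Fin 3 → ℝ} (h : Crit E lam c) : Model E :=
  cases_of lawsonFalse h

end Crest.Agent.R214.Cs
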