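import Crest.Agent.R214.IsoDefs

/-! # Row 214, module ISO: a jointly measurable optimal field for a family of slices -/

namespace Crest.Agent.R214.Iso

open MeasureTheory Set

theorem slice_act {Z : Type*} [MeasurableSpace Z] {G : Z → ℝ → ℝ}
    (hG : Measurable (Function.uncurry G)) : MeasurableSet {p : Z × ℝ | p.2 ∈ act (G p.1)} :=
  (measurable_snd measurableSet_Ioo).inter
    ((measurableSet_lt measurable_const hG).inter (measurableSet_lt hG measurable_const))

theorem slice_kernel {Z : Type*} [MeasurableSpace Z] {G : Z → ℝ → ℝ}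
    (hG : Measurable (Function.uncurry G)) (r : Z → ℝ → ℝ × ℝ)
    (hr : Measurable (Function.uncurry r)) :
    ∃ κ : ProbabilityTheory.Kernel Z (ℝ × ℝ), ProbabilityTheory.IsFiniteKernel κ ∧
      ∀ z (u : ℝ × ℝ → ℝ), Measurable u → ∫ p, u p ∂(κ z) = ∫ y in act (G z), u (r z y) := by
  have hz : ∀ z, Measurable (r z) := fun z => hr.of_uncurry_left
  refine ⟨⟨fun z => (volume.restrict (act (G z))).map (r z), ?_⟩, ⟨1, ENNReal.one_lt_top, fun z => ?_⟩,
    fun z u hu => integral_map (hz z).aemeasurable hu.aestronglyMeasurable⟩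
  · refine Measure.measurable_of_measurable_coe _ fun s hs => ?_
    simp only [Measure.map_apply (hz _) hs, Measure.restrict_apply (hz _ hs)]
    exact measurable_measure_prodMk_left (ν := volume) ((hr hs).inter (slice_act hG))
  · show (volume.restrict (act (G z))).map (r z) univ ≤ 1
    rw [Measure.map_apply (hz z) MeasurableSet.univ, preimage_univ, Measure.restrict_apply_univ]
    exact volume_act_le _

theorem slice_cs {a b φ ψ : ℝ} (h : φ ^ 2 + ψ ^ 2 ≤ 1) :
    a * φ + b * ψ ≤ a * (a / √(a ^ 2 + b ^ 2)) + b * (b / √(a ^ 2 + b ^ 2)) := by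
  have e : a * (a / √(a ^ 2 + b ^ 2)) + b * (b / √(a ^ 2 + b ^ 2)) = √(a ^ 2 + b ^ 2) := by
    rw [← mul_div_assoc, ← mul_div_assoc, ← add_div, ← sq, ← sq, Real.div_sqrt]
  rw [e]
  refine Real.le_sqrt_of_sq_le ?_
  nlinarith [sq_nonneg (a * ψ - b * φ), mul_le_mul_of_nonneg_left h (by positivity : 0 ≤ a ^ 2 + b ^ 2)]

theorem slice_unit (a b : ℝ) : (a / √(a ^ 2 + b ^ 2)) ^ 2 + (b / √(a ^ 2 + b ^ 2)) ^ 2 ≤ 1 := by
  rw [div_pow, div_pow, ← add_div, Real.sq_sqrt (by positivity)]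
  exact div_self_le_one _

theorem slice_param {Z : Type*} [MeasurableSpace Z] {G : Z → ℝ → ℝ}
    (hG : Measurable (Function.uncurry G)) {u : Z → ℝ → ℝ} (hu : Measurable (Function.uncurry u)) :
    Measurable fun z => ∫ y in act (G z), u z y := by
  have h := (hu.indicator (slice_act hG)).stronglyMeasurable.integral_prod_right' (ν := volume)
  convert h.measurable using 2 with z
  exact (integral_indicator (f := u z) (measurable_prodMk_left (slice_act hG))).symm

/-- For a jointly measurable family of height functions there is a jointly measurable family of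
nonnegative admissible fields whose flux is the planar perimeter of every slice. -/
theorem exists_opt {Z : Type*} [MeasurableSpace Z] (F G : Z → ℝ → ℝ)
    (hF : Measurable (Function.uncurry F)) (hG : Measurable (Function.uncurry G)) :
    ∃ Φ Ψ : Z → ℝ → ℝ → ℝ,
      Measurable (fun p : Z × ℝ × ℝ => Φ p.1 p.2.1 p.2.2) ∧
      Measurable (fun p : Z × ℝ × ℝ => Ψ p.1 p.2.1 p.2.2) ∧
      (∀ z x y, 0 ≤ Φ z x y) ∧ (∀ z x y, 0 ≤ Ψ z x y) ∧
      (∀ z x y, Φ z x y ^ 2 + Ψ z x y ^ 2 ≤ 1) ∧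
      ∀ z, flux (F z) (G z) (Φ z) (Ψ z) = pl (F z) (G z) := by
  obtain ⟨kx, hx, ex⟩ := slice_kernel hG (fun z y => (G z y, y)) (hG.prodMk measurable_snd)
  obtain ⟨ky, hy, ey⟩ := slice_kernel hF (fun z x => (x, F z x)) (measurable_snd.prodMk hF)
  set tx : Z → ℝ × ℝ → ℝ := fun z p => (kx.rnDeriv (kx + ky) z p).toReal with htx
  set ty : Z → ℝ × ℝ → ℝ := fun z p => (ky.rnDeriv (kx + ky) z p).toReal with hty
  have mx : Measurable fun p : Z × ℝ × ℝ => tx p.1 p.2 :=
    (ProbabilityTheory.Kernel.measurable_rnDeriv _ _).ennreal_toReal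
  have my : Measurable fun p : Z × ℝ × ℝ => ty p.1 p.2 :=
    (ProbabilityTheory.Kernel.measurable_rnDeriv _ _).ennreal_toReal
  have ms : Measurable fun p : Z × ℝ × ℝ => √(tx p.1 p.2 ^ 2 + ty p.1 p.2 ^ 2) :=
    ((mx.pow_const 2).add (my.pow_const 2)).sqrt
  have key : ∀ (k : ProbabilityTheory.Kernel Z (ℝ × ℝ)) [ProbabilityTheory.IsFiniteKernel k] (z : Z),
      k z ≪ (kx + ky) z → ∀ u : ℝ × ℝ → ℝ, Measurable u → (∀ p, |u p| ≤ 1) →
      Integrable (fun p => (k.rnDeriv (kx + ky) z p).toReal * u p) ((kx + ky) z) ∧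
      ∫ p, (k.rnDeriv (kx + ky) z p).toReal * u p ∂((kx + ky) z) = ∫ p, u p ∂(k z) := by
    intro k _ z hk u hu h1
    have e : (fun p => ((k z).rnDeriv ((kx + ky) z) p).toReal * u p) =ᵐ[(kx + ky) z]
        fun p => (k.rnDeriv (kx + ky) z p).toReal * u p := by
      filter_upwards [ProbabilityTheory.Kernel.rnDeriv_eq_rnDeriv_measure (κ := k) (η := kx + ky)
        (a := z)] with p hp
      rw [hp]
    exact ⟨(Measure.integrable_toReal_rnDeriv.mul_bdd hu.aestronglyMeasurable
      (Filter.Eventually.of_forall h1)).congr e,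
      (integral_congr_ae e).symm.trans (integral_toReal_rnDeriv_mul hk)⟩
  have rep : ∀ z φ ψ, Adm φ ψ →
      Integrable (fun p : ℝ × ℝ => tx z p * φ p.1 p.2 + ty z p * ψ p.1 p.2) ((kx + ky) z) ∧
      flux (F z) (G z) φ ψ = ∫ p, tx z p * φ p.1 p.2 + ty z p * ψ p.1 p.2 ∂((kx + ky) z) := by
    intro z φ ψ h
    obtain ⟨a1, a2⟩ := key kx z (Measure.AbsolutelyContinuous.rfl.add_right _) _ h.mφ
      fun p => h.abs_φ p.1 p.2
    obtain ⟨b1, b2⟩ := key ky z (Measure.AbsolutelyContinuous.rfl.add_right' _) _ h.mψ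
      fun p => h.abs_ψ p.1 p.2
    refine ⟨a1.add b1, Eq.trans ?_ (integral_add a1 b1).symm⟩
    rw [a2, b2, ex z _ h.mφ, ey z _ h.mψ]
    rfl
  refine ⟨fun z x y => tx z (x, y) / √(tx z (x, y) ^ 2 + ty z (x, y) ^ 2),
    fun z x y => ty z (x, y) / √(tx z (x, y) ^ 2 + ty z (x, y) ^ 2), mx.div ms, my.div ms,
    fun z x y => div_nonneg ENNReal.toReal_nonneg (Real.sqrt_nonneg _),
    fun z x y => div_nonneg ENNReal.toReal_nonneg (Real.sqrt_nonneg _),
    fun z x y => slice_unit _ _, fun z => ?_⟩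
  have hA : Adm (fun x y => tx z (x, y) / √(tx z (x, y) ^ 2 + ty z (x, y) ^ 2))
      fun x y => ty z (x, y) / √(tx z (x, y) ^ 2 + ty z (x, y) ^ 2) :=
    ⟨(mx.div ms).comp measurable_prodMk_left, (my.div ms).comp measurable_prodMk_left,
      fun x y => slice_unit _ _⟩
  refine le_antisymm (flux_le_pl _ _ hA) (pl_le fun φ ψ h => ?_)
  rw [(rep z _ _ h).2, (rep z _ _ hA).2]
  exact integral_mono (rep z _ _ h).1 (rep z _ _ hA).1 fun p => slice_cs (h.le_one _ _)

theorem measurable_pl {Z : Type*} [MeasurableSpace Z] (F G : Z → ℝ → ℝ)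
    (hF : Measurable (Function.uncurry F)) (hG : Measurable (Function.uncurry G)) :
    Measurable fun z => pl (F z) (G z) := by
  obtain ⟨Φ, Ψ, h1, h2, -, -, -, h⟩ := exists_opt F G hF hG
  simp only [← h, flux]
  exact (slice_param hG (u := fun z y => Φ z (G z y) y)
    (h1.comp (measurable_fst.prodMk (hG.prodMk measurable_snd)))).add
    (slice_param hF (u := fun z x => Ψ z x (F z x))
      (h2.comp (measurable_fst.prodMk (measurable_snd.prodMk hF))))

end Crest.Agent.R214.Iso
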