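import Crest.Agent.R214.IsoDefs

/-! # Row 214, module ISO: areas, wall traces and the complement symmetry -/

namespace Crest.Agent.R214.Iso

open MeasureTheory Set

theorem Pair.integrableOn {f g : ℝ → ℝ} (h : Pair f g) : IntegrableOn f (Ioo (0:ℝ) 1) := by
  refine Integrable.of_bound
    (aemeasurable_restrict_of_antitoneOn measurableSet_Ioo h.antitoneOn).aestronglyMeasurable 1
    ((ae_restrict_mem measurableSet_Ioo).mono fun x hx => ?_)
  rw [Real.norm_of_nonneg (h.f_mem x hx).1]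
  exact (h.f_mem x hx).2

theorem real_eq_of_between {S : Set ℝ} {a b : ℝ} (hab : a ≤ b) (h1 : Ioo a b ⊆ S)
    (h2 : S ⊆ Icc a b) : volume.real S = b - a := by
  have e : volume S = ENNReal.ofReal (b - a) :=
    le_antisymm ((measure_mono h2).trans_eq Real.volume_Icc)
      (Real.volume_Ioo.symm.trans_le (measure_mono h1))
  rw [Measure.real, e, ENNReal.toReal_ofReal (sub_nonneg.2 hab)]

theorem Pair.area_eq_aux {f g : ℝ → ℝ} (h : Pair f g) : area g ≤ area f := by
  have hm := ae_restrict_mem (μ := volume) (measurableSet_Ioo (a := (0:ℝ)) (b := 1))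
  have e := Integrable.integral_eq_integral_Ioc_meas_le (M := 1) h.integrableOn
    (hm.mono fun x hx => (h.f_mem x hx).1) (hm.mono fun x hx => (h.f_mem x hx).2)
  have hanti : Antitone fun t : ℝ => (volume.restrict (Ioo (0:ℝ) 1)).real {a | t ≤ f a} :=
    fun s t hst => measureReal_mono fun a ha => hst.trans ha
  rw [integral_Ioc_eq_integral_Ioo] at e
  rw [area, area, e]
  refine setIntegral_mono_on h.swap.integrableOn
    ((intervalIntegrable_iff_integrableOn_Ioo_of_le zero_le_one).1 hanti.intervalIntegrable)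
    measurableSet_Ioo fun y hy => ?_
  have hg := h.g_mem y hy
  have h1 : Ioo 0 (g y) ⊆ {a | y ≤ f a} := fun x hx => h.gf x ⟨hx.1, hx.2.trans_le hg.2⟩ y hy hx.2
  refine le_trans (le_of_eq ?_) (measureReal_mono h1)
  rw [measureReal_restrict_apply measurableSet_Ioo]
  exact ((real_eq_of_between (S := Ioo 0 (g y) ∩ Ioo 0 1) hg.1
    (fun x hx => ⟨hx, hx.1, hx.2.trans_le hg.2⟩) (fun x hx => ⟨hx.1.1.le, hx.1.2.le⟩)).trans
      (sub_zero _)).symm

/-- Both height functions give the same area. -/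
theorem Pair.area_eq {f g : ℝ → ℝ} (h : Pair f g) : area g = area f :=
  le_antisymm h.area_eq_aux h.swap.area_eq_aux

theorem integral_refl (u : ℝ → ℝ) (s : Set ℝ) :
    ∫ x in (fun x : ℝ => 1 - x) ⁻¹' s, u (1 - x) = ∫ y in s, u y :=
  (Measure.measurePreserving_sub_left volume (1:ℝ)).setIntegral_preimage_emb
    (Homeomorph.subLeft (1:ℝ)).measurableEmbedding u s

theorem Pair.area_compl {f g : ℝ → ℝ} (h : Pair f g) : area (cpl f) = 1 - area f := by
  have e : Ioo (0:ℝ) 1 = (fun x : ℝ => 1 - x) ⁻¹' Ioo (0:ℝ) 1 := by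
    ext x; simp only [mem_preimage, mem_Ioo]; constructor <;> rintro ⟨h1, h2⟩ <;>
      constructor <;> linarith
  have h1 := integral_refl (fun x => 1 - f x) (Ioo 0 1)
  rw [← e, integral_sub (integrable_const _) h.integrableOn] at h1
  rw [area, area]
  simpa [cpl] using h1

theorem act_cpl (f : ℝ → ℝ) : act (cpl f) = (fun x : ℝ => 1 - x) ⁻¹' act f := by
  ext x
  simp only [act, cpl, mem_preimage, mem_ofPred_eq, mem_Ioo]
  constructor <;> rintro ⟨⟨h1, h2⟩, h3, h4⟩ <;> refine ⟨⟨?_, ?_⟩, ?_, ?_⟩ <;> linarith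

theorem flux_cpl (f g : ℝ → ℝ) (φ ψ : ℝ → ℝ → ℝ) :
    flux (cpl f) (cpl g) φ ψ =
      flux f g (fun x y => φ (1 - x) (1 - y)) (fun x y => ψ (1 - x) (1 - y)) := by
  rw [flux, flux, act_cpl, act_cpl, ← integral_refl (fun y => φ (1 - g y) (1 - y)),
    ← integral_refl (fun x => ψ (1 - x) (1 - f x))]
  simp only [cpl, sub_sub_cancel]

theorem Adm.refl {φ ψ : ℝ → ℝ → ℝ} (h : Adm φ ψ) :
    Adm (fun x y => φ (1 - x) (1 - y)) (fun x y => ψ (1 - x) (1 - y)) where
  mφ := h.mφ.comp ((measurable_const.sub measurable_fst).prodMk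
    (measurable_const.sub measurable_snd))
  mψ := h.mψ.comp ((measurable_const.sub measurable_fst).prodMk
    (measurable_const.sub measurable_snd))
  le_one _ _ := h.le_one _ _

theorem pl_compl (f g : ℝ → ℝ) : pl (cpl f) (cpl g) = pl f g := by
  have key : ∀ f g : ℝ → ℝ, pl (cpl f) (cpl g) ≤ pl f g := fun f g =>
    pl_le fun φ ψ h => by rw [flux_cpl]; exact flux_le_pl f g h.refl
  refine le_antisymm (key f g) ?_
  have := key (cpl f) (cpl g)
  rwa [compl_compl, compl_compl] at this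

theorem Pair.intervalIntegrable {f g : ℝ → ℝ} (h : Pair f g) {a b : ℝ} (ha : 0 ≤ a) (hab : a ≤ b)
    (hb : b ≤ 1) : IntervalIntegrable f volume a b :=
  (intervalIntegrable_iff_integrableOn_Ioo_of_le hab).2
    (h.integrableOn.mono_set (Ioo_subset_Ioo ha hb))

theorem area_eq_interval (f : ℝ → ℝ) : area f = ∫ x in (0:ℝ)..1, f x := by
  rw [area, intervalIntegral.integral_of_le zero_le_one, integral_Ioc_eq_integral_Ioo]

theorem Pair.area_eq_top {f g : ℝ → ℝ} (h : Pair f g) : area f = ∫ x in (0:ℝ)..top g, f x := by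
  have h0 : 0 ≤ top g := h.swap.bot_nonneg.trans h.swap.bot_le_top
  have h1 : top g ≤ 1 := h.swap.top_le_one
  have h2 : ∫ x in top g..1, f x = 0 := by
    rw [intervalIntegral.integral_of_le h1, integral_Ioc_eq_integral_Ioo]
    exact setIntegral_eq_zero_of_forall_eq_zero fun x hx => h.eq_zero ⟨h0.trans_lt hx.1, hx.2⟩ hx.1
  rw [area_eq_interval, ← intervalIntegral.integral_add_adjacent_intervals
    (h.intervalIntegrable le_rfl h0 h1) (h.intervalIntegrable h0 h1 le_rfl), h2, add_zero]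

/-- `∫_{0<f<1} f = a - W`. -/
theorem Pair.integral_act_self {f g : ℝ → ℝ} (h : Pair f g) :
    ∫ x in act f, f x = area f - bot g := by
  have h0 : 0 ≤ bot g := h.swap.bot_nonneg
  have h01 : bot g ≤ top g := h.swap.bot_le_top
  have h1 : top g ≤ 1 := h.swap.top_le_one
  have h2 : ∫ x in (0:ℝ)..bot g, f x = bot g := by
    rw [intervalIntegral.integral_of_le h0, integral_Ioc_eq_integral_Ioo,
      setIntegral_congr_fun (g := fun _ => (1:ℝ)) measurableSet_Ioo fun x hx =>
        h.eq_one ⟨hx.1, hx.2.trans_le (h01.trans h1)⟩ hx.2]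
    simp [h0]
  rw [h.integral_act, h.area_eq_top, ← intervalIntegral.integral_add_adjacent_intervals
    (h.intervalIntegrable le_rfl h0 (h01.trans h1)) (h.intervalIntegrable h0 h01 h1), h2]
  ring

theorem Pair.bot_le_area {f g : ℝ → ℝ} (h : Pair f g) : bot f ≤ area f := by
  have := setIntegral_mono_on (integrable_const (bot f)) h.integrableOn measurableSet_Ioo
    fun x hx => h.bot_le hx
  simpa [area] using this

theorem Pair.area_le_top {f g : ℝ → ℝ} (h : Pair f g) : area f ≤ top f := by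
  have := setIntegral_mono_on h.integrableOn (integrable_const (top f)) measurableSet_Ioo
    fun x hx => h.le_top hx
  simpa [area] using this

theorem Pair.area_le_mul {f g : ℝ → ℝ} (h : Pair f g) : area f ≤ top f * top g := by
  have h0 : 0 ≤ top g := h.swap.bot_nonneg.trans h.swap.bot_le_top
  have h1 : top g ≤ 1 := h.swap.top_le_one
  rw [h.area_eq_top, intervalIntegral.integral_of_le h0, integral_Ioc_eq_integral_Ioo]
  have := setIntegral_mono_on (h.integrableOn.mono_set (Ioo_subset_Ioo le_rfl h1))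
    (integrable_const (top f)) measurableSet_Ioo fun x hx => h.le_top ⟨hx.1, hx.2.trans_le h1⟩
  simpa [h0, mul_comm] using this

/-- The trace on the near edge: `|{f > 0}| = U`. -/
theorem Pair.volume_pos {f g : ℝ → ℝ} (h : Pair f g) :
    volume.real {x | x ∈ Ioo (0:ℝ) 1 ∧ 0 < f x} = top g := by
  have h0 : 0 ≤ top g := h.swap.bot_nonneg.trans h.swap.bot_le_top
  have h1 : top g ≤ 1 := h.swap.top_le_one
  exact (real_eq_of_between (S := {x | x ∈ Ioo (0:ℝ) 1 ∧ 0 < f x}) h0
    (fun x hx => ⟨⟨hx.1, hx.2.trans_le h1⟩, h.pos ⟨hx.1, hx.2.trans_le h1⟩ hx.2⟩)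
    (fun x hx => ⟨hx.1.1.le, not_lt.1 fun hc => hx.2.ne' (h.eq_zero hx.1 hc)⟩)).trans (sub_zero _)

/-- The trace on the far edge: `|{f = 1}| = W`. -/
theorem Pair.volume_one {f g : ℝ → ℝ} (h : Pair f g) :
    volume.real {x | x ∈ Ioo (0:ℝ) 1 ∧ 1 ≤ f x} = bot g := by
  have h0 : 0 ≤ bot g := h.swap.bot_nonneg
  have h1 : bot g ≤ 1 := h.swap.bot_le_top.trans h.swap.top_le_one
  exact (real_eq_of_between (S := {x | x ∈ Ioo (0:ℝ) 1 ∧ 1 ≤ f x}) h0
    (fun x hx => ⟨⟨hx.1, hx.2.trans_le h1⟩, (h.eq_one ⟨hx.1, hx.2.trans_le h1⟩ hx.2).ge⟩)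
    (fun x hx => ⟨hx.1.1.le, not_lt.1 fun hc => (h.lt_one hx.1 hc).not_ge hx.2⟩)).trans (sub_zero _)

theorem Pair.volume_act {f g : ℝ → ℝ} (h : Pair f g) : volume.real (act f) = top g - bot g :=
  real_eq_of_between h.swap.bot_le_top h.Ioo_subset_act h.act_subset_Icc

end Crest.Agent.R214.Iso
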