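import Mathlib

/-! Row 214, module Z: the abstract slicing dual bound (representation independent). -/

set_option autoImplicit false
open MeasureTheory Set Filter Topology

noncomputable section
namespace Crest.Agent.R214.Z

/-- tail function of a measure -/
def tl (r : Measure ℝ) (a1 : ℝ) (t : ℝ) : ℝ := a1 + r.real (Ioi t)

theorem tl_anti (r : Measure ℝ) [IsFiniteMeasure r] (a1 : ℝ) : Antitone (tl r a1) := by
  intro s t hst
  unfold tl
  have := measureReal_mono (μ := r) (Ioi_subset_Ioi hst)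
  linarith

/-- generalised inverse -/
def ginv (r : Measure ℝ) (a1 : ℝ) (α : ℝ) : ℝ := sInf {t | 0 ≤ t ∧ (tl r a1 t ≤ α ∨ 1 ≤ t)}

theorem ginv_anti (r : Measure ℝ) (a1 : ℝ) : Antitone (ginv r a1) := by
  intro α β h
  unfold ginv
  apply csInf_le_csInf
  · exact ⟨0, fun t ht => ht.1⟩
  · exact ⟨1, by simp⟩
  · intro t ht
    exact ⟨ht.1, ht.2.imp (fun h' => h'.trans h) id⟩

theorem tl_rc (r : Measure ℝ) [IsFiniteMeasure r] (a1 t α : ℝ)
    (h : ∀ s, t < s → tl r a1 s ≤ α) : tl r a1 t ≤ α := by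
  have h1 : Tendsto (fun n : ℕ => r (Ioi (t + 1 / ((n : ℝ) + 1)))) atTop
      (𝓝 (r (⋃ n : ℕ, Ioi (t + 1 / ((n : ℝ) + 1))))) := by
    apply tendsto_measure_iUnion_atTop
    intro m n hmn
    apply Ioi_subset_Ioi
    have : (1 : ℝ) / ((n : ℝ) + 1) ≤ 1 / ((m : ℝ) + 1) := by
      apply one_div_le_one_div_of_le (by positivity)
      have : (m : ℝ) ≤ n := by exact_mod_cast hmn
      linarith
    linarith
  have h2 : (⋃ n : ℕ, Ioi (t + 1 / ((n : ℝ) + 1))) = Ioi t := by
    ext x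
    simp only [mem_iUnion, mem_Ioi]
    constructor
    · rintro ⟨n, hn⟩
      have : (0 : ℝ) < 1 / ((n : ℝ) + 1) := by positivity
      linarith
    · intro hx
      obtain ⟨n, hn⟩ := exists_nat_one_div_lt (sub_pos.2 hx)
      exact ⟨n, by linarith⟩
  rw [h2] at h1
  have h3 := (ENNReal.tendsto_toReal (measure_ne_top r _)).comp h1
  have h4 : Tendsto (fun n : ℕ => tl r a1 (t + 1 / ((n : ℝ) + 1))) atTop (𝓝 (tl r a1 t)) :=
    tendsto_const_nhds.add h3
  refine le_of_tendsto' h4 fun n => h _ ?_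
  have : (0 : ℝ) < 1 / ((n : ℝ) + 1) := by positivity
  linarith

theorem tl_lc (r : Measure ℝ) [IsFiniteMeasure r] (a1 t α : ℝ) (ht : r {t} = 0)
    (h : ∀ s, s < t → α ≤ tl r a1 s) : α ≤ tl r a1 t := by
  have h1 : Tendsto (fun n : ℕ => r (Ioi (t - 1 / ((n : ℝ) + 1)))) atTop
      (𝓝 (r (⋂ n : ℕ, Ioi (t - 1 / ((n : ℝ) + 1))))) := by
    apply tendsto_measure_iInter_atTop
    · intro n; exact measurableSet_Ioi.nullMeasurableSet
    · intro m n hmn
      apply Ioi_subset_Ioi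
      have : (1 : ℝ) / ((n : ℝ) + 1) ≤ 1 / ((m : ℝ) + 1) := by
        apply one_div_le_one_div_of_le (by positivity)
        have : (m : ℝ) ≤ n := by exact_mod_cast hmn
        linarith
      linarith
    · exact ⟨0, measure_ne_top _ _⟩
  have h2 : (⋂ n : ℕ, Ioi (t - 1 / ((n : ℝ) + 1))) = Ici t := by
    ext x
    simp only [mem_iInter, mem_Ioi, mem_Ici]
    constructor
    · intro hx
      by_contra hlt
      push Not at hlt
      obtain ⟨n, hn⟩ := exists_nat_one_div_lt (sub_pos.2 hlt)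
      have := hx n
      linarith
    · intro hx n
      have : (0 : ℝ) < 1 / ((n : ℝ) + 1) := by positivity
      linarith
  rw [h2] at h1
  have h5 : r (Ici t) = r (Ioi t) := measure_congr (Ioi_ae_eq_Ici' ht).symm
  rw [h5] at h1
  have h3 := (ENNReal.tendsto_toReal (measure_ne_top r _)).comp h1
  have h4 : Tendsto (fun n : ℕ => tl r a1 (t - 1 / ((n : ℝ) + 1))) atTop (𝓝 (tl r a1 t)) :=
    tendsto_const_nhds.add h3
  refine ge_of_tendsto' h4 fun n => h _ ?_
  have : (0 : ℝ) < 1 / ((n : ℝ) + 1) := by positivity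
  linarith

section
variable (r : Measure ℝ) [IsFiniteMeasure r] (a1 : ℝ) (hr : r (Ioo 0 1)ᶜ = 0)
include hr

theorem tl_of_nonpos {t : ℝ} (ht : t ≤ 0) : tl r a1 t = a1 + r.real univ := by
  unfold tl
  congr 1
  have : r (Ioi t)ᶜ = 0 := by
    refine measure_mono_null ?_ hr
    intro x hx hx'
    simp only [mem_compl_iff, mem_Ioi, not_lt] at hx
    exact absurd hx'.1 (by linarith)
  have h2 := measure_add_measure_compl (μ := r) (measurableSet_Ioi (a := t))
  rw [this, add_zero] at h2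
  simp [Measure.real, h2]

theorem tl_of_one_le {t : ℝ} (ht : 1 ≤ t) : tl r a1 t = a1 := by
  unfold tl
  have : r (Ioi t) = 0 := by
    refine measure_mono_null ?_ hr
    intro x hx hx'
    simp only [mem_Ioi] at hx
    exact absurd hx'.2 (by linarith)
  simp [Measure.real, this]

theorem ginv_le_iff {α : ℝ} (hα : α ∈ Ioo a1 (a1 + r.real univ)) (t : ℝ) :
    ginv r a1 α ≤ t ↔ tl r a1 t ≤ α := by
  have hset : {t | 0 ≤ t ∧ (tl r a1 t ≤ α ∨ 1 ≤ t)} = {t | tl r a1 t ≤ α} := by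
    ext s
    simp only [mem_ofPred_eq]
    constructor
    · rintro ⟨-, h | h⟩
      · exact h
      · rw [tl_of_one_le r a1 hr h]; exact hα.1.le
    · intro h
      refine ⟨?_, Or.inl h⟩
      by_contra hs
      rw [tl_of_nonpos r a1 hr (by linarith)] at h
      exact absurd hα.2 (by linarith)
  have hbdd : BddBelow {t | tl r a1 t ≤ α} := by
    rw [← hset]; exact ⟨0, fun t ht => ht.1⟩
  have hne : {t | tl r a1 t ≤ α}.Nonempty := by
    rw [← hset]; exact ⟨1, by simp⟩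
  unfold ginv
  rw [hset]
  constructor
  · intro h
    apply tl_rc
    intro s hs
    obtain ⟨x, hx, hxs⟩ := exists_lt_of_csInf_lt hne (lt_of_le_of_lt h hs)
    exact (tl_anti r a1 hxs.le).trans hx
  · intro h
    exact csInf_le hbdd h

theorem map_ginv :
    (volume.restrict (Ioo a1 (a1 + r.real univ))).map (ginv r a1) = r := by
  have hm : Measurable (ginv r a1) := (ginv_anti r a1).measurable
  apply Measure.ext_of_Iic
  intro t
  rw [Measure.map_apply hm measurableSet_Iic, Measure.restrict_apply (hm measurableSet_Iic)]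
  have h1 : a1 ≤ tl r a1 t := by unfold tl; have := measureReal_nonneg (μ := r) (s := Ioi t); linarith
  have : (ginv r a1 ⁻¹' Iic t ∩ Ioo a1 (a1 + r.real univ) : Set ℝ) =ᵐ[volume]
      (Ioo (tl r a1 t) (a1 + r.real univ) : Set ℝ) := by
    have hnull : ∀ᵐ α ∂(volume : Measure ℝ), α ≠ tl r a1 t := by
      simp [ae_iff]
    filter_upwards [hnull] with α hα
    apply propext
    change α ∈ (ginv r a1 ⁻¹' Iic t ∩ Ioo a1 (a1 + r.real univ)) ↔ α ∈ Ioo (tl r a1 t) (a1 + r.real univ)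
    simp only [mem_inter_iff, mem_preimage, mem_Iic]
    constructor
    · rintro ⟨h, h'⟩
      exact ⟨lt_of_le_of_ne ((ginv_le_iff r a1 hr h' t).1 h) (Ne.symm hα), h'.2⟩
    · intro h
      have h' : α ∈ Ioo a1 (a1 + r.real univ) := ⟨lt_of_le_of_lt h1 h.1, h.2⟩
      exact ⟨(ginv_le_iff r a1 hr h' t).2 h.1.le, h'⟩
  rw [measure_congr this, Real.volume_Ioo]
  have h2 := measureReal_add_measureReal_compl (μ := r) (measurableSet_Iic (a := t))
  rw [compl_Iic] at h2
  have h3 : a1 + r.real univ - tl r a1 t = r.real (Iic t) := by unfold tl; linarith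
  rw [h3, Measure.real, ENNReal.ofReal_toReal (measure_ne_top _ _)]

theorem tl_ginv {α : ℝ} (hα : α ∈ Ioo a1 (a1 + r.real univ)) (h0 : r {ginv r a1 α} = 0) :
    tl r a1 (ginv r a1 α) = α := by
  apply le_antisymm ((ginv_le_iff r a1 hr hα _).1 le_rfl)
  apply tl_lc r a1 _ _ h0
  intro s hs
  by_contra h
  push Not at h
  exact absurd ((ginv_le_iff r a1 hr hα s).2 h.le) (by linarith)

end

/-- the set of non-atoms -/
def nonat (r : Measure ℝ) : Set ℝ := {t | r {t} = 0}

theorem countable_compl_nonat (r : Measure ℝ) [IsFiniteMeasure r] : (nonat r)ᶜ.Countable := by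
  have : (nonat r)ᶜ = {t : ℝ | 0 < r {a | id a = t}} := by
    ext t; simp [nonat, pos_iff_ne_zero]
  rw [this]
  exact Measure.countable_meas_level_set_pos (μ := r) (g := id) measurable_id

theorem measurableSet_nonat (r : Measure ℝ) [IsFiniteMeasure r] : MeasurableSet (nonat r) := by
  have := (countable_compl_nonat r).measurableSet.compl
  rwa [compl_compl] at this

theorem ae_nonat (r : Measure ℝ) [IsFiniteMeasure r] : ∀ᵐ t ∂(volume : Measure ℝ), t ∈ nonat r :=
  (countable_compl_nonat r).measure_zero _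

open Classical in
/-- weight in the height variable: `w (a t)` off the jumps, `1` at the jumps -/
def wt (r : Measure ℝ) (a1 : ℝ) (w : ℝ → ℝ) (t : ℝ) : ℝ := if t ∈ nonat r then w (tl r a1 t) else 1

theorem measurable_wt (r : Measure ℝ) [IsFiniteMeasure r] (a1 : ℝ) {w : ℝ → ℝ} (hw : Measurable w) :
    Measurable (wt r a1 w) :=
  Measurable.ite (measurableSet_nonat r) (hw.comp (tl_anti r a1).measurable) measurable_const

/-- change of variables with jumps paid at rate one -/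
theorem int_w_le (r : Measure ℝ) [IsFiniteMeasure r] (a1 : ℝ) (hr : r (Ioo 0 1)ᶜ = 0)
    (w : ℝ → ℝ) (hw : Measurable w) (hw0 : ∀ α, |w α| ≤ 1) :
    ∫ α in Ioo a1 (a1 + r.real univ), w α ≤ ∫ t, wt r a1 w t ∂r := by
  have hm : Measurable (ginv r a1) := (ginv_anti r a1).measurable
  have hG := measurable_wt r a1 hw
  have e : ∫ t, wt r a1 w t ∂r = ∫ α in Ioo a1 (a1 + r.real univ), wt r a1 w (ginv r a1 α) := by
    conv_lhs => rw [← map_ginv r a1 hr]
    have e2 : wt ((volume.restrict (Ioo a1 (a1 + r.real univ))).map (ginv r a1)) a1 w = wt r a1 w := by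
      rw [map_ginv r a1 hr]
    rw [e2, integral_map hm.aemeasurable hG.aestronglyMeasurable]
  rw [e]
  have hb : ∀ t, |wt r a1 w t| ≤ 1 := by
    intro t; unfold wt; split_ifs
    · exact hw0 _
    · simp
  apply setIntegral_mono_on
  · exact Measure.integrableOn_of_bounded (M := 1) (by simp) hw.aestronglyMeasurable
      (Eventually.of_forall fun α => hw0 α)
  · exact Measure.integrableOn_of_bounded (M := 1) (by simp) (hG.comp hm).aestronglyMeasurable
      (Eventually.of_forall fun α => hb _)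
  · exact measurableSet_Ioo
  · intro α hα
    unfold wt
    split_ifs with h
    · rw [tl_ginv r a1 hr hα h]
    · exact (le_abs_self _).trans (hw0 α)

/-- **Abstract slicing dual bound.** -/
theorem dual_bound {Ω : Type*} [MeasurableSpace Ω] (σ : Measure Ω) [IsFiniteMeasure σ]
    (h n : Ω → ℝ) (hh : Measurable h) (hn : Measurable n) (hn0 : ∀ ω, 0 ≤ n ω) (hn1 : ∀ ω, n ω ≤ 1)
    (r : Measure ℝ) [IsFiniteMeasure r] (hr : r (Ioo 0 1)ᶜ = 0)
    (hR : ∀ g : ℝ → ℝ, Measurable g → (∀ t, |g t| ≤ 1) → ∫ t, g t ∂r = ∫ ω, g (h ω) * n ω ∂σ)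
    (a1 : ℝ) (a q p : ℝ → ℝ)
    (ha : ∀ᵐ t ∂(volume.restrict (Ioo (0 : ℝ) 1)), a t = a1 + r.real (Ioi t))
    (hQ : ∀ g : ℝ → ℝ, Measurable g → (∃ C, ∀ t, |g t| ≤ C) →
      ∫ ω, g (h ω) * (1 - n ω ^ 2) ∂σ = ∫ t in Ioo (0 : ℝ) 1, g t * q t)
    (hS : ∀ g : ℝ → ℝ, Measurable g → (∃ C, ∀ t, |g t| ≤ C) → (∀ t, 0 ≤ g t) →
      ∫ t in Ioo (0 : ℝ) 1, g t * p t ≤ ∫ ω, g (h ω) * Real.sqrt (1 - n ω ^ 2) ∂σ)
    (K w B : ℝ → ℝ) (hK : Measurable K) (hw : Measurable w) (hB : Measurable B)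
    (hKb : ∃ C, ∀ α, |K α| ≤ C) (hBb : ∃ C, ∀ α, |B α| ≤ C) (hw1 : ∀ α, |w α| ≤ 1)
    (hB0 : ∀ α, 0 ≤ B α)
    (hdual : ∀ α m s : ℝ, 0 ≤ m → 0 ≤ s → m ^ 2 + s ^ 2 = 1 → K α * s ^ 2 + w α * m + B α * s ≤ 1) :
    (∫ t in Ioo (0 : ℝ) 1, K (a t) * q t) + (∫ t in Ioo (0 : ℝ) 1, B (a t) * p t) +
      ∫ α in Ioo a1 (a1 + r.real univ), w α ≤ σ.real univ := by
  classical
  obtain ⟨CK, hCK⟩ := hKb
  obtain ⟨CB, hCB⟩ := hBb
  have hN := measurableSet_nonat r
  have htl := (tl_anti r a1).measurable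
  set K' : ℝ → ℝ := fun t => if t ∈ nonat r then K (tl r a1 t) else 0 with hK'
  set B' : ℝ → ℝ := fun t => if t ∈ nonat r then B (tl r a1 t) else 0 with hB'
  have mK' : Measurable K' := Measurable.ite hN (hK.comp htl) measurable_const
  have mB' : Measurable B' := Measurable.ite hN (hB.comp htl) measurable_const
  have bK' : ∀ t, |K' t| ≤ CK := by
    intro t; simp only [hK']; split_ifs
    · exact hCK _
    · simpa using (abs_nonneg _).trans (hCK 0)
  have bB' : ∀ t, |B' t| ≤ CB := by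
    intro t; simp only [hB']; split_ifs
    · exact hCB _
    · simpa using (abs_nonneg _).trans (hCB 0)
  have pB' : ∀ t, 0 ≤ B' t := by
    intro t; simp only [hB']; split_ifs
    · exact hB0 _
    · exact le_rfl
  have hwb : ∀ t, |wt r a1 w t| ≤ 1 := by
    intro t; unfold wt; split_ifs
    · exact hw1 _
    · simp
  have mW := measurable_wt r a1 hw
  have hae : ∀ᵐ t ∂(volume.restrict (Ioo (0 : ℝ) 1)), t ∈ nonat r ∧ a t = tl r a1 t := by
    filter_upwards [ae_restrict_of_ae (ae_nonat r), ha] with t h1 h2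
    exact ⟨h1, h2⟩
  have e1 : ∫ t in Ioo (0 : ℝ) 1, K (a t) * q t = ∫ ω, K' (h ω) * (1 - n ω ^ 2) ∂σ := by
    rw [hQ K' mK' ⟨CK, bK'⟩]
    apply integral_congr_ae
    filter_upwards [hae] with t ht
    simp only [hK', ht.1, if_true, ht.2]
  have e2 : ∫ t in Ioo (0 : ℝ) 1, B (a t) * p t ≤ ∫ ω, B' (h ω) * Real.sqrt (1 - n ω ^ 2) ∂σ := by
    refine le_trans (le_of_eq ?_) (hS B' mB' ⟨CB, bB'⟩ pB')
    apply integral_congr_ae
    filter_upwards [hae] with t ht
    simp only [hB', ht.1, if_true, ht.2]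
  have e3 : ∫ α in Ioo a1 (a1 + r.real univ), w α ≤ ∫ ω, wt r a1 w (h ω) * n ω ∂σ := by
    rw [← hR _ mW hwb]; exact int_w_le r a1 hr w hw hw1
  have hs0 : ∀ ω, 0 ≤ 1 - n ω ^ 2 := fun ω => by nlinarith [hn0 ω, hn1 ω]
  have hs1 : ∀ ω, 1 - n ω ^ 2 ≤ 1 := fun ω => by nlinarith [hn0 ω, hn1 ω]
  have hsq1 : ∀ ω, Real.sqrt (1 - n ω ^ 2) ≤ 1 := fun ω => Real.sqrt_le_one.2 (hs1 ω)
  have i1 : Integrable (fun ω => K' (h ω) * (1 - n ω ^ 2)) σ := by
    refine Integrable.of_bound (C := CK) (by fun_prop) (Eventually.of_forall fun ω => ?_)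
    rw [Real.norm_eq_abs, abs_mul, abs_of_nonneg (hs0 ω)]
    have := bK' (h ω); have := hs0 ω; have := hs1 ω; have := abs_nonneg (K' (h ω))
    nlinarith
  have i2 : Integrable (fun ω => B' (h ω) * Real.sqrt (1 - n ω ^ 2)) σ := by
    refine Integrable.of_bound (C := CB) (by fun_prop) (Eventually.of_forall fun ω => ?_)
    rw [Real.norm_eq_abs, abs_mul, abs_of_nonneg (Real.sqrt_nonneg _)]
    have := bB' (h ω); have := hsq1 ω; have := abs_nonneg (B' (h ω))
    have := Real.sqrt_nonneg (1 - n ω ^ 2)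
    nlinarith
  have i3 : Integrable (fun ω => wt r a1 w (h ω) * n ω) σ := by
    refine Integrable.of_bound (C := 1) (by fun_prop) (Eventually.of_forall fun ω => ?_)
    rw [Real.norm_eq_abs, abs_mul, abs_of_nonneg (hn0 ω)]
    have := hwb (h ω); have := hn0 ω; have := hn1 ω; have := abs_nonneg (wt r a1 w (h ω))
    nlinarith
  have e4 : (∫ ω, K' (h ω) * (1 - n ω ^ 2) ∂σ) + (∫ ω, B' (h ω) * Real.sqrt (1 - n ω ^ 2) ∂σ) +
      ∫ ω, wt r a1 w (h ω) * n ω ∂σ ≤ σ.real univ := by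
    have i12 : Integrable (fun ω => K' (h ω) * (1 - n ω ^ 2) + B' (h ω) * Real.sqrt (1 - n ω ^ 2)) σ :=
      i1.add i2
    rw [← integral_add i1 i2, ← integral_add i12 i3]
    have : σ.real univ = ∫ _ω, (1 : ℝ) ∂σ := by simp
    rw [this]
    apply integral_mono (i12.add i3) (integrable_const _)
    intro ω
    simp only [hK', hB', wt, Pi.add_apply]
    split_ifs with hω
    · have := hdual (tl r a1 (h ω)) (n ω) (Real.sqrt (1 - n ω ^ 2)) (hn0 ω) (Real.sqrt_nonneg _)
        (by rw [Real.sq_sqrt (hs0 ω)]; ring)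
      rw [Real.sq_sqrt (hs0 ω)] at this
      linarith
    · simpa using hn1 ω
  linarith

end Crest.Agent.R214.Z
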