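import Crest.Agent.R214.DSSig
import Crest.Agent.R214.CsDefs
import Crest.Agent.R214.IsoSlice
import Crest.Agent.R214.IsoArea
import Crest.Agent.R214.ZAbs

/-! Row 214, module Z: planar slices of a down-set of the cube. -/

set_option autoImplicit false
open MeasureTheory Set Filter Topology

noncomputable section
namespace Crest.Agent.R214.Z
open DS Cs

variable {E : Set E3}

theorem measurable_slF (hE : IsDS E) (i : Fin 3) : Measurable (Function.uncurry (slF E i)) :=
  hE.measurable_ht (i + 2)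

theorem measurable_slG (hE : IsDS E) (i : Fin 3) : Measurable (Function.uncurry (slG E i)) :=
  (hE.measurable_ht (i + 1)).comp measurable_swap

theorem pair_slice (hE : IsDS E) (i : Fin 3) (t : ℝ) : Iso.Pair (slF E i t) (slG E i t) := by
  refine ⟨fun x _ => ⟨ht_nonneg _ _ _, ht_le_one _ _ _⟩, fun y _ => ⟨ht_nonneg _ _ _, ht_le_one _ _ _⟩,
    fun x hx y hy h => ?_, fun x hx y hy h => ?_⟩
  · have := hE.mem_of_lt_ht hy.1 h
    rw [ins_rot2, ← ins_rot1] at this
    exact hE.le_ht this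
  · have := hE.mem_of_lt_ht hx.1 h
    rw [ins_rot1, ← ins_rot2] at this
    exact hE.le_ht this

theorem measurable_pz (hE : IsDS E) (i : Fin 3) : Measurable (pz E i) :=
  Iso.measurable_pl _ _ (measurable_slF hE i) (measurable_slG hE i)

theorem pz_nonneg (E : Set E3) (i : Fin 3) (t : ℝ) : 0 ≤ pz E i t := Iso.pl_nonneg _ _

theorem pz_le_two (E : Set E3) (i : Fin 3) (t : ℝ) : pz E i t ≤ 2 := Iso.pl_le_two _ _

theorem volume_fibre (hE : IsDS E) (i : Fin 3) (w : ℝ × ℝ) :
    volume {s : ℝ | ins i s w ∈ E} = ENNReal.ofReal (ht E i w) := by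
  apply le_antisymm
  · refine (measure_mono (t := Icc 0 (ht E i w)) fun s hs => ?_).trans (by simp)
    exact ⟨((ins_mem_cube i s w).1 (hE.sub hs)).1.1.le, hE.le_ht hs⟩
  · refine le_trans (by simp) (measure_mono (s := Ioo 0 (ht E i w)) fun s hs => ?_)
    exact hE.mem_of_lt_ht hs.1 hs.2

theorem area_slF (hE : IsDS E) (i : Fin 3) (t : ℝ) : Iso.area (slF E i t) = sec E i t := by
  have hS : MeasurableSet {w : ℝ × ℝ | ins i t w ∈ E} :=
    ((continuous_ins i).measurable.comp (measurable_const.prodMk measurable_id)) hE.meas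
  unfold sec Iso.area
  rw [Measure.volume_eq_prod, Measure.prod_apply hS]
  have e : ∀ x : ℝ, volume (Prod.mk x ⁻¹' {w : ℝ × ℝ | ins i t w ∈ E}) = ENNReal.ofReal (slF E i t x) := by
    intro x
    unfold slF
    rw [← volume_fibre hE]
    congr 1
    ext s
    simp [ins_rot2]
  simp_rw [e]
  have hm : Measurable (slF E i t) := (measurable_slF hE i).of_uncurry_left
  rw [← integral_eq_lintegral_of_nonneg_ae (f := slF E i t)
    (Eventually.of_forall fun x => ht_nonneg _ _ _) hm.aestronglyMeasurable]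
  apply setIntegral_eq_integral_of_forall_compl_eq_zero
  intro x hx
  exact hE.ht_of_not_mem fun h => hx h.2

theorem area_slG (hE : IsDS E) (i : Fin 3) (t : ℝ) : Iso.area (slG E i t) = sec E i t := by
  rw [(pair_slice hE i t).area_eq, area_slF hE]

/-- nestedness -/
theorem slF_anti (hE : IsDS E) (i : Fin 3) {t t' : ℝ} (ht : t ∈ Ioo (0 : ℝ) 1) (h : t ≤ t') {x : ℝ}
    (hx : x ∈ Ioo (0 : ℝ) 1) : slF E i t' x ≤ slF E i t x :=
  hE.ht_anti (i + 2) (w := (t, x)) (w' := (t', x)) ⟨ht, hx⟩ h le_rfl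

theorem slG_anti (hE : IsDS E) (i : Fin 3) {t t' : ℝ} (ht : t ∈ Ioo (0 : ℝ) 1) (h : t ≤ t') {y : ℝ}
    (hy : y ∈ Ioo (0 : ℝ) 1) : slG E i t' y ≤ slG E i t y :=
  hE.ht_anti (i + 1) (w := (y, t)) (w' := (y, t')) ⟨hy, ht⟩ le_rfl h

theorem bot_slF_anti (hE : IsDS E) (i : Fin 3) :
    AntitoneOn (fun t => Iso.bot (slF E i t)) (Ioo 0 1) := fun _ ht t' _ h =>
  (pair_slice hE i t').bot_mono fun _ hx => slF_anti hE i ht h hx

theorem bot_slG_anti (hE : IsDS E) (i : Fin 3) :
    AntitoneOn (fun t => Iso.bot (slG E i t)) (Ioo 0 1) := fun _ ht t' _ h =>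
  (pair_slice hE i t').swap.bot_mono fun _ hx => slG_anti hE i ht h hx

theorem top_slF_anti (hE : IsDS E) (i : Fin 3) :
    AntitoneOn (fun t => Iso.top (slF E i t)) (Ioo 0 1) := fun t ht _ _ h =>
  (pair_slice hE i t).top_mono fun _ hx => slF_anti hE i ht h hx

theorem top_slG_anti (hE : IsDS E) (i : Fin 3) :
    AntitoneOn (fun t => Iso.top (slG E i t)) (Ioo 0 1) := fun t ht _ _ h =>
  (pair_slice hE i t).swap.top_mono fun _ hx => slG_anti hE i ht h hx

/-- Fubini on a subset of the square -/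
theorem setIntegral_sq_fst {S : Set (ℝ × ℝ)} (hS : MeasurableSet S) (hs : S ⊆ DS.sq) {u : ℝ × ℝ → ℝ}
    (hu : Measurable u) {C : ℝ} (hC : ∀ w, |u w| ≤ C) :
    ∫ w in S, u w = ∫ t in Ioo (0 : ℝ) 1, ∫ x in {x | (t, x) ∈ S}, u (t, x) := by
  have hfin : volume S < ⊤ := (measure_mono hs).trans_lt (by rw [volume_sq]; simp)
  have hi : Integrable (S.indicator u) (volume.prod volume) := by
    rw [← Measure.volume_eq_prod, integrable_indicator_iff hS]
    exact Measure.integrableOn_of_bounded (M := C) hfin.ne hu.aestronglyMeasurable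
      (Eventually.of_forall hC)
  rw [← integral_indicator hS, Measure.volume_eq_prod, integral_prod _ hi,
    ← setIntegral_eq_integral_of_forall_compl_eq_zero (s := Ioo (0 : ℝ) 1)]
  · apply setIntegral_congr_fun measurableSet_Ioo
    intro t _
    exact integral_indicator (f := fun x => u (t, x)) (measurable_prodMk_left hS)
  · intro t ht
    have : ∀ x, S.indicator u (t, x) = 0 := fun x => indicator_of_notMem (fun h => ht (hs h).1) _
    simp [this]

theorem setIntegral_sq_snd {S : Set (ℝ × ℝ)} (hS : MeasurableSet S) (hs : S ⊆ DS.sq) {u : ℝ × ℝ → ℝ}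
    (hu : Measurable u) {C : ℝ} (hC : ∀ w, |u w| ≤ C) :
    ∫ w in S, u w = ∫ t in Ioo (0 : ℝ) 1, ∫ y in {y | (y, t) ∈ S}, u (y, t) := by
  have hfin : volume S < ⊤ := (measure_mono hs).trans_lt (by rw [volume_sq]; simp)
  have hi : Integrable (S.indicator u) (volume.prod volume) := by
    rw [← Measure.volume_eq_prod, integrable_indicator_iff hS]
    exact Measure.integrableOn_of_bounded (M := C) hfin.ne hu.aestronglyMeasurable
      (Eventually.of_forall hC)
  rw [← integral_indicator hS, Measure.volume_eq_prod, integral_prod_symm _ hi,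
    ← setIntegral_eq_integral_of_forall_compl_eq_zero (s := Ioo (0 : ℝ) 1)]
  · apply setIntegral_congr_fun measurableSet_Ioo
    intro t _
    exact integral_indicator (f := fun y => u (y, t)) (measurable_prodMk_right hS)
  · intro t ht
    have : ∀ y, S.indicator u (y, t) = 0 := fun x => indicator_of_notMem (fun h => ht (hs h).2) _
    simp [this]

theorem integral_mu_succ (hE : IsDS E) (i : Fin 3) {g : E3 → ℝ} (hg : Measurable g) {C : ℝ}
    (hC : ∀ x, |g x| ≤ C) :
    ∫ x, g x ∂(mu E (i + 1)) =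
      ∫ t in Ioo (0 : ℝ) 1, ∫ y in Iso.act (slG E i t), g (ins i t (slG E i t y, y)) := by
  rw [hE.integral_mu _ hg, setIntegral_sq_snd (hE.measurableSet_dom _) (fun w hw => hw.1)
    (u := fun w => g (gr E (i + 1) w)) (hg.comp (hE.measurable_gr _)) (fun w => hC _)]
  apply setIntegral_congr_fun measurableSet_Ioo
  intro t ht
  have e : {y | (y, t) ∈ dom E (i + 1)} = Iso.act (slG E i t) := by
    ext y; simp only [dom, DS.sq, Iso.act, slG, mem_ofPred_eq, mem_prod, ht, and_true]
  simp only [e, gr, ins_rot1, slG]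

theorem integral_mu_succ2 (hE : IsDS E) (i : Fin 3) {g : E3 → ℝ} (hg : Measurable g) {C : ℝ}
    (hC : ∀ x, |g x| ≤ C) :
    ∫ x, g x ∂(mu E (i + 2)) =
      ∫ t in Ioo (0 : ℝ) 1, ∫ x in Iso.act (slF E i t), g (ins i t (x, slF E i t x)) := by
  rw [hE.integral_mu _ hg, setIntegral_sq_fst (hE.measurableSet_dom _) (fun w hw => hw.1)
    (u := fun w => g (gr E (i + 2) w)) (hg.comp (hE.measurable_gr _)) (fun w => hC _)]
  apply setIntegral_congr_fun measurableSet_Ioo
  intro t ht
  have e : {x | (t, x) ∈ dom E (i + 2)} = Iso.act (slF E i t) := by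
    ext y; simp only [dom, DS.sq, Iso.act, slF, mem_ofPred_eq, mem_prod, ht, true_and]
  simp only [e, gr, ins_rot2, slF]

/-- the horizontal flux of a field is the integral of the planar fluxes -/
theorem flux_fubini (hE : IsDS E) (i : Fin 3) {φ ψ : E3 → ℝ} (hφ : Measurable φ) (hψ : Measurable ψ)
    (h1 : ∀ x, |φ x| ≤ 1) (h2 : ∀ x, |ψ x| ≤ 1) {g : ℝ → ℝ} (hg : Measurable g) {C : ℝ}
    (hC : ∀ t, |g t| ≤ C) :
    ∫ x, g (x i) * (φ x * nu E (i + 1) x + ψ x * nu E (i + 2) x) ∂(sig E) =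
      ∫ t in Ioo (0 : ℝ) 1, g t * Iso.flux (slF E i t) (slG E i t) (fun x y => φ (ins i t (x, y)))
        (fun x y => ψ (ins i t (x, y))) := by
  have mi : Measurable fun x : E3 => g (x i) := hg.comp (by fun_prop)
  have b1 : ∀ x : E3, |g (x i) * φ x| ≤ C := fun x => by
    rw [abs_mul]; nlinarith [hC (x i), h1 x, abs_nonneg (g (x i)), abs_nonneg (φ x)]
  have b2 : ∀ x : E3, |g (x i) * ψ x| ≤ C := fun x => by
    rw [abs_mul]; nlinarith [hC (x i), h2 x, abs_nonneg (g (x i)), abs_nonneg (ψ x)]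
  have mφ : Measurable fun x : E3 => g (x i) * φ x := mi.mul hφ
  have mψ : Measurable fun x : E3 => g (x i) * ψ x := mi.mul hψ
  have e1 := integral_mu_succ hE i mφ b1
  have e2 := integral_mu_succ2 hE i mψ b2
  rw [integral_mu_nu] at e1 e2
  have hi : ∀ (u : E3 → ℝ) (j : Fin 3), Measurable u → (∀ x, |u x| ≤ C) →
      Integrable (fun x => u x * nu E j x) (sig E) := fun u j hu hb => by
    refine Integrable.of_bound (C := C) (hu.mul (measurable_nu E j)).aestronglyMeasurable
      (Eventually.of_forall fun x => ?_)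
    rw [Real.norm_eq_abs, abs_mul, abs_of_nonneg (nu_nonneg E j x)]
    nlinarith [hb x, nu_nonneg E j x, nu_le_one E j x, abs_nonneg (u x)]
  have e3 : ∫ x, g (x i) * (φ x * nu E (i + 1) x + ψ x * nu E (i + 2) x) ∂(sig E) =
      (∫ x, g (x i) * φ x * nu E (i + 1) x ∂(sig E)) + ∫ x, g (x i) * ψ x * nu E (i + 2) x ∂(sig E) := by
    rw [← integral_add (hi _ _ mφ b1) (hi _ _ mψ b2)]
    congr 1; ext x; ring
  have mins : Measurable fun p : ℝ × (ℝ × ℝ) => ins i p.1 p.2 := (continuous_ins i).measurable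
  have m1 : Measurable fun t => ∫ y in Iso.act (slG E i t), φ (ins i t (slG E i t y, y)) :=
    Iso.slice_param (measurable_slG hE i) (u := fun t y => φ (ins i t (slG E i t y, y)))
      (hφ.comp (mins.comp (measurable_fst.prodMk ((measurable_slG hE i).prodMk measurable_snd))))
  have m2 : Measurable fun t => ∫ x in Iso.act (slF E i t), ψ (ins i t (x, slF E i t x)) :=
    Iso.slice_param (measurable_slF hE i) (u := fun t x => ψ (ins i t (x, slF E i t x)))
      (hψ.comp (mins.comp (measurable_fst.prodMk (measurable_snd.prodMk (measurable_slF hE i)))))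
  have hj : ∀ u : ℝ → ℝ, Measurable u → (∀ t, |u t| ≤ 1) →
      IntegrableOn (fun t => g t * u t) (Ioo (0 : ℝ) 1) := fun u hu hb => by
    refine Measure.integrableOn_of_bounded (M := C) (by simp) (hg.mul hu).aestronglyMeasurable
      (Eventually.of_forall fun t => ?_)
    rw [Real.norm_eq_abs, abs_mul]
    nlinarith [hC t, hb t, abs_nonneg (g t), abs_nonneg (u t)]
  rw [e3, e1, e2]
  simp only [ins_self, integral_const_mul, Iso.flux, mul_add]
  rw [integral_add (hj _ m1 fun t => Iso.abs_integral_act_le _ _ fun y => h1 _)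
    (hj _ m2 fun t => Iso.abs_integral_act_le _ _ fun y => h2 _)]

theorem nu_rest (E : Set E3) (i : Fin 3) :
    ∀ᵐ x ∂(sig E), 1 - nu E i x ^ 2 = nu E (i + 1) x ^ 2 + nu E (i + 2) x ^ 2 := by
  filter_upwards [nu_sq_ae E] with x hx
  rw [sum3 i] at hx
  linarith

/-- **Slicing**: the push of `√(1 - ν_i²) σ` to the axis has density `pz`. -/
theorem slice_eq_nonneg (hE : IsDS E) (i : Fin 3) {g : ℝ → ℝ} (hg : Measurable g) {C : ℝ}
    (hC : ∀ t, |g t| ≤ C) (h0 : ∀ t, 0 ≤ g t) :
    ∫ x, g (x i) * Real.sqrt (1 - nu E i x ^ 2) ∂(sig E) = ∫ t in Ioo (0 : ℝ) 1, g t * pz E i t := by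
  have mi : Measurable fun x : E3 => g (x i) := hg.comp (by fun_prop)
  have mins : Measurable fun p : ℝ × (ℝ × ℝ) => ins i p.1 p.2 := (continuous_ins i).measurable
  have hint : ∀ u : E3 → ℝ, Measurable u → (∀ x, |u x| ≤ 2) →
      Integrable (fun x => g (x i) * u x) (sig E) := fun u hu hb => by
    refine Integrable.of_bound (C := C * 2) (mi.mul hu).aestronglyMeasurable
      (Eventually.of_forall fun x => ?_)
    rw [Real.norm_eq_abs, abs_mul]
    exact mul_le_mul (hC _) (hb x) (abs_nonneg _) ((abs_nonneg _).trans (hC 0))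
  have msq : Measurable fun x => Real.sqrt (1 - nu E i x ^ 2) :=
    (measurable_const.sub ((measurable_nu E i).pow_const 2)).sqrt
  have bsq : ∀ x, |Real.sqrt (1 - nu E i x ^ 2)| ≤ 2 := fun x => by
    rw [abs_of_nonneg (Real.sqrt_nonneg _)]
    have : Real.sqrt (1 - nu E i x ^ 2) ≤ 1 := Real.sqrt_le_one.2 (by nlinarith [sq_nonneg (nu E i x)])
    linarith
  have ipz : IntegrableOn (fun t => g t * pz E i t) (Ioo (0 : ℝ) 1) := by
    refine Measure.integrableOn_of_bounded (M := C * 2) (by simp)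
      (hg.mul (measurable_pz hE i)).aestronglyMeasurable (Eventually.of_forall fun t => ?_)
    rw [Real.norm_eq_abs, abs_mul, abs_of_nonneg (pz_nonneg E i t)]
    exact mul_le_mul (hC _) (pz_le_two E i t) (pz_nonneg E i t) ((abs_nonneg _).trans (hC 0))
  apply le_antisymm
  · set φ : E3 → ℝ := fun x => nu E (i + 1) x / Real.sqrt (nu E (i + 1) x ^ 2 + nu E (i + 2) x ^ 2)
    set ψ : E3 → ℝ := fun x => nu E (i + 2) x / Real.sqrt (nu E (i + 1) x ^ 2 + nu E (i + 2) x ^ 2)
    have md : Measurable fun x => Real.sqrt (nu E (i + 1) x ^ 2 + nu E (i + 2) x ^ 2) :=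
      (((measurable_nu E _).pow_const 2).add ((measurable_nu E _).pow_const 2)).sqrt
    have mφ : Measurable φ := (measurable_nu E _).div md
    have mψ : Measurable ψ := (measurable_nu E _).div md
    have hu : ∀ x, φ x ^ 2 + ψ x ^ 2 ≤ 1 := fun x => Iso.slice_unit _ _
    have b1 : ∀ x, |φ x| ≤ 1 := fun x => by
      rw [← sq_le_one_iff_abs_le_one]; nlinarith [hu x, sq_nonneg (ψ x)]
    have b2 : ∀ x, |ψ x| ≤ 1 := fun x => by
      rw [← sq_le_one_iff_abs_le_one]; nlinarith [hu x, sq_nonneg (φ x)]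
    have e := flux_fubini hE i mφ mψ b1 b2 hg hC
    have e' : ∫ x, g (x i) * Real.sqrt (1 - nu E i x ^ 2) ∂(sig E) =
        ∫ x, g (x i) * (φ x * nu E (i + 1) x + ψ x * nu E (i + 2) x) ∂(sig E) := by
      apply integral_congr_ae
      filter_upwards [nu_rest E i] with x hx
      rw [hx]
      congr 1
      simp only [φ, ψ]
      rw [div_mul_eq_mul_div, div_mul_eq_mul_div, ← add_div, ← pow_two, ← pow_two, Real.div_sqrt]
    rw [e', e]
    have hadm : ∀ t, Iso.Adm (fun x y => φ (ins i t (x, y))) (fun x y => ψ (ins i t (x, y))) := fun t =>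
      ⟨mφ.comp (mins.comp (measurable_const.prodMk measurable_id)),
        mψ.comp (mins.comp (measurable_const.prodMk measurable_id)), fun x y => hu _⟩
    refine integral_mono_of_nonneg ?_ ipz ?_
    · refine Eventually.of_forall fun t => mul_nonneg (h0 t) (add_nonneg ?_ ?_)
      · exact integral_nonneg fun y => div_nonneg (nu_nonneg _ _ _) (Real.sqrt_nonneg _)
      · exact integral_nonneg fun y => div_nonneg (nu_nonneg _ _ _) (Real.sqrt_nonneg _)
    · exact Eventually.of_forall fun t =>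
        mul_le_mul_of_nonneg_left (Iso.flux_le_pl _ _ (hadm t)) (h0 t)
  · obtain ⟨Φ, Ψ, mΦ, mΨ, -, -, hu, hopt⟩ :=
      Iso.exists_opt _ _ (measurable_slF hE i) (measurable_slG hE i)
    set φ : E3 → ℝ := fun x => Φ (x i) (x (i + 1)) (x (i + 2))
    set ψ : E3 → ℝ := fun x => Ψ (x i) (x (i + 1)) (x (i + 2))
    have mc : Measurable fun x : E3 => (x i, x (i + 1), x (i + 2)) := by fun_prop
    have mφ : Measurable φ := mΦ.comp mc
    have mψ : Measurable ψ := mΨ.comp mc
    have b1 : ∀ x, |φ x| ≤ 1 := fun x => by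
      rw [← sq_le_one_iff_abs_le_one]; nlinarith [hu (x i) (x (i + 1)) (x (i + 2)), sq_nonneg (ψ x)]
    have b2 : ∀ x, |ψ x| ≤ 1 := fun x => by
      rw [← sq_le_one_iff_abs_le_one]; nlinarith [hu (x i) (x (i + 1)) (x (i + 2)), sq_nonneg (φ x)]
    have e := flux_fubini hE i mφ mψ b1 b2 hg hC
    simp only [φ, ψ, ins_self, ins_succ, ins_succ2, hopt] at e
    unfold pz
    rw [← e]
    refine integral_mono_ae (hint _ ((mφ.mul (measurable_nu E _)).add (mψ.mul (measurable_nu E _)))
      fun x => ?_) (hint _ msq bsq) ?_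
    · have := b1 x; have := b2 x
      have := nu_nonneg E (i + 1) x; have := nu_nonneg E (i + 2) x
      have := nu_le_one E (i + 1) x; have := nu_le_one E (i + 2) x
      refine (abs_add_le _ _).trans ?_
      rw [abs_mul, abs_mul, abs_of_nonneg (nu_nonneg E (i + 1) x), abs_of_nonneg (nu_nonneg E (i + 2) x)]
      nlinarith [abs_nonneg (φ x), abs_nonneg (ψ x)]
    · filter_upwards [nu_rest E i] with x hx
      apply mul_le_mul_of_nonneg_left _ (h0 _)
      rw [hx]
      apply Real.le_sqrt_of_sq_le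
      have := hu (x i) (x (i + 1)) (x (i + 2))
      nlinarith [sq_nonneg (Φ (x i) (x (i + 1)) (x (i + 2)) * nu E (i + 2) x -
        Ψ (x i) (x (i + 1)) (x (i + 2)) * nu E (i + 1) x),
        mul_le_mul_of_nonneg_left this (by positivity : 0 ≤ nu E (i + 1) x ^ 2 + nu E (i + 2) x ^ 2)]

end Crest.Agent.R214.Z
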