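import Crest.Agent.R214.CsSlice
import Crest.Agent.R214.IsoSlice
import Crest.Agent.R214.ZSlice

/-! Row 214, module CASES: the slice perimeters are the density of the push of `√(1-ν_i²) σ`. -/

set_option autoImplicit false
open MeasureTheory Set Filter Topology Real

noncomputable section
namespace Crest.Agent.R214.Cs
open DS

variable {E : Set E3}

theorem measurable_pz (hE : IsDS E) (i : Fin 3) : Measurable (pz E i) :=
  Z.measurable_pz hE i

theorem pz_nonneg (E : Set E3) (i : Fin 3) (t : ℝ) : 0 ≤ pz E i t := Iso.pl_nonneg _ _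

theorem pz_le_two (E : Set E3) (i : Fin 3) (t : ℝ) : pz E i t ≤ 2 := Iso.pl_le_two _ _

/-- Fubini: the horizontal flux is the integral of the planar fluxes -/
theorem flux_fubini (hE : IsDS E) (i : Fin 3) (Φ Ψ : E3 → ℝ) (hΦ : Measurable Φ) (hΨ : Measurable Ψ)
    {C : ℝ} (bΦ : ∀ x, |Φ x| ≤ C) (bΨ : ∀ x, |Ψ x| ≤ C) :
    (∫ x, Φ x ∂(mu E (i + 1))) + ∫ x, Ψ x ∂(mu E (i + 2)) =
      ∫ t in Ioo (0 : ℝ) 1, Iso.flux (slF E i t) (slG E i t)
        (fun x y => Φ (ins i t (x, y))) (fun x y => Ψ (ins i t (x, y))) := by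
  have mins : Measurable fun p : ℝ × (ℝ × ℝ) => ins i p.1 p.2 := (continuous_ins i).measurable
  have m1 : Measurable fun t => ∫ y in Iso.act (slG E i t), Φ (ins i t (slG E i t y, y)) :=
    Iso.slice_param (Z.measurable_slG hE i) (u := fun t y => Φ (ins i t (slG E i t y, y)))
      (hΦ.comp (mins.comp (measurable_fst.prodMk ((Z.measurable_slG hE i).prodMk measurable_snd))))
  have m2 : Measurable fun t => ∫ x in Iso.act (slF E i t), Ψ (ins i t (x, slF E i t x)) :=
    Iso.slice_param (Z.measurable_slF hE i) (u := fun t x => Ψ (ins i t (x, slF E i t x)))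
      (hΨ.comp (mins.comp (measurable_fst.prodMk (measurable_snd.prodMk (Z.measurable_slF hE i)))))
  have hb : ∀ (f u : ℝ → ℝ), (∀ x, |u x| ≤ C) → ‖∫ x in Iso.act f, u x‖ ≤ C * 1 := fun f u hu => by
    refine (norm_setIntegral_le_of_norm_le_const (C := C) (Iso.volume_act_lt_top f)
      (fun x _ => by simpa using hu x)).trans ?_
    refine mul_le_mul_of_nonneg_left ?_ ((abs_nonneg _).trans (hu 0))
    have := ENNReal.toReal_mono ENNReal.one_ne_top (Iso.volume_act_le f)
    simpa [Measure.real] using this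
  rw [Z.integral_mu_succ hE i hΦ bΦ, Z.integral_mu_succ2 hE i hΨ bΨ]
  simp only [Iso.flux]
  rw [integral_add]
  · exact Measure.integrableOn_of_bounded (M := C * 1) (by simp) m1.aestronglyMeasurable
      (Eventually.of_forall fun t => hb _ _ fun y => bΦ _)
  · exact Measure.integrableOn_of_bounded (M := C * 1) (by simp) m2.aestronglyMeasurable
      (Eventually.of_forall fun t => hb _ _ fun y => bΨ _)

theorem slice_le (hE : IsDS E) (i : Fin 3) (g : ℝ → ℝ) (hg : Measurable g) (hb : ∃ C, ∀ t, |g t| ≤ C)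
    (h0 : ∀ t, 0 ≤ g t) :
    ∫ t in Ioo (0 : ℝ) 1, g t * pz E i t ≤ ∫ x, g (x i) * √(1 - nu E i x ^ 2) ∂(sig E) := by
  obtain ⟨C, hC⟩ := hb
  exact (Z.slice_eq_nonneg hE i hg hC h0).ge

theorem slice_ge (hE : IsDS E) (i : Fin 3) (g : ℝ → ℝ) (hg : Measurable g) (hb : ∃ C, ∀ t, |g t| ≤ C)
    (h0 : ∀ t, 0 ≤ g t) :
    ∫ x, g (x i) * √(1 - nu E i x ^ 2) ∂(sig E) ≤ ∫ t in Ioo (0 : ℝ) 1, g t * pz E i t := by
  obtain ⟨C, hC⟩ := hb
  exact (Z.slice_eq_nonneg hE i hg hC h0).le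

end Crest.Agent.R214.Cs
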