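import Mathlib

/-!
# Row 214, Lawson case (helper50): the real-number interface

`a` is the area of a horizontal slice, `p` its relative perimeter, `W` the extent on the far edge at
the height where the slices stop touching the other far edge.
-/

set_option autoImplicit false

open Real Set Finset

namespace Crest.Agent.R214.Law

/-- a lower bound of `∫₀¹ √(1 - t² y²) dy` -/
noncomputable def gS (t : ℝ) : ℝ := 1 - t ^ 2 / 6 - t ^ 4 / 40 - 3 * t ^ 6 / 56

/-- perimeter bounds for a slice whose complement is a corner set of extent at most `1 - W` -/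
def Hole (W a p : ℝ) : Prop :=
  π * (1 - a) ≤ p ^ 2 ∧
    ∀ e, 0 < e → 1 - W ≤ e → π * e ^ 2 ≤ 4 * (1 - a) → (1 - a) / e + π * e / 4 ≤ p

/-- perimeter bounds for a strip whose extent on the far edge is at most `W` -/
def Strip (W a p : ℝ) : Prop := ∀ t, 0 ≤ t → t ≤ 1 → gS t + t * (a - W) ≤ p

/-- what is known on a slice -/
def Adm (W lam a p : ℝ) : Prop := lam * a ≤ p ∧ (π * a ≤ p ^ 2 ∨ Strip W a p ∨ Hole W a p)

/-- the slicing bound, for step multipliers -/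
def StepZ (lam V A W a0 : ℝ) : Prop :=
  ∀ (μ κ h : ℝ) (n : ℕ) (ω σ : ℕ → ℝ), 0 < μ → 0 ≤ κ → μ + κ ≤ 1 → 0 < h → n * h ≤ a0 →
    (∀ j < n, 0 ≤ ω j ∧ 0 ≤ σ j ∧ ω j ^ 2 ≤ 4 * μ * (1 - μ - κ * σ j ^ 2) ∧
      ∀ a p, 0 < a → a ≤ (j + 1) * h → Adm W lam a p → lam * a ≤ σ j * p) →
    (μ + κ) * lam * V + h * ∑ j ∈ range n, ω j ≤ A

/-- the slicing bound, for monotone multipliers -/
def FunZ (lam V A W a0 : ℝ) : Prop :=
  ∀ (μ κ : ℝ) (ω σ : ℝ → ℝ), 0 < μ → 0 ≤ κ → Antitone ω → Monotone σ →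
    (∀ a, 0 ≤ ω a) → (∀ a, 0 ≤ σ a) → (∀ a, σ a ≤ 1) →
    (∀ a, ω a ^ 2 ≤ 4 * μ * (1 - μ - κ * σ a ^ 2)) →
    (∀ a p, 0 < a → Adm W lam a p → lam * a ≤ σ a * p) →
    (μ + κ) * lam * V + ∫ a in (0 : ℝ)..a0, ω a ≤ A

theorem gS_le {t : ℝ} (h0 : 0 ≤ t) (h1 : t ≤ 1) :
    gS t ≤ ∫ y in (0 : ℝ)..1, √(1 - t ^ 2 * y ^ 2) := by
  have e : gS t = ∫ y in (0 : ℝ)..1,
      (1 - t ^ 2 / 2 * y ^ 2 - t ^ 4 / 8 * y ^ 4 - 3 * t ^ 6 / 8 * y ^ 6) := by
    rw [intervalIntegral.integral_sub, intervalIntegral.integral_sub, intervalIntegral.integral_sub]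
    · simp only [intervalIntegral.integral_const_mul, integral_pow, intervalIntegral.integral_const]
      simp only [gS]; norm_num; ring
    all_goals exact Continuous.intervalIntegrable (by fun_prop) _ _
  rw [e]
  refine intervalIntegral.integral_mono_on zero_le_one
    (Continuous.intervalIntegrable (by fun_prop) _ _)
    (Continuous.intervalIntegrable (by fun_prop) _ _) fun y hy => ?_
  obtain ⟨x, hx⟩ : ∃ x, x = t ^ 2 * y ^ 2 := ⟨_, rfl⟩
  have x0 : 0 ≤ x := by rw [hx]; positivity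
  have x1 : x ≤ 1 := by
    rw [hx]
    exact mul_le_one₀ (pow_le_one₀ h0 h1) (sq_nonneg _) (pow_le_one₀ hy.1 hy.2)
  have e2 : 1 - t ^ 2 / 2 * y ^ 2 - t ^ 4 / 8 * y ^ 4 - 3 * t ^ 6 / 8 * y ^ 6 =
      1 - x / 2 - x ^ 2 / 8 - 3 * x ^ 3 / 8 := by rw [hx]; ring
  rw [e2, ← hx]
  refine Real.le_sqrt_of_sq_le ?_
  have h3 : 0 ≤ x ^ 3 := by positivity
  have h4 : 25 * x + 6 * x ^ 2 + 9 * x ^ 3 ≤ 40 := by
    have := pow_le_one₀ (n := 2) x0 x1
    have := pow_le_one₀ (n := 3) x0 x1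
    linarith
  nlinarith [mul_le_mul_of_nonneg_left h4 h3]

theorem stepZ_of_funZ {lam V A W a0 : ℝ} (hl : 0 < lam) (H : FunZ lam V A W a0) :
    StepZ lam V A W a0 := by
  intro μ κ h n ω σ hμ hκ hk hh hn hs
  set S : ℝ → Set ℝ := fun a =>
    {s | 0 ≤ s ∧ ∀ a' p, 0 < a' → a' ≤ a → Adm W lam a' p → lam * a' ≤ s * p} with hS
  have S1 : ∀ a, (1 : ℝ) ∈ S a := fun a => ⟨zero_le_one, fun a' p _ _ hp => by simpa using hp.1⟩
  have Sb : ∀ a, BddBelow (S a) := fun a => ⟨0, fun s hs => hs.1⟩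
  set τ : ℝ → ℝ := fun a => sInf (S a) with hτ
  have τ0 : ∀ a, 0 ≤ τ a := fun a => le_csInf ⟨1, S1 a⟩ fun s hs => hs.1
  have τ1 : ∀ a, τ a ≤ 1 := fun a => csInf_le (Sb a) (S1 a)
  have τm : Monotone τ := fun a b hab =>
    csInf_le_csInf (Sb a) ⟨1, S1 b⟩ fun s hs => ⟨hs.1, fun a' p h1 h2 h3 => hs.2 a' p h1 (h2.trans hab) h3⟩
  have τp : ∀ a p, 0 < a → Adm W lam a p → lam * a ≤ τ a * p := by
    intro a p ha hp
    have p0 : 0 < p := (mul_pos hl ha).trans_le hp.1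
    rw [← div_le_iff₀ p0]
    exact le_csInf ⟨1, S1 a⟩ fun s hs => (div_le_iff₀ p0).2 (hs.2 a p ha le_rfl hp)
  set w : ℝ → ℝ := fun a => √(4 * μ * (1 - μ - κ * τ a ^ 2)) with hw
  have mono : ∀ s s' : ℝ, 0 ≤ s → s ≤ s' →
      4 * μ * (1 - μ - κ * s' ^ 2) ≤ 4 * μ * (1 - μ - κ * s ^ 2) := fun s s' h0 h1 =>
    mul_le_mul_of_nonneg_left
      (by nlinarith [mul_le_mul_of_nonneg_left (pow_le_pow_left₀ h0 h1 2) hκ]) (by positivity)
  have wa : Antitone w := fun a b hab => Real.sqrt_le_sqrt (mono _ _ (τ0 a) (τm hab))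
  have key := H μ κ w τ hμ hκ wa τm (fun a => Real.sqrt_nonneg _) τ0 τ1
    (fun a => by
      rw [hw, Real.sq_sqrt]
      refine le_trans ?_ (mono _ _ (τ0 a) (τ1 a))
      exact mul_nonneg (by positivity) (by linarith)) τp
  refine le_trans (add_le_add_right ?_ _) key
  have wi : ∀ a b, IntervalIntegrable w MeasureTheory.volume a b :=
    fun a b => wa.intervalIntegrable
  have h1 : ∀ m ≤ n, h * ∑ j ∈ range m, ω j ≤ ∫ a in (0 : ℝ)..(m * h), w a := by
    intro m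
    induction m with
    | zero => intro _; simp
    | succ m ih =>
      intro hm
      rw [sum_range_succ, mul_add, ← intervalIntegral.integral_add_adjacent_intervals
        (wi 0 (m * h)) (wi _ _)]
      refine add_le_add (ih (by omega)) ?_
      obtain ⟨o0, s0, o2, sp⟩ := hs m (by omega)
      have hle : (m : ℝ) * h ≤ ((m + 1 : ℕ) : ℝ) * h := by push_cast; linarith
      have := intervalIntegral.integral_mono_on (f := fun _ => ω m) (g := w) hle
        (by simp) (wi _ _) fun a ha => by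
          refine Real.le_sqrt_of_sq_le (o2.trans (mono _ _ (τ0 a) ?_))
          refine csInf_le (Sb a) ⟨s0, fun a' p h1 h2 h3 => sp a' p h1 (h2.trans ?_) h3⟩
          have := ha.2
          push_cast at this
          exact this
      rw [intervalIntegral.integral_const] at this
      refine le_trans (le_of_eq ?_) this
      push_cast
      simp only [smul_eq_mul]; ring
  refine (h1 n le_rfl).trans ?_
  rw [← intervalIntegral.integral_add_adjacent_intervals (wi 0 (n * h)) (wi _ a0)]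
  exact le_add_of_nonneg_right (intervalIntegral.integral_nonneg hn fun a _ => Real.sqrt_nonneg _)

end Crest.Agent.R214.Law
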