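import Crest.Agent.R214.IsoDS
import Crest.Agent.R214.LawDefs

/-! Row 214, module CASES: nested slices (Lawson type). -/

set_option autoImplicit false
open MeasureTheory Set Filter Topology Real

noncomputable section
namespace Crest.Agent.R214.Nest
open DS Cs Iso

theorem amgm_anti {b e e' : ℝ} (h0 : 0 < e') (h : e' ≤ e) (hb : π * e ^ 2 ≤ 4 * b) :
    b / e + π * e / 4 ≤ b / e' + π * e' / 4 := by
  have he : 0 < e := h0.trans_le h
  have h2 : e' * e * π ≤ 4 * b := by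
    have : e' * e ≤ e ^ 2 := by nlinarith
    nlinarith [Real.pi_pos]
  have h3 : b / e' + π * e' / 4 - (b / e + π * e / 4)
      = (e - e') * (4 * b - e' * e * π) / (4 * e' * e) := by
    field_simp
    ring
  have h4 : 0 ≤ (e - e') * (4 * b - e' * e * π) / (4 * e' * e) :=
    div_nonneg (mul_nonneg (by linarith) (by linarith)) (by positivity)
  linarith

theorem hole_of {f g : ℝ → ℝ} (h : Pair f g) (h1 : 0 < bot f) (h2 : 0 < bot g) {W : ℝ}
    (hW : W ≤ bot g) : Law.Hole W (area f) (pl f g) := by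
  have t1 := h.top_eq_one h1
  have t2 := h.swap.top_eq_one h2
  constructor
  · have := h.pl_ge_sqrt_hole
    rw [t1, t2, sub_self, add_zero, add_zero] at this
    exact (Real.sqrt_le_left (pl_nonneg f g)).1 this
  · intro e he hWe hb
    have hlt : bot g < 1 := by
      have a1 := h.swap.bot_le_area
      rw [h.area_eq] at a1
      have : 0 < π * e ^ 2 := by positivity
      linarith
    have := h.pl_ge_hole hlt
    rw [t1, t2, sub_self, add_zero, add_zero] at this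
    exact (amgm_anti (by linarith) (by linarith) hb).trans this

theorem strip_of {f g : ℝ → ℝ} (h : Pair f g) (h1 : bot f = 0) (h2 : 0 < bot g) {W : ℝ}
    (hW : bot g ≤ W) : Law.Strip W (area f) (pl f g) := by
  intro k hk0 hk1
  have t2 := h.swap.top_eq_one h2
  have := h.swap.pl_ge_lin hk0 (by rw [t2]; linarith)
  rw [h1, t2, pl_swap, h.area_eq] at this
  have g1 := Law.gS_le hk0 hk1
  simp only [mul_pow] at this
  nlinarith [mul_le_mul_of_nonneg_left hW hk0]

theorem nested_aux (F G : ℝ → ℝ → ℝ) (hP : ∀ t, Pair (F t) (G t))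
    (aF : AntitoneOn (fun t => bot (F t)) (Ioo (0:ℝ) 1))
    (aG : AntitoneOn (fun t => bot (G t)) (Ioo (0:ℝ) 1))
    (hA : ∀ t ∈ Ioo (0:ℝ) 1, 0 < bot (F t) → 0 < bot (G t))
    {s : ℝ} (hs : s ∈ Ioo (0:ℝ) 1) (hs0 : 0 < bot (F s)) :
    ∃ W, 0 ≤ W ∧ W ≤ 1 ∧
      (∀ t ∈ Ioo (0 : ℝ) 1, π * area (F t) ≤ pl (F t) (G t) ^ 2 ∨
        Law.Strip W (area (F t)) (pl (F t) (G t)) ∨ Law.Hole W (area (F t)) (pl (F t) (G t))) ∧
      ∀ᶠ t in 𝓝[>] (0 : ℝ), Law.Hole W (area (F t)) (pl (F t) (G t)) := by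
  set S : Set ℝ := (fun t => bot (G t)) '' {t | t ∈ Ioo (0:ℝ) 1 ∧ 0 < bot (F t)} with hS
  have hne : S.Nonempty := ⟨_, s, ⟨hs, hs0⟩, rfl⟩
  have hbd : BddBelow S := ⟨0, by rintro _ ⟨t, _, rfl⟩; exact (hP t).swap.bot_nonneg⟩
  have hhole : ∀ t ∈ Ioo (0:ℝ) 1, 0 < bot (F t) →
      Law.Hole (sInf S) (area (F t)) (pl (F t) (G t)) := fun t ht h0 =>
    hole_of (hP t) h0 (hA t ht h0) (csInf_le hbd ⟨t, ⟨ht, h0⟩, rfl⟩)
  refine ⟨sInf S, le_csInf hne (by rintro _ ⟨t, _, rfl⟩; exact (hP t).swap.bot_nonneg),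
    (csInf_le hbd ⟨s, ⟨hs, hs0⟩, rfl⟩).trans
      ((hP s).swap.bot_le_top.trans (hP s).swap.top_le_one), fun t ht => ?_, ?_⟩
  · rcases (hP t).bot_nonneg.eq_or_lt with h1 | h1
    · rcases (hP t).swap.bot_nonneg.eq_or_lt with h2 | h2
      · left
        have := (hP t).pl_ge_sqrt
        rw [← h1, ← h2, add_zero, add_zero] at this
        exact (Real.sqrt_le_left (pl_nonneg _ _)).1 this
      · right; left
        refine strip_of (hP t) h1.symm h2 (le_csInf hne ?_)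
        rintro _ ⟨u, ⟨hu, hu0⟩, rfl⟩
        refine aG hu ht ?_
        by_contra hc
        push Not at hc
        have := aF ht hu hc.le
        simp only at this
        linarith
    · exact Or.inr (Or.inr (hhole t ht h1))
  · filter_upwards [Ioo_mem_nhdsGT hs.1] with t ht
    have ht' : t ∈ Ioo (0:ℝ) 1 := ⟨ht.1, ht.2.trans hs.2⟩
    exact hhole t ht' (hs0.trans_le (aF ht' hs ht.2.le))

theorem exists_pos {u : ℝ → ℝ} (h0 : ∀ t, 0 ≤ u t) (h : ∫ t in Ioo (0:ℝ) 1, u t ≠ 0) :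
    ∃ s ∈ Ioo (0:ℝ) 1, 0 < u s := by
  by_contra hc
  push Not at hc
  exact h (setIntegral_eq_zero_of_forall_eq_zero fun s hs => le_antisymm (hc s hs) (h0 s))

theorem nested {E : Set E3} (hE : IsDS E) (i : Fin 3) (h1 : aone E (i + 1) ≠ 0)
    (h2 : aone E (i + 2) ≠ 0) :
    ∃ W, 0 ≤ W ∧ W ≤ 1 ∧
      (∀ t ∈ Ioo (0 : ℝ) 1, π * sec E i t ≤ pz E i t ^ 2 ∨ Law.Strip W (sec E i t) (pz E i t) ∨
        Law.Hole W (sec E i t) (pz E i t)) ∧
      ∀ᶠ t in 𝓝[>] (0 : ℝ), Law.Hole W (sec E i t) (pz E i t) := by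
  have hP := IsoDS.pair_sl hE i
  have aF := IsoDS.bot_slF_anti hE i
  have aG := IsoDS.bot_slG_anti hE i
  by_cases hA : ∀ t ∈ Ioo (0:ℝ) 1, 0 < bot (slF E i t) → 0 < bot (slG E i t)
  · obtain ⟨s, hs, hs0⟩ := exists_pos (fun t => (hP t).bot_nonneg)
      (by rw [IsoDS.integral_bot_slF hE]; exact h1)
    have := nested_aux _ _ hP aF aG hA hs hs0
    simpa only [IsoDS.area_slF hE, pz] using this
  · push Not at hA
    obtain ⟨t₀, ht₀, p0, q0⟩ := hA
    obtain ⟨s, hs, hs0⟩ := exists_pos (fun t => (hP t).swap.bot_nonneg)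
      (by rw [IsoDS.integral_bot_slG hE]; exact h2)
    have := nested_aux _ _ (fun t => (hP t).swap) aG aF (fun t ht h0 => by
      refine p0.trans_le (aF ht ht₀ ?_)
      by_contra hc
      push Not at hc
      have := aG ht₀ ht hc.le
      simp only at this
      linarith) hs hs0
    simpa only [IsoDS.area_slG hE, pz, pl_swap (slF E i _) (slG E i _)] using this

end Crest.Agent.R214.Nest
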