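import Crest.Agent.R214.CsBasic
import Crest.Agent.R214.ZSlice
import Crest.Agent.R214.LawDefs
import Crest.Agent.R214.CsNest

/-! Row 214, module CASES: exactly two far walls are touched (Lawson type): the data for `LawNum`. -/

set_option autoImplicit false
open MeasureTheory Set Filter Topology Real

noncomputable section
namespace Crest.Agent.R214.Cs
open DS

variable {E : Set E3} {lam : ℝ} {c : Fin 3 → ℝ}

/-- nestedness: one number `W` works for all slices, and the low slices are of hole type -/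
theorem nested (hE : IsDS E) (i : Fin 3) (h1 : aone E (i + 1) ≠ 0) (h2 : aone E (i + 2) ≠ 0) :
    ∃ W, 0 ≤ W ∧ W ≤ 1 ∧
      (∀ t ∈ Ioo (0 : ℝ) 1, π * sec E i t ≤ pz E i t ^ 2 ∨ Law.Strip W (sec E i t) (pz E i t) ∨
        Law.Hole W (sec E i t) (pz E i t)) ∧
      ∀ᶠ t in 𝓝[>] (0 : ℝ), Law.Hole W (sec E i t) (pz E i t) :=
  Nest.nested hE i h1 h2

theorem Crit.lawson_data (h : Crit E lam c) (i : Fin 3) (h0 : aone E i = 0) (h1 : aone E (i + 1) ≠ 0)
    (h2 : aone E (i + 2) ≠ 0) (hl : 0 < lam) :
    ∃ W, 0 ≤ W ∧ W ≤ 1 ∧ Law.Hole W (azero E i) (lam * azero E i) ∧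
      Law.FunZ lam (vol E) (per E) W (azero E i) := by
  obtain ⟨W, hW0, hW1, hall, hlow⟩ := nested h.ds i h1 h2
  have hc := h.c_eq_zero i h0
  have hpi := pi_pos
  have ha0 : 0 < azero E i := h.vol_pos.trans_le (vol_le_azero h.ds i)
  refine ⟨W, hW0, hW1, ⟨?_, fun e he hWe hle => ?_⟩, ?_⟩
  · have := h.near' i (fun a => √(π * (1 - a))) (by fun_prop) (hlow.mono fun t ht =>
      (Real.sqrt_le_left (pz_nonneg E i t)).2 ht.1)
    rw [hc, zero_add] at this
    exact (Real.sqrt_le_left (by positivity)).1 this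
  · have := h.near' i (fun a => (1 - a) / e + π * e / 4) (by fun_prop) (hlow.mono fun t ht =>
      ht.2 e he hWe (by linarith [h.ds.sec_le_azero i t]))
    rwa [hc, zero_add] at this
  · intro μ κ ω σ hμ hκ hω hσ ω0 σ0 σ1 hd hp
    have ω1 : ∀ a, ω a ≤ 1 := fun a => by
      have := hd a
      have h3 : 0 ≤ 4 * μ * (κ * σ a ^ 2) := by positivity
      nlinarith [sq_nonneg (2 * μ - 1), ω0 a]
    have key := h.dual i (fun _ => μ - κ) ω (fun a => 2 * κ * σ a) measurable_const hω.measurable
      (hσ.measurable.const_mul _) ⟨|μ - κ|, fun _ => le_rfl⟩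
      ⟨2 * κ, fun a => by
        rw [abs_of_nonneg (by have := σ0 a; positivity)]
        nlinarith [σ1 a]⟩
      (fun a => by rw [abs_of_nonneg (ω0 a)]; exact ω1 a)
      (fun a => by have := σ0 a; positivity)
      (fun a m s _ _ hms => by
        have e1 : 0 ≤ κ * (s - σ a) ^ 2 := by positivity
        have e2 : 4 * μ * (ω a * m) ≤ 4 * μ * (μ * m ^ 2 + (1 - μ - κ * σ a ^ 2)) := by
          nlinarith [sq_nonneg (2 * μ * m - ω a), hd a]
        have e3 := le_of_mul_le_mul_left e2 (by positivity)
        have e4 : μ * m ^ 2 = μ - μ * s ^ 2 := by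
          rw [show m ^ 2 = 1 - s ^ 2 by linarith]; ring
        nlinarith)
    rw [h0, hc] at key
    rw [intervalIntegral.integral_of_le ha0.le, integral_Ioc_eq_integral_Ioo]
    simp only [zero_add] at key
    have is := integrableOn_sec h.ds i
    have ip : IntegrableOn (pz E i) (Ioo (0 : ℝ) 1) :=
      Measure.integrableOn_of_bounded (M := 2) (by simp) (measurable_pz h.ds i).aestronglyMeasurable
        (Eventually.of_forall fun t => by
          rw [Real.norm_eq_abs, abs_of_nonneg (pz_nonneg E i t)]; exact pz_le_two E i t)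
    have i2 : IntegrableOn (fun t => 2 * κ * σ (sec E i t) * pz E i t) (Ioo (0 : ℝ) 1) :=
      ip.bdd_mul (c := 2 * κ)
        ((hσ.measurable.comp (h.ds.measurable_sec i)).const_mul _).aestronglyMeasurable
        (Eventually.of_forall fun t => by
          rw [Real.norm_eq_abs, abs_of_nonneg (by have := σ0 (sec E i t); positivity)]
          nlinarith [σ1 (sec E i t)])
    have e5 : ∫ t in Ioo (0 : ℝ) 1, 2 * κ * lam * sec E i t ≤
        ∫ t in Ioo (0 : ℝ) 1, 2 * κ * σ (sec E i t) * pz E i t := by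
      refine integral_mono_ae (is.const_mul _) i2 ?_
      filter_upwards [h.q_le_p i, ae_restrict_mem measurableSet_Ioo] with t hq ht
      rw [hc, zero_add] at hq
      have : lam * sec E i t ≤ σ (sec E i t) * pz E i t := by
        rcases (sec_nonneg E i t).eq_or_lt with h3 | h3
        · rw [← h3, mul_zero]; exact mul_nonneg (σ0 _) (pz_nonneg E i t)
        · exact hp _ _ h3 ⟨hq, hall t ht⟩
      nlinarith
    rw [integral_const_mul, h.ds.integral_sec i] at e5
    rw [integral_const_mul, integral_const_mul, h.ds.integral_sec i] at key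
    linarith

end Crest.Agent.R214.Cs
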