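import Crest.Agent.R214.CsBasic
import Crest.Agent.R214.CaseT3

/-! Row 214, module CASES: all three far walls are touched. -/

set_option autoImplicit false
open MeasureTheory Set Filter Topology Real

noncomputable section
namespace Crest.Agent.R214.Cs
open DS

variable {E : Set E3} {lam : ℝ} {c : Fin 3 → ℝ}

/-- hole bound at the near wall -/
theorem Crit.wall_hole (h : Crit E lam c) (i : Fin 3) (h1 : aone E (i + 1) ≠ 0)
    (h2 : aone E (i + 2) ≠ 0) : √(π * (1 - azero E i)) ≤ c i + lam * azero E i := by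
  obtain ⟨s1, hs1, H1⟩ := botF_pos h.ds i h1
  obtain ⟨s2, hs2, H2⟩ := botG_pos h.ds i h2
  refine h.near' i (fun a => √(π * (1 - a))) (by fun_prop) ?_
  filter_upwards [Ioo_mem_nhdsGT (lt_min hs1.1 hs2.1)] with t ht
  have t1 : t ≤ s1 := (ht.2.trans_le (min_le_left _ _)).le
  have t2 : t ≤ s2 := (ht.2.trans_le (min_le_right _ _)).le
  have ht' : t ∈ Ioo (0 : ℝ) 1 := ⟨ht.1, t1.trans_lt hs1.2⟩
  exact pz_ge_hole h.ds i ht' (H1 t ht' t1) (H2 t ht' t2)

/-- in the sphere range all constants vanish; otherwise `lam ≤ 3` -/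
theorem Crit.sphere_or (h : Crit E lam c) :
    (∀ i, c i = 0) ∨ (lam ≤ 3 ∧ (lam ^ 2 * vol E ≤ π / 4 ∨ vol E ≤ 4 * π / 81)) := by
  have hpi := pi_pos
  have hpi4 := pi_le_four
  have hV := h.vol_pos
  rcases h.graph with g | g | g | g | g
  · left
    have hs := h.sum_c 0
    have h0 := h.c_nonneg 0
    have h1 := h.c_nonneg (0 + 1)
    have h2 := h.c_nonneg (0 + 2)
    have hA : per E ≤ 3 * lam * vol E / 2 := by
      refine le_of_pow_le_pow_left₀ (n := 3) (by norm_num) (by have := g.2.1; positivity) ?_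
      refine h.per_ball.trans (le_of_eq ?_)
      have : (3 * lam * vol E / 2) ^ 3 = 9 / 8 * (3 * lam ^ 3 * vol E) * vol E ^ 2 := by ring
      rw [this, g.2.2]; ring
    intro i
    rcases fin3_cases 0 i with rfl | rfl | rfl <;> linarith
  · exact Or.inr ⟨g.2.2, Or.inr g.1.le⟩
  · refine Or.inr ⟨?_, Or.inl (by linarith [g.2.2.2])⟩
    by_contra hc
    push Not at hc
    have : 9 * vol E ≤ lam ^ 2 * vol E := by
      apply mul_le_mul_of_nonneg_right _ hV.le
      nlinarith
    nlinarith [g.1, g.2.2.2]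
  · refine Or.inr ⟨by linarith [g.2.2], Or.inl ?_⟩
    rw [g.1]
    have : lam ^ 2 ≤ (π / 2) ^ 2 := pow_le_pow_left₀ g.2.1 g.2.2 2
    rw [mul_one_div, div_le_iff₀ hpi]
    nlinarith
  · refine Or.inr ⟨by linarith [g.2], Or.inl ?_⟩
    rw [g.2]; simp; positivity

theorem Crit.t3 (h : Crit E lam c) (h1 : ∀ i, aone E i ≠ 0) : False := by
  rcases h.sphere_or with H | ⟨hl3, hl⟩
  · exact h1 0 (h.aone_eq_zero 0 (H 0))
  obtain ⟨i, hi⟩ := Finite.exists_max c
  have hs := h.sum_c i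
  exact t3_false (vol E) lam (per E) (c i) (azero E i) (aone E i) h.vol_pos h.vol_le h.graph.nonneg
    hl3 h.per_slab h.per_tube hl (by linarith [hi (i + 1), hi (i + 2)]) (h.N_nonneg i)
    (aone_nonneg E i) (aone_le_vol h.ds i) (vol_le_azero h.ds i) (h.cs i)
    (h.wall_hole i (h1 _) (h1 _)) (h.wall_far i)

end Crest.Agent.R214.Cs
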