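import Crest.Agent.R214.MoDefs

/-! Row 214, module MODEL: the unit cell and cubic isometries. -/

set_option autoImplicit false

open MeasureTheory Crest.GeometryTopology.PeriodicPerimeter

namespace Crest.Agent.R214.Mo

variable {n : ℕ}

theorem measurableSet_cell : MeasurableSet (unitCell n) := by
  have : unitCell n = ⋂ i, {x : En n | 0 ≤ x i} ∩ {x : En n | x i < 1} := by
    ext x; simp [unitCell]
  rw [this]
  refine MeasurableSet.iInter fun i => ?_
  exact (measurableSet_le measurable_const (by fun_prop)).inter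
    (measurableSet_lt (by fun_prop) measurable_const)

theorem volume_cell : volume (unitCell n) = 1 := by
  have h := (PiLp.volume_preserving_toLp (Fin n)).measure_preimage
    (measurableSet_cell (n := n)).nullMeasurableSet
  rw [← h]
  have : (WithLp.toLp 2 : (Fin n → ℝ) → En n) ⁻¹' unitCell n
      = Set.pi Set.univ fun _ : Fin n => Set.Ico (0 : ℝ) 1 := by
    ext x; simp [unitCell]
  rw [this, Real.volume_pi_Ico]
  simp

/-- every point is congruent to a point of the cell -/
theorem exists_add_mem_cell (x : En n) : ∃ v, HasIntegerCoords v ∧ x + v ∈ unitCell n := by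
  refine ⟨WithLp.toLp 2 fun i => ((-⌊x i⌋ : ℤ) : ℝ), fun i => ⟨-⌊x i⌋, rfl⟩, fun i => ?_⟩
  have h1 := Int.floor_le (x i)
  have h2 := Int.lt_floor_add_one (x i)
  simp only [PiLp.add_apply, Int.cast_neg]
  constructor <;> linarith

theorem cell_subset_ball : unitCell n ⊆ Metric.closedBall 0 n := by
  intro x hx
  rw [mem_closedBall_zero_iff, EuclideanSpace.norm_eq]
  have h : ∑ i, ‖x i‖ ^ 2 ≤ (n : ℝ) := by
    calc ∑ i, ‖x i‖ ^ 2 ≤ ∑ _i : Fin n, (1 : ℝ) := by
          refine Finset.sum_le_sum fun i _ => ?_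
          have := hx i
          rw [Real.norm_eq_abs, sq_abs]
          nlinarith [this.1, this.2]
      _ = n := by simp
  have hn : (n : ℝ) ≤ (n : ℝ) ^ 2 := by
    have : n ≤ n ^ 2 := Nat.le_self_pow (by norm_num) n
    exact_mod_cast this
  exact Real.sqrt_le_iff.mpr ⟨Nat.cast_nonneg n, h.trans hn⟩

/-- linear part and translation part of a cubic isometry -/
theorem cubic_form {g : En n → En n} (hg : IsCubicIsometry g) :
    ∃ (L : En n ≃ₗᵢ[ℝ] En n) (c : En n), (∀ x, g x = L x + c) ∧
      ∀ v, HasIntegerCoords (L v) ↔ HasIntegerCoords v := by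
  obtain ⟨σ, ε, c, hε, hg⟩ := hg
  have hsq : ∀ i, ε i * ε i = 1 := fun i => by rcases hε i with h | h <;> simp [h]
  let L0 : En n ≃ₗ[ℝ] En n :=
    { toFun := fun x => WithLp.toLp 2 fun i => ε i * x (σ i)
      invFun := fun y => WithLp.toLp 2 fun j => ε (σ.symm j) * y (σ.symm j)
      map_add' := fun x y => by ext i; simp [mul_add]
      map_smul' := fun a x => by ext i; simp; ring
      left_inv := fun x => by ext j; simp [← mul_assoc, hsq]
      right_inv := fun y => by ext i; simp [← mul_assoc, hsq] }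
  have hL0 : ∀ x i, L0 x i = ε i * x (σ i) := fun x i => rfl
  let L : En n ≃ₗᵢ[ℝ] En n :=
    { L0 with
      norm_map' := fun x => by
        rw [EuclideanSpace.norm_eq, EuclideanSpace.norm_eq]
        congr 1
        rw [← Equiv.sum_comp σ fun j => ‖x j‖ ^ 2]
        refine Finset.sum_congr rfl fun i _ => ?_
        change ‖L0 x i‖ ^ 2 = _
        rw [hL0]
        rcases hε i with h | h <;> simp [h] }
  have hL : ∀ x i, L x i = ε i * x (σ i) := fun x i => rfl
  refine ⟨L, c, fun x => ?_, fun v => ⟨fun h j => ?_, fun h i => ?_⟩⟩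
  · ext i
    rw [hg, PiLp.add_apply, hL]
  · obtain ⟨m, hm⟩ := h (σ.symm j)
    rw [hL, Equiv.apply_symm_apply] at hm
    rcases hε (σ.symm j) with h1 | h1
    · exact ⟨m, by rw [← hm, h1, one_mul]⟩
    · exact ⟨-m, by rw [Int.cast_neg, ← hm, h1]; ring⟩
  · obtain ⟨m, hm⟩ := h (σ i)
    rw [hL, hm]
    rcases hε i with h1 | h1
    · exact ⟨m, by rw [h1, one_mul]⟩
    · exact ⟨-m, by rw [Int.cast_neg, h1]; ring⟩

theorem cubic_add (c : En n) : IsCubicIsometry fun x : En n => x + c :=
  ⟨Equiv.refl _, fun _ => 1, c, fun _ => Or.inl rfl, fun x i => by simp⟩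

theorem cubic_comp {g h : En n → En n} (hg : IsCubicIsometry g) (hh : IsCubicIsometry h) :
    IsCubicIsometry (g ∘ h) := by
  obtain ⟨σ, ε, c, hε, hg⟩ := hg
  obtain ⟨τ, δ, d, hδ, hh⟩ := hh
  refine ⟨σ.trans τ, fun i => ε i * δ (σ i), WithLp.toLp 2 fun i => ε i * d (σ i) + c i,
    fun i => ?_, fun x i => ?_⟩
  · rcases hε i with h1 | h1 <;> rcases hδ (σ i) with h2 | h2 <;> simp [h1, h2]
  · simp only [Function.comp, hg, hh, Equiv.trans_apply]
    ring

theorem cubic_inv {g : En n → En n} (hg : IsCubicIsometry g) :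
    ∃ h, IsCubicIsometry h ∧ Function.LeftInverse h g ∧ Function.RightInverse h g := by
  obtain ⟨σ, ε, c, hε, hg⟩ := hg
  have hsq : ∀ i, ε i * ε i = 1 := fun i => by rcases hε i with h | h <;> simp [h]
  refine ⟨fun y => WithLp.toLp 2 fun j => ε (σ.symm j) * y (σ.symm j)
      + (-(ε (σ.symm j) * c (σ.symm j))),
    ⟨σ.symm, fun j => ε (σ.symm j), WithLp.toLp 2 fun j => -(ε (σ.symm j) * c (σ.symm j)),
      fun j => hε _, fun y j => rfl⟩, fun x => ?_, fun y => ?_⟩
  · ext j
    simp only [hg, Equiv.apply_symm_apply]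
    linear_combination (x j) * hsq (σ.symm j)
  · ext i
    simp only [hg, Equiv.symm_apply_apply]
    linear_combination (y i - c i) * hsq i

theorem cubic_measurePreserving {g : En n → En n} (hg : IsCubicIsometry g) :
    MeasurePreserving g volume volume := by
  obtain ⟨L, c, h, -⟩ := cubic_form hg
  have : g = (fun y => y + c) ∘ L := funext h
  rw [this]
  exact (measurePreserving_add_right volume c).comp L.measurePreserving

theorem cubic_measurableEmbedding {g : En n → En n} (hg : IsCubicIsometry g) :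
    MeasurableEmbedding g := by
  obtain ⟨L, c, h, -⟩ := cubic_form hg
  have : g = (fun y => y + c) ∘ L := funext h
  rw [this]
  exact (measurableEmbedding_addRight c).comp L.toHomeomorph.measurableEmbedding

/-- the lattice -/
def latt (n : ℕ) : AddSubgroup (En n) where
  carrier := {v | HasIntegerCoords v}
  zero_mem' := fun _ => ⟨0, by simp⟩
  add_mem' := fun {a b} ha hb i => by
    obtain ⟨p, hp⟩ := ha i
    obtain ⟨q, hq⟩ := hb i
    exact ⟨p + q, by simp [hp, hq]⟩
  neg_mem' := fun {a} ha i => by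
    obtain ⟨p, hp⟩ := ha i
    exact ⟨-p, by simp [hp]⟩

instance : Countable (latt n) := by
  refine Function.Injective.countable (f := fun (v : latt n) (i : Fin n) => ⌊(v : En n) i⌋)
    fun v w h => Subtype.ext ?_
  ext i
  obtain ⟨p, hp⟩ := v.2 i
  obtain ⟨q, hq⟩ := w.2 i
  have := congrFun h i
  simp only [hp, hq, Int.floor_intCast] at this
  rw [hp, hq, this]

theorem fund_cell : IsAddFundamentalDomain (latt n) (unitCell n) volume := by
  refine IsAddFundamentalDomain.mk' measurableSet_cell.nullMeasurableSet fun x => ?_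
  obtain ⟨v, hv, hx⟩ := exists_add_mem_cell x
  refine ⟨⟨v, hv⟩, by simpa [AddSubgroup.vadd_def, add_comm] using hx, fun w hw => Subtype.ext ?_⟩
  ext i
  obtain ⟨p, hp⟩ := hv i
  obtain ⟨q, hq⟩ := w.2 i
  have h1 := hx i
  have h2 := hw i
  simp only [AddSubgroup.vadd_def, vadd_eq_add, PiLp.add_apply, hp, hq] at h1 h2 ⊢
  have a : (p : ℝ) < q + 1 := by linarith [h1.2, h2.1]
  have b : (q : ℝ) < p + 1 := by linarith [h1.1, h2.2]
  have a' : p < q + 1 := by exact_mod_cast a
  have b' : q < p + 1 := by exact_mod_cast b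
  have : q = p := by omega
  rw [this]

theorem fund_preimage {g : En n → En n} (hg : IsCubicIsometry g) :
    IsAddFundamentalDomain (latt n) (g ⁻¹' unitCell n) volume := by
  obtain ⟨L, c, h1, h2⟩ := cubic_form hg
  refine fund_cell.preimage_of_equiv (cubic_measurePreserving hg).quasiMeasurePreserving
    (e := fun v : latt n => (⟨L.symm v, (h2 _).1 (by rw [L.apply_symm_apply]; exact v.2)⟩ : latt n))
    ⟨fun v w h => Subtype.ext (L.symm.injective (congrArg Subtype.val h)),
      fun w => ⟨⟨L w, (h2 _).2 w.2⟩, Subtype.ext (by simp)⟩⟩ fun v x => ?_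
  simp [AddSubgroup.vadd_def, h1, add_assoc]

theorem PerF.comp_cubic {α : Type*} {g : En n → En n} (hg : IsCubicIsometry g) {f : En n → α}
    (hf : PerF f) : PerF fun x => f (g x) := by
  obtain ⟨L, c, h1, h2⟩ := cubic_form hg
  intro v hv x
  have : g (x + v) = g x + L v := by simp only [h1, map_add]; abel
  simp only [this]
  exact hf _ ((h2 v).2 hv) _

theorem PerF.vadd {α : Type*} {f : En n → α} (hf : PerF f) (v : latt n) (x : En n) :
    f (v +ᵥ x) = f x := by
  rw [AddSubgroup.vadd_def, vadd_eq_add, add_comm]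
  exact hf _ v.2 x

/-- integrals of periodic functions over the cell are invariant under cubic isometries -/
theorem integral_cell_cubic {g : En n → En n} (hg : IsCubicIsometry g) {f : En n → ℝ}
    (hf : PerF f) : ∫ x in unitCell n, f (g x) = ∫ x in unitCell n, f x := by
  rw [fund_cell.setIntegral_eq (fund_preimage hg) (hf.comp_cubic hg).vadd]
  exact (cubic_measurePreserving hg).setIntegral_preimage_emb (cubic_measurableEmbedding hg) f _

theorem lintegral_cell_cubic {g : En n → En n} (hg : IsCubicIsometry g) {f : En n → ENNReal}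
    (hf : PerF f) : ∫⁻ x in unitCell n, f (g x) = ∫⁻ x in unitCell n, f x := by
  rw [fund_cell.setLIntegral_eq (fund_preimage hg) _ (hf.comp_cubic hg).vadd]
  exact (cubic_measurePreserving hg).setLIntegral_comp_preimage_emb
    (cubic_measurableEmbedding hg) f _

theorem integral_cell_add {f : En n → ℝ} (hf : PerF f) (c : En n) :
    ∫ x in unitCell n, f (x + c) = ∫ x in unitCell n, f x :=
  integral_cell_cubic (cubic_add c) hf

/-- the volume can be computed in any translate `[c, c + 1)` of the cell -/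
theorem volume_inter_cell {E : Set (En n)} (hE : MeasurableSet E) (hp : IsLatticePeriodic E)
    (c : En n) : volume (E ∩ unitCell n) = volume (E ∩ {x | ∀ i, c i ≤ x i ∧ x i < c i + 1}) := by
  have e : {x : En n | ∀ i, c i ≤ x i ∧ x i < c i + 1} = (fun x => x + -c) ⁻¹' unitCell n := by
    ext x
    simp only [unitCell, Set.mem_preimage, Set.mem_ofPred_eq, PiLp.add_apply, PiLp.neg_apply]
    exact forall_congr' fun i => ⟨fun h => ⟨by linarith [h.1], by linarith [h.2]⟩,
      fun h => ⟨by linarith [h.1], by linarith [h.2]⟩⟩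
  rw [e]
  refine fund_cell.measure_set_eq (fund_preimage (cubic_add (-c))) hE fun v => ?_
  ext x
  rw [Set.mem_preimage, AddSubgroup.vadd_def, vadd_eq_add, add_comm]
  exact hp _ v.2 x

end Crest.Agent.R214.Mo
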