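import Crest.Agent.R214.EqCyl
import Crest.Agent.R214.MoCell

/-! Row 214, module EQ: a critical down-set that touches no far wall is an octant of a ball. -/

set_option autoImplicit false
open MeasureTheory Set Filter Topology Real

noncomputable section
namespace Crest.Agent.R214.Cs
open DS

variable {E : Set E3} {lam : ℝ} {c : Fin 3 → ℝ}

theorem eqb_int {α : Type*} [MeasurableSpace α] (μ : Measure α) [IsFiniteMeasure μ] {f : α → ℝ}
    (hf : Measurable f) (C : ℝ) (hC : ∀ᵐ x ∂μ, |f x| ≤ C) : Integrable f μ :=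
  (integrable_const C).mono' hf.aestronglyMeasurable hC

theorem eqb_ae_cube (hE : IsDS E) : ∀ᵐ x ∂(sig E), x ∈ cube := hE.sig_compl_cube

theorem eqb_top (hE : IsDS E) (i : Fin 3) (hV : 0 < vol E) :
    ∃ T, 0 < T ∧ T ≤ 1 ∧ (∀ᵐ x ∂(sig E), x i ≤ T) ∧ ∀ s ∈ Ioo (0 : ℝ) T, 0 < sec E i s := by
  have hne : E.Nonempty := by
    rw [nonempty_iff_ne_empty]
    rintro rfl
    simp [vol] at hV
  have hb : BddAbove ((fun x : E3 => x i) '' E) :=
    ⟨1, by rintro _ ⟨x, hx, rfl⟩; exact (hE.sub hx i).2.le⟩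
  have hle : ∀ x ∈ E, x i ≤ sSup ((fun x : E3 => x i) '' E) := fun x hx => le_csSup hb ⟨x, hx, rfl⟩
  refine ⟨sSup ((fun x : E3 => x i) '' E), ?_, ?_, ?_, ?_⟩
  · obtain ⟨x, hx⟩ := hne
    exact (hE.sub hx i).1.trans_le (hle x hx)
  · exact csSup_le (hne.image _) (by rintro _ ⟨x, hx, rfl⟩; exact (hE.sub hx i).2.le)
  · have hm : MeasurableSet {x : E3 | x i ≤ sSup ((fun x : E3 => x i) '' E)} :=
      measurableSet_le (by fun_prop) measurable_const
    have hk : ∀ k, ∀ᵐ x ∂(mu E k), x i ≤ sSup ((fun x : E3 => x i) '' E) := fun k => by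
      rw [mu, ae_map_iff (hE.measurable_gr k).aemeasurable hm]
      filter_upwards [ae_restrict_mem (hE.measurableSet_dom k)] with w hw
      by_cases hik : i = k
      · subst hik
        simp only [gr, ins_self]
        refine le_of_forall_lt_imp_le_of_dense fun s hs => ?_
        rcases le_or_gt s 0 with h0 | h0
        · obtain ⟨x, hx⟩ := hne
          exact h0.trans ((hE.sub hx i).1.le.trans (hle x hx))
        · simpa using hle _ (hE.mem_of_lt_ht h0 hs)
      · have h2 := hle _ (hE.mem_of_lt_ht (half_pos hw.2.1) (half_lt_self hw.2.1))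
        simpa [gr, ins, hik] using h2
    have ht : ∀ᵐ x ∂(tau E), x i ≤ sSup ((fun x : E3 => x i) '' E) := by
      rw [tau, ae_add_measure_iff, ae_add_measure_iff]
      exact ⟨⟨hk 0, hk 1⟩, hk 2⟩
    exact (withDensity_absolutelyContinuous _ _).ae_le ht
  · intro s hs
    obtain ⟨_, ⟨x, hx, rfl⟩, hsx⟩ := exists_lt_of_lt_csSup (hne.image _) hs.2
    have hc := hE.sub hx
    have hsub : Ioo 0 (x (i + 1)) ×ˢ Ioo 0 (x (i + 2)) ⊆ {w : ℝ × ℝ | ins i s w ∈ E} := by
      rintro w ⟨h1, h2⟩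
      refine hE.down x hx _ ((ins_mem_cube i s w).2 ⟨⟨hs.1, hsx.trans (hc i).2⟩,
        ⟨h1.1, h1.2.trans (hc _).2⟩, ⟨h2.1, h2.2.trans (hc _).2⟩⟩) fun k => ?_
      rcases fin3_cases i k with rfl | rfl | rfl
      · simpa using hsx.le
      · simpa using h1.2.le
      · simpa using h2.2.le
    have hfin : volume {w : ℝ × ℝ | ins i s w ∈ E} ≠ ⊤ := by
      refine ne_top_of_le_ne_top (b := volume DS.sq) (by rw [volume_sq]; simp) (measure_mono ?_)
      exact fun w hw => ((ins_mem_cube i s w).1 (hE.sub hw)).2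
    refine ENNReal.toReal_pos (ne_of_gt (lt_of_lt_of_le ?_ (measure_mono hsub))) hfin
    rw [Measure.volume_eq_prod, Measure.prod_prod]
    simp [(hc (i + 1)).1, (hc (i + 2)).1]

theorem eqb_low (h : Crit E lam c) (h1 : ∀ i, aone E i = 0) (hc : ∀ i, c i = 0) (hl : 0 < lam)
    (i : Fin 3) {s : ℝ} (hs : s ∈ Ioo (0 : ℝ) 1) (hpos : 0 < sec E i s) :
    2 * π / (3 * lam) * s ^ 3 ≤
      ∫ x, (Ioo (0 : ℝ) s).indicator (fun t => s ^ 2 - t ^ 2) (x i) ∂(sig E) := by
  have hE := h.ds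
  set g : ℝ → ℝ := (Ioo (0 : ℝ) s).indicator (fun t => s ^ 2 - t ^ 2) with hg
  set β : ℝ → ℝ := fun t => √(π * max (sec E i t) (sec E i s)) / (lam * max (sec E i t) (sec E i s))
    with hβ
  have mg : Measurable g := Measurable.indicator (by fun_prop) measurableSet_Ioo
  have ms := hE.measurable_sec i
  have mβ : Measurable β := by
    simp only [hβ]; fun_prop
  have g0 : ∀ t, 0 ≤ g t := fun t => indicator_nonneg (fun t ht => by nlinarith [ht.1, ht.2]) t
  have g1 : ∀ t, g t ≤ 1 := fun t => by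
    refine indicator_apply_le' (fun _ => ?_) (fun _ => zero_le_one)
    nlinarith [hs.1, hs.2, sq_nonneg t]
  have β0 : ∀ t, 0 ≤ β t := fun t => by
    have : 0 < max (sec E i t) (sec E i s) := lt_max_of_lt_right hpos
    simp only [hβ]; positivity
  have β1 : ∀ t, β t ≤ √π / (lam * sec E i s) := fun t => by
    have h2 : max (sec E i t) (sec E i s) ≤ 1 := max_le (hE.sec_le_one i t) (hE.sec_le_one i s)
    refine div_le_div₀ (Real.sqrt_nonneg _) (Real.sqrt_le_sqrt ?_) (by positivity) ?_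
    · nlinarith [Real.pi_pos]
    · exact mul_le_mul_of_nonneg_left (le_max_right _ _) hl.le
  set C := √π / (lam * sec E i s) with hC
  have C0 : 0 ≤ C := by positivity
  have bB : ∀ t, |2 * g t * β t| ≤ 2 * C := fun t => by
    have := g0 t; have := g1 t; have := β0 t; have := β1 t
    rw [abs_of_nonneg (by positivity)]; nlinarith
  have bK : ∀ t, |g t * β t ^ 2| ≤ C ^ 2 := fun t => by
    have := g0 t; have := g1 t; have := β0 t
    have h5 : β t ^ 2 ≤ C ^ 2 := pow_le_pow_left₀ (β0 t) (β1 t) 2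
    rw [abs_of_nonneg (by positivity)]; nlinarith [sq_nonneg (β t)]
  have mB : Measurable fun t => 2 * g t * β t := by fun_prop
  have mK : Measurable fun t => g t * β t ^ 2 := by fun_prop
  have hS := slice_le hE i (fun t => 2 * g t * β t) mB ⟨_, bB⟩
    (fun t => by have := g0 t; have := β0 t; positivity)
  have hQ := h.dens' i (fun t => g t * β t ^ 2) mK ⟨_, bK⟩
  have key : ∀ t ∈ Ioo (0 : ℝ) 1, g t * β t ^ 2 * (c i + lam * sec E i t) = π / lam * g t ∧
      2 * (π / lam * g t) ≤ 2 * g t * β t * pz E i t := by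
    intro t ht
    by_cases hts : t ∈ Ioo (0 : ℝ) s
    · have ha : sec E i s ≤ sec E i t := hE.sec_anti i ht hs hts.2.le
      have ha0 : 0 < sec E i t := hpos.trans_le ha
      have hb : β t = √(π * sec E i t) / (lam * sec E i t) := by simp only [hβ, max_eq_left ha]
      have hq : √(π * sec E i t) ^ 2 = π * sec E i t := Real.sq_sqrt (by positivity)
      have hp := pz_ge_sqrt hE i (h1 _) (h1 _) ht
      constructor
      · rw [hb, hc, div_pow, hq]; field_simp; ring
      · have e : π / lam = β t * √(π * sec E i t) := by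
          rw [hb, div_mul_eq_mul_div, ← pow_two, hq]; field_simp
        rw [e]
        have := mul_le_mul_of_nonneg_left hp (mul_nonneg (g0 t) (β0 t))
        nlinarith
    · have : g t = 0 := indicator_of_notMem hts _
      simp [this]
  have ig : ∫ t in Ioo (0 : ℝ) 1, g t = 2 / 3 * s ^ 3 := by
    rw [hg, setIntegral_indicator measurableSet_Ioo,
      inter_eq_right.2 (Ioo_subset_Ioo_right hs.2.le), ← integral_Ioc_eq_integral_Ioo,
      ← intervalIntegral.integral_of_le hs.1.le,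
      intervalIntegral.integral_sub (by simp) (by simp)]
    simp; ring
  have e1 : ∫ t in Ioo (0 : ℝ) 1, g t * β t ^ 2 * (c i + lam * sec E i t) =
      π / lam * (2 / 3 * s ^ 3) := by
    rw [← ig, ← integral_const_mul]
    exact setIntegral_congr_fun measurableSet_Ioo fun t ht => (key t ht).1
  have e2 : 2 * (π / lam * (2 / 3 * s ^ 3)) ≤ ∫ t in Ioo (0 : ℝ) 1, 2 * g t * β t * pz E i t := by
    rw [← ig, ← integral_const_mul, ← integral_const_mul]
    refine setIntegral_mono_on ?_ ?_ measurableSet_Ioo fun t ht => (key t ht).2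
    · refine (eqb_int _ mg 1 (Eventually.of_forall fun t => ?_)).const_mul _ |>.const_mul _
      rw [abs_of_nonneg (g0 t)]; exact g1 t
    · refine eqb_int _ (mB.mul (measurable_pz hE i)) (2 * C * 2) (Eventually.of_forall fun t => ?_)
      rw [abs_mul, abs_of_nonneg (pz_nonneg E i t)]
      exact mul_le_mul (bB t) (pz_le_two E i t) (pz_nonneg E i t) (by positivity)
  have mi : Measurable fun x : E3 => x i := by fun_prop
  have mn := measurable_nu E i
  have n1 : ∀ x, 0 ≤ 1 - nu E i x ^ 2 := fun x => by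
    nlinarith [nu_nonneg E i x, nu_le_one E i x]
  have iB : Integrable (fun x : E3 => 2 * g (x i) * β (x i) * √(1 - nu E i x ^ 2)) (sig E) := by
    refine eqb_int _ ((mB.comp mi).mul (by fun_prop)) (2 * C * 1) (Eventually.of_forall fun x => ?_)
    rw [abs_mul, abs_of_nonneg (Real.sqrt_nonneg _)]
    exact mul_le_mul (bB _) (Real.sqrt_le_one.2 (by nlinarith [sq_nonneg (nu E i x)]))
      (Real.sqrt_nonneg _) (by positivity)
  have iK : Integrable (fun x : E3 => g (x i) * β (x i) ^ 2 * (1 - nu E i x ^ 2)) (sig E) := by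
    refine eqb_int _ ((mK.comp mi).mul (by fun_prop)) (C ^ 2 * 1) (Eventually.of_forall fun x => ?_)
    rw [abs_mul, abs_of_nonneg (n1 x)]
    exact mul_le_mul (bK _) (by nlinarith [sq_nonneg (nu E i x)]) (n1 x) (by positivity)
  have e3 : ∫ x, (2 * g (x i) * β (x i) * √(1 - nu E i x ^ 2) -
      g (x i) * β (x i) ^ 2 * (1 - nu E i x ^ 2)) ∂(sig E) ≤ ∫ x, g (x i) ∂(sig E) := by
    refine integral_mono (iB.sub iK) (eqb_int _ (mg.comp mi) 1 (Eventually.of_forall fun x => ?_))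
      fun x => ?_
    · rw [abs_of_nonneg (g0 _)]; exact g1 _
    · have hq : √(1 - nu E i x ^ 2) ^ 2 = 1 - nu E i x ^ 2 := Real.sq_sqrt (n1 x)
      have := mul_nonneg (g0 (x i)) (sq_nonneg (1 - β (x i) * √(1 - nu E i x ^ 2)))
      simp only
      rw [← hq]
      simp only [Real.sqrt_sq (Real.sqrt_nonneg _)]
      nlinarith
  rw [integral_sub iB iK, hQ, e1] at e3
  have e4 : 2 * π / (3 * lam) * s ^ 3 = π / lam * (2 / 3 * s ^ 3) := by field_simp
  rw [e4]
  linarith

theorem eqb_int_sq (hE : IsDS E) (i : Fin 3) : Integrable (fun x : E3 => x i ^ 2) (sig E) := by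
  refine eqb_int _ (by fun_prop) 1 ?_
  filter_upwards [eqb_ae_cube hE] with x hx
  rw [abs_of_nonneg (sq_nonneg _)]
  nlinarith [(hx i).1, (hx i).2]

theorem eqb_moment (h : Crit E lam c) (h1 : ∀ i, aone E i = 0) (hc : ∀ i, c i = 0) (hl : 0 < lam)
    (i : Fin 3) : ∫ x, x i ^ 2 ∂(sig E) ≤ per E * (per E * lam / π) ^ 2 / 3 := by
  have hE := h.ds
  obtain ⟨T, T0, T1, hT, hpos⟩ := eqb_top hE i h.vol_pos
  have a1 : ∀ s ∈ Ioo (0 : ℝ) T, 2 * π / (3 * lam) * s ^ 3 ≤ per E * T ^ 2 - ∫ x, x i ^ 2 ∂(sig E) := by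
    intro s hs
    refine (eqb_low h h1 hc hl i ⟨hs.1, hs.2.trans_le T1⟩ (hpos s hs)).trans ?_
    have : ∫ x, (T ^ 2 - x i ^ 2) ∂(sig E) = per E * T ^ 2 - ∫ x, x i ^ 2 ∂(sig E) := by
      rw [integral_sub (integrable_const _) (eqb_int_sq hE i)]
      simp [per_eq_real]
    rw [← this]
    refine integral_mono_of_nonneg (Eventually.of_forall fun x =>
      indicator_nonneg (fun t ht => by nlinarith [ht.1, ht.2]) _)
      ((integrable_const _).sub (eqb_int_sq hE i)) ?_
    filter_upwards [hT, eqb_ae_cube hE] with x hx hx'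
    refine indicator_apply_le' (fun _ => ?_) (fun _ => ?_)
    · nlinarith [hs.1, hs.2]
    · nlinarith [(hx' i).1]
  have a2 : 2 * π / (3 * lam) * T ^ 3 ≤ per E * T ^ 2 - ∫ x, x i ^ 2 ∂(sig E) := by
    have ht : Tendsto (fun s : ℝ => 2 * π / (3 * lam) * s ^ 3) (𝓝[<] T)
        (𝓝 (2 * π / (3 * lam) * T ^ 3)) :=
      (Continuous.tendsto (by fun_prop) T).mono_left nhdsWithin_le_nhds
    refine le_of_tendsto ht ?_
    filter_upwards [Ioo_mem_nhdsLT T0] with s hs using a1 s hs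
  have hp := Real.pi_pos
  have A0 := per_nonneg E
  obtain ⟨m, hm⟩ : ∃ m, m = per E * lam / π := ⟨_, rfl⟩
  have m0 : 0 ≤ m := by rw [hm]; positivity
  have hA : per E = π / lam * m := by rw [hm]; field_simp
  have e4 : 2 * π / (3 * lam) = π / lam * (2 / 3) := by field_simp
  rw [← hm]
  rw [e4, hA] at a2
  rw [hA]
  have k0 : 0 < π / lam := by positivity
  have := mul_nonneg k0.le (mul_nonneg (sq_nonneg (m - T)) (by positivity : 0 ≤ m + 2 * T))
  nlinarith

theorem eqb_ht_ne_one (i : Fin 3) (h1 : aone E i = 0) :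
    ∀ᵐ w ∂(volume : Measure (ℝ × ℝ)), ¬ (w ∈ DS.sq ∧ DS.ht E i w = 1) := by
  have hfin : volume {w : ℝ × ℝ | w ∈ DS.sq ∧ DS.ht E i w = 1} ≠ ⊤ :=
    ne_top_of_le_ne_top (b := volume DS.sq) (by rw [volume_sq]; simp)
      (measure_mono fun w hw => hw.1)
  have := ((ENNReal.toReal_eq_zero_iff _).1 h1).resolve_right hfin
  rw [ae_iff]; simpa using this

theorem eqb_flux (hE : IsDS E) (i : Fin 3) (h1 : aone E i = 0) :
    ∫ x, x i * nu E i x ∂(sig E) = vol E := by
  rw [← integral_mu_nu E i (fun x => x i), hE.integral_mu i (by fun_prop), ← hE.integral_ht i]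
  simp only [gr, ins_self]
  refine (setIntegral_eq_of_subset_of_ae_sdiff_eq_zero measurableSet_sq.nullMeasurableSet
    (fun w hw => hw.1) ?_).symm
  filter_upwards [eqb_ht_ne_one i h1] with w hw hw'
  by_contra h0
  exact hw'.2 ⟨hw'.1, lt_of_le_of_ne (ht_nonneg E i w) (Ne.symm h0),
    lt_of_le_of_ne (ht_le_one E i w) fun h => hw ⟨hw'.1, h⟩⟩

/-- reflection in the coordinate `i` -/
def eqbRefl (i : Fin 3) (x : E3) : E3 := WithLp.toLp 2 fun j => (if j = i then -1 else 1) * x j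

theorem eqb_refl_mp (i : Fin 3) : MeasurePreserving (eqbRefl i) volume volume :=
  Mo.cubic_measurePreserving ⟨Equiv.refl _, fun j => if j = i then -1 else 1, 0,
    fun j => by by_cases h : j = i <;> simp [h], fun x j => by simp [eqbRefl]⟩

theorem eqb_half (i : Fin 3) {S : Set E3} (hS : MeasurableSet S)
    (hsym : ∀ x, eqbRefl i x ∈ S → x ∈ S) : 2 * volume (S ∩ {x | 0 < x i}) ≤ volume S := by
  have hm : MeasurableSet (S ∩ {x : E3 | 0 < x i}) :=
    hS.inter (measurableSet_lt measurable_const (by fun_prop))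
  have e := (eqb_refl_mp i).measure_preimage hm.nullMeasurableSet
  have hd : Disjoint (S ∩ {x : E3 | 0 < x i}) (eqbRefl i ⁻¹' (S ∩ {x : E3 | 0 < x i})) := by
    rw [disjoint_left]
    rintro x ⟨-, h1⟩ ⟨-, h2⟩
    simp [eqbRefl] at h1 h2
    linarith
  rw [two_mul]
  nth_rewrite 2 [← e]
  rw [← measure_union hd ((eqb_refl_mp i).measurable hm)]
  exact measure_mono (union_subset inter_subset_left fun x hx => hsym x hx.1)

theorem eqb_norm_sq (x : E3) : ‖x‖ ^ 2 = x 0 ^ 2 + x 1 ^ 2 + x 2 ^ 2 := by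
  rw [EuclideanSpace.norm_sq_eq]; simp [Fin.sum_univ_three]

theorem eqb_volume_ballO {r : ℝ} (hr : 0 < r) :
    volume (ballO r) ≤ ENNReal.ofReal (π * r ^ 3 / 6) := by
  set S0 : Set E3 := {x | x 0 ^ 2 + x 1 ^ 2 + x 2 ^ 2 < r ^ 2} with hS0
  have m0 : MeasurableSet S0 := measurableSet_lt (by fun_prop) measurable_const
  have mp : ∀ i, MeasurableSet {x : E3 | 0 < x i} := fun i =>
    measurableSet_lt measurable_const (by fun_prop)
  have e0 : S0 = Metric.ball 0 r := by
    ext x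
    rw [mem_ball_zero_iff, ← sq_lt_sq₀ (norm_nonneg x) hr.le, eqb_norm_sq]; rfl
  have a0 := eqb_half 0 m0 (fun x hx => by simpa [hS0, eqbRefl] using hx)
  have a1 := eqb_half 1 (m0.inter (mp 0)) (fun x hx => by simpa [hS0, eqbRefl] using hx)
  have a2 := eqb_half 2 ((m0.inter (mp 0)).inter (mp 1))
    (fun x hx => by simpa [hS0, eqbRefl] using hx)
  have a3 : volume (ballO r) ≤ volume (S0 ∩ {x | 0 < x 0} ∩ {x | 0 < x 1} ∩ {x | 0 < x 2}) :=
    measure_mono fun x hx => ⟨⟨⟨hx.2, (hx.1 0).1⟩, (hx.1 1).1⟩, (hx.1 2).1⟩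
  have a4 : 2 * (2 * (2 * volume (ballO r))) ≤ volume S0 :=
    le_trans (by gcongr; exact le_trans (by gcongr; exact le_trans (by gcongr) a2) a1) a0
  rw [e0, EuclideanSpace.volume_ball_fin_three] at a4
  have a5 : ENNReal.ofReal r ^ 3 * ENNReal.ofReal (π * 4 / 3) =
      2 * (2 * (2 * ENNReal.ofReal (π * r ^ 3 / 6))) := by
    rw [← ENNReal.ofReal_pow hr.le, ← ENNReal.ofReal_mul (by positivity), ← ENNReal.ofReal_ofNat 2,
      ← ENNReal.ofReal_mul (by positivity), ← ENNReal.ofReal_mul (by positivity),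
      ← ENNReal.ofReal_mul (by positivity)]
    congr 1; ring
  rw [a5, ENNReal.mul_le_mul_iff_right (by simp) (by simp),
    ENNReal.mul_le_mul_iff_right (by simp) (by simp),
    ENNReal.mul_le_mul_iff_right (by simp) (by simp)] at a4
  exact a4

theorem eqb_ae_ball (hE : IsDS E) (h1 : aone E 0 = 0) {r : ℝ} (hr : 0 < r)
    (hs : ∀ᵐ x ∂(sig E), x 0 ^ 2 + x 1 ^ 2 + x 2 ^ 2 = r ^ 2) (hV : π * r ^ 3 / 6 = vol E) :
    E =ᵐ[volume] ballO r := by
  have hm : MeasurableSet {x : E3 | x 0 ^ 2 + x 1 ^ 2 + x 2 ^ 2 = r ^ 2} :=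
    measurableSet_eq_fun (by fun_prop) measurable_const
  have b1 : ∀ᵐ x ∂(mu E 0), x 0 ^ 2 + x 1 ^ 2 + x 2 ^ 2 = r ^ 2 := by
    rw [mu_eq]; exact (withDensity_absolutelyContinuous _ _).ae_le hs
  rw [mu, ae_map_iff (hE.measurable_gr 0).aemeasurable hm,
    ae_restrict_iff' (hE.measurableSet_dom 0)] at b1
  have b2 : ∀ᵐ w ∂(volume : Measure (ℝ × ℝ)), ∀ t, ins 0 t w ∈ E →
      t ^ 2 + w.1 ^ 2 + w.2 ^ 2 ≤ r ^ 2 := by
    filter_upwards [b1, eqb_ht_ne_one 0 h1] with w hw hw1 t ht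
    obtain ⟨ht0, hsq⟩ := (ins_mem_cube 0 t w).1 (hE.sub ht)
    have hle := hE.le_ht ht
    have := hw ⟨hsq, ht0.1.trans_le hle, lt_of_le_of_ne (ht_le_one E 0 w) fun h => hw1 ⟨hsq, h⟩⟩
    simp [gr, ins] at this
    nlinarith [ht0.1]
  have b3 : ∀ᵐ p ∂(volume : Measure (ℝ × (ℝ × ℝ))), ins 0 p.1 p.2 ∈ E →
      p.1 ^ 2 + p.2.1 ^ 2 + p.2.2 ^ 2 ≤ r ^ 2 := by
    rw [Measure.volume_eq_prod]
    filter_upwards [Measure.quasiMeasurePreserving_snd.ae b2] with p hp using hp p.1
  have b4 : ∀ᵐ x ∂(volume : Measure E3), x ∈ E → x 0 ^ 2 + x 1 ^ 2 + x 2 ^ 2 ≤ r ^ 2 := by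
    have hm2 : MeasurableSet {x : E3 | x ∈ E → x 0 ^ 2 + x 1 ^ 2 + x 2 ^ 2 ≤ r ^ 2} :=
      hE.meas.imp (measurableSet_le (by fun_prop) measurable_const)
    rw [← (measurePreserving_ins 0).map_eq,
      ae_map_iff (measurePreserving_ins 0).measurable.aemeasurable hm2]
    filter_upwards [b3] with p hp hpE
    simpa [ins] using hp hpE
  have b5 : ∀ᵐ x ∂(volume : Measure E3), x ∉ Metric.sphere (0 : E3) r :=
    compl_mem_ae_iff.2 (Measure.addHaar_sphere volume 0 r)
  have b6 : E ≤ᵐ[volume] ballO r := by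
    filter_upwards [b4, b5] with x hx hx' hxE
    refine ⟨hE.sub hxE, lt_of_le_of_ne (hx hxE) fun h => hx' ?_⟩
    rw [mem_sphere_zero_iff_norm, ← sq_eq_sq₀ (norm_nonneg x) hr.le, eqb_norm_sq]; exact h
  have b7 := eqb_volume_ballO hr
  exact ae_eq_of_ae_subset_of_measure_ge b6 (by rw [eqc_volume_eq hE, ← hV]; exact b7)
    hE.meas.nullMeasurableSet (ne_top_of_le_ne_top ENNReal.ofReal_ne_top b7)

theorem eq_ball (h : Crit E lam c) (h1 : ∀ i, aone E i = 0) (hc : ∀ i, c i = 0) : Model E := by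
  have hE := h.ds
  have hV0 := h.vol_pos
  have hp := Real.pi_pos
  have hsum : 2 * per E = 3 * lam * vol E := by
    have := h.sum_c 0
    rw [hc, hc, hc] at this; linarith
  have A0 : 0 < per E := by
    have a1 := hE.azero_eq 0
    have a2 := mu_le_per E 0
    have a3 := vol_le_azero hE 0
    rw [h1] at a1; linarith
  have hl : 0 < lam := by
    by_contra hn
    push Not at hn
    nlinarith
  have iN : ∀ i, Integrable (fun x => nu E i x ^ 2) (sig E) := fun i =>
    eqb_int _ ((measurable_nu E i).pow_const 2) 1 (Eventually.of_forall fun x => by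
      rw [abs_of_nonneg (sq_nonneg _)]; nlinarith [nu_nonneg E i x, nu_le_one E i x])
  have iX : ∀ i, Integrable (fun x : E3 => x i * nu E i x) (sig E) := fun i => by
    refine eqb_int _ (Measurable.mul (by fun_prop) (measurable_nu E i)) 1 ?_
    filter_upwards [eqb_ae_cube hE] with x hx
    have := nu_nonneg E i x
    rw [abs_of_nonneg (mul_nonneg (hx i).1.le this)]
    nlinarith [(hx i).1, (hx i).2, nu_le_one E i x]
  have iD : ∀ i, Integrable (fun x : E3 => (nu E i x - lam / 2 * x i) ^ 2) (sig E) := fun i => by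
    refine (((iN i).sub ((iX i).const_mul lam)).add
      ((eqb_int_sq hE i).const_mul (lam ^ 2 / 4))).congr (Eventually.of_forall fun x => ?_)
    simp only [Pi.add_apply, Pi.sub_apply]; ring
  have eD : ∀ i, ∫ x, (nu E i x - lam / 2 * x i) ^ 2 ∂(sig E) =
      per E - 2 * lam * vol E + lam ^ 2 / 4 * ∫ x, x i ^ 2 ∂(sig E) := fun i => by
    have : ∫ x, (nu E i x - lam / 2 * x i) ^ 2 ∂(sig E) =
        ∫ x, ((nu E i x ^ 2 - lam * (x i * nu E i x)) + lam ^ 2 / 4 * x i ^ 2) ∂(sig E) :=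
      integral_congr_ae (Eventually.of_forall fun x => by simp only; ring)
    have i1 : Integrable (fun x : E3 => nu E i x ^ 2 - lam * (x i * nu E i x)) (sig E) :=
      (iN i).sub ((iX i).const_mul lam)
    rw [this, integral_add i1 ((eqb_int_sq hE i).const_mul _),
      integral_sub (iN i) ((iX i).const_mul lam), integral_const_mul, integral_const_mul,
      h.N_eq, hc, eqb_flux hE i (h1 i)]
    ring
  have nD : ∀ i, 0 ≤ ∫ x, (nu E i x - lam / 2 * x i) ^ 2 ∂(sig E) := fun i =>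
    integral_nonneg fun x => sq_nonneg _
  have uD : ∀ i, ∫ x, (nu E i x - lam / 2 * x i) ^ 2 ∂(sig E) ≤
      per E / 3 * ((per E * lam ^ 2 / (2 * π)) ^ 2 - 1) := fun i => by
    rw [eD]
    have a1 := mul_le_mul_of_nonneg_left (eqb_moment h h1 hc hl i)
      (by positivity : 0 ≤ lam ^ 2 / 4)
    have a2 : lam ^ 2 / 4 * (per E * (per E * lam / π) ^ 2 / 3) =
        per E / 3 * (per E * lam ^ 2 / (2 * π)) ^ 2 := by field_simp; ring
    linarith
  have hVe : vol E = 2 * per E / (3 * lam) := by field_simp; linarith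
  have up : per E * lam ^ 2 ≤ 2 * π := by
    have a1 := h.per_ball
    rw [hVe] at a1
    have a2 : 9 * π / 2 * (2 * per E / (3 * lam)) ^ 2 = per E ^ 2 * (2 * π / lam ^ 2) := by
      field_simp; ring
    rw [a2, pow_succ] at a1
    have a3 := le_of_mul_le_mul_left a1 (by positivity)
    rwa [le_div_iff₀ (by positivity)] at a3
  have lo : 2 * π ≤ per E * lam ^ 2 := by
    have a1 := (nD 0).trans (uD 0)
    have a2 : 0 ≤ (per E * lam ^ 2 / (2 * π)) ^ 2 - 1 :=
      (mul_nonneg_iff_of_pos_left (by positivity : 0 < per E / 3)).1 a1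
    have a3 : 1 ≤ per E * lam ^ 2 / (2 * π) := by
      by_contra hn
      push Not at hn
      have : 0 ≤ per E * lam ^ 2 / (2 * π) := by positivity
      nlinarith
    rwa [le_div_iff₀ (by positivity), one_mul] at a3
  have heq : per E * lam ^ 2 = 2 * π := le_antisymm up lo
  have zD : ∀ i, ∀ᵐ x ∂(sig E), nu E i x = lam / 2 * x i := fun i => by
    have a1 := uD i
    rw [heq, div_self (by positivity)] at a1
    have a2 : ∫ x, (nu E i x - lam / 2 * x i) ^ 2 ∂(sig E) = 0 :=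
      le_antisymm (by simpa using a1) (nD i)
    filter_upwards [(integral_eq_zero_iff_of_nonneg (fun x => sq_nonneg _) (iD i)).1 a2] with x hx
    have : (nu E i x - lam / 2 * x i) ^ 2 = 0 := hx
    exact sub_eq_zero.1 (pow_eq_zero_iff two_ne_zero |>.1 this)
  have hA : per E = 2 * π / lam ^ 2 := by field_simp; linarith
  have hV : π * (2 / lam) ^ 3 / 6 = vol E := by rw [hVe, hA]; field_simp; ring
  have hcube : per E ^ 3 = 9 * π / 2 * vol E ^ 2 := by rw [hVe, hA]; field_simp; ring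
  refine Or.inl ⟨?_, hcube, 2 / lam, by positivity, hV,
    eqb_ae_ball hE (h1 0) (by positivity) ?_ hV⟩
  · have h2 : (per E ^ 2) ^ 3 ≤ (π * vol E) ^ 3 := pow_le_pow_left₀ (by positivity) h.per_tube 3
    have h3 : (per E ^ 2) ^ 3 = (9 * π / 2 * vol E ^ 2) ^ 2 := by rw [← hcube]; ring
    rw [h3] at h2
    have h4 : 0 < π ^ 2 * vol E ^ 3 := by positivity
    have h5 : π ^ 2 * vol E ^ 3 * (81 / 4 * vol E) ≤ π ^ 2 * vol E ^ 3 * π := by nlinarith
    have := le_of_mul_le_mul_left h5 h4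
    linarith
  · filter_upwards [zD 0, zD 1, zD 2, nu_sq_ae E] with x a0 a1 a2 a3
    rw [Fin.sum_univ_three, a0, a1, a2] at a3
    field_simp
    linarith

end Crest.Agent.R214.Cs
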