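import Crest.Agent.R214.CsT1
import Crest.Agent.R214.CsT2
import Crest.Agent.R214.CsT3
import Crest.Agent.R214.EqBall

/-! Row 214, module CASES: a critical down-set is one of the three models. -/

set_option autoImplicit false
open MeasureTheory Set Filter Topology Real

noncomputable section
namespace Crest.Agent.R214.Cs
open DS

variable {E : Set E3} {lam : ℝ} {c : Fin 3 → ℝ}

/-- the numerical exclusion of the Lawson type -/
def LawsonFalse : Prop :=
  ∀ lam V A W a0 : ℝ, 0 < lam → lam ≤ 3 → 0 < V → V ≤ 1 / 2 → A ≤ 1 → A ^ 2 ≤ π * V → V ≤ a0 →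
    a0 ≤ 1 → 0 ≤ W → W ≤ 1 → Law.Hole W a0 (lam * a0) → Law.FunZ lam V A W a0 → False

theorem Crit.case1 (h : Crit E lam c) (i : Fin 3) (h1 : aone E (i + 1) = 0) (h2 : aone E (i + 2) = 0) :
    Model E := by
  rcases h.t1 i h1 h2 with H | H
  · exact eq_cyl h i H
  · have hc : ∀ j, c j = 0 := fun j => by
      rcases fin3_cases i j with rfl | rfl | rfl
      · exact H
      · exact h.c_eq_zero _ h1
      · exact h.c_eq_zero _ h2
    exact eq_ball h (fun j => h.aone_eq_zero j (hc j)) hc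

theorem Crit.case2 (hL : LawsonFalse) (h : Crit E lam c) (i : Fin 3) (h0 : aone E i = 0) (h1 : aone E (i + 1) ≠ 0)
    (h2 : aone E (i + 2) ≠ 0) : Model E := by
  rcases h.graph.nonneg.eq_or_lt with hl | hl
  · have hs := h.sum_c i
    have n1 := h.N_nonneg (i + 1)
    have n2 := h.N_nonneg (i + 2)
    rw [h.c_eq_zero i h0] at hs
    refine eq_cyl h (i + 1) ?_
    rw [← hl] at hs n1 n2 ⊢
    linarith
  · exfalso
    rcases h.sphere_or with H | ⟨hl3, -⟩
    · exact h1 (h.aone_eq_zero _ (H _))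
    obtain ⟨W, hW0, hW1, hH, hZ⟩ := h.lawson_data i h0 h1 h2 hl
    exact hL lam (vol E) (per E) W (azero E i) hl hl3 h.vol_pos h.vol_le h.per_slab h.per_tube
      (vol_le_azero h.ds i) (azero_le_one E i) hW0 hW1 hH hZ

theorem cases_of (hL : LawsonFalse) (h : Crit E lam c) : Model E := by
  by_cases h0 : aone E 0 = 0 <;> by_cases h1 : aone E 1 = 0 <;> by_cases h2 : aone E 2 = 0
  · exact h.case1 0 h1 h2
  · exact h.case1 2 h0 h1
  · exact h.case1 1 h2 h0
  · exact h.case2 hL 0 h0 h1 h2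
  · exact h.case1 0 h1 h2
  · exact h.case2 hL 1 h1 h2 h0
  · exact h.case2 hL 2 h2 h0 h1
  · exact (h.t3 fun i => by fin_cases i <;> assumption).elim

end Crest.Agent.R214.Cs
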