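import Crest.Agent.R214.DSHt

/-! Row 214: surface measure, normal, calibration inequality for a down-set. -/

set_option autoImplicit false
open MeasureTheory Set Filter Topology

noncomputable section
namespace Crest.Agent.R214.DS

variable {E : Set E3}

theorem sigA_meas_th (E : Set E3) (i : Fin 3) : Measurable (th E i) :=
  (Measure.measurable_rnDeriv _ _).ennreal_toReal

theorem sigA_meas_nrm (E : Set E3) : Measurable (nrm E) :=
  ((((sigA_meas_th E 0).pow_const 2).add ((sigA_meas_th E 1).pow_const 2)).add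
    ((sigA_meas_th E 2).pow_const 2)).sqrt

theorem sigA_th_nonneg (E : Set E3) (i : Fin 3) (x : E3) : 0 ≤ th E i x := ENNReal.toReal_nonneg

theorem sigA_nrm_nonneg (E : Set E3) (x : E3) : 0 ≤ nrm E x := Real.sqrt_nonneg _

theorem sigA_nrm_sq (E : Set E3) (x : E3) :
    nrm E x ^ 2 = th E 0 x ^ 2 + th E 1 x ^ 2 + th E 2 x ^ 2 := Real.sq_sqrt (by positivity)

theorem sigA_le_tau (E : Set E3) (i : Fin 3) : mu E i ≤ tau E := by
  unfold tau
  fin_cases i
  · exact Measure.le_add_right (Measure.le_add_right le_rfl)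
  · exact Measure.le_add_right (Measure.le_add_left le_rfl)
  · exact Measure.le_add_left le_rfl

theorem sigA_th_le (E : Set E3) (i : Fin 3) : ∀ᵐ x ∂(tau E), th E i x ≤ 1 := by
  filter_upwards [Measure.rnDeriv_le_one_of_le (sigA_le_tau E i)] with x hx
  exact ENNReal.toReal_le_of_le_ofReal zero_le_one (by simpa using hx)

theorem sigA_th_le_nrm (E : Set E3) (i : Fin 3) (x : E3) : th E i x ≤ nrm E x := by
  refine Real.le_sqrt_of_sq_le ?_
  have h0 := sq_nonneg (th E 0 x); have h1 := sq_nonneg (th E 1 x); have h2 := sq_nonneg (th E 2 x)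
  fin_cases i
  · show th E 0 x ^ 2 ≤ _; linarith
  · show th E 1 x ^ 2 ≤ _; linarith
  · show th E 2 x ^ 2 ≤ _; linarith

instance finite_sig (E : Set E3) : IsFiniteMeasure (sig E) := by
  refine isFiniteMeasure_withDensity (ne_of_lt (lt_of_le_of_lt
    (lintegral_mono_ae (g := fun _ => ENNReal.ofReal 2) ?_) ?_))
  · filter_upwards [sigA_th_le E 0, sigA_th_le E 1, sigA_th_le E 2] with x h0 h1 h2
    refine ENNReal.ofReal_le_ofReal (Real.sqrt_le_iff.2 ⟨by norm_num, ?_⟩)
    nlinarith [sigA_th_nonneg E 0 x, sigA_th_nonneg E 1 x, sigA_th_nonneg E 2 x]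
  · rw [lintegral_const]
    exact ENNReal.mul_lt_top ENNReal.ofReal_lt_top (measure_lt_top _ _)

theorem measurable_nu (E : Set E3) (i : Fin 3) : Measurable (nu E i) :=
  (sigA_meas_th E i).div (sigA_meas_nrm E)

theorem nu_nonneg (E : Set E3) (i : Fin 3) (x : E3) : 0 ≤ nu E i x :=
  div_nonneg (sigA_th_nonneg E i x) (sigA_nrm_nonneg E x)

theorem sigA_sum (E : Set E3) (x : E3) (h : nrm E x ≠ 0) : ∑ i, nu E i x ^ 2 = 1 := by
  simp only [Fin.sum_univ_three, nu, div_pow]
  rw [← add_div, ← add_div, ← sigA_nrm_sq, div_self (pow_ne_zero 2 h)]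

theorem nu_sq_le (E : Set E3) (x : E3) : ∑ i, nu E i x ^ 2 ≤ 1 := by
  by_cases h : nrm E x = 0
  · simp [nu, h]
  · exact (sigA_sum E x h).le

theorem nu_le_one (E : Set E3) (i : Fin 3) (x : E3) : nu E i x ≤ 1 :=
  div_le_one_of_le₀ (sigA_th_le_nrm E i x) (sigA_nrm_nonneg E x)

theorem nu_sq_ae (E : Set E3) : ∀ᵐ x ∂(sig E), ∑ i, nu E i x ^ 2 = 1 := by
  rw [sig, ae_withDensity_iff (sigA_meas_nrm E).ennreal_ofReal]
  refine Eventually.of_forall fun x hx => sigA_sum E x fun h => hx ?_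
  rw [h, ENNReal.ofReal_zero]

theorem mu_eq (E : Set E3) (i : Fin 3) :
    mu E i = (sig E).withDensity (fun x => ENNReal.ofReal (nu E i x)) := by
  have : (mu E i).HaveLebesgueDecomposition (tau E) :=
    Measure.haveLebesgueDecomposition_of_sigmaFinite _ _
  rw [sig, ← withDensity_mul _ (sigA_meas_nrm E).ennreal_ofReal (measurable_nu E i).ennreal_ofReal]
  conv_lhs => rw [← Measure.withDensity_rnDeriv_eq (mu E i) (tau E)
    (Measure.absolutelyContinuous_of_le (sigA_le_tau E i))]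
  refine withDensity_congr_ae ?_
  filter_upwards [Measure.rnDeriv_lt_top (mu E i) (tau E)] with x hx
  have e : nrm E x * nu E i x = th E i x := by
    by_cases h : nrm E x = 0
    · rw [h, zero_mul]
      exact le_antisymm (sigA_th_nonneg E i x) (h ▸ sigA_th_le_nrm E i x)
    · rw [nu, mul_div_cancel₀ _ h]
  rw [Pi.mul_apply, ← ENNReal.ofReal_mul (sigA_nrm_nonneg E x), e, th,
    ENNReal.ofReal_toReal hx.ne]

theorem integral_mu_nu (E : Set E3) (i : Fin 3) (g : E3 → ℝ) :
    ∫ x, g x ∂(mu E i) = ∫ x, g x * nu E i x ∂(sig E) := by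
  rw [mu_eq E i, integral_withDensity_eq_integral_toReal_smul (measurable_nu E i).ennreal_ofReal
    (Eventually.of_forall fun _ => ENNReal.ofReal_lt_top)]
  refine integral_congr_ae (Eventually.of_forall fun x => ?_)
  simp only [ENNReal.toReal_ofReal (nu_nonneg E i x), smul_eq_mul, mul_comm]

theorem IsDS.sig_compl_cube (hE : IsDS E) : sig E cubeᶜ = 0 := by
  refine withDensity_absolutelyContinuous _ _ ?_
  simp only [tau, Measure.add_apply, hE.mu_compl_cube, add_zero]

theorem per_eq_real (E : Set E3) : per E = (sig E).real univ := rfl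

theorem per_nonneg (E : Set E3) : 0 ≤ per E := ENNReal.toReal_nonneg

private theorem sB_abs_le {n : ℕ} (a : Fin n → ℝ) (h : ∑ i, a i ^ 2 ≤ 1) (i : Fin n) :
    |a i| ≤ 1 := by
  have : a i ^ 2 ≤ ∑ j, a j ^ 2 :=
    Finset.single_le_sum (f := fun j => a j ^ 2) (fun j _ => sq_nonneg _) (Finset.mem_univ i)
  exact abs_le_one_iff_mul_self_le_one.mpr (by nlinarith)

private theorem sB_cs {n : ℕ} (a b : Fin n → ℝ) (h : ∑ i, a i ^ 2 ≤ 1) :
    ∑ i, a i * b i ≤ Real.sqrt (∑ i, b i ^ 2) := by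
  refine Real.le_sqrt_of_sq_le ?_
  have h1 := Finset.sum_mul_sq_le_sq_mul_sq Finset.univ a b
  have h2 : 0 ≤ ∑ i, b i ^ 2 := Finset.sum_nonneg fun i _ => sq_nonneg _
  nlinarith

private theorem sB_int {Ω : Type*} [MeasurableSpace Ω] (ρ : Measure Ω) [IsFiniteMeasure ρ]
    {f : Ω → ℝ} (hf : Measurable f) (h : ∀ x, |f x| ≤ 1) : Integrable f ρ :=
  Integrable.of_bound hf.aestronglyMeasurable 1 (Eventually.of_forall h)

private theorem sB_nu_abs (E : Set E3) (i : Fin 3) (x : E3) : |nu E i x| ≤ 1 :=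
  sB_abs_le _ (nu_sq_le E x) i

private theorem sB_mul_abs {a b : ℝ} (ha : |a| ≤ 1) (hb : |b| ≤ 1) : |a * b| ≤ 1 := by
  rw [abs_mul]; exact mul_le_one₀ ha (abs_nonneg _) hb

/-- calibration inequality -/
theorem cal (E : Set E3) (Φ : Fin 3 → E3 → ℝ) (hΦ : ∀ i, Measurable (Φ i))
    (h1 : ∀ x, ∑ i, Φ i x ^ 2 ≤ 1) : ∑ i, ∫ x, Φ i x ∂(mu E i) ≤ per E := by
  have hi : ∀ i, Integrable (fun x => Φ i x * nu E i x) (sig E) := fun i =>
    sB_int _ ((hΦ i).mul (measurable_nu E i)) fun x =>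
      sB_mul_abs (sB_abs_le _ (h1 x) i) (sB_nu_abs E i x)
  simp_rw [integral_mu_nu]
  rw [← integral_finsetSum _ fun i _ => hi i, per_eq_real]
  calc ∫ x, ∑ i, Φ i x * nu E i x ∂(sig E) ≤ ∫ _x, (1 : ℝ) ∂(sig E) := by
        refine integral_mono (integrable_finsetSum _ fun i _ => hi i) (integrable_const _)
          fun x => ?_
        refine (sB_cs _ _ (h1 x)).trans ?_
        exact Real.sqrt_le_one.mpr (nu_sq_le E x)
    _ = (sig E).real univ := by simp

theorem per_eq_sum (E : Set E3) : per E = ∑ i, ∫ x, nu E i x ∂(mu E i) := by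
  have hi : ∀ i, Integrable (fun x => nu E i x * nu E i x) (sig E) := fun i =>
    sB_int _ ((measurable_nu E i).mul (measurable_nu E i)) fun x =>
      sB_mul_abs (sB_nu_abs E i x) (sB_nu_abs E i x)
  simp_rw [integral_mu_nu]
  rw [← integral_finsetSum _ fun i _ => hi i, per_eq_real]
  calc (sig E).real univ = ∫ _x, (1 : ℝ) ∂(sig E) := by simp
    _ = _ := by
        refine integral_congr_ae ?_
        filter_upwards [nu_sq_ae E] with x hx
        rw [← hx]
        simp [pow_two]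

theorem per_le_sum (E : Set E3) : per E ≤ ∑ i, (mu E i).real univ := by
  rw [per_eq_sum]
  refine Finset.sum_le_sum fun i _ => ?_
  calc ∫ x, nu E i x ∂(mu E i) ≤ ∫ _x, (1 : ℝ) ∂(mu E i) :=
        integral_mono (sB_int _ (measurable_nu E i) (sB_nu_abs E i)) (integrable_const _)
          fun x => nu_le_one E i x
    _ = _ := by simp

theorem mu_le_per (E : Set E3) (i : Fin 3) : (mu E i).real univ ≤ per E := by
  have h := integral_mu_nu E i fun _ => 1
  simp only [integral_const, smul_eq_mul, mul_one, one_mul] at h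
  rw [h, per_eq_real]
  calc ∫ x, nu E i x ∂(sig E) ≤ ∫ _x, (1 : ℝ) ∂(sig E) :=
        integral_mono (sB_int _ (measurable_nu E i) (sB_nu_abs E i)) (integrable_const _)
          fun x => nu_le_one E i x
    _ = _ := by simp

private theorem sB_param (E : Set E3) {Ω : Type*} [MeasurableSpace Ω] (ρ : Measure Ω)
    (T : Ω → E3) (hT : Measurable T) (θ : Fin 3 → Ω → ℝ) (hθ : ∀ i, Measurable (θ i))
    (hθi : ∀ i, Integrable (θ i) ρ)
    (h : ∀ i, ∫ x, nu E i x ∂(mu E i) = ∫ ω, nu E i (T ω) * θ i ω ∂ρ) :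
    per E ≤ ∫ ω, Real.sqrt (∑ i, θ i ω ^ 2) ∂ρ := by
  have hi : ∀ i, Integrable (fun ω => nu E i (T ω) * θ i ω) ρ := fun i =>
    (hθi i).bdd_mul (c := 1) ((measurable_nu E i).comp hT).aestronglyMeasurable
      (Eventually.of_forall fun ω => sB_nu_abs E i _)
  have hs : Integrable (fun ω => Real.sqrt (∑ i, θ i ω ^ 2)) ρ := by
    refine Integrable.mono' (integrable_finsetSum Finset.univ fun i _ => (hθi i).abs) ?_
      (Eventually.of_forall fun ω => ?_)
    · exact (Finset.measurable_sum _ fun i _ => (hθ i).pow_const 2).sqrt.aestronglyMeasurable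
    · rw [Real.norm_eq_abs, abs_of_nonneg (Real.sqrt_nonneg _)]
      refine Real.sqrt_le_iff.mpr ⟨Finset.sum_nonneg fun i _ => abs_nonneg _, ?_⟩
      simp only [Fin.sum_univ_three]
      have h0 := abs_nonneg (θ 0 ω)
      have h1 := abs_nonneg (θ 1 ω)
      have h2 := abs_nonneg (θ 2 ω)
      rw [← sq_abs (θ 0 ω), ← sq_abs (θ 1 ω), ← sq_abs (θ 2 ω)]
      nlinarith [mul_nonneg h0 h1, mul_nonneg h0 h2, mul_nonneg h1 h2]
  rw [per_eq_sum]
  simp_rw [h]
  rw [← integral_finsetSum _ fun i _ => hi i]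
  exact integral_mono (integrable_finsetSum _ fun i _ => hi i) hs fun ω =>
    sB_cs _ _ (nu_sq_le E (T ω))

/-- the perimeter in any parametrisation: `mu E i` is the image under `T` of `θ i • ρ` -/
theorem per_le_param (E : Set E3) {Ω : Type*} [MeasurableSpace Ω] (ρ : Measure Ω) [IsFiniteMeasure ρ]
    (T : Ω → E3) (hT : Measurable T) (θ : Fin 3 → Ω → ℝ) (hθ : ∀ i, Measurable (θ i))
    (hθ0 : ∀ i ω, 0 ≤ θ i ω) (hθi : ∀ i, Integrable (θ i) ρ)
    (h : ∀ i, mu E i = (ρ.withDensity (fun ω => ENNReal.ofReal (θ i ω))).map T) :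
    per E ≤ ∫ ω, Real.sqrt (∑ i, θ i ω ^ 2) ∂ρ := by
  refine sB_param E ρ T hT θ hθ hθi fun i => ?_
  rw [h i, integral_map hT.aemeasurable (measurable_nu E i).aestronglyMeasurable,
    integral_withDensity_eq_integral_toReal_smul (hθ i).ennreal_ofReal
      (Eventually.of_forall fun _ => ENNReal.ofReal_lt_top)]
  refine integral_congr_ae (Eventually.of_forall fun ω => ?_)
  simp [ENNReal.toReal_ofReal (hθ0 i ω), mul_comm]

/-- same, with test functions -/
theorem per_le_param' (E : Set E3) {Ω : Type*} [MeasurableSpace Ω] (ρ : Measure Ω) [IsFiniteMeasure ρ]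
    (T : Ω → E3) (hT : Measurable T) (θ : Fin 3 → Ω → ℝ) (hθ : ∀ i, Measurable (θ i))
    (hθi : ∀ i, Integrable (θ i) ρ)
    (h : ∀ i, ∀ g : E3 → ℝ, Measurable g → (∀ x, |g x| ≤ 1) →
      ∫ x, g x ∂(mu E i) = ∫ ω, g (T ω) * θ i ω ∂ρ) :
    per E ≤ ∫ ω, Real.sqrt (∑ i, θ i ω ^ 2) ∂ρ :=
  sB_param E ρ T hT θ hθ hθi fun i => h i _ (measurable_nu E i) (sB_nu_abs E i)

end Crest.Agent.R214.DS
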