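import Crest.Agent.R214.IsoArea

/-! # Row 214, module ISO: lower bounds for the planar perimeter of a down-set

Notation: `a = area f`, `U = top g`, `W = bot g`, `h0 = top f`, `h1 = bot f`.
All bounds also hold for the swapped pair (`Pair.swap`, `pl_swap`, `Pair.area_eq`) and for the
reflected complement (`Pair.compl`, `pl_compl`, `Pair.area_compl`, `top_compl`, `bot_compl`). -/

namespace Crest.Agent.R214.Iso

open MeasureTheory Set Real

theorem Pair.measurableSet_act {f g : ℝ → ℝ} (h : Pair f g) : MeasurableSet (act f) := by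
  refine Set.OrdConnected.measurableSet ⟨?_⟩
  rintro x ⟨hx, _, hx1⟩ y ⟨hy, hy0, _⟩ t ⟨ht1, ht2⟩
  have ht : t ∈ Ioo (0:ℝ) 1 := ⟨hx.1.trans_le ht1, ht2.trans_lt hy.2⟩
  exact ⟨ht, hy0.trans_le (h.antitoneOn ht hy ht2), (h.antitoneOn hx ht ht1).trans_lt hx1⟩

/-- Clamping to `[-1, 1]`. -/
noncomputable def clamp (t : ℝ) : ℝ := max (-1) (min t 1)

theorem continuous_clamp : Continuous clamp := by unfold clamp; fun_prop

theorem clamp_sq_le (t : ℝ) : clamp t ^ 2 ≤ 1 := by
  rw [sq_le_one_iff_abs_le_one, abs_le]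
  exact ⟨le_max_left _ _, max_le (by norm_num) (min_le_right _ _)⟩

theorem clamp_eq {t : ℝ} (h : |t| ≤ 1) : clamp t = t := by
  rw [abs_le] at h
  unfold clamp
  rw [min_eq_left h.2, max_eq_right h.1]

/-- The field `(u x, √(1 - (u x)²))` for a Borel function `u`, clamped. -/
theorem adm_of_fun {u : ℝ → ℝ} (hu : Measurable u) :
    Adm (fun x _ => clamp (u x)) (fun x _ => √(1 - clamp (u x) ^ 2)) where
  mφ := continuous_clamp.measurable.comp (hu.comp measurable_fst)
  mψ := by
    have : Measurable fun p : ℝ × ℝ => clamp (u p.1) :=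
      continuous_clamp.measurable.comp (hu.comp measurable_fst)
    exact (measurable_const.sub (this.pow_const 2)).sqrt
  le_one x y := by
    rw [Real.sq_sqrt (by linarith [clamp_sq_le (u x)])]; linarith

/-- The calibration by a field depending on `x` only. -/
theorem Pair.pl_ge_fun {f g : ℝ → ℝ} (h : Pair f g) {u : ℝ → ℝ} (hu : Measurable u)
    (hb : ∀ x ∈ Icc (bot g) (top g), |u x| ≤ 1) :
    (∫ y in act g, u (g y)) + ∫ x in bot g..top g, √(1 - u x ^ 2) ≤ pl f g := by
  have key := flux_le_pl f g (adm_of_fun hu)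
  unfold flux at key
  have e1 : ∫ y in act g, clamp (u (g y)) = ∫ y in act g, u (g y) :=
    setIntegral_congr_fun h.swap.measurableSet_act fun y hy =>
      clamp_eq (hb _ ⟨h.swap.bot_le hy.1, h.swap.le_top hy.1⟩)
  have e2 : ∫ x in act f, √(1 - clamp (u x) ^ 2) = ∫ x in bot g..top g, √(1 - u x ^ 2) := by
    rw [← h.integral_act]
    exact setIntegral_congr_fun h.measurableSet_act fun x hx => by
      simp only [clamp_eq (hb _ (h.act_subset_Icc hx))]
  rw [e1, e2] at key
  exact key

theorem Pair.integral_act_aff {f g : ℝ → ℝ} (h : Pair f g) (α k : ℝ) :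
    ∫ y in act g, (α + k * g y) = α * (top f - bot f) + k * (area f - bot f) := by
  have hi : IntegrableOn g (act g) := h.swap.integrableOn.mono_set (act_subset g)
  have hc : IntegrableOn (fun _ : ℝ => α) (act g) :=
    integrableOn_const (volume_act_lt_top g).ne
  rw [integral_add hc (hi.const_mul k), integral_const_mul, h.swap.integral_act_self, h.area_eq,
    setIntegral_const, h.swap.volume_act, smul_eq_mul]
  ring

/-- The general affine calibration `φ = α + k x`, `ψ = √(1 - φ²)`. -/
theorem Pair.pl_ge_aff {f g : ℝ → ℝ} (h : Pair f g) {α k : ℝ}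
    (hW : |α + k * bot g| ≤ 1) (hU : |α + k * top g| ≤ 1) :
    α * (top f - bot f) + k * (area f - bot f)
      + ∫ x in bot g..top g, √(1 - (α + k * x) ^ 2) ≤ pl f g := by
  rw [← h.integral_act_aff]
  refine h.pl_ge_fun (u := fun x => α + k * x) (by fun_prop) fun x hx => ?_
  rw [abs_le] at hW hU ⊢
  rcases le_total 0 k with hk | hk
  · constructor <;> nlinarith [mul_le_mul_of_nonneg_left hx.1 hk, mul_le_mul_of_nonneg_left hx.2 hk]
  · constructor <;>
      nlinarith [mul_le_mul_of_nonpos_left hx.1 hk, mul_le_mul_of_nonpos_left hx.2 hk]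

/-- Strip / disc type: `k (a - h1) + ∫_W^U √(1 - k² x²)`. -/
theorem Pair.pl_ge_lin {f g : ℝ → ℝ} (h : Pair f g) {k : ℝ} (hk : 0 ≤ k) (hU : k * top g ≤ 1) :
    k * (area f - bot f) + ∫ x in bot g..top g, √(1 - (k * x) ^ 2) ≤ pl f g := by
  have h0 := h.swap.bot_nonneg
  have h1 := h.swap.bot_le_top
  have a1 : 0 ≤ k * bot g := mul_nonneg hk h0
  have a2 : k * bot g ≤ k * top g := mul_le_mul_of_nonneg_left h1 hk
  have := h.pl_ge_aff (α := 0) (k := k) (by rw [abs_le]; constructor <;> linarith)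
    (by rw [abs_le]; constructor <;> linarith)
  simpa using this

/-- The chord bound. -/
theorem Pair.pl_ge_chord {f g : ℝ → ℝ} (h : Pair f g) :
    √((top g - bot g) ^ 2 + (top f - bot f) ^ 2) ≤ pl f g := by
  set A := top g - bot g with hA
  set B := top f - bot f with hB
  have hA0 : 0 ≤ A := sub_nonneg.2 h.swap.bot_le_top
  have hB0 : 0 ≤ B := sub_nonneg.2 h.bot_le_top
  set L := √(A ^ 2 + B ^ 2) with hL
  have hL2 : L ^ 2 = A ^ 2 + B ^ 2 := Real.sq_sqrt (by positivity)
  rcases eq_or_lt_of_le (Real.sqrt_nonneg (A ^ 2 + B ^ 2)) with h0 | hpos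
  · rw [hL, ← h0]; exact pl_nonneg f g
  rw [← hL] at hpos
  have hBL : B ≤ L := by
    rw [hL]; exact Real.le_sqrt_of_sq_le (by nlinarith [sq_nonneg A])
  have hα : |B / L| ≤ 1 := by
    rw [abs_of_nonneg (by positivity), div_le_one hpos]; exact hBL
  have key := h.pl_ge_aff (α := B / L) (k := 0) (by simpa using hα) (by simpa using hα)
  have hs : √(1 - (B / L) ^ 2) = A / L := by
    rw [Real.sqrt_eq_iff_mul_self_eq (by rw [← sq_le_one_iff_abs_le_one] at hα; linarith)
      (by positivity)]
    field_simp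
    linarith
  simp only [zero_mul, add_zero, hs, intervalIntegral.integral_const, smul_eq_mul] at key
  rw [← hA, ← hB] at key
  have : B / L * B + A * (A / L) = L := by
    field_simp
    linarith
  linarith

theorem integral_sqrt_zero_one : ∫ x in (0:ℝ)..1, √(1 - x ^ 2) = π / 4 := by
  have hc : Continuous fun x : ℝ => √(1 - x ^ 2) := by fun_prop
  have h1 := integral_sqrt_one_sub_sq
  rw [← intervalIntegral.integral_add_adjacent_intervals (b := 0) (hc.intervalIntegrable _ _)
    (hc.intervalIntegrable _ _)] at h1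
  have h2 := intervalIntegral.integral_comp_neg (a := (0:ℝ)) (b := 1) (fun x : ℝ => √(1 - x ^ 2))
  simp only [neg_sq, neg_zero] at h2
  linarith

theorem integral_sqrt_disc {U : ℝ} (hU : 0 < U) :
    ∫ x in (0:ℝ)..U, √(1 - (U⁻¹ * x) ^ 2) = π * U / 4 := by
  have := intervalIntegral.integral_comp_mul_left (a := (0:ℝ)) (b := U) (c := U⁻¹)
    (fun x : ℝ => √(1 - x ^ 2)) (inv_ne_zero hU.ne')
  rw [this, mul_zero, inv_mul_cancel₀ hU.ne', integral_sqrt_zero_one, inv_inv, smul_eq_mul]
  ring

/-- Disc type bound with far-wall corrections. -/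
theorem Pair.pl_ge_disc {f g : ℝ → ℝ} (h : Pair f g) (hU : 0 < top g) :
    area f / top g + π * top g / 4 ≤ pl f g + bot f + bot g := by
  have key := h.pl_ge_lin (k := (top g)⁻¹) (by positivity) (by rw [inv_mul_cancel₀ hU.ne'])
  have hc : Continuous fun x : ℝ => √(1 - ((top g)⁻¹ * x) ^ 2) := by fun_prop
  have h1 := integral_sqrt_disc hU
  rw [← intervalIntegral.integral_add_adjacent_intervals (b := bot g) (hc.intervalIntegrable _ _)
    (hc.intervalIntegrable _ _)] at h1
  have h2 : ∫ x in (0:ℝ)..bot g, √(1 - ((top g)⁻¹ * x) ^ 2) ≤ bot g := by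
    have := intervalIntegral.integral_mono_on (μ := volume) h.swap.bot_nonneg
      (hc.intervalIntegrable _ _) (continuous_const (y := (1:ℝ)).intervalIntegrable _ _)
      (fun x _ => Real.sqrt_le_one.2 (by nlinarith [sq_nonneg ((top g)⁻¹ * x)]))
    simpa using this
  have h3 : (top g)⁻¹ * bot f ≤ bot f := by
    rcases eq_or_lt_of_le h.bot_nonneg with h0 | h0
    · rw [← h0]; simp
    · rw [h.top_eq_one h0]; simp
  have h4 : area f / top g = (top g)⁻¹ * area f := by rw [div_eq_inv_mul]
  nlinarith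

theorem sqrt_le_amgm {a U : ℝ} (ha : 0 ≤ a) (hU : 0 < U) : √(π * a) ≤ a / U + π * U / 4 := by
  refine Real.sqrt_le_iff.2 ⟨by positivity, ?_⟩
  have : π * a = 4 * (a / U) * (π * U / 4) := by field_simp
  nlinarith [sq_nonneg (a / U - π * U / 4)]

theorem Pair.area_nonneg {f g : ℝ → ℝ} (h : Pair f g) : 0 ≤ area f :=
  h.bot_nonneg.trans h.bot_le_area

theorem Pair.area_le_one {f g : ℝ → ℝ} (h : Pair f g) : area f ≤ 1 :=
  h.area_le_top.trans h.top_le_one

theorem Pair.area_eq_zero {f g : ℝ → ℝ} (h : Pair f g) (hU : top g = 0) : area f = 0 := by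
  have := h.area_le_mul
  rw [hU, mul_zero] at this
  exact le_antisymm this h.area_nonneg

theorem Pair.top_nonneg {f g : ℝ → ℝ} (h : Pair f g) : 0 ≤ top f :=
  h.bot_nonneg.trans h.bot_le_top

theorem Pair.pl_ge_sqrt {f g : ℝ → ℝ} (h : Pair f g) :
    √(π * area f) ≤ pl f g + bot f + bot g := by
  rcases eq_or_lt_of_le h.swap.top_nonneg with h0 | hU
  · rw [h.area_eq_zero h0.symm, mul_zero, Real.sqrt_zero]
    have := pl_nonneg f g
    have := h.bot_nonneg
    have := h.swap.bot_nonneg
    linarith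
  · exact (sqrt_le_amgm h.area_nonneg hU).trans (h.pl_ge_disc hU)

/-- Hole type bound with near-wall corrections. -/
theorem Pair.pl_ge_hole {f g : ℝ → ℝ} (h : Pair f g) (hW : bot g < 1) :
    (1 - area f) / (1 - bot g) + π * (1 - bot g) / 4 ≤ pl f g + (1 - top f) + (1 - top g) := by
  have := h.compl.pl_ge_disc (by rw [top_compl h.swap]; linarith)
  rwa [h.area_compl, top_compl h.swap, pl_compl, bot_compl h, bot_compl h.swap] at this

theorem Pair.pl_ge_sqrt_hole {f g : ℝ → ℝ} (h : Pair f g) :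
    √(π * (1 - area f)) ≤ pl f g + (1 - top f) + (1 - top g) := by
  have := h.compl.pl_ge_sqrt
  rwa [h.area_compl, pl_compl, bot_compl h, bot_compl h.swap] at this

/-- Island whose extent along the edge `y = 0` is at most `e`. -/
theorem Pair.pl_ge_lq {f g : ℝ → ℝ} (h : Pair f g) {e : ℝ} (hU : top g ≤ e) :
    lq (area f) e ≤ pl f g + bot f + bot g := by
  unfold lq
  split_ifs with hc
  · exact h.pl_ge_sqrt
  push Not at hc
  rcases eq_or_lt_of_le h.swap.top_nonneg with h0 | hU0
  · rw [h.area_eq_zero h0.symm] at hc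
    simp only [zero_div, Real.sqrt_zero, mul_zero] at hc
    linarith
  refine le_trans ?_ (h.pl_ge_disc hU0)
  have he : 0 < e := hU0.trans_le hU
  have ha := h.area_nonneg
  have hsq : √(area f / π) ^ 2 = area f / π := Real.sq_sqrt (by positivity)
  have h1 : e ^ 2 ≤ 4 * (area f / π) := by nlinarith
  have h2 : top g * e * π ≤ 4 * area f := by
    have : top g * e ≤ 4 * (area f / π) := by nlinarith
    have := mul_le_mul_of_nonneg_right this Real.pi_pos.le
    rwa [mul_assoc 4, div_mul_cancel₀ _ Real.pi_pos.ne'] at this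
  have h3 : area f / top g + π * top g / 4 - (area f / e + π * e / 4)
      = (e - top g) * (4 * area f - top g * e * π) / (4 * top g * e) := by
    field_simp
    ring
  have h4 : 0 ≤ (e - top g) * (4 * area f - top g * e * π) / (4 * top g * e) :=
    div_nonneg (mul_nonneg (by linarith) (by linarith)) (by positivity)
  linarith

/-- Hole whose extent along the edge `y = 1` is at most `e`. -/
theorem Pair.pl_ge_lq_hole {f g : ℝ → ℝ} (h : Pair f g) {e : ℝ} (hW : 1 - bot g ≤ e) :
    lq (1 - area f) e ≤ pl f g + (1 - top f) + (1 - top g) := by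
  have := h.compl.pl_ge_lq (e := e) (by rw [top_compl h.swap]; exact hW)
  rwa [h.area_compl, pl_compl, bot_compl h, bot_compl h.swap] at this

/-- The four shapes of a planar down-set. -/
theorem Pair.shape {f g : ℝ → ℝ} (h : Pair f g) :
    (bot f = 0 ∧ bot g = 0) ∨ (top f = 1 ∧ top g = 1) ∨
      (bot g = 0 ∧ top g = 1) ∨ (bot f = 0 ∧ top f = 1) := by
  rcases eq_or_lt_of_le h.bot_nonneg with h1 | h1 <;>
    rcases eq_or_lt_of_le h.swap.bot_nonneg with h2 | h2
  · exact Or.inl ⟨h1.symm, h2.symm⟩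
  · exact Or.inr (Or.inr (Or.inr ⟨h1.symm, h.swap.top_eq_one h2⟩))
  · exact Or.inr (Or.inr (Or.inl ⟨h2.symm, h.top_eq_one h1⟩))
  · exact Or.inr (Or.inl ⟨h.swap.top_eq_one h2, h.top_eq_one h1⟩)

/-- A down-set crossing the square horizontally has perimeter at least one. -/
theorem Pair.one_le_pl {f g : ℝ → ℝ} (h : Pair f g) (hW : bot g = 0) (hU : top g = 1) :
    1 ≤ pl f g := by
  refine le_trans ?_ h.pl_ge_chord
  rw [hW, hU]
  exact Real.le_sqrt_of_sq_le (by nlinarith [sq_nonneg (top f - bot f)])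

/-- The isoperimetric profile of the square, for down-sets. -/
theorem Pair.pl_ge_I2 {f g : ℝ → ℝ} (h : Pair f g) : I2 (area f) ≤ pl f g := by
  unfold I2
  rcases h.shape with ⟨h1, h2⟩ | ⟨h1, h2⟩ | ⟨h1, h2⟩ | ⟨h1, h2⟩
  · have := h.pl_ge_sqrt
    rw [h1, h2] at this
    exact ((min_le_left _ _).trans (min_le_left _ _)).trans (by linarith)
  · have := h.pl_ge_sqrt_hole
    rw [h1, h2] at this
    exact (min_le_right _ _).trans (by linarith)
  · exact ((min_le_left _ _).trans (min_le_right _ _)).trans (h.one_le_pl h1 h2)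
  · have := h.swap.one_le_pl h1 h2
    rw [pl_swap] at this
    exact ((min_le_left _ _).trans (min_le_right _ _)).trans this

end Crest.Agent.R214.Iso
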