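import Crest.Agent.R214.DS

/-! Row 214: heights, sections, volume of a down-set. -/

set_option autoImplicit false
open MeasureTheory Set Filter Topology

noncomputable section
namespace Crest.Agent.R214.DS

variable {E : Set E3}

private theorem htA_bdd (E : Set E3) (i : Fin 3) (w : ℝ × ℝ) :
    (1 : ℝ) ∈ upperBounds (insert 0 {t | ins i t w ∈ E ∧ t ≤ 1}) := by
  rintro t (rfl | h)
  · exact zero_le_one
  · exact h.2

theorem ht_nonneg (E : Set E3) (i : Fin 3) (w : ℝ × ℝ) : 0 ≤ ht E i w :=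
  le_csSup ⟨1, htA_bdd E i w⟩ (mem_insert _ _)

theorem ht_le_one (E : Set E3) (i : Fin 3) (w : ℝ × ℝ) : ht E i w ≤ 1 :=
  csSup_le ⟨0, mem_insert _ _⟩ (htA_bdd E i w)

theorem IsDS.le_ht (hE : IsDS E) {i : Fin 3} {t : ℝ} {w : ℝ × ℝ} (h : ins i t w ∈ E) : t ≤ ht E i w :=
  le_csSup ⟨1, htA_bdd E i w⟩
    (mem_insert_of_mem _ ⟨h, ((ins_mem_cube i t w).1 (hE.sub h)).1.2.le⟩)

private theorem htA_le {i : Fin 3} {t t' : ℝ} {w w' : ℝ × ℝ} (h : t ≤ t') (h1 : w.1 ≤ w'.1)
    (h2 : w.2 ≤ w'.2) (j : Fin 3) : ins i t w j ≤ ins i t' w' j := by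
  rcases fin3_cases i j with rfl | rfl | rfl
  · simpa using h
  · simpa using h1
  · simpa using h2

theorem IsDS.mem_of_lt_ht (hE : IsDS E) {i : Fin 3} {t : ℝ} {w : ℝ × ℝ} (ht0 : 0 < t)
    (h : t < ht E i w) : ins i t w ∈ E := by
  obtain ⟨s, rfl | hs, hts⟩ := exists_lt_of_lt_csSup ⟨0, mem_insert _ _⟩ h
  · exact absurd hts ht0.not_gt
  · exact hE.down _ hs.1 _ ((ins_mem_cube i t w).2
      ⟨⟨ht0, hts.trans_le hs.2⟩, ((ins_mem_cube i s w).1 (hE.sub hs.1)).2⟩)
      (htA_le hts.le le_rfl le_rfl)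

theorem IsDS.ht_of_not_mem (hE : IsDS E) {i : Fin 3} {w : ℝ × ℝ} (hw : w ∉ sq) : ht E i w = 0 := by
  refine le_antisymm (csSup_le ⟨0, mem_insert _ _⟩ ?_) (ht_nonneg E i w)
  rintro t (rfl | h)
  · exact le_rfl
  · exact absurd ((ins_mem_cube i t w).1 (hE.sub h.1)).2 hw

/-- heights are antitone on the square -/
theorem IsDS.ht_anti (hE : IsDS E) (i : Fin 3) {w w' : ℝ × ℝ} (hw : w ∈ sq)
    (h1 : w.1 ≤ w'.1) (h2 : w.2 ≤ w'.2) : ht E i w' ≤ ht E i w := by
  refine csSup_le ⟨0, mem_insert _ _⟩ ?_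
  rintro t (rfl | h)
  · exact ht_nonneg E i w
  · exact hE.le_ht (hE.down _ h.1 _ ((ins_mem_cube i t w).2
      ⟨((ins_mem_cube i t w').1 (hE.sub h.1)).1, hw⟩) (htA_le le_rfl h1 h2))

theorem IsDS.measurable_ht (hE : IsDS E) (i : Fin 3) : Measurable (ht E i) := by
  refine measurable_of_Ioi fun s => ?_
  rcases lt_or_ge s 0 with hs | hs
  · have : ht E i ⁻¹' Ioi s = univ := eq_univ_of_forall fun w => hs.trans_le (ht_nonneg E i w)
    rw [this]
    exact MeasurableSet.univ
  · have : ht E i ⁻¹' Ioi s = ⋃ q : {q : ℚ // s < q}, (fun w => ins i ((q : ℚ) : ℝ) w) ⁻¹' E := by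
      ext w
      simp only [mem_preimage, mem_Ioi, mem_iUnion]
      constructor
      · intro h
        obtain ⟨q, h1, h2⟩ := exists_rat_btwn h
        exact ⟨⟨q, h1⟩, hE.mem_of_lt_ht (hs.trans_lt h1) h2⟩
      · rintro ⟨q, hq⟩
        exact q.2.trans_le (hE.le_ht hq)
    rw [this]
    exact MeasurableSet.iUnion fun q => hE.meas.preimage
      ((continuous_ins i).comp (continuous_const.prodMk continuous_id)).measurable

theorem IsDS.measurableSet_dom (hE : IsDS E) (i : Fin 3) : MeasurableSet (dom E i) :=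
  measurableSet_sq.inter (measurableSet_Ioo.preimage (hE.measurable_ht i))

theorem IsDS.measurable_gr (hE : IsDS E) (i : Fin 3) : Measurable (gr E i) :=
  (continuous_ins i).measurable.comp ((hE.measurable_ht i).prodMk measurable_id)

theorem measurableSet_cube : MeasurableSet cube := by
  have : cube = ⋂ j, (fun x : E3 => x j) ⁻¹' Ioo (0 : ℝ) 1 := by
    ext x; simp [cube]
  rw [this]
  exact MeasurableSet.iInter fun j => measurableSet_Ioo.preimage (by fun_prop)

theorem IsDS.mu_compl_cube (hE : IsDS E) (i : Fin 3) : mu E i cubeᶜ = 0 := by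
  rw [mu, Measure.map_apply (hE.measurable_gr i) measurableSet_cube.compl,
    Measure.restrict_apply' (hE.measurableSet_dom i)]
  convert measure_empty (μ := (volume : Measure (ℝ × ℝ)))
  exact eq_empty_of_forall_notMem fun w hw => hw.1 ((ins_mem_cube i _ w).2 ⟨hw.2.2, hw.2.1⟩)

theorem IsDS.integral_mu (hE : IsDS E) (i : Fin 3) {g : E3 → ℝ} (hg : Measurable g) :
    ∫ x, g x ∂(mu E i) = ∫ w in dom E i, g (gr E i w) :=
  integral_map (hE.measurable_gr i).aemeasurable hg.aestronglyMeasurable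

theorem measurePreserving_ins (i : Fin 3) :
    MeasurePreserving (fun p : ℝ × (ℝ × ℝ) => ins i p.1 p.2) volume volume := by
  let F : ℝ × (ℝ × ℝ) → Fin 3 → ℝ :=
    fun p j => if j = i then p.1 else if j = i + 1 then p.2.1 else p.2.2
  have hF : Measurable F := by
    refine measurable_pi_lambda _ fun j => ?_
    simp only [F]
    split_ifs <;> fun_prop
  have h : MeasurePreserving F volume volume := by
    refine ⟨hF, ?_⟩
    rw [volume_pi]
    refine (Measure.pi_eq fun s hs => ?_).symm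
    rw [Measure.map_apply hF (MeasurableSet.univ_pi hs)]
    have e : F ⁻¹' (univ.pi s) = s i ×ˢ (s (i + 1) ×ˢ s (i + 2)) := by
      ext p
      simp only [mem_preimage, mem_univ_pi, mem_prod]
      have h0 : F p i = p.1 := ins_self i p.1 p.2
      have h1 : F p (i + 1) = p.2.1 := ins_succ i p.1 p.2
      have h2 : F p (i + 2) = p.2.2 := ins_succ2 i p.1 p.2
      constructor
      · intro H
        exact ⟨h0 ▸ H i, h1 ▸ H (i + 1), h2 ▸ H (i + 2)⟩
      · rintro ⟨a, b, c⟩ j
        rcases fin3_cases i j with rfl | rfl | rfl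
        · rwa [h0]
        · rwa [h1]
        · rwa [h2]
    rw [e, Measure.volume_eq_prod, Measure.prod_prod, Measure.volume_eq_prod, Measure.prod_prod]
    fin_cases i <;> simp [Fin.prod_univ_three] <;> ring
  exact (PiLp.volume_preserving_toLp (Fin 3)).comp h

theorem c71_fin {S : Set (ℝ × ℝ)} (h : S ⊆ sq) : volume S ≠ ⊤ :=
  ne_top_of_le_ne_top (by rw [volume_sq]; exact ENNReal.one_ne_top) (measure_mono h)

theorem c71_mono {S T : Set (ℝ × ℝ)} (h : S ⊆ T) (hT : T ⊆ sq) :
    (volume S).toReal ≤ (volume T).toReal :=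
  ENNReal.toReal_mono (c71_fin hT) (measure_mono h)

theorem c71_le_one {S : Set (ℝ × ℝ)} (h : S ⊆ sq) : (volume S).toReal ≤ 1 := by
  have := c71_mono h subset_rfl
  rwa [volume_sq, ENNReal.toReal_one] at this

theorem IsDS.c71_sub (hE : IsDS E) (i : Fin 3) (t : ℝ) : {w : ℝ × ℝ | ins i t w ∈ E} ⊆ sq :=
  fun w hw => ((ins_mem_cube i t w).1 (hE.sub hw)).2

theorem c71_meas (i : Fin 3) : Measurable fun x : E3 => x i := by fun_prop

theorem IsDS.c71_add (hE : IsDS E) (i : Fin 3) {A : Set ℝ} (hA : MeasurableSet A) :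
    aone E i + (mu E i).real {x | x i ∈ A} =
      (volume {w : ℝ × ℝ | w ∈ sq ∧ (ht E i w = 1 ∨ (0 < ht E i w ∧ ht E i w < 1 ∧ ht E i w ∈ A))}).toReal := by
  have hA' : MeasurableSet {x : E3 | x i ∈ A} := c71_meas i hA
  have h1 : mu E i {x | x i ∈ A} = volume ((ht E i ⁻¹' A) ∩ dom E i) := by
    unfold mu
    rw [Measure.map_apply (hE.measurable_gr i) hA', Measure.restrict_apply (hE.measurable_gr i hA')]
    congr 2
    ext w
    simp [gr]
  have h2 : {w : ℝ × ℝ | w ∈ sq ∧ (ht E i w = 1 ∨ (0 < ht E i w ∧ ht E i w < 1 ∧ ht E i w ∈ A))} =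
      {w : ℝ × ℝ | w ∈ sq ∧ ht E i w = 1} ∪ ((ht E i ⁻¹' A) ∩ dom E i) := by
    ext w
    simp only [dom, mem_ofPred_eq, mem_union, mem_inter_iff, mem_preimage]
    tauto
  rw [h2, measure_union _ ((hE.measurable_ht i hA).inter (hE.measurableSet_dom i)),
    ENNReal.toReal_add (c71_fin fun w hw => hw.1) (c71_fin fun w hw => hw.2.1), Measure.real, h1, aone]
  exact Set.disjoint_left.2 fun w h h' => h'.2.2.2.ne h.2

theorem IsDS.sec_anti (hE : IsDS E) (i : Fin 3) : AntitoneOn (sec E i) (Ioo 0 1) := by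
  intro s hs t _ hst
  refine c71_mono (fun w hw => ?_) (hE.c71_sub i s)
  refine hE.down _ hw _ ((ins_mem_cube i s w).2 ⟨hs, hE.c71_sub i t hw⟩) fun j => ?_
  rcases fin3_cases i j with rfl | rfl | rfl
  · simpa using hst
  · simp
  · simp

theorem IsDS.measurable_sec (hE : IsDS E) (i : Fin 3) : Measurable (sec E i) := by
  exact (measurable_measure_prodMk_left (ν := (volume : Measure (ℝ × ℝ)))
    ((continuous_ins i).measurable hE.meas)).ennreal_toReal

theorem sec_nonneg (E : Set E3) (i : Fin 3) (t : ℝ) : 0 ≤ sec E i t := by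
  exact ENNReal.toReal_nonneg

theorem IsDS.sec_le_one (hE : IsDS E) (i : Fin 3) (t : ℝ) : sec E i t ≤ 1 := by
  exact c71_le_one (hE.c71_sub i t)

theorem IsDS.sec_ge (hE : IsDS E) (i : Fin 3) {t : ℝ} (ht : t ∈ Ioo (0 : ℝ) 1) :
    aone E i + (mu E i).real {x | t < x i} ≤ sec E i t := by
  refine (hE.c71_add i (A := Ioi t) measurableSet_Ioi).le.trans (c71_mono ?_ (hE.c71_sub i t))
  rintro w ⟨-, h | h⟩
  · exact hE.mem_of_lt_ht ht.1 (h ▸ ht.2)
  · exact hE.mem_of_lt_ht ht.1 h.2.2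

theorem IsDS.sec_le (hE : IsDS E) (i : Fin 3) {t : ℝ} (ht : t ∈ Ioo (0 : ℝ) 1) :
    sec E i t ≤ aone E i + (mu E i).real {x | t ≤ x i} := by
  refine le_trans (c71_mono (fun w hw => ?_) fun w hw => hw.1)
    (hE.c71_add i (A := Ici t) measurableSet_Ici).ge
  have h1 := hE.le_ht hw
  refine ⟨hE.c71_sub i t hw, ?_⟩
  rcases (ht_le_one E i w).eq_or_lt with h | h
  · exact Or.inl h
  · exact Or.inr ⟨ht.1.trans_le h1, h, h1⟩

/-- off a countable set the section area is the tail of `mu` -/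
theorem IsDS.sec_ae (hE : IsDS E) (i : Fin 3) :
    ∀ᵐ t ∂(volume.restrict (Ioo (0 : ℝ) 1)), sec E i t = aone E i + (mu E i).real {x | t < x i} := by
  have hc := Measure.countable_meas_level_set_pos (μ := mu E i) (c71_meas i)
  have h0 : ∀ᵐ t : ℝ, t ∉ {t : ℝ | 0 < mu E i {x | x i = t}} := hc.ae_notMem _
  filter_upwards [ae_restrict_of_ae h0, ae_restrict_mem measurableSet_Ioo] with t h1 h2
  refine le_antisymm ((hE.sec_le i h2).trans ?_) (hE.sec_ge i h2)
  have h3 : mu E i {x | x i = t} = 0 := by simpa using h1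
  have h4 : mu E i {x | t ≤ x i} ≤ mu E i {x | t < x i} := by
    refine le_trans (measure_mono (t := {x | t < x i} ∪ {x | x i = t}) fun x hx => ?_)
      ((measure_union_le _ _).trans (by rw [h3, add_zero]))
    exact (show t ≤ x i from hx).lt_or_eq.imp id Eq.symm
  exact add_le_add le_rfl (ENNReal.toReal_mono (measure_ne_top _ _) h4)

theorem IsDS.azero_eq (hE : IsDS E) (i : Fin 3) : azero E i = aone E i + (mu E i).real univ := by
  have := hE.c71_add i (A := univ) MeasurableSet.univ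
  simp only [mem_univ, ofPred_true, and_true] at this
  rw [this, azero]
  congr 2
  ext w
  refine and_congr_right fun _ => ⟨fun h => ?_, fun h => ?_⟩
  · exact (ht_le_one E i w).eq_or_lt.imp id fun k => ⟨h, k⟩
  · exact h.elim (fun k => k ▸ one_pos) fun k => k.1

theorem IsDS.aone_le_sec (hE : IsDS E) (i : Fin 3) {t : ℝ} (ht : t ∈ Ioo (0 : ℝ) 1) :
    aone E i ≤ sec E i t := by
  exact le_trans (le_add_of_nonneg_right measureReal_nonneg) (hE.sec_ge i ht)

theorem IsDS.sec_le_azero (hE : IsDS E) (i : Fin 3) (t : ℝ) : sec E i t ≤ azero E i := by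
  refine c71_mono (fun w hw => ⟨hE.c71_sub i t hw, ?_⟩) fun w hw => hw.1
  exact ((ins_mem_cube i t w).1 (hE.sub hw)).1.1.trans_le (hE.le_ht hw)

theorem aone_nonneg (E : Set E3) (i : Fin 3) : 0 ≤ aone E i := by
  exact ENNReal.toReal_nonneg

theorem azero_le_one (E : Set E3) (i : Fin 3) : azero E i ≤ 1 := by
  exact c71_le_one fun w hw => hw.1

theorem IsDS.c71_tendsto (hE : IsDS E) (i : Fin 3) {s : ℝ → Set E3} (hs : ∀ r, MeasurableSet (s r))
    (hm : ∀ r r', r ≤ r' → s r ⊆ s r') (h0 : (⋂ r > (0 : ℝ), s r) ⊆ cubeᶜ) :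
    Tendsto (fun r => (mu E i).real (s r)) (𝓝[>] 0) (𝓝 0) := by
  have h1 := tendsto_measure_biInter_gt (μ := mu E i) (a := (0 : ℝ)) (s := s)
    (fun r _ => (hs r).nullMeasurableSet) (fun r r' _ h => hm r r' h) ⟨1, one_pos, measure_ne_top _ _⟩
  rw [measure_mono_null h0 (hE.mu_compl_cube i)] at h1
  exact (ENNReal.tendsto_toReal ENNReal.zero_ne_top).comp h1

theorem IsDS.tendsto_sec_zero (hE : IsDS E) (i : Fin 3) :
    Tendsto (sec E i) (𝓝[>] 0) (𝓝 (azero E i)) := by
  have h1 := hE.c71_tendsto i (s := fun r => {x | x i ≤ r})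
    (fun r => c71_meas i measurableSet_Iic) (fun r r' h x hx => le_trans hx h) (fun x hx hc => by
      have h2 := mem_iInter₂.1 hx (x i / 2) (half_pos (hc i).1)
      have h3 : x i ≤ x i / 2 := h2
      linarith [(hc i).1])
  have h2 := (tendsto_const_nhds (x := azero E i)).sub h1
  rw [sub_zero] at h2
  refine tendsto_of_tendsto_of_tendsto_of_le_of_le' h2 tendsto_const_nhds ?_
    (Eventually.of_forall fun t => hE.sec_le_azero i t)
  filter_upwards [Ioo_mem_nhdsGT (zero_lt_one' ℝ)] with t ht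
  refine le_trans ?_ (hE.sec_ge i ht)
  have h3 : (mu E i).real univ ≤ (mu E i).real {x | t < x i} + (mu E i).real {x | x i ≤ t} :=
    le_trans (measureReal_mono (fun x _ => lt_or_ge t (x i))) (measureReal_union_le _ _)
  rw [hE.azero_eq i]
  linarith

theorem IsDS.tendsto_sec_one (hE : IsDS E) (i : Fin 3) :
    Tendsto (sec E i) (𝓝[<] 1) (𝓝 (aone E i)) := by
  have h1 := hE.c71_tendsto i (s := fun r => {x | 1 - r ≤ x i})
    (fun r => c71_meas i measurableSet_Ici) (fun r r' h x hx => le_trans (sub_le_sub_left h 1) hx)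
    (fun x hx hc => by
      have h2 := mem_iInter₂.1 hx ((1 - x i) / 2) (half_pos (sub_pos.2 (hc i).2))
      have h3 : 1 - (1 - x i) / 2 ≤ x i := h2
      linarith [(hc i).2])
  have h3 : Tendsto (fun t : ℝ => 1 - t) (𝓝[<] 1) (𝓝[>] 0) := by
    refine tendsto_nhdsWithin_iff.2 ⟨?_, ?_⟩
    · have : Tendsto (fun t : ℝ => 1 - t) (𝓝 1) (𝓝 (1 - 1)) := tendsto_const_nhds.sub tendsto_id
      rw [sub_self] at this
      exact this.mono_left nhdsWithin_le_nhds
    · filter_upwards [self_mem_nhdsWithin] with t ht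
      exact sub_pos.2 (show t < 1 from ht)
  have h2 := (tendsto_const_nhds (x := aone E i)).add (h1.comp h3)
  rw [add_zero] at h2
  refine tendsto_of_tendsto_of_tendsto_of_le_of_le' tendsto_const_nhds h2 ?_ ?_
  · filter_upwards [Ioo_mem_nhdsLT (zero_lt_one' ℝ)] with t ht using hE.aone_le_sec i ht
  · filter_upwards [Ioo_mem_nhdsLT (zero_lt_one' ℝ)] with t ht
    simpa only [Function.comp_def, sub_sub_cancel] using hE.sec_le i ht

theorem IsDS.integral_sec (hE : IsDS E) (i : Fin 3) : ∫ t in Ioo (0 : ℝ) 1, sec E i t = vol E := by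
  have hS : MeasurableSet ((fun p : ℝ × (ℝ × ℝ) => ins i p.1 p.2) ⁻¹' E) :=
    (continuous_ins i).measurable hE.meas
  have h1 : volume E = ∫⁻ t : ℝ, volume {w : ℝ × ℝ | ins i t w ∈ E} := by
    rw [← (measurePreserving_ins i).measure_preimage hE.meas.nullMeasurableSet,
      Measure.volume_eq_prod, Measure.prod_apply hS]
    rfl
  rw [setIntegral_eq_integral_of_forall_compl_eq_zero]
  · unfold vol sec
    rw [h1]
    refine integral_toReal (measurable_measure_prodMk_left hS).aemeasurable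
      (Eventually.of_forall fun t => ?_)
    refine (measure_mono fun w hw => ((ins_mem_cube i t w).1 (hE.sub hw)).2).trans_lt ?_
    rw [volume_sq]
    exact ENNReal.one_lt_top
  · intro t ht
    have : {w : ℝ × ℝ | ins i t w ∈ E} = ∅ :=
      eq_empty_of_forall_notMem fun w hw => ht ((ins_mem_cube i t w).1 (hE.sub hw)).1
    simp [sec, this]

theorem dshtB_volume_lt (hE : IsDS E) : volume E < ⊤ := by
  rw [← (measurePreserving_ins 0).measure_preimage hE.meas.nullMeasurableSet]
  refine (measure_mono (t := Ioo (0 : ℝ) 1 ×ˢ sq) fun p hp =>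
    (ins_mem_cube 0 p.1 p.2).1 (hE.sub hp)).trans_lt ?_
  rw [Measure.volume_eq_prod, Measure.prod_prod, volume_sq]
  simp

theorem dshtB_integral_eq (hE : IsDS E) (i : Fin 3) {g : E3 → ℝ} (hg : Measurable g) {C : ℝ}
    (hC : ∀ x, |g x| ≤ C) :
    ∫ x in E, g x = ∫ w in sq, ∫ t in (0 : ℝ)..(ht E i w), g (ins i t w) := by
  have hmp := measurePreserving_ins i
  have hint : Integrable (E.indicator g) volume := by
    rw [integrable_indicator_iff hE.meas]
    exact Measure.integrableOn_of_bounded (dshtB_volume_lt hE).ne hg.aestronglyMeasurable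
      (Eventually.of_forall hC)
  have hint' : Integrable (fun p : ℝ × (ℝ × ℝ) => E.indicator g (ins i p.1 p.2))
      ((volume : Measure ℝ).prod volume) := hmp.integrable_comp_of_integrable hint
  have h1 : ∫ x, E.indicator g x = ∫ p : ℝ × (ℝ × ℝ), E.indicator g (ins i p.1 p.2) := by
    rw [← hmp.map_eq, integral_map hmp.measurable.aemeasurable
      (hg.indicator hE.meas).aestronglyMeasurable]
  rw [← integral_indicator hE.meas, h1, Measure.volume_eq_prod, integral_prod_symm _ hint',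
    setIntegral_eq_integral_of_forall_compl_eq_zero]
  · refine integral_congr_ae (Eventually.of_forall fun w => ?_)
    have hm : MeasurableSet {t : ℝ | ins i t w ∈ E} :=
      ((continuous_ins i).comp (continuous_id.prodMk continuous_const)).measurable hE.meas
    have hae : {t : ℝ | ins i t w ∈ E} =ᵐ[volume] Ioc 0 (ht E i w) := by
      refine (LE.le.eventuallyLE fun t h => ?_).antisymm
        (Ioo_ae_eq_Ioc.symm.le.trans (LE.le.eventuallyLE fun t h => ?_))
      · exact ⟨((ins_mem_cube i t w).1 (hE.sub h)).1.1, hE.le_ht h⟩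
      · exact hE.mem_of_lt_ht h.1 h.2
    simp only
    rw [intervalIntegral.integral_of_le (ht_nonneg E i w), ← setIntegral_congr_set hae,
      ← integral_indicator hm]
    rfl
  · intro w hw
    rw [hE.ht_of_not_mem hw, intervalIntegral.integral_same]

theorem IsDS.integral_ht (hE : IsDS E) (i : Fin 3) : ∫ w in sq, ht E i w = vol E := by
  have h := dshtB_integral_eq hE i (g := fun _ => 1) measurable_const (C := 1) (by simp)
  simp only [integral_const, intervalIntegral.integral_const, smul_eq_mul, mul_one, sub_zero,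
    MeasurableSet.univ, measureReal_restrict_apply, univ_inter] at h
  exact h.symm

/-- Fubini over the graph: `∫_E g = ∫_{sq} ∫_0^{ht} g` -/
theorem IsDS.integral_eq (hE : IsDS E) (i : Fin 3) {g : E3 → ℝ} (hg : Measurable g) {C : ℝ}
    (hC : ∀ x, |g x| ≤ C) :
    ∫ x in E, g x = ∫ w in sq, ∫ t in (0 : ℝ)..(ht E i w), g (ins i t w) := by
  exact dshtB_integral_eq hE i hg hC

end Crest.Agent.R214.DS
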