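import Crest.Agent.R214.IsoBounds

/-! # Row 214, module ISO: equality cases of the planar bounds -/

namespace Crest.Agent.R214.Iso

open MeasureTheory Set Real Filter Topology

/-- Equality in the disc bound fixes the extent. -/
theorem Pair.area_eq_of_disc {f g : ℝ → ℝ} (h : Pair f g) (h1 : bot f = 0) (hW : bot g = 0)
    (hp : pl f g ≤ √(π * area f)) (hU : 0 < top g) : area f = π * top g ^ 2 / 4 := by
  have key := h.pl_ge_disc hU
  rw [h1, hW, add_zero, add_zero] at key
  have ha := h.area_nonneg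
  have h2 : area f / top g + π * top g / 4 ≤ √(π * area f) := key.trans hp
  have h3 : (area f / top g + π * top g / 4) ^ 2 ≤ π * area f :=
    (Real.le_sqrt (by positivity) (by positivity)).1 h2
  have h4 : π * area f = 4 * (area f / top g) * (π * top g / 4) := by field_simp
  have h5 : area f / top g - π * top g / 4 = 0 := by
    have : (area f / top g - π * top g / 4) ^ 2 ≤ 0 := by nlinarith
    exact pow_eq_zero_iff (two_ne_zero) |>.1 (le_antisymm this (sq_nonneg _))
  have h6 : area f / top g = π * top g / 4 := by linarith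
  rw [div_eq_iff hU.ne'] at h6
  rw [h6]; ring

theorem hasDerivAt_prim (t : ℝ) :
    HasDerivAt (fun s : ℝ => ∫ x in (0:ℝ)..s, √(1 - x ^ 2)) (√(1 - t ^ 2)) t :=
  ((by fun_prop : Continuous fun x : ℝ => √(1 - x ^ 2)).integral_hasStrictDerivAt 0 t).hasDerivAt

/-- The first variation of the calibration in the equality case. -/
theorem Pair.mass_of_disc {f g : ℝ → ℝ} (h : Pair f g) (h1 : bot f = 0) (hW : bot g = 0)
    (hp : pl f g ≤ √(π * area f)) {x₀ : ℝ} (hx0 : 0 < x₀) (hxU : x₀ < top g)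
    {S : Set ℝ} (hS1 : Iio x₀ ⊆ S) (hS2 : S ⊆ Iic x₀) :
    volume.real {y | y ∈ act g ∧ g y ∈ S}
      = top g - top g * √(1 - ((top g)⁻¹ * x₀) ^ 2) := by
  have hU : 0 < top g := hx0.trans hxU
  have ha := h.area_eq_of_disc h1 hW hp hU
  set U := top g with hUdef
  have hlow : ∀ s ∈ S, ∀ t, t ≤ s → t ∈ S := fun s hs t hts => by
    rcases eq_or_lt_of_le hts with rfl | hlt
    · exact hs
    · exact hS1 (hlt.trans_le (hS2 hs))
  have hSm : MeasurableSet S :=
    Set.OrdConnected.measurableSet ⟨fun _ _ s hs t ht => hlow s hs t ht.2⟩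
  set T : Set ℝ := {y | y ∈ act g ∧ g y ∈ S} with hT
  have hTm : MeasurableSet T := by
    refine Set.OrdConnected.measurableSet ⟨?_⟩
    rintro y ⟨⟨hy, _, hy1⟩, hyS⟩ y' ⟨⟨hy', hy0', _⟩, _⟩ t ⟨ht1, ht2⟩
    have ht : t ∈ Ioo (0:ℝ) 1 := ⟨hy.1.trans_le ht1, ht2.trans_lt hy'.2⟩
    have m1 := h.swap.antitoneOn hy ht ht1
    have m2 := h.swap.antitoneOn ht hy' ht2
    exact ⟨⟨ht, hy0'.trans_le m2, m1.trans_lt hy1⟩, hlow _ hyS _ m1⟩
  set m := volume.real T with hm
  have hc : Continuous fun x : ℝ => √(1 - x ^ 2) := by fun_prop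
  have hsq : √(π * area f) = π * U / 2 := by
    rw [ha, show π * (π * U ^ 2 / 4) = (π * U / 2) ^ 2 by ring, Real.sqrt_sq (by positivity)]
  have hq : U⁻¹ * x₀ < 1 := by rw [inv_mul_lt_iff₀ hU]; simpa using hxU
  have hq0 : 0 < U⁻¹ * x₀ := by positivity
  -- the perturbed inequality
  have hpert : ∀ ε : ℝ, |ε| ≤ 1 - U⁻¹ * x₀ →
      ε * m + ∫ x in (0:ℝ)..x₀, √(1 - (U⁻¹ * x + ε) ^ 2)
        ≤ ∫ x in (0:ℝ)..x₀, √(1 - (U⁻¹ * x) ^ 2) := by
    intro ε hε
    rw [abs_le] at hε
    have hmeas : Measurable fun x : ℝ => U⁻¹ * x + S.indicator (fun _ => ε) x :=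
      (measurable_const.mul measurable_id).add (measurable_const.indicator hSm)
    have key := h.pl_ge_fun hmeas (fun x hx => by
      rw [hW] at hx
      have b0 : 0 ≤ U⁻¹ * x := mul_nonneg (by positivity) hx.1
      have b1 : U⁻¹ * x ≤ 1 := by rw [inv_mul_le_iff₀ hU]; simpa using hx.2
      by_cases hxS : x ∈ S
      · have b2 : U⁻¹ * x ≤ U⁻¹ * x₀ := mul_le_mul_of_nonneg_left (hS2 hxS) (by positivity)
        rw [indicator_of_mem hxS, abs_le]; constructor <;> linarith
      · rw [indicator_of_notMem hxS, abs_le]; constructor <;> linarith)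
    have e1 : ∫ y in act g, (U⁻¹ * g y + S.indicator (fun _ => ε) (g y))
        = U⁻¹ * area f + ε * m := by
      have hi : IntegrableOn g (act g) := h.swap.integrableOn.mono_set (act_subset g)
      have hc' : IntegrableOn (fun _ : ℝ => ε) (act g) :=
        integrableOn_const (volume_act_lt_top g).ne
      have e : ∫ y in act g, (U⁻¹ * g y + S.indicator (fun _ => ε) (g y))
          = ∫ y in act g, (U⁻¹ * g y + T.indicator (fun _ => ε) y) :=
        setIntegral_congr_fun h.swap.measurableSet_act fun y hy => by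
          by_cases hyS : g y ∈ S
          · simp only [indicator_of_mem hyS, indicator_of_mem (show y ∈ T from ⟨hy, hyS⟩)]
          · simp only [indicator_of_notMem hyS,
              indicator_of_notMem (show y ∉ T from fun hh => hyS hh.2)]
      rw [e, integral_add (hi.const_mul _) (hc'.indicator hTm), integral_const_mul,
        h.swap.integral_act_self, h.area_eq, h1, sub_zero, setIntegral_indicator hTm,
        inter_eq_right.2 (show T ⊆ act g from fun y hy => hy.1), setIntegral_const, smul_eq_mul,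
        mul_comm m]
    have hcε : Continuous fun x : ℝ => √(1 - (U⁻¹ * x + ε) ^ 2) := by fun_prop
    have hc0 : Continuous fun x : ℝ => √(1 - (U⁻¹ * x) ^ 2) := by fun_prop
    have i1 : ∀ᵐ x ∂(volume : Measure ℝ), x ∈ uIoc (0:ℝ) x₀ →
        √(1 - (U⁻¹ * x + S.indicator (fun _ => ε) x) ^ 2) = √(1 - (U⁻¹ * x + ε) ^ 2) := by
      filter_upwards [(countable_singleton x₀).ae_notMem volume] with x hx hx'
      rw [uIoc_of_le hx0.le] at hx'
      rw [indicator_of_mem (hS1 (lt_of_le_of_ne hx'.2 hx))]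
    have i2 : ∀ᵐ x ∂(volume : Measure ℝ), x ∈ uIoc x₀ U →
        √(1 - (U⁻¹ * x + S.indicator (fun _ => ε) x) ^ 2) = √(1 - (U⁻¹ * x) ^ 2) := by
      refine Eventually.of_forall fun x hx' => ?_
      rw [uIoc_of_le hxU.le] at hx'
      rw [indicator_of_notMem (fun hh => absurd (hS2 hh) (not_le.2 hx'.1)), add_zero]
    have j1 : IntervalIntegrable
        (fun x => √(1 - (U⁻¹ * x + S.indicator (fun _ => ε) x) ^ 2)) volume 0 x₀ :=
      (hcε.intervalIntegrable 0 x₀).congr_ae
        ((ae_restrict_iff' measurableSet_uIoc).2 (i1.mono fun x hx hx' => (hx hx').symm))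
    have j2 : IntervalIntegrable
        (fun x => √(1 - (U⁻¹ * x + S.indicator (fun _ => ε) x) ^ 2)) volume x₀ U :=
      (hc0.intervalIntegrable x₀ U).congr_ae
        ((ae_restrict_iff' measurableSet_uIoc).2 (i2.mono fun x hx hx' => (hx hx').symm))
    rw [e1, hW, ← intervalIntegral.integral_add_adjacent_intervals j1 j2,
      intervalIntegral.integral_congr_ae i1, intervalIntegral.integral_congr_ae i2] at key
    have e3 := integral_sqrt_disc hU
    rw [← intervalIntegral.integral_add_adjacent_intervals (b := x₀) (hc0.intervalIntegrable _ _)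
      (hc0.intervalIntegrable _ _)] at e3
    have e4 : U⁻¹ * area f = π * U / 4 := by rw [ha]; field_simp
    linarith
  -- closed form and differentiation at `ε = 0`
  set P : ℝ → ℝ := fun s => ∫ x in (0:ℝ)..s, √(1 - x ^ 2) with hP
  have hform : ∀ ε : ℝ, ∫ x in (0:ℝ)..x₀, √(1 - (U⁻¹ * x + ε) ^ 2)
      = U * (P (U⁻¹ * x₀ + ε) - P ε) := by
    intro ε
    have := intervalIntegral.integral_comp_mul_add (a := (0:ℝ)) (b := x₀) (c := U⁻¹)
      (fun x : ℝ => √(1 - x ^ 2)) (inv_ne_zero hU.ne') ε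
    rw [this, inv_inv, smul_eq_mul, mul_zero, zero_add, hP]
    simp only
    rw [intervalIntegral.integral_interval_sub_left (hc.intervalIntegrable _ _)
      (hc.intervalIntegrable _ _)]
  have hmax : IsLocalMax (fun ε : ℝ => ε * m + U * (P (U⁻¹ * x₀ + ε) - P ε)) 0 := by
    have hnb : ∀ᶠ ε in 𝓝 (0:ℝ), |ε| ≤ 1 - U⁻¹ * x₀ := by
      have : Icc (-(1 - U⁻¹ * x₀)) (1 - U⁻¹ * x₀) ∈ 𝓝 (0:ℝ) :=
        Icc_mem_nhds (by linarith) (by linarith)
      filter_upwards [this] with ε hε using abs_le.2 hε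
    filter_upwards [hnb] with ε hε
    have h0 := hform 0
    simp only [add_zero] at h0
    have := hpert ε hε
    rw [hform, h0] at this
    simpa using this
  have hder : HasDerivAt (fun ε : ℝ => ε * m + U * (P (U⁻¹ * x₀ + ε) - P ε))
      (1 * m + U * (√(1 - (U⁻¹ * x₀ + 0) ^ 2) - √(1 - (0:ℝ) ^ 2))) 0 := by
    refine ((hasDerivAt_id (0:ℝ)).mul_const m).add (HasDerivAt.const_mul U ?_)
    exact ((hasDerivAt_prim (U⁻¹ * x₀ + 0)).comp_const_add (U⁻¹ * x₀) 0).sub (hasDerivAt_prim 0)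
  have := hmax.hasDerivAt_eq_zero hder
  simp only [add_zero, one_mul, ne_eq, OfNat.ofNat_ne_zero, not_false_eq_true, zero_pow, sub_zero,
    Real.sqrt_one] at this
  linarith

theorem Pair.eq_disc_core {f g : ℝ → ℝ} (h : Pair f g) (h1 : bot f = 0) (hW : bot g = 0)
    (hp : pl f g ≤ √(π * area f)) {x : ℝ} (hx0 : 0 < x) (hxU : x < top g) :
    top f = top g ∧ f x = √(top g ^ 2 - x ^ 2) := by
  have hU : 0 < top g := hx0.trans hxU
  have hx : x ∈ Ioo (0:ℝ) 1 := ⟨hx0, hxU.trans_le h.swap.top_le_one⟩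
  have ha := h.area_eq_of_disc h1 hW hp hU
  have hh : 0 < top f := (h.pos hx hxU).trans_le (h.le_top hx)
  have ha' := h.swap.area_eq_of_disc hW h1 (by rw [pl_swap, h.area_eq]; exact hp) hh
  rw [h.area_eq, ha] at ha'
  have htop : top f = top g := by
    have : top f ^ 2 = top g ^ 2 := by
      have := Real.pi_pos
      nlinarith
    exact (pow_left_inj₀ hh.le hU.le two_ne_zero).1 this
  refine ⟨htop, ?_⟩
  have m1 := h.mass_of_disc h1 hW hp hx0 hxU (S := Iic x) Iio_subset_Iic_self subset_rfl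
  have m2 := h.mass_of_disc h1 hW hp hx0 hxU (S := Iio x) subset_rfl Iio_subset_Iic_self
  have hfx := h.le_top hx
  have b1 : top f - f x ≤ volume.real {y | y ∈ act g ∧ g y ∈ Iic x} := by
    have hsub : Ioo (f x) (top f) ⊆ {y | y ∈ act g ∧ g y ∈ Iic x} := fun y hy => by
      have hy' : y ∈ act g := h.swap.Ioo_subset_act ⟨(h.bot_le hx).trans_lt hy.1, hy.2⟩
      refine ⟨hy', ?_⟩
      by_contra hc
      exact absurd (h.gf x hx y hy'.1 (not_le.1 hc)) (not_le.2 hy.1)
    have := measureReal_mono (μ := volume) hsub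
      ((measure_mono fun y hy => hy.1).trans_lt (volume_act_lt_top g)).ne
    rwa [Real.volume_real_Ioo_of_le hfx] at this
  have b2 : volume.real {y | y ∈ act g ∧ g y ∈ Iio x} ≤ top f - f x := by
    have hsub : {y | y ∈ act g ∧ g y ∈ Iio x} ⊆ Icc (f x) (top f) := fun y hy => by
      refine ⟨?_, (h.swap.act_subset_Icc hy.1).2⟩
      by_contra hc
      exact absurd (h.fg x hx y hy.1.1 (not_le.1 hc)) (not_le.2 hy.2)
    have := measureReal_mono (μ := volume) hsub (by simp)
    rwa [Real.volume_real_Icc_of_le hfx] at this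
  have e : top g * √(1 - ((top g)⁻¹ * x) ^ 2) = √(top g ^ 2 - x ^ 2) := by
    rw [show top g ^ 2 - x ^ 2 = top g ^ 2 * (1 - ((top g)⁻¹ * x) ^ 2) by field_simp,
      Real.sqrt_mul (sq_nonneg _), Real.sqrt_sq hU.le]
  rw [← e]
  linarith

/-- Equality in the disc bound: a quarter disc of radius `r`, `r² = 4a/π`. -/
theorem Pair.eq_disc {f g : ℝ → ℝ} (h : Pair f g) (h1 : bot f = 0) (hW : bot g = 0)
    (hp : pl f g ≤ √(π * area f)) :
    4 * area f / π ≤ 1 ∧ ∀ x ∈ Ioo (0:ℝ) 1, f x = √(4 * area f / π - x ^ 2) := by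
  rcases eq_or_lt_of_le h.swap.top_nonneg with h0 | hU
  · rw [h.area_eq_zero h0.symm]
    refine ⟨by simp, fun x hx => ?_⟩
    rw [h.eq_zero hx (h0 ▸ hx.1), eq_comm, Real.sqrt_eq_zero']
    simp [sq_nonneg]
  have ha := h.area_eq_of_disc h1 hW hp hU
  have hr : 4 * area f / π = top g ^ 2 := by rw [ha]; field_simp
  have hU1 := h.swap.top_le_one
  rw [hr]
  refine ⟨by nlinarith, fun x hx => ?_⟩
  rcases lt_trichotomy x (top g) with hlt | heq | hgt
  · exact (h.eq_disc_core h1 hW hp hx.1 hlt).2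
  · have htop := (h.eq_disc_core h1 hW hp (x := top g / 2) (by linarith) (by linarith)).1
    rw [heq, sub_self, Real.sqrt_zero, ← heq]
    refine le_antisymm ?_ (h.f_mem x hx).1
    by_contra hc
    push Not at hc
    obtain ⟨y, hy1, hy2⟩ := exists_between hc
    have hy : y ∈ Ioo (0:ℝ) 1 := ⟨hy1, hy2.trans_le (h.f_mem x hx).2⟩
    have c1 := h.fg x hx y hy hy2
    have c2 := (h.swap.eq_disc_core hW h1 (by rw [pl_swap, h.area_eq]; exact hp) hy1
      (hy2.trans_le (h.le_top hx))).2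
    have c3 : √(top f ^ 2 - y ^ 2) < top g := by
      rw [htop, Real.sqrt_lt' hU]; nlinarith
    linarith
  · rw [h.eq_zero hx hgt, eq_comm, Real.sqrt_eq_zero']
    nlinarith

/-- Equality in the hole bound: the complement of a quarter disc centred at `(1,1)`. -/
theorem Pair.eq_hole {f g : ℝ → ℝ} (h : Pair f g) (h0 : top f = 1) (hU : top g = 1)
    (hp : pl f g ≤ √(π * (1 - area f))) :
    4 * (1 - area f) / π ≤ 1 ∧
      ∀ x ∈ Ioo (0:ℝ) 1, f x = 1 - √(4 * (1 - area f) / π - (1 - x) ^ 2) := by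
  have := h.compl.eq_disc (by rw [bot_compl h, h0, sub_self])
    (by rw [bot_compl h.swap, hU, sub_self]) (by rw [pl_compl, h.area_compl]; exact hp)
  rw [h.area_compl] at this
  refine ⟨this.1, fun x hx => ?_⟩
  have := this.2 (1 - x) ⟨by linarith [hx.2], by linarith [hx.1]⟩
  simp only [cpl, sub_sub_cancel] at this
  linarith

/-- Equality in the strip bound: a horizontal strip. -/
theorem Pair.eq_strip {f g : ℝ → ℝ} (h : Pair f g) (hW : bot g = 0) (hU : top g = 1)
    (hp : pl f g ≤ 1) : ∀ x ∈ Ioo (0:ℝ) 1, f x = area f := by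
  have key := h.pl_ge_chord.trans hp
  rw [hW, hU, Real.sqrt_le_one] at key
  have : top f - bot f = 0 := by
    have : (top f - bot f) ^ 2 ≤ 0 := by linarith
    exact pow_eq_zero_iff (two_ne_zero) |>.1 (le_antisymm this (sq_nonneg _))
  intro x hx
  have := h.le_top hx
  have := h.bot_le hx
  have := h.area_le_top
  have := h.bot_le_area
  linarith

/-- All equality cases of the profile of the square. -/
theorem Pair.eq_I2 {f g : ℝ → ℝ} (h : Pair f g) (hp : pl f g ≤ I2 (area f)) :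
    (pl f g = √(π * area f) ∧ ∀ x ∈ Ioo (0:ℝ) 1, f x = √(4 * area f / π - x ^ 2)) ∨
    (pl f g = √(π * (1 - area f)) ∧
      ∀ x ∈ Ioo (0:ℝ) 1, f x = 1 - √(4 * (1 - area f) / π - (1 - x) ^ 2)) ∨
    (pl f g = 1 ∧ ∀ x ∈ Ioo (0:ℝ) 1, f x = area f) ∨
    (pl f g = 1 ∧ ∀ y ∈ Ioo (0:ℝ) 1, g y = area f) := by
  unfold I2 at hp
  have p1 : pl f g ≤ √(π * area f) := hp.trans ((min_le_left _ _).trans (min_le_left _ _))
  have p2 : pl f g ≤ 1 := hp.trans ((min_le_left _ _).trans (min_le_right _ _))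
  have p3 : pl f g ≤ √(π * (1 - area f)) := hp.trans (min_le_right _ _)
  rcases h.shape with ⟨h1, h2⟩ | ⟨h1, h2⟩ | ⟨h1, h2⟩ | ⟨h1, h2⟩
  · have := h.pl_ge_sqrt
    rw [h1, h2] at this
    exact Or.inl ⟨le_antisymm p1 (by linarith), (h.eq_disc h1 h2 p1).2⟩
  · have := h.pl_ge_sqrt_hole
    rw [h1, h2] at this
    exact Or.inr (Or.inl ⟨le_antisymm p3 (by linarith), (h.eq_hole h1 h2 p3).2⟩)
  · exact Or.inr (Or.inr (Or.inl ⟨le_antisymm p2 (h.one_le_pl h1 h2), h.eq_strip h1 h2 p2⟩))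
  · have q := h.swap.one_le_pl h1 h2
    rw [pl_swap] at q
    refine Or.inr (Or.inr (Or.inr ⟨le_antisymm p2 q, fun y hy => ?_⟩))
    rw [← h.area_eq]
    exact h.swap.eq_strip h1 h2 (by rw [pl_swap]; exact p2) y hy

end Crest.Agent.R214.Iso
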