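import Crest.Agent.R214.CsDefs
import Crest.Agent.R214.DSHt
import Crest.Agent.R214.DSSig
import Crest.Agent.R214.IsoEq
import Crest.Agent.R214.IsoSlice

/-! Row 214, module ISO: the planar slices of a down-set of the cube. -/

set_option autoImplicit false
open MeasureTheory Set Filter Topology Real

noncomputable section
namespace Crest.Agent.R214.IsoDS
open DS Iso Cs

variable {E : Set E3}

/-! ### Fubini on the unit square -/

theorem integral_sq_fst {S : Set (ℝ × ℝ)} (hS : MeasurableSet S) (hsq : S ⊆ sq)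
    {u : ℝ × ℝ → ℝ} (hu : Measurable u) {C : ℝ} (hC : ∀ w, |u w| ≤ C) :
    (∫ w in S, u w = ∫ t in Ioo (0:ℝ) 1, ∫ x in {x | (t, x) ∈ S}, u (t, x)) ∧
      IntegrableOn (fun t => ∫ x in {x | (t, x) ∈ S}, u (t, x)) (Ioo (0:ℝ) 1) := by
  have hfin : volume S ≠ ⊤ := ((measure_mono hsq).trans_lt (by rw [volume_sq]; simp)).ne
  have hi : Integrable (S.indicator u) ((volume : Measure ℝ).prod volume) := by
    rw [← Measure.volume_eq_prod, integrable_indicator_iff hS]
    exact Measure.integrableOn_of_bounded hfin hu.aestronglyMeasurable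
      (Eventually.of_forall fun w => by simpa using hC w)
  have e : ∀ t, ∫ x, S.indicator u (t, x) = ∫ x in {x | (t, x) ∈ S}, u (t, x) := fun t => by
    rw [← integral_indicator (show MeasurableSet {x | (t, x) ∈ S} from measurable_prodMk_left hS)]
    rfl
  have e0 : ∀ t, t ∉ Ioo (0:ℝ) 1 → ∫ x in {x | (t, x) ∈ S}, u (t, x) = 0 := fun t ht => by
    have : {x | (t, x) ∈ S} = ∅ := eq_empty_of_forall_notMem fun x hx => ht (hsq hx).1
    rw [this]; simp
  constructor
  · rw [← integral_indicator hS, Measure.volume_eq_prod, integral_prod _ hi]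
    simp only [e]
    exact (setIntegral_eq_integral_of_forall_compl_eq_zero e0).symm
  · have := hi.integral_prod_left
    simp only [e] at this
    exact this.integrableOn

theorem integral_sq_snd {S : Set (ℝ × ℝ)} (hS : MeasurableSet S) (hsq : S ⊆ sq)
    {u : ℝ × ℝ → ℝ} (hu : Measurable u) {C : ℝ} (hC : ∀ w, |u w| ≤ C) :
    (∫ w in S, u w = ∫ t in Ioo (0:ℝ) 1, ∫ y in {y | (y, t) ∈ S}, u (y, t)) ∧
      IntegrableOn (fun t => ∫ y in {y | (y, t) ∈ S}, u (y, t)) (Ioo (0:ℝ) 1) := by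
  have h := integral_sq_fst (S := Prod.swap ⁻¹' S) (measurable_swap hS)
    (fun w hw => ⟨(hsq hw).2, (hsq hw).1⟩) (u := fun w => u w.swap) (hu.comp measurable_swap)
    (fun w => hC _)
  refine ⟨?_, h.2⟩
  refine Eq.trans ?_ h.1
  rw [Measure.volume_eq_prod]
  exact ((Measure.measurePreserving_swap (μ := (volume : Measure ℝ)) (ν := volume)
    ).setIntegral_preimage_emb MeasurableEquiv.prodComm.measurableEmbedding u S).symm

theorem real_sq_fst {S : Set (ℝ × ℝ)} (hS : MeasurableSet S) (hsq : S ⊆ sq) :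
    (volume.real S = ∫ t in Ioo (0:ℝ) 1, volume.real {x | (t, x) ∈ S}) ∧
      IntegrableOn (fun t => volume.real {x | (t, x) ∈ S}) (Ioo (0:ℝ) 1) := by
  simpa using integral_sq_fst hS hsq (u := fun _ => 1) measurable_const (C := 1) (by simp)

theorem real_sq_snd {S : Set (ℝ × ℝ)} (hS : MeasurableSet S) (hsq : S ⊆ sq) :
    (volume.real S = ∫ t in Ioo (0:ℝ) 1, volume.real {y | (y, t) ∈ S}) ∧
      IntegrableOn (fun t => volume.real {y | (y, t) ∈ S}) (Ioo (0:ℝ) 1) := by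
  simpa using integral_sq_snd hS hsq (u := fun _ => 1) measurable_const (C := 1) (by simp)

/-! ### The slices -/

theorem pair_sl (hE : IsDS E) (i : Fin 3) (t : ℝ) : Pair (slF E i t) (slG E i t) where
  f_mem x _ := ⟨ht_nonneg _ _ _, ht_le_one _ _ _⟩
  g_mem y _ := ⟨ht_nonneg _ _ _, ht_le_one _ _ _⟩
  fg x _ y hy h := by
    have := hE.mem_of_lt_ht hy.1 h
    rw [ins_rot2, ← ins_rot1] at this
    exact hE.le_ht this
  gf x hx y _ h := by
    have := hE.mem_of_lt_ht hx.1 h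
    rw [ins_rot1, ← ins_rot2] at this
    exact hE.le_ht this

theorem mem_of_lt_slF (hE : IsDS E) {i : Fin 3} {t x y : ℝ} (hy : 0 < y) (h : y < slF E i t x) :
    ins i t (x, y) ∈ E := by
  have := hE.mem_of_lt_ht hy h
  rwa [ins_rot2] at this

theorem le_slF_of_mem (hE : IsDS E) {i : Fin 3} {t x y : ℝ} (h : ins i t (x, y) ∈ E) :
    y ≤ slF E i t x := by
  rw [← ins_rot2] at h
  exact hE.le_ht h

theorem measurable_slF (hE : IsDS E) (i : Fin 3) : Measurable (Function.uncurry (slF E i)) :=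
  hE.measurable_ht (i + 2)

theorem measurable_slG (hE : IsDS E) (i : Fin 3) : Measurable (Function.uncurry (slG E i)) :=
  (hE.measurable_ht (i + 1)).comp measurable_swap

theorem measurable_pz (hE : IsDS E) (i : Fin 3) : Measurable (pz E i) :=
  measurable_pl _ _ (measurable_slF hE i) (measurable_slG hE i)

theorem pz_nonneg (E : Set E3) (i : Fin 3) (t : ℝ) : 0 ≤ pz E i t := pl_nonneg _ _

theorem pz_le_two (E : Set E3) (i : Fin 3) (t : ℝ) : pz E i t ≤ 2 := pl_le_two _ _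

theorem area_slF (hE : IsDS E) (i : Fin 3) (t : ℝ) : area (slF E i t) = sec E i t := by
  have hS : MeasurableSet {w : ℝ × ℝ | ins i t w ∈ E} :=
    hE.meas.preimage ((continuous_ins i).comp (continuous_const.prodMk continuous_id)).measurable
  have h := (real_sq_fst hS fun w hw => ((ins_mem_cube i t w).1 (hE.sub hw)).2).1
  unfold sec area
  rw [← Measure.real, h]
  refine setIntegral_congr_fun measurableSet_Ioo fun x _ => ?_
  refine ((real_eq_of_between (ht_nonneg E (i + 2) (t, x)) (fun y hy => mem_of_lt_slF hE hy.1 hy.2)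
    (fun y hy => ⟨?_, le_slF_of_mem hE hy⟩)).trans (sub_zero _)).symm
  exact ((ins_mem_cube i t _).1 (hE.sub hy)).2.2.1.le

theorem area_slG (hE : IsDS E) (i : Fin 3) (t : ℝ) : area (slG E i t) = sec E i t := by
  rw [(pair_sl hE i t).area_eq, area_slF hE]

theorem I2_le_pz (hE : IsDS E) (i : Fin 3) (t : ℝ) : I2 (sec E i t) ≤ pz E i t := by
  rw [← area_slF hE]; exact (pair_sl hE i t).pl_ge_I2

/-- nestedness of the slices -/
theorem slF_anti (hE : IsDS E) (i : Fin 3) {s t : ℝ} (hs : s ∈ Ioo (0:ℝ) 1) (hst : s ≤ t)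
    {x : ℝ} (hx : x ∈ Ioo (0:ℝ) 1) : slF E i t x ≤ slF E i s x :=
  hE.ht_anti (i + 2) (w := (s, x)) (w' := (t, x)) ⟨hs, hx⟩ hst le_rfl

theorem slG_anti (hE : IsDS E) (i : Fin 3) {s t : ℝ} (hs : s ∈ Ioo (0:ℝ) 1) (hst : s ≤ t)
    {y : ℝ} (hy : y ∈ Ioo (0:ℝ) 1) : slG E i t y ≤ slG E i s y :=
  hE.ht_anti (i + 1) (w := (y, s)) (w' := (y, t)) ⟨hy, hs⟩ le_rfl hst

theorem bot_slF_anti (hE : IsDS E) (i : Fin 3) :
    AntitoneOn (fun t => bot (slF E i t)) (Ioo (0:ℝ) 1) := fun _ hs t _ hst =>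
  (pair_sl hE i t).bot_mono fun _ hx => slF_anti hE i hs hst hx

theorem bot_slG_anti (hE : IsDS E) (i : Fin 3) :
    AntitoneOn (fun t => bot (slG E i t)) (Ioo (0:ℝ) 1) := fun _ hs t _ hst =>
  (pair_sl hE i t).swap.bot_mono fun _ hx => slG_anti hE i hs hst hx

theorem top_slF_anti (hE : IsDS E) (i : Fin 3) :
    AntitoneOn (fun t => top (slF E i t)) (Ioo (0:ℝ) 1) := fun s hs _ _ hst =>
  (pair_sl hE i s).top_mono fun _ hx => slF_anti hE i hs hst hx

theorem top_slG_anti (hE : IsDS E) (i : Fin 3) :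
    AntitoneOn (fun t => top (slG E i t)) (Ioo (0:ℝ) 1) := fun s hs _ _ hst =>
  (pair_sl hE i s).swap.top_mono fun _ hx => slG_anti hE i hs hst hx

/-! ### Wall traces -/

theorem one_set_meas (hE : IsDS E) (j : Fin 3) :
    MeasurableSet {w : ℝ × ℝ | w ∈ sq ∧ ht E j w = 1} :=
  measurableSet_sq.inter ((measurableSet_singleton 1).preimage (hE.measurable_ht j))

theorem pos_set_meas (hE : IsDS E) (j : Fin 3) :
    MeasurableSet {w : ℝ × ℝ | w ∈ sq ∧ 0 < ht E j w} :=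
  measurableSet_sq.inter (measurableSet_Ioi.preimage (hE.measurable_ht j))

theorem integral_bot_slF (hE : IsDS E) (i : Fin 3) :
    ∫ t in Ioo (0:ℝ) 1, bot (slF E i t) = aone E (i + 1) := by
  unfold aone
  rw [← Measure.real, (real_sq_snd (one_set_meas hE (i + 1)) fun w hw => hw.1).1]
  refine setIntegral_congr_fun measurableSet_Ioo fun t ht => ?_
  rw [← (pair_sl hE i t).swap.volume_one]
  congr 1
  ext y
  simp only [mem_ofPred_eq]
  exact ⟨fun h => ⟨⟨h.1, ht⟩, le_antisymm (ht_le_one _ _ _) h.2⟩, fun h => ⟨h.1.1, h.2.ge⟩⟩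

theorem integral_bot_slG (hE : IsDS E) (i : Fin 3) :
    ∫ t in Ioo (0:ℝ) 1, bot (slG E i t) = aone E (i + 2) := by
  unfold aone
  rw [← Measure.real, (real_sq_fst (one_set_meas hE (i + 2)) fun w hw => hw.1).1]
  refine setIntegral_congr_fun measurableSet_Ioo fun t ht => ?_
  rw [← (pair_sl hE i t).volume_one]
  congr 1
  ext y
  simp only [mem_ofPred_eq]
  exact ⟨fun h => ⟨⟨ht, h.1⟩, le_antisymm (ht_le_one _ _ _) h.2⟩, fun h => ⟨h.1.2, h.2.ge⟩⟩

theorem integral_top_slF (hE : IsDS E) (i : Fin 3) :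
    ∫ t in Ioo (0:ℝ) 1, top (slF E i t) = azero E (i + 1) := by
  unfold azero
  rw [← Measure.real, (real_sq_snd (pos_set_meas hE (i + 1)) fun w hw => hw.1).1]
  refine setIntegral_congr_fun measurableSet_Ioo fun t ht => ?_
  rw [← (pair_sl hE i t).swap.volume_pos]
  congr 1
  ext y
  simp only [mem_ofPred_eq]
  exact ⟨fun h => ⟨⟨h.1, ht⟩, h.2⟩, fun h => ⟨h.1.1, h.2⟩⟩

theorem integral_top_slG (hE : IsDS E) (i : Fin 3) :
    ∫ t in Ioo (0:ℝ) 1, top (slG E i t) = azero E (i + 2) := by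
  unfold azero
  rw [← Measure.real, (real_sq_fst (pos_set_meas hE (i + 2)) fun w hw => hw.1).1]
  refine setIntegral_congr_fun measurableSet_Ioo fun t ht => ?_
  rw [← (pair_sl hE i t).volume_pos]
  congr 1
  ext y
  simp only [mem_ofPred_eq]
  exact ⟨fun h => ⟨⟨ht, h.1⟩, h.2⟩, fun h => ⟨h.1.2, h.2⟩⟩

/-- An antitone function with values in `[0,1]` is at most its integral divided by `t`. -/
theorem mul_le_integral_of_anti {u : ℝ → ℝ} (hu : AntitoneOn u (Ioo (0:ℝ) 1))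
    (h0 : ∀ s ∈ Ioo (0:ℝ) 1, 0 ≤ u s) (h1 : ∀ s ∈ Ioo (0:ℝ) 1, u s ≤ 1)
    {t : ℝ} (ht : t ∈ Ioo (0:ℝ) 1) : t * u t ≤ ∫ s in Ioo (0:ℝ) 1, u s := by
  have hi : IntegrableOn u (Ioo (0:ℝ) 1) :=
    Integrable.of_bound
      (aemeasurable_restrict_of_antitoneOn measurableSet_Ioo hu).aestronglyMeasurable 1
      ((ae_restrict_mem measurableSet_Ioo).mono fun x hx => by
        rw [Real.norm_of_nonneg (h0 x hx)]; exact h1 x hx)
  have hsub : Ioo (0:ℝ) t ⊆ Ioo (0:ℝ) 1 := Ioo_subset_Ioo_right ht.2.le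
  calc t * u t = ∫ _ in Ioo (0:ℝ) t, u t := by
        rw [setIntegral_const, Real.volume_real_Ioo_of_le ht.1.le, sub_zero, smul_eq_mul]
    _ ≤ ∫ s in Ioo (0:ℝ) t, u s :=
        setIntegral_mono_on (integrableOn_const (by simp)) (hi.mono_set hsub) measurableSet_Ioo
          fun s hs => hu (hsub hs) ht hs.2.le
    _ ≤ ∫ s in Ioo (0:ℝ) 1, u s :=
        setIntegral_mono_set hi ((ae_restrict_mem measurableSet_Ioo).mono h0)
          (Eventually.of_forall hsub)

theorem mul_bot_slF_le (hE : IsDS E) (i : Fin 3) {t : ℝ} (ht : t ∈ Ioo (0:ℝ) 1) :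
    t * bot (slF E i t) ≤ aone E (i + 1) := by
  rw [← integral_bot_slF hE]
  exact mul_le_integral_of_anti (bot_slF_anti hE i) (fun s _ => (pair_sl hE i s).bot_nonneg)
    (fun s _ => (pair_sl hE i s).bot_le_top.trans (pair_sl hE i s).top_le_one) ht

theorem mul_bot_slG_le (hE : IsDS E) (i : Fin 3) {t : ℝ} (ht : t ∈ Ioo (0:ℝ) 1) :
    t * bot (slG E i t) ≤ aone E (i + 2) := by
  rw [← integral_bot_slG hE]
  exact mul_le_integral_of_anti (bot_slG_anti hE i) (fun s _ => (pair_sl hE i s).swap.bot_nonneg)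
    (fun s _ => (pair_sl hE i s).swap.bot_le_top.trans (pair_sl hE i s).swap.top_le_one) ht

theorem bot_slF_eq_zero (hE : IsDS E) (i : Fin 3) (h : aone E (i + 1) = 0) {t : ℝ}
    (ht : t ∈ Ioo (0:ℝ) 1) : bot (slF E i t) = 0 := by
  have := mul_bot_slF_le hE i ht
  rw [h] at this
  exact le_antisymm (by by_contra hc; push Not at hc; nlinarith [mul_pos ht.1 hc])
    (pair_sl hE i t).bot_nonneg

theorem bot_slG_eq_zero (hE : IsDS E) (i : Fin 3) (h : aone E (i + 2) = 0) {t : ℝ}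
    (ht : t ∈ Ioo (0:ℝ) 1) : bot (slG E i t) = 0 := by
  have := mul_bot_slG_le hE i ht
  rw [h] at this
  exact le_antisymm (by by_contra hc; push Not at hc; nlinarith [mul_pos ht.1 hc])
    (pair_sl hE i t).swap.bot_nonneg

/-- slices that touch no far wall -/
theorem sqrt_le_pz (hE : IsDS E) (i : Fin 3) (h1 : aone E (i + 1) = 0) (h2 : aone E (i + 2) = 0)
    {t : ℝ} (ht : t ∈ Ioo (0:ℝ) 1) : √(π * sec E i t) ≤ pz E i t := by
  have := (pair_sl hE i t).pl_ge_sqrt
  rwa [bot_slF_eq_zero hE i h1 ht, bot_slG_eq_zero hE i h2 ht, add_zero, add_zero,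
    area_slF hE] at this

/-! ### Slicing the graph measures -/

theorem integral_mu_succ2 (hE : IsDS E) (i : Fin 3) {g : E3 → ℝ} (hg : Measurable g) {C : ℝ}
    (hC : ∀ x, |g x| ≤ C) :
    (∫ x, g x ∂(mu E (i + 2))
        = ∫ t in Ioo (0:ℝ) 1, ∫ x in act (slF E i t), g (ins i t (x, slF E i t x))) ∧
      IntegrableOn (fun t => ∫ x in act (slF E i t), g (ins i t (x, slF E i t x)))
        (Ioo (0:ℝ) 1) := by
  have h := integral_sq_fst (hE.measurableSet_dom (i + 2)) (fun w hw => hw.1)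
    (u := fun w => g (gr E (i + 2) w)) (hg.comp (hE.measurable_gr _)) (fun w => hC _)
  have e : ∀ t ∈ Ioo (0:ℝ) 1, ∫ x in {x | (t, x) ∈ dom E (i + 2)}, g (gr E (i + 2) (t, x))
      = ∫ x in act (slF E i t), g (ins i t (x, slF E i t x)) := fun t ht => by
    have : {x | (t, x) ∈ dom E (i + 2)} = act (slF E i t) := by
      ext x
      exact ⟨fun h => ⟨h.1.2, h.2⟩, fun h => ⟨⟨ht, h.1⟩, h.2⟩⟩
    rw [this]
    simp only [gr, ins_rot2, slF]
  refine ⟨?_, h.2.congr_fun e measurableSet_Ioo⟩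
  rw [hE.integral_mu _ hg, h.1]
  exact setIntegral_congr_fun measurableSet_Ioo e

theorem integral_mu_succ (hE : IsDS E) (i : Fin 3) {g : E3 → ℝ} (hg : Measurable g) {C : ℝ}
    (hC : ∀ x, |g x| ≤ C) :
    (∫ x, g x ∂(mu E (i + 1))
        = ∫ t in Ioo (0:ℝ) 1, ∫ y in act (slG E i t), g (ins i t (slG E i t y, y))) ∧
      IntegrableOn (fun t => ∫ y in act (slG E i t), g (ins i t (slG E i t y, y)))
        (Ioo (0:ℝ) 1) := by
  have h := integral_sq_snd (hE.measurableSet_dom (i + 1)) (fun w hw => hw.1)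
    (u := fun w => g (gr E (i + 1) w)) (hg.comp (hE.measurable_gr _)) (fun w => hC _)
  have e : ∀ t ∈ Ioo (0:ℝ) 1, ∫ y in {y | (y, t) ∈ dom E (i + 1)}, g (gr E (i + 1) (y, t))
      = ∫ y in act (slG E i t), g (ins i t (slG E i t y, y)) := fun t ht => by
    have : {y | (y, t) ∈ dom E (i + 1)} = act (slG E i t) := by
      ext x
      exact ⟨fun h => ⟨h.1.1, h.2⟩, fun h => ⟨⟨h.1, ht⟩, h.2⟩⟩
    rw [this]
    simp only [gr, ins_rot1, slG]
  refine ⟨?_, h.2.congr_fun e measurableSet_Ioo⟩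
  rw [hE.integral_mu _ hg, h.1]
  exact setIntegral_congr_fun measurableSet_Ioo e

/-- The flux through the slices, integrated against a weight. -/
theorem integral_flux (hE : IsDS E) (i : Fin 3) {B : ℝ → ℝ} (hB : Measurable B) {C : ℝ}
    (hC : ∀ t, |B t| ≤ C) {Φ Ψ : E3 → ℝ} (hΦ : Measurable Φ) (hΨ : Measurable Ψ)
    (h1 : ∀ x, |Φ x| ≤ 1) (h2 : ∀ x, |Ψ x| ≤ 1) :
    (∫ t in Ioo (0:ℝ) 1, B t * flux (slF E i t) (slG E i t) (fun x y => Φ (ins i t (x, y)))
        (fun x y => Ψ (ins i t (x, y)))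
      = ∫ x, B (x i) * (Φ x * nu E (i + 1) x + Ψ x * nu E (i + 2) x) ∂(sig E)) ∧
    IntegrableOn (fun t => B t * flux (slF E i t) (slG E i t) (fun x y => Φ (ins i t (x, y)))
        (fun x y => Ψ (ins i t (x, y)))) (Ioo (0:ℝ) 1) := by
  have hBi : Measurable fun x : E3 => B (x i) := hB.comp (by fun_prop)
  have hC0 : 0 ≤ C := (abs_nonneg _).trans (hC 0)
  have bd : ∀ {a b : ℝ}, |a| ≤ C → |b| ≤ 1 → |a * b| ≤ C := fun ha hb => by
    rw [abs_mul]; exact (mul_le_mul ha hb (abs_nonneg _) hC0).trans_eq (mul_one C)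
  have nu1 : ∀ j x, |nu E j x| ≤ 1 := fun j x => by
    rw [abs_of_nonneg (nu_nonneg E j x)]; exact nu_le_one E j x
  have a1 := integral_mu_succ hE i (g := fun x => B (x i) * Φ x) (hBi.mul hΦ)
    (fun x => bd (hC _) (h1 x))
  have a2 := integral_mu_succ2 hE i (g := fun x => B (x i) * Ψ x) (hBi.mul hΨ)
    (fun x => bd (hC _) (h2 x))
  simp only [ins_self, integral_const_mul] at a1 a2
  have int : ∀ {u : E3 → ℝ} (j : Fin 3), Measurable u → (∀ x, |u x| ≤ 1) →
      Integrable (fun x : E3 => B (x i) * u x * nu E j x) (sig E) := fun j hu hu1 =>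
    Integrable.of_bound ((hBi.mul hu).mul (measurable_nu E j)).aestronglyMeasurable C
      (Eventually.of_forall fun x => by
        rw [Real.norm_eq_abs]; exact bd (bd (hC _) (hu1 x)) (nu1 j x))
  simp only [flux, mul_add]
  refine ⟨?_, a1.2.add a2.2⟩
  rw [integral_add a1.2 a2.2, ← a1.1, ← a2.1, integral_mu_nu, integral_mu_nu,
    ← integral_add (int _ hΦ h1) (int _ hΨ h2)]
  simp only [mul_assoc]

theorem integrable_w (E : Set E3) (i : Fin 3) {B : ℝ → ℝ} (hB : Measurable B) {C : ℝ}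
    (hC : ∀ t, |B t| ≤ C) :
    Integrable (fun x : E3 => B (x i) * √(1 - nu E i x ^ 2)) (sig E) := by
  have hBi : Measurable fun x : E3 => B (x i) := hB.comp (by fun_prop)
  have hC0 : 0 ≤ C := (abs_nonneg _).trans (hC 0)
  refine Integrable.of_bound
    (hBi.mul (measurable_const.sub ((measurable_nu E i).pow_const 2)).sqrt).aestronglyMeasurable C
    (Eventually.of_forall fun x => ?_)
  rw [Real.norm_eq_abs, abs_mul, abs_of_nonneg (Real.sqrt_nonneg _)]
  exact (mul_le_mul (hC _) (Real.sqrt_le_one.2 (by nlinarith [sq_nonneg (nu E i x)]))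
    (Real.sqrt_nonneg _) hC0).trans_eq (mul_one C)

theorem integrableOn_pz (hE : IsDS E) (i : Fin 3) {B : ℝ → ℝ} (hB : Measurable B) {C : ℝ}
    (hC : ∀ t, |B t| ≤ C) : IntegrableOn (fun t => B t * pz E i t) (Ioo (0:ℝ) 1) := by
  have hC0 : 0 ≤ C := (abs_nonneg _).trans (hC 0)
  refine Integrable.of_bound (hB.mul (measurable_pz hE i)).aestronglyMeasurable (C * 2)
    (Eventually.of_forall fun t => ?_)
  rw [Real.norm_eq_abs, abs_mul, abs_of_nonneg (pz_nonneg E i t)]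
  exact mul_le_mul (hC _) (pz_le_two E i t) (pz_nonneg E i t) hC0

/-- Slicing inequality. -/
theorem slice_w (hE : IsDS E) (i : Fin 3) {B : ℝ → ℝ} (hB : Measurable B) {C : ℝ}
    (hC : ∀ t, |B t| ≤ C) (h0 : ∀ t, 0 ≤ B t) :
    ∫ t in Ioo (0:ℝ) 1, B t * pz E i t ≤ ∫ x, B (x i) * √(1 - nu E i x ^ 2) ∂(sig E) := by
  obtain ⟨Φ, Ψ, mΦ, mΨ, p1, p2, hle, hopt⟩ :=
    exists_opt (slF E i) (slG E i) (measurable_slF hE i) (measurable_slG hE i)
  have mc : Measurable fun x : E3 => ((x i, x (i + 1), x (i + 2)) : ℝ × ℝ × ℝ) := by fun_prop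
  have b1 : ∀ z x y, |Φ z x y| ≤ 1 := fun z x y => by
    rw [← sq_le_one_iff_abs_le_one]; nlinarith [hle z x y, sq_nonneg (Ψ z x y)]
  have b2 : ∀ z x y, |Ψ z x y| ≤ 1 := fun z x y => by
    rw [← sq_le_one_iff_abs_le_one]; nlinarith [hle z x y, sq_nonneg (Φ z x y)]
  have key := (integral_flux hE i hB hC (Φ := fun x => Φ (x i) (x (i + 1)) (x (i + 2)))
    (Ψ := fun x => Ψ (x i) (x (i + 1)) (x (i + 2))) (mΦ.comp mc) (mΨ.comp mc)
    (fun x => b1 _ _ _) (fun x => b2 _ _ _)).1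
  simp only [ins_self, ins_succ, ins_succ2] at key
  have e : ∀ t, flux (slF E i t) (slG E i t) (fun x y => Φ t x y) (fun x y => Ψ t x y)
      = pz E i t := fun t => hopt t
  simp only [e] at key
  rw [key]
  refine integral_mono_of_nonneg (Eventually.of_forall fun x => ?_) (integrable_w E i hB hC)
    (Eventually.of_forall fun x => ?_)
  · exact mul_nonneg (h0 _) (add_nonneg (mul_nonneg (p1 _ _ _) (nu_nonneg _ _ _))
      (mul_nonneg (p2 _ _ _) (nu_nonneg _ _ _)))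
  · refine mul_le_mul_of_nonneg_left (Real.le_sqrt_of_sq_le ?_) (h0 _)
    have s := nu_sq_le E x
    rw [sum3 i] at s
    have := hle (x i) (x (i + 1)) (x (i + 2))
    set a := Φ (x i) (x (i + 1)) (x (i + 2))
    set b := Ψ (x i) (x (i + 1)) (x (i + 2))
    set u := nu E (i + 1) x
    set v := nu E (i + 2) x
    have c1 : (a * u + b * v) ^ 2 ≤ (a ^ 2 + b ^ 2) * (u ^ 2 + v ^ 2) := by
      nlinarith [sq_nonneg (a * v - b * u)]
    have c2 : (a ^ 2 + b ^ 2) * (u ^ 2 + v ^ 2) ≤ 1 * (u ^ 2 + v ^ 2) :=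
      mul_le_mul_of_nonneg_right this (by positivity)
    linarith

/-- The converse slicing inequality. -/
theorem slice_w_ge (hE : IsDS E) (i : Fin 3) {B : ℝ → ℝ} (hB : Measurable B) {C : ℝ}
    (hC : ∀ t, |B t| ≤ C) (h0 : ∀ t, 0 ≤ B t) :
    ∫ x, B (x i) * √(1 - nu E i x ^ 2) ∂(sig E) ≤ ∫ t in Ioo (0:ℝ) 1, B t * pz E i t := by
  set N : E3 → ℝ := fun x => √(nu E (i + 1) x ^ 2 + nu E (i + 2) x ^ 2) with hN
  have mN : Measurable N :=
    (((measurable_nu E _).pow_const 2).add ((measurable_nu E _).pow_const 2)).sqrt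
  have mΦ : Measurable fun x => nu E (i + 1) x / N x := (measurable_nu E _).div mN
  have mΨ : Measurable fun x => nu E (i + 2) x / N x := (measurable_nu E _).div mN
  have N2 : ∀ x, N x ^ 2 = nu E (i + 1) x ^ 2 + nu E (i + 2) x ^ 2 := fun x =>
    Real.sq_sqrt (by positivity)
  have hle : ∀ x, (nu E (i + 1) x / N x) ^ 2 + (nu E (i + 2) x / N x) ^ 2 ≤ 1 := fun x => by
    rw [div_pow, div_pow, ← add_div, ← N2]
    exact div_self_le_one _
  have b1 : ∀ x, |nu E (i + 1) x / N x| ≤ 1 := fun x => by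
    rw [← sq_le_one_iff_abs_le_one]; nlinarith [hle x, sq_nonneg (nu E (i + 2) x / N x)]
  have b2 : ∀ x, |nu E (i + 2) x / N x| ≤ 1 := fun x => by
    rw [← sq_le_one_iff_abs_le_one]; nlinarith [hle x, sq_nonneg (nu E (i + 1) x / N x)]
  have key := integral_flux hE i hB hC mΦ mΨ b1 b2
  have e : ∫ x, B (x i) * √(1 - nu E i x ^ 2) ∂(sig E) = ∫ x, B (x i) *
      (nu E (i + 1) x / N x * nu E (i + 1) x + nu E (i + 2) x / N x * nu E (i + 2) x) ∂(sig E) := by
    refine integral_congr_ae ((nu_sq_ae E).mono fun x hx => ?_)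
    rw [sum3 i] at hx
    have e1 : √(1 - nu E i x ^ 2) = N x := by
      rw [hN]; congr 1; linarith
    simp only [e1]
    congr 1
    rcases eq_or_ne (N x) 0 with h | h
    · simp [h]
    · field_simp
      exact N2 x
  rw [e, ← key.1]
  refine setIntegral_mono_on key.2 (integrableOn_pz hE i hB hC) measurableSet_Ioo fun t _ => ?_
  have mi : Measurable fun w : ℝ × ℝ => ins i t w :=
    ((continuous_ins i).comp (continuous_const.prodMk continuous_id)).measurable
  exact mul_le_mul_of_nonneg_left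
    (flux_le_pl _ _ ⟨mΦ.comp mi, mΨ.comp mi, fun x y => hle _⟩) (h0 t)

/-- The slicing formula: `pz` is the density of the push of `√(1 - ν_i²) σ`. -/
theorem slice_eq (hE : IsDS E) (i : Fin 3) {B : ℝ → ℝ} (hB : Measurable B) {C : ℝ}
    (hC : ∀ t, |B t| ≤ C) (h0 : ∀ t, 0 ≤ B t) :
    ∫ t in Ioo (0:ℝ) 1, B t * pz E i t = ∫ x, B (x i) * √(1 - nu E i x ^ 2) ∂(sig E) :=
  le_antisymm (slice_w hE i hB hC h0) (slice_w_ge hE i hB hC h0)

end Crest.Agent.R214.IsoDS
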