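import Crest.Agent.R214.CsDefs
import Crest.Agent.R214.DSSig
import Crest.Agent.R214.IsoBounds
import Crest.Agent.R214.IsoDS

/-! Row 214, module CASES: geometry of the planar slices of a down-set. -/

set_option autoImplicit false
open MeasureTheory Set Filter Topology Real

noncomputable section
namespace Crest.Agent.R214.Cs
open DS

variable {E : Set E3}

theorem slice_pair (hE : IsDS E) (i : Fin 3) {t : ℝ} (ht : t ∈ Ioo (0 : ℝ) 1) :
    Iso.Pair (slF E i t) (slG E i t) := by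
  have _ := ht
  exact IsoDS.pair_sl hE i t

theorem slice_area (hE : IsDS E) (i : Fin 3) {t : ℝ} (ht : t ∈ Ioo (0 : ℝ) 1) :
    Iso.area (slF E i t) = sec E i t := by
  have _ := ht
  exact IsoDS.area_slF hE i t

theorem slF_anti (hE : IsDS E) (i : Fin 3) {s t : ℝ} (hs : s ∈ Ioo (0 : ℝ) 1) (hst : s ≤ t)
    {x : ℝ} (hx : x ∈ Ioo (0 : ℝ) 1) : slF E i t x ≤ slF E i s x := by
  exact IsoDS.slF_anti hE i hs hst hx

theorem slG_anti (hE : IsDS E) (i : Fin 3) {s t : ℝ} (hs : s ∈ Ioo (0 : ℝ) 1) (hst : s ≤ t)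
    {y : ℝ} (hy : y ∈ Ioo (0 : ℝ) 1) : slG E i t y ≤ slG E i s y := by
  exact IsoDS.slG_anti hE i hs hst hy

/-- no trace on the wall `x_{i+1} = 1`: the slices `x_i = t` do not touch it -/
theorem botF_eq_zero (hE : IsDS E) (i : Fin 3) (h : aone E (i + 1) = 0) {t : ℝ}
    (ht : t ∈ Ioo (0 : ℝ) 1) : Iso.bot (slF E i t) = 0 := by
  exact IsoDS.bot_slF_eq_zero hE i h ht

theorem botG_eq_zero (hE : IsDS E) (i : Fin 3) (h : aone E (i + 2) = 0) {t : ℝ}
    (ht : t ∈ Ioo (0 : ℝ) 1) : Iso.bot (slG E i t) = 0 := by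
  exact IsoDS.bot_slG_eq_zero hE i h ht

/-- a trace on the wall `x_{i+1} = 1`: the low slices `x_i = t` touch it -/
theorem botF_pos (hE : IsDS E) (i : Fin 3) (h : aone E (i + 1) ≠ 0) :
    ∃ s ∈ Ioo (0 : ℝ) 1, ∀ t ∈ Ioo (0 : ℝ) 1, t ≤ s → 0 < Iso.bot (slF E i t) := by
  by_contra hc
  push Not at hc
  apply h
  rw [← IsoDS.integral_bot_slF hE]
  refine setIntegral_eq_zero_of_forall_eq_zero fun s hs => ?_
  obtain ⟨t, ht, hts, h0⟩ := hc s hs
  exact le_antisymm ((IsoDS.bot_slF_anti hE i ht hs hts).trans h0)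
    (IsoDS.pair_sl hE i s).bot_nonneg

theorem botG_pos (hE : IsDS E) (i : Fin 3) (h : aone E (i + 2) ≠ 0) :
    ∃ s ∈ Ioo (0 : ℝ) 1, ∀ t ∈ Ioo (0 : ℝ) 1, t ≤ s → 0 < Iso.bot (slG E i t) := by
  by_contra hc
  push Not at hc
  apply h
  rw [← IsoDS.integral_bot_slG hE]
  refine setIntegral_eq_zero_of_forall_eq_zero fun s hs => ?_
  obtain ⟨t, ht, hts, h0⟩ := hc s hs
  exact le_antisymm ((IsoDS.bot_slG_anti hE i ht hs hts).trans h0)
    (IsoDS.pair_sl hE i s).swap.bot_nonneg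

theorem pz_ge_I2 (hE : IsDS E) (i : Fin 3) {t : ℝ} (ht : t ∈ Ioo (0 : ℝ) 1) :
    Iso.I2 (sec E i t) ≤ pz E i t := by
  rw [← slice_area hE i ht]; exact (slice_pair hE i ht).pl_ge_I2

theorem pz_ge_sqrt (hE : IsDS E) (i : Fin 3) (h1 : aone E (i + 1) = 0) (h2 : aone E (i + 2) = 0)
    {t : ℝ} (ht : t ∈ Ioo (0 : ℝ) 1) : √(π * sec E i t) ≤ pz E i t := by
  have := (slice_pair hE i ht).pl_ge_sqrt
  rw [botF_eq_zero hE i h1 ht, botG_eq_zero hE i h2 ht, slice_area hE i ht] at this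
  simpa [pz] using this

/-- slices touching both far walls -/
theorem pz_ge_hole (hE : IsDS E) (i : Fin 3) {t : ℝ} (ht : t ∈ Ioo (0 : ℝ) 1)
    (h1 : 0 < Iso.bot (slF E i t)) (h2 : 0 < Iso.bot (slG E i t)) :
    √(π * (1 - sec E i t)) ≤ pz E i t := by
  have P := slice_pair hE i ht
  have := P.pl_ge_sqrt_hole
  rw [P.top_eq_one h1, P.swap.top_eq_one h2, slice_area hE i ht] at this
  simpa [pz] using this

end Crest.Agent.R214.Cs
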