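import Mathlib

/-!
# Row 214: the chord lemma and the case of at most one far wall (pure real analysis)
-/

set_option autoImplicit false

open Real MeasureTheory Set

namespace Crest.Agent.R214.Num

/-- The integrand of the Euclidean KEY inequality. -/
theorem omE_measurable (c lam : ℝ) :
    Measurable fun a : ℝ => √(1 - (c + lam * a) ^ 2 / (π * a)) := by
  fun_prop

theorem omE_le_one (c lam : ℝ) {a : ℝ} (ha : 0 ≤ a) :
    √(1 - (c + lam * a) ^ 2 / (π * a)) ≤ 1 := by
  have : 0 ≤ (c + lam * a) ^ 2 / (π * a) := by positivity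
  exact Real.sqrt_le_one.2 (by linarith)

theorem omE_intervalIntegrable (c lam : ℝ) {x y : ℝ} (hx : 0 ≤ x) (hxy : x ≤ y) :
    IntervalIntegrable (fun a : ℝ => √(1 - (c + lam * a) ^ 2 / (π * a))) volume x y := by
  rw [intervalIntegrable_iff_integrableOn_Ioc_of_le hxy]
  refine Measure.integrableOn_of_bounded (M := 1) (by simp)
    (omE_measurable c lam).aestronglyMeasurable ?_
  refine (ae_restrict_iff' measurableSet_Ioc).2 (Filter.Eventually.of_forall fun a ha => ?_)
  rw [Real.norm_eq_abs, abs_of_nonneg (Real.sqrt_nonneg _)]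
  exact omE_le_one c lam (hx.trans ha.1.le)

theorem int_t_sqrt : ∫ t in (0 : ℝ)..1, t * √(1 - t ^ 2) = 1 / 3 := by
  have h := intervalIntegral.integral_eq_sub_of_hasDerivAt_of_le (a := (0 : ℝ)) (b := 1)
    (f := fun t : ℝ => -(√(1 - t ^ 2)) ^ 3 / 3) (f' := fun t : ℝ => t * √(1 - t ^ 2))
    zero_le_one (by fun_prop) (fun t ht => by
      have h1 : 0 < 1 - t ^ 2 := by nlinarith [ht.1, ht.2]
      have hs : 0 < √(1 - t ^ 2) := Real.sqrt_pos.2 h1
      have h2 : HasDerivAt (fun t : ℝ => 1 - t ^ 2) (-(2 * t)) t := by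
        simpa using ((hasDerivAt_pow 2 t).const_sub 1)
      have h3 := (((h2.sqrt h1.ne').fun_pow 3).fun_neg).div_const 3
      refine h3.congr_deriv ?_
      have hne := hs.ne'
      simp only [Nat.cast_ofNat, Nat.add_one_sub_one]
      field_simp)
    (Continuous.intervalIntegrable (by fun_prop) _ _)
  rw [h]; norm_num

theorem chord_core {al d lam c : ℝ} (hal : 0 ≤ al) (hd : 0 < d) (hlam : 0 < lam)
    (hs : (2 * al + d) * lam = √π) (hc : c = lam * al * (al + d)) :
    2 / 3 * d ^ 2 ≤ ∫ a in al ^ 2..(al + d) ^ 2, √(1 - (c + lam * a) ^ 2 / (π * a)) := by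
  have hcv : ContinuousOn (fun t : ℝ => (al + d * t) ^ 2) (uIcc 0 1) := by fun_prop
  have hder : ∀ t ∈ Ioo (min (0 : ℝ) 1) (max 0 1),
      HasDerivAt (fun t : ℝ => (al + d * t) ^ 2) (2 * (al + d * t) * d) t := fun t _ => by
    have := (((hasDerivAt_id' t).const_mul d).const_add al).fun_pow 2
    refine this.congr_deriv ?_
    simp
  have hnn : ∀ t ∈ Ioo (min (0 : ℝ) 1) (max 0 1), 0 ≤ 2 * (al + d * t) * d := fun t ht => by
    have : 0 < t := by simpa using ht.1
    positivity
  have key := intervalIntegral.integral_comp_mul_deriv_of_deriv_nonneg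
    (g := fun a : ℝ => √(1 - (c + lam * a) ^ 2 / (π * a))) hcv hder hnn
  have hint := (intervalIntegral.integrable_comp_mul_deriv_iff_of_deriv_nonneg
    (g := fun a : ℝ => √(1 - (c + lam * a) ^ 2 / (π * a))) hcv hder hnn).2
    (omE_intervalIntegrable c lam (by positivity) (by nlinarith))
  simp only [mul_zero, add_zero, mul_one] at key
  rw [← key]
  have hsp : 0 < 2 * al + d := by positivity
  have hpi : π = ((2 * al + d) * lam) ^ 2 := by rw [hs, Real.sq_sqrt pi_pos.le]
  have hL : ∫ t in (0 : ℝ)..1, 2 * d ^ 2 / (2 * al + d) *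
      (4 * al * (t - t ^ 2) + d * (t * √(1 - t ^ 2))) = 2 / 3 * d ^ 2 := by
    rw [intervalIntegral.integral_const_mul, intervalIntegral.integral_add
      (Continuous.intervalIntegrable (by fun_prop) _ _)
      (Continuous.intervalIntegrable (by fun_prop) _ _),
      intervalIntegral.integral_const_mul, intervalIntegral.integral_const_mul, int_t_sqrt,
      intervalIntegral.integral_sub (Continuous.intervalIntegrable (by fun_prop) _ _)
      (Continuous.intervalIntegrable (by fun_prop) _ _)]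
    simp only [integral_id, integral_pow]
    field_simp
    ring
  rw [← hL]
  refine intervalIntegral.integral_mono_on_of_le_Ioo zero_le_one
    (Continuous.intervalIntegrable (by fun_prop) _ _) hint fun t ht => ?_
  obtain ⟨ht0, ht1⟩ := ht
  simp only [Function.comp]
  set r := √(1 - t ^ 2) with hr
  have hr0 : 0 ≤ r := Real.sqrt_nonneg _
  have hr2 : r ^ 2 = 1 - t ^ 2 := Real.sq_sqrt (by nlinarith)
  have hr1 : r ≤ 1 := by nlinarith
  have hu : 0 < al + d * t := by positivity
  have h4 : 4 * t * r ≤ 1 + 2 * t := by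
    rcases le_total t (1 / 2) with h | h
    · nlinarith
    · nlinarith [sq_nonneg (t - r)]
  have htt : 0 < t - t ^ 2 := by nlinarith
  have hy : d * (4 * al * (t - t ^ 2) + d * (t * r)) / ((2 * al + d) * (al + d * t)) ≤
      √(1 - (c + lam * (al + d * t) ^ 2) ^ 2 / (π * (al + d * t) ^ 2)) := by
    apply Real.le_sqrt_of_sq_le
    have e : 1 - (c + lam * (al + d * t) ^ 2) ^ 2 / (π * (al + d * t) ^ 2) =
        d ^ 2 * ((t - t ^ 2) * ((2 * al + d * t) * (2 * al + d + d * t))) /
          ((2 * al + d) * (al + d * t)) ^ 2 := by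
      rw [hpi, hc]; field_simp; ring
    rw [e, div_pow, mul_pow]
    gcongr
    have e2 : (4 * al * (t - t ^ 2) + d * (t * r)) ^ 2 =
        16 * al ^ 2 * (t - t ^ 2) ^ 2 + 2 * al * d * (t - t ^ 2) * (4 * t * r)
          + d ^ 2 * t ^ 2 * (1 - t ^ 2) := by rw [← hr2]; ring
    have i1 : 16 * al ^ 2 * (t - t ^ 2) ^ 2 ≤ 4 * al ^ 2 * (t - t ^ 2) := by
      have : 4 * (t - t ^ 2) ≤ 1 := by nlinarith [sq_nonneg (2 * t - 1)]
      have h0 : 0 ≤ 4 * al ^ 2 * (t - t ^ 2) := by positivity
      nlinarith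
    have i2 : 2 * al * d * (t - t ^ 2) * (4 * t * r) ≤ 2 * al * d * (t - t ^ 2) * (1 + 2 * t) := by
      gcongr
    rw [e2]
    nlinarith
  have := mul_le_mul_of_nonneg_right hy (show 0 ≤ 2 * (al + d * t) * d by positivity)
  refine le_trans (le_of_eq ?_) this
  field_simp

/-- Chord lemma. -/
theorem chord {lam c V a0 a1 : ℝ} (hlam : 0 < lam) (hc : 0 ≤ c) (hV : 0 < V)
    (hlt : c + lam * V < √(π * V)) (h1 : 0 ≤ a1) (h1V : a1 ≤ V) (h0V : V ≤ a0)
    (w0 : √(π * a0) ≤ c + lam * a0) (w1 : √(π * a1) ≤ c + lam * a1) :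
    8 / (3 * lam) * (π / (4 * lam) - c) ≤
      ∫ a in a1..a0, √(1 - (c + lam * a) ^ 2 / (π * a)) := by
  set p := √π with hp
  have hp0 : 0 < p := Real.sqrt_pos.2 pi_pos
  have hp2 : p ^ 2 = π := Real.sq_sqrt pi_pos.le
  have hsq : ∀ x : ℝ, √(π * x) = p * √x := fun x => Real.sqrt_mul pi_pos.le x
  rw [hsq] at hlt w0 w1
  set v := √V with hv
  have hv2 : v ^ 2 = V := Real.sq_sqrt hV.le
  have hv0 : 0 < v := Real.sqrt_pos.2 hV
  set x := √a0 with hx
  have hx2 : x ^ 2 = a0 := Real.sq_sqrt (hV.le.trans h0V)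
  have hxv : v ≤ x := Real.sqrt_le_sqrt h0V
  set y := √a1 with hy
  have hy2 : y ^ 2 = a1 := Real.sq_sqrt h1
  have hyv : y ≤ v := Real.sqrt_le_sqrt h1V
  have hy0 : 0 ≤ y := Real.sqrt_nonneg _
  have hdisc : 0 < π - 4 * lam * c := by
    rw [← hv2] at hlt
    nlinarith [sq_nonneg (p - 2 * lam * v)]
  set q := √(π - 4 * lam * c) with hq
  have hq0 : 0 < q := Real.sqrt_pos.2 hdisc
  have hq2 : q ^ 2 = π - 4 * lam * c := Real.sq_sqrt hdisc.le
  have hqp : q ≤ p := Real.sqrt_le_sqrt (by nlinarith)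
  set al := (p - q) / (2 * lam) with hal
  set d := q / lam with hd
  have hal0 : 0 ≤ al := div_nonneg (by linarith) (by positivity)
  have hd0 : 0 < d := by positivity
  have hs : (2 * al + d) * lam = p := by rw [hal, hd]; field_simp; ring
  have hcc : c = lam * al * (al + d) := by
    rw [hal, hd]; field_simp; nlinarith
  have fac : ∀ u : ℝ, c + lam * u ^ 2 - p * u = lam * ((u - al) * (u - (al + d))) := fun u => by
    rw [← hs]; nth_rewrite 1 [hcc]; ring
  have fv : (v - al) * (v - (al + d)) < 0 := by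
    have := fac v
    rw [← hv2] at hlt
    by_contra hcon
    have := mul_nonneg hlam.le (not_lt.1 hcon)
    linarith
  have fx : 0 ≤ (x - al) * (x - (al + d)) := by
    have := fac x
    rw [← hx2] at w0
    by_contra hcon
    have := mul_neg_of_pos_of_neg hlam (not_le.1 hcon)
    linarith
  have fy : 0 ≤ (y - al) * (y - (al + d)) := by
    have := fac y
    rw [← hy2] at w1
    by_contra hcon
    have := mul_neg_of_pos_of_neg hlam (not_le.1 hcon)
    linarith
  have hv1 : al < v := by nlinarith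
  have hv3 : v < al + d := by nlinarith
  have hx1 : al + d ≤ x := by
    by_contra hcon
    have := mul_neg_of_pos_of_neg (show 0 < x - al by linarith)
      (show x - (al + d) < 0 by linarith [not_le.1 hcon])
    linarith
  have hy1 : y ≤ al := by
    by_contra hcon
    have := mul_neg_of_pos_of_neg (show 0 < y - al by linarith [not_le.1 hcon])
      (show y - (al + d) < 0 by linarith)
    linarith
  have hcore := chord_core hal0 hd0 hlam hs hcc
  have e : 8 / (3 * lam) * (π / (4 * lam) - c) = 2 / 3 * d ^ 2 := by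
    rw [hd, div_pow, hq2]; field_simp; ring
  rw [e]
  refine hcore.trans (intervalIntegral.integral_mono_interval ?_ (by nlinarith) ?_
    (Filter.Eventually.of_forall fun a => Real.sqrt_nonneg _)
    (omE_intervalIntegrable c lam h1 (h1V.trans h0V)))
  · rw [← hy2]; gcongr
  · rw [← hx2]; gcongr

/-- At most one far wall is touched: cylinder (`ν_z = 0`) or ball. -/
theorem t1 {V lam A c a0 a1 : ℝ} (hV : 0 < V) (hV2 : V ≤ 1 / 2) (hlam0 : 0 ≤ lam)
    (hA3 : A ^ 3 ≤ 9 * π / 2 * V ^ 2) (hA2 : A ^ 2 ≤ π * V)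
    (hlam : (4 * π / 81 ≤ V ∧ lam ^ 2 * V ≤ π / 4) ∨ (V = 4 * π / 81 ∧ lam ≤ 3) ∨
      3 * lam ^ 3 * V = 4 * π)
    (hc : c = 2 * A - 3 * lam * V) (h1 : 0 ≤ a1) (h1V : a1 ≤ V) (h0V : V ≤ a0)
    (w0 : √(π * a0) ≤ c + lam * a0) (w1 : √(π * a1) ≤ c + lam * a1)
    (key : c + lam * V + ∫ a in a1..a0, √(1 - (c + lam * a) ^ 2 / (π * a)) ≤ A) :
    (A = c + lam * V ∧ A ^ 2 = π * V) ∨
      (c = 0 ∧ 3 * lam ^ 3 * V = 4 * π ∧ 2 * A = 3 * lam * V) := by
  have hpi := pi_pos
  have hD : 0 ≤ ∫ a in a1..a0, √(1 - (c + lam * a) ^ 2 / (π * a)) :=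
    intervalIntegral.integral_nonneg (h1V.trans h0V) fun a _ => Real.sqrt_nonneg _
  have hl2 : lam ^ 2 * V ≤ π := by
    rcases hlam with h | h | h
    · linarith [h.2]
    · rw [h.1]
      have : lam ^ 2 ≤ 9 := by nlinarith [h.2]
      nlinarith
    · have h2 : 2 ≤ lam := by
        by_contra hcon
        have hl : lam < 2 := not_le.1 hcon
        have : lam ^ 3 ≤ 2 ^ 3 := by gcongr
        nlinarith [Real.pi_gt_three]
      have : 0 ≤ lam ^ 2 * V := by positivity
      nlinarith
  have hc0 : 0 ≤ c := by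
    have : lam * a1 ≤ √(π * a1) := by
      apply Real.le_sqrt_of_sq_le
      have : lam ^ 2 * a1 ≤ π := le_trans (by gcongr) hl2
      nlinarith
    linarith
  have hsV : √(π * V) ^ 2 = π * V := Real.sq_sqrt (by positivity)
  have hsV0 : 0 < √(π * V) := Real.sqrt_pos.2 (by positivity)
  rcases le_or_gt (√(π * V)) (c + lam * V) with hge | hlt
  · left
    have hAle : A ≤ √(π * V) := Real.le_sqrt_of_sq_le hA2
    have : A = √(π * V) := by linarith
    exact ⟨by linarith, by rw [this, hsV]⟩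
  right
  have hlp : 0 < lam := by
    rcases hlam0.lt_or_eq with h | h
    · exact h
    · exfalso
      subst h
      have : 0 < √(π * a0) := Real.sqrt_pos.2 (mul_pos hpi (hV.trans_le h0V))
      simp only [zero_mul, mul_zero, add_zero, sub_zero] at *
      linarith
  have hch := chord hlp hc0 hV hlt h1 h1V h0V w0 w1
  set N := 2 * lam * V - A with hN
  have hN0 : 0 ≤ N := by rw [hN]; linarith
  have hmain : 8 / (3 * lam) * (π / (4 * lam) - c) ≤ N := by rw [hN]; linarith
  have hcN : c = lam * V - 2 * N := by rw [hN, hc]; ring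
  have hm2 : 2 * π - 8 * lam ^ 2 * V + 16 * lam * N ≤ 3 * lam ^ 2 * N := by
    have e : 8 / (3 * lam) * (π / (4 * lam) - c) * (3 * lam ^ 2) =
        2 * π - 8 * lam ^ 2 * V + 16 * lam * N := by
      rw [hcN]; field_simp; ring
    have := mul_le_mul_of_nonneg_right hmain (show 0 ≤ 3 * lam ^ 2 by positivity)
    rw [e] at this
    linarith
  have case1 : 4 * π / 81 ≤ V → lam ^ 2 * V ≤ π / 4 → False := fun h1' h2' => by
    have hl : lam ^ 2 ≤ 81 / 16 := by
      have : lam ^ 2 * (4 * π / 81) ≤ π / 4 := le_trans (by gcongr) h2'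
      nlinarith
    have hl' : lam ≤ 9 / 4 := by nlinarith
    have hNl : 0 ≤ lam * N := by positivity
    have h3 : 3 * lam ^ 2 * N ≤ 7 * (lam * N) := by nlinarith
    have hN1 : lam * N = 0 := by nlinarith
    have hN2 : N = 0 := by
      rcases mul_eq_zero.1 hN1 with h | h
      · exact absurd h hlp.ne'
      · exact h
    have h4 : 4 * lam ^ 2 * V = π := by rw [hN2] at hm2; linarith
    have h5 : √(π * V) = 2 * lam * V := by
      rw [show π * V = (2 * lam * V) ^ 2 by rw [← h4]; ring]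
      exact Real.sqrt_sq (by positivity)
    rw [hN2] at hcN
    linarith
  rcases hlam with h | h | h
  · exact (case1 h.1 h.2).elim
  · obtain ⟨hVe, hl3⟩ := h
    rcases le_or_gt lam (9 / 4) with h9 | h9
    · refine (case1 hVe.ge ?_).elim
      have : lam ^ 2 ≤ 81 / 16 := by nlinarith
      rw [hVe]; nlinarith
    have hAle : A ≤ 2 * π / 9 := by
      apply abs_le_of_sq_le_sq' _ (by positivity) |>.2
      rw [hVe] at hA2; nlinarith
    have hNge : 8 * lam * π / 81 - 2 * π / 9 ≤ N := by rw [hN, hVe]; linarith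
    have h16 : 0 ≤ 16 * lam - 3 * lam ^ 2 := by nlinarith
    have h6 : (8 * lam * π / 81 - 2 * π / 9) * (16 * lam - 3 * lam ^ 2) ≤
        8 * lam ^ 2 * (4 * π / 81) - 2 * π := by
      have := mul_le_mul_of_nonneg_right hNge h16
      rw [hVe] at hm2
      linarith
    have h7 : π * ((4 * lam - 9) * ((lam - 1) * (3 - lam))) ≤ 0 := by nlinarith
    have h8 : lam = 3 := by
      by_contra hne
      have : 0 < 3 - lam := by
        rcases hl3.lt_or_eq with h | h
        · linarith
        · exact absurd h hne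
      have : 0 < π * ((4 * lam - 9) * ((lam - 1) * (3 - lam))) := by
        apply mul_pos hpi
        apply mul_pos (by linarith) (mul_pos (by linarith) this)
      linarith
    subst h8
    rw [hVe] at hc hN hm2 hcN ⊢
    refine ⟨by linarith, by ring, by linarith⟩
  · have hA : A ≤ 3 / 2 * lam * V := by
      by_contra hcon
      have hlt' : 3 / 2 * lam * V < A := not_le.1 hcon
      have : (3 / 2 * lam * V) ^ 3 < A ^ 3 := by gcongr
      have e : (3 / 2 * lam * V) ^ 3 = 9 * π / 2 * V ^ 2 := by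
        have : (3 / 2 * lam * V) ^ 3 = 9 / 8 * (3 * lam ^ 3 * V) * V ^ 2 := by ring
        rw [this, h]; ring
      linarith
    exact ⟨by linarith, h, by linarith⟩

end Crest.Agent.R214.Num
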