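import Crest.Agent.R214.CsBasic
import Crest.Agent.R214.NumChord

/-! Row 214, module CASES: at most one far wall is touched. -/

set_option autoImplicit false
open MeasureTheory Set Filter Topology Real

noncomputable section
namespace Crest.Agent.R214.Cs
open DS

variable {E : Set E3} {lam : ℝ} {c : Fin 3 → ℝ}

/-- the KEY inequality for Euclidean slices -/
theorem Crit.keyE (h : Crit E lam c) (i : Fin 3) (h1 : aone E (i + 1) = 0) (h2 : aone E (i + 2) = 0) :
    c i + lam * vol E + ∫ a in (aone E i)..(azero E i), √(1 - (c i + lam * a) ^ 2 / (π * a)) ≤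
      per E := by
  classical
  have hc := h.c_nonneg i
  have hl := h.graph.nonneg
  have hpi := pi_pos
  set S : Set ℝ := {a | 0 < a ∧ c i + lam * a < √(π * a)} with hS
  have mS : MeasurableSet S :=
    (measurableSet_lt measurable_const measurable_id).inter
      (measurableSet_lt (f := fun a : ℝ => c i + lam * a) (g := fun a : ℝ => √(π * a))
        (by fun_prop) (by fun_prop))
  set K : ℝ → ℝ := fun a => if a ∈ S then 0 else 1 with hK
  set w : ℝ → ℝ := fun a => if a ∈ S then √(1 - (c i + lam * a) ^ 2 / (π * a)) else 0 with hw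
  set B : ℝ → ℝ := fun a => if a ∈ S then (c i + lam * a) / √(π * a) else 0 with hB
  have mK : Measurable K := Measurable.ite mS measurable_const measurable_const
  have mw : Measurable w := Measurable.ite mS (Num.omE_measurable _ _) measurable_const
  have mB : Measurable B := Measurable.ite mS (by fun_prop) measurable_const
  have hq : ∀ a ∈ S, 0 ≤ c i + lam * a := fun a ha => add_nonneg hc (mul_nonneg hl ha.1.le)
  have hP : ∀ a ∈ S, 0 < √(π * a) := fun a ha => (hq a ha).trans_lt ha.2
  have B0 : ∀ a, 0 ≤ B a := fun a => by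
    simp only [hB]; split_ifs with ha
    · exact div_nonneg (hq a ha) (hP a ha).le
    · exact le_rfl
  have B1 : ∀ a, B a ≤ 1 := fun a => by
    simp only [hB]; split_ifs with ha
    · exact (div_le_one (hP a ha)).2 ha.2.le
    · exact zero_le_one
  have K01 : ∀ a, |K a| ≤ 1 := fun a => by simp only [hK]; split_ifs <;> simp
  have key := h.dual i K w B mK mw mB ⟨1, K01⟩
    ⟨1, fun a => by rw [abs_of_nonneg (B0 a)]; exact B1 a⟩
    (fun a => by
      simp only [hw]; split_ifs with ha
      · rw [abs_of_nonneg (Real.sqrt_nonneg _)]; exact Num.omE_le_one _ _ ha.1.le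
      · simp) B0
    (fun a m s _ _ hms => by
      simp only [hK, hw, hB]; split_ifs with ha
      · have e : ((c i + lam * a) / √(π * a)) ^ 2 = (c i + lam * a) ^ 2 / (π * a) := by
          rw [div_pow, Real.sq_sqrt (mul_pos hpi ha.1).le]
        have b1 : ((c i + lam * a) / √(π * a)) ^ 2 ≤ 1 :=
          pow_le_one₀ (div_nonneg (hq a ha) (hP a ha).le) ((div_le_one (hP a ha)).2 ha.2.le)
        have e2 := Real.sq_sqrt (sub_nonneg.2 b1)
        rw [← e]
        nlinarith [sq_nonneg (√(1 - ((c i + lam * a) / √(π * a)) ^ 2) - m),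
          sq_nonneg ((c i + lam * a) / √(π * a) - s)]
      · nlinarith [sq_nonneg m])
  have e3 : ∫ α in Ioo (aone E i) (azero E i), w α =
      ∫ a in (aone E i)..(azero E i), √(1 - (c i + lam * a) ^ 2 / (π * a)) := by
    rw [intervalIntegral.integral_of_le ((aone_le_vol h.ds i).trans (vol_le_azero h.ds i)),
      integral_Ioc_eq_integral_Ioo]
    refine setIntegral_congr_fun measurableSet_Ioo fun a ha => ?_
    have a0 : 0 < a := (aone_nonneg E i).trans_lt ha.1
    simp only [hw]; split_ifs with haS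
    · rfl
    · symm
      rw [Real.sqrt_eq_zero', sub_nonpos, one_le_div (mul_pos hpi a0)]
      have : √(π * a) ≤ c i + lam * a := not_lt.1 fun hh => haS ⟨a0, hh⟩
      exact (Real.sqrt_le_left (by positivity)).1 this
  have ms := h.ds.measurable_sec i
  have iq : IntegrableOn (fun t => c i + lam * sec E i t) (Ioo (0 : ℝ) 1) :=
    (integrable_const _).add ((integrableOn_sec h.ds i).const_mul lam)
  have ip : IntegrableOn (pz E i) (Ioo (0 : ℝ) 1) :=
    Measure.integrableOn_of_bounded (M := 2) (by simp) (measurable_pz h.ds i).aestronglyMeasurable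
      (Eventually.of_forall fun t => by
        rw [Real.norm_eq_abs, abs_of_nonneg (pz_nonneg E i t)]; exact pz_le_two E i t)
  have i1 : IntegrableOn (fun t => K (sec E i t) * (c i + lam * sec E i t)) (Ioo (0 : ℝ) 1) :=
    iq.bdd_mul (c := 1) (mK.comp ms).aestronglyMeasurable (Eventually.of_forall fun t => K01 _)
  have i2 : IntegrableOn (fun t => B (sec E i t) * pz E i t) (Ioo (0 : ℝ) 1) :=
    ip.bdd_mul (c := 1) (mB.comp ms).aestronglyMeasurable (Eventually.of_forall fun t => by
      rw [Real.norm_eq_abs, abs_of_nonneg (B0 _)]; exact B1 _)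
  have e4 : c i + lam * vol E = ∫ t in Ioo (0 : ℝ) 1, (c i + lam * sec E i t) := by
    rw [integral_add (integrable_const _) ((integrableOn_sec h.ds i).const_mul lam),
      integral_const_mul, h.ds.integral_sec i]
    simp
  have e5 : ∫ t in Ioo (0 : ℝ) 1, (c i + lam * sec E i t) ≤
      ∫ t in Ioo (0 : ℝ) 1, (K (sec E i t) * (c i + lam * sec E i t) + B (sec E i t) * pz E i t) := by
    refine setIntegral_mono_on iq (i1.add i2) measurableSet_Ioo fun t ht => ?_
    simp only [hK, hB]; split_ifs with ha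
    · have := mul_le_mul_of_nonneg_left (pz_ge_sqrt h.ds i h1 h2 ht)
        (div_nonneg (hq _ ha) (hP _ ha).le)
      rw [div_mul_cancel₀ _ (hP _ ha).ne'] at this
      linarith
    · simp
  rw [integral_add i1 i2] at e5
  rw [e4, ← e3]
  linarith

theorem Graph.t1 {V : ℝ} (h : Graph V lam) :
    (4 * π / 81 ≤ V ∧ lam ^ 2 * V ≤ π / 4) ∨ (V = 4 * π / 81 ∧ lam ≤ 3) ∨
      3 * lam ^ 3 * V = 4 * π := by
  have hpi := pi_pos
  have h1 : 4 * π / 81 ≤ 1 / π := by
    rw [div_le_div_iff₀ (by norm_num) hpi]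
    nlinarith [pi_le_four]
  rcases h with g | g | g | g | g
  · exact Or.inr (Or.inr g.2.2)
  · exact Or.inr (Or.inl ⟨g.1, g.2.2⟩)
  · exact Or.inl ⟨g.1, by linarith [g.2.2.2]⟩
  · refine Or.inl ⟨by rw [g.1]; exact h1, ?_⟩
    rw [g.1]
    have : lam ^ 2 ≤ (π / 2) ^ 2 := pow_le_pow_left₀ g.2.1 g.2.2 2
    rw [mul_one_div, div_le_iff₀ hpi]
    nlinarith
  · refine Or.inl ⟨h1.trans g.1, ?_⟩
    rw [g.2]; simp; positivity

theorem Crit.t1 (h : Crit E lam c) (i : Fin 3) (h1 : aone E (i + 1) = 0) (h2 : aone E (i + 2) = 0) :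
    per E = c i + lam * vol E ∨ c i = 0 := by
  have hc : c i = 2 * per E - 3 * lam * vol E := by
    have := h.sum_c i
    rw [h.c_eq_zero _ h1, h.c_eq_zero _ h2] at this
    linarith
  have hP : Continuous fun a : ℝ => √(π * a) := by fun_prop
  have w0 := h.near' i _ hP (by
    filter_upwards [Ioo_mem_nhdsGT (show (0 : ℝ) < 1 by norm_num)] with t ht using
      pz_ge_sqrt h.ds i h1 h2 ht)
  have w1 := h.far' i _ hP (by
    filter_upwards [Ioo_mem_nhdsLT (show (0 : ℝ) < 1 by norm_num)] with t ht using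
      pz_ge_sqrt h.ds i h1 h2 ht)
  rcases Num.t1 h.vol_pos h.vol_le h.graph.nonneg h.per_ball h.per_tube h.graph.t1 hc
    (aone_nonneg E i) (aone_le_vol h.ds i) (vol_le_azero h.ds i) w0 w1 (h.keyE i h1 h2) with H | H
  · exact Or.inl H.1
  · exact Or.inr H.1

end Crest.Agent.R214.Cs
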