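import Mathlib

/-! Row 214: down-sets of the open unit cube and their explicit surface measures
(no Riesz, no Rademacher).  Definitions only + trivial lemmas; the theory is in `DSBasic`. -/

set_option autoImplicit false
open MeasureTheory Set

noncomputable section
namespace Crest.Agent.R214.DS

abbrev E3 := EuclideanSpace ℝ (Fin 3)

/-- the point with coordinate `i` equal to `t`, coordinate `i+1` equal to `w.1`, coordinate `i+2` equal to `w.2` -/
def ins (i : Fin 3) (t : ℝ) (w : ℝ × ℝ) : E3 :=
  WithLp.toLp 2 (fun j => if j = i then t else if j = i + 1 then w.1 else w.2)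

/-- open unit cube -/
def cube : Set E3 := {x | ∀ j, 0 < x j ∧ x j < 1}

/-- open unit square -/
def sq : Set (ℝ × ℝ) := Ioo 0 1 ×ˢ Ioo 0 1

/-- measurable down-set of the open unit cube -/
structure IsDS (E : Set E3) : Prop where
  meas : MeasurableSet E
  sub : E ⊆ cube
  down : ∀ x ∈ E, ∀ y ∈ cube, (∀ j, y j ≤ x j) → y ∈ E

/-- height of `E` in direction `i` over the point `w` of the face (a number in `[0,1]`) -/
def ht (E : Set E3) (i : Fin 3) (w : ℝ × ℝ) : ℝ := sSup (insert 0 {t | ins i t w ∈ E ∧ t ≤ 1})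

/-- the part of the face over which the graph lies inside the open cube -/
def dom (E : Set E3) (i : Fin 3) : Set (ℝ × ℝ) := {w | w ∈ sq ∧ 0 < ht E i w ∧ ht E i w < 1}

/-- graph map -/
def gr (E : Set E3) (i : Fin 3) (w : ℝ × ℝ) : E3 := ins i (ht E i w) w

/-- `mu E i = - D_i χ_E` inside the open cube -/
def mu (E : Set E3) (i : Fin 3) : Measure E3 := (volume.restrict (dom E i)).map (gr E i)

/-- area of the section `x_i = t` -/
def sec (E : Set E3) (i : Fin 3) (t : ℝ) : ℝ := (volume {w : ℝ × ℝ | ins i t w ∈ E}).toReal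

/-- trace area on the far wall `x_i = 1` -/
def aone (E : Set E3) (i : Fin 3) : ℝ := (volume {w : ℝ × ℝ | w ∈ sq ∧ ht E i w = 1}).toReal

/-- trace area on the near wall `x_i = 0` -/
def azero (E : Set E3) (i : Fin 3) : ℝ := (volume {w : ℝ × ℝ | w ∈ sq ∧ 0 < ht E i w}).toReal

/-- volume -/
def vol (E : Set E3) : ℝ := (volume E).toReal

def tau (E : Set E3) : Measure E3 := mu E 0 + mu E 1 + mu E 2

def th (E : Set E3) (i : Fin 3) (x : E3) : ℝ := ((mu E i).rnDeriv (tau E) x).toReal

def nrm (E : Set E3) (x : E3) : ℝ := Real.sqrt (th E 0 x ^ 2 + th E 1 x ^ 2 + th E 2 x ^ 2)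

/-- surface measure -/
def sig (E : Set E3) : Measure E3 := (tau E).withDensity (fun x => ENNReal.ofReal (nrm E x))

/-- outer unit normal (components `≥ 0`) -/
def nu (E : Set E3) (i : Fin 3) (x : E3) : ℝ := th E i x / nrm E x

/-- relative perimeter in the open cube -/
def per (E : Set E3) : ℝ := (sig E univ).toReal

/-- planar section `x_i = t` in the coordinates `(x, y) = (x_{i+1}, x_{i+2})`: `y`-height over `x` -/
def slF (E : Set E3) (i : Fin 3) (t x : ℝ) : ℝ := ht E (i + 2) (t, x)

/-- planar section `x_i = t`: `x`-height over `y` -/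
def slG (E : Set E3) (i : Fin 3) (t y : ℝ) : ℝ := ht E (i + 1) (y, t)

@[simp] theorem ins_self (i : Fin 3) (t : ℝ) (w : ℝ × ℝ) : ins i t w i = t := by
  simp [ins]

@[simp] theorem ins_succ (i : Fin 3) (t : ℝ) (w : ℝ × ℝ) : ins i t w (i + 1) = w.1 := by
  fin_cases i <;> simp [ins]

@[simp] theorem ins_succ2 (i : Fin 3) (t : ℝ) (w : ℝ × ℝ) : ins i t w (i + 2) = w.2 := by
  fin_cases i <;> simp [ins]

theorem ins_rot1 (i : Fin 3) (s y t : ℝ) : ins (i + 1) s (y, t) = ins i t (s, y) := by
  ext j; fin_cases i <;> fin_cases j <;> simp [ins]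

theorem ins_rot2 (i : Fin 3) (s t x : ℝ) : ins (i + 2) s (t, x) = ins i t (x, s) := by
  ext j; fin_cases i <;> fin_cases j <;> simp [ins]

theorem ins_eta (i : Fin 3) (x : E3) : ins i (x i) (x (i + 1), x (i + 2)) = x := by
  ext j; fin_cases i <;> fin_cases j <;> simp [ins]

theorem fin3_cases (i j : Fin 3) : j = i ∨ j = i + 1 ∨ j = i + 2 := by
  fin_cases i <;> fin_cases j <;> simp

theorem sum3 (i : Fin 3) (f : Fin 3 → ℝ) : ∑ j, f j = f i + f (i + 1) + f (i + 2) := by
  fin_cases i <;> simp [Fin.sum_univ_three] <;> ring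

theorem continuous_ins (i : Fin 3) : Continuous (fun p : ℝ × (ℝ × ℝ) => ins i p.1 p.2) := by
  unfold ins
  apply (PiLp.continuous_toLp 2 _).comp
  apply continuous_pi
  intro j
  split_ifs <;> fun_prop

theorem ins_mem_cube (i : Fin 3) (t : ℝ) (w : ℝ × ℝ) :
    ins i t w ∈ cube ↔ t ∈ Ioo (0 : ℝ) 1 ∧ w ∈ sq := by
  constructor
  · intro h
    have h0 := h i; have h1 := h (i + 1); have h2 := h (i + 2)
    simp only [ins_self, ins_succ, ins_succ2] at h0 h1 h2
    exact ⟨h0, h1, h2⟩
  · rintro ⟨h0, h1, h2⟩ j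
    rcases fin3_cases i j with rfl | rfl | rfl
    · simpa using h0
    · simpa using h1
    · simpa using h2

theorem measurableSet_sq : MeasurableSet sq := measurableSet_Ioo.prod measurableSet_Ioo

theorem volume_sq : volume sq = 1 := by
  unfold sq
  rw [Measure.volume_eq_prod, Measure.prod_prod]; simp

instance finite_sq : IsFiniteMeasure (volume.restrict sq) :=
  ⟨by rw [Measure.restrict_apply_univ, volume_sq]; simp⟩

instance finite_dom (E : Set E3) (i : Fin 3) : IsFiniteMeasure (volume.restrict (dom E i)) :=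
  ⟨by
    rw [Measure.restrict_apply_univ]
    exact lt_of_le_of_lt (measure_mono (fun w hw => hw.1)) (by rw [volume_sq]; simp)⟩

instance finite_mu (E : Set E3) (i : Fin 3) : IsFiniteMeasure (mu E i) := by
  unfold mu; infer_instance

instance finite_tau (E : Set E3) : IsFiniteMeasure (tau E) := by
  unfold tau; infer_instance

end Crest.Agent.R214.DS
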