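import Crest.Agent.R214.Final
import Crest.Agent.R214.CsMain
import Crest.Agent.R214.LawNum

/-! Row 214: the case analysis with the numerical exclusion of the Lawson type. -/

set_option autoImplicit false

namespace Crest.Agent.R214.Mo

theorem cases_all : ∀ E lam c, Cs.Crit E lam c → Cs.Model E := fun _ _ _ h =>
  Cs.cases_of (fun _ _ _ _ _ h0 h3 hV _ hA hA' hVa ha hW0 hW base Z =>
    Law.lawson_false' h0 h3 hW0 hW (hV.trans_le hVa) ha hV.le hA hA' base Z) h

theorem coreIneq : CoreIneq := coreIneq_of_cases cases_all

theorem coreEq : CoreEq := coreEq_of_cases cases_all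

end Crest.Agent.R214.Mo
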