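import Crest.Agent.R214.CsBasic
import Crest.Agent.R214.IsoEq

/-! Row 214, module EQ: a critical down-set that is invariant in one direction is a quarter tube
or a slab. -/

set_option autoImplicit false
open MeasureTheory Set Filter Topology Real

noncomputable section
namespace Crest.Agent.R214.Cs
open DS

variable {E : Set E3} {lam : ℝ} {c : Fin 3 → ℝ}

theorem eqc_volume_ne_top (hE : IsDS E) : volume E ≠ ⊤ := by
  refine ne_top_of_le_ne_top ?_ (measure_mono hE.sub)
  have : cube ⊆ Metric.closedBall (0 : E3) 2 := by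
    intro x hx
    rw [mem_closedBall_zero_iff, EuclideanSpace.norm_eq, Real.sqrt_le_iff]
    refine ⟨by norm_num, ?_⟩
    have h0 := hx 0; have h1 := hx 1; have h2 := hx 2
    simp only [Fin.sum_univ_three, Real.norm_eq_abs, sq_abs]
    nlinarith [h0.1, h0.2, h1.1, h1.2, h2.1, h2.2]
  exact ne_top_of_le_ne_top measure_closedBall_lt_top.ne (measure_mono this)

theorem eqc_volume_eq (hE : IsDS E) : volume E = ENNReal.ofReal (vol E) := by
  rw [vol, ENNReal.ofReal_toReal (eqc_volume_ne_top hE)]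

/-- the region below a graph -/
def under (j : Fin 3) (f : ℝ → ℝ) : Set E3 := {x | x ∈ cube ∧ x (j + 2) < f (x (j + 1))}

theorem measurableSet_under (j : Fin 3) {f : ℝ → ℝ} (hf : Measurable f) :
    MeasurableSet (under j f) :=
  measurableSet_cube.inter (measurableSet_lt (by fun_prop) (hf.comp (by fun_prop)))

theorem volume_under (j : Fin 3) {f : ℝ → ℝ} (hf : Measurable f)
    (h01 : ∀ x ∈ Ioo (0 : ℝ) 1, f x ∈ Icc (0 : ℝ) 1) :
    volume (under j f) = ENNReal.ofReal (∫ x in Ioo (0 : ℝ) 1, f x) := by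
  rw [← (measurePreserving_ins j).measure_preimage (measurableSet_under j hf).nullMeasurableSet]
  have e : (fun p : ℝ × (ℝ × ℝ) => ins j p.1 p.2) ⁻¹' under j f =
      Ioo (0 : ℝ) 1 ×ˢ regionBetween (fun _ => 0) f (Ioo 0 1) := by
    ext p
    simp only [under, mem_preimage, mem_ofPred_eq, ins_mem_cube, ins_succ, ins_succ2, mem_prod,
      regionBetween, DS.sq]
    constructor
    · rintro ⟨⟨h0, h1, h2⟩, h3⟩
      exact ⟨h0, h1, h2.1, h3⟩
    · rintro ⟨h0, h1, h2, h3⟩
      exact ⟨⟨h0, h1, h2, h3.trans_le (h01 _ h1).2⟩, h3⟩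
  have hi : IntegrableOn f (Ioo (0 : ℝ) 1) := by
    refine Measure.integrableOn_of_bounded (M := 1) (by simp) hf.aestronglyMeasurable ?_
    filter_upwards [ae_restrict_mem measurableSet_Ioo] with x hx
    rw [Real.norm_eq_abs, abs_of_nonneg (h01 x hx).1]; exact (h01 x hx).2
  rw [e, Measure.volume_eq_prod, Measure.prod_prod, Measure.volume_eq_prod,
    volume_regionBetween_eq_integral (integrableOn_const (by simp)) hi measurableSet_Ioo
      (fun x hx => (h01 x hx).1)]
  simp

theorem ae_eq_under (hE : IsDS E) (j : Fin 3) {f : ℝ → ℝ} (hf : Measurable f)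
    (h01 : ∀ x ∈ Ioo (0 : ℝ) 1, f x ∈ Icc (0 : ℝ) 1) (hV : ∫ x in Ioo (0 : ℝ) 1, f x = vol E)
    (hsub : under j f ⊆ E) : E =ᵐ[volume] under j f :=
  (ae_eq_of_subset_of_measure_ge hsub
    (by rw [volume_under j hf h01, hV, eqc_volume_eq hE])
    (measurableSet_under j hf).nullMeasurableSet (eqc_volume_ne_top hE)).symm

theorem under_subset_F (hE : IsDS E) (j : Fin 3) {f : ℝ → ℝ}
    (h : ∀ s < (1 : ℝ), ∃ t, s < t ∧ ∀ x ∈ Ioo (0 : ℝ) 1, slF E j t x = f x) : under j f ⊆ E := by
  rintro x ⟨hx, hlt⟩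
  obtain ⟨t, hst, ht⟩ := h (x j) (hx j).2
  have h1 : x (j + 2) < DS.ht E (j + 2) (t, x (j + 1)) := by
    have := ht (x (j + 1)) (hx (j + 1))
    unfold slF at this
    rw [this]; exact hlt
  have h2 := hE.mem_of_lt_ht (hx (j + 2)).1 h1
  rw [ins_rot2] at h2
  refine hE.down _ h2 x hx fun k => ?_
  rcases fin3_cases j k with rfl | rfl | rfl
  · simpa using hst.le
  · simp
  · simp

theorem slab_subset_G (hE : IsDS E) (j : Fin 3) {w : ℝ}
    (h : ∀ s < (1 : ℝ), ∃ t, s < t ∧ ∀ y ∈ Ioo (0 : ℝ) 1, slG E j t y = w) :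
    slabO (j + 1) w ⊆ E := by
  rintro x ⟨hx, hlt⟩
  obtain ⟨t, hst, ht⟩ := h (x j) (hx j).2
  have h1 : x (j + 1) < DS.ht E (j + 1) (x (j + 2), t) := by
    have := ht (x (j + 2)) (hx (j + 2))
    unfold slG at this
    rw [this]; exact hlt
  have h2 := hE.mem_of_lt_ht (hx (j + 1)).1 h1
  rw [ins_rot1] at h2
  refine hE.down _ h2 x hx fun k => ?_
  rcases fin3_cases j k with rfl | rfl | rfl
  · simpa using hst.le
  · simp
  · simp

theorem slabO_eq_under (k : Fin 3) (w : ℝ) : slabO k w = under (k + 1) (fun _ => w) := by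
  have : k + 1 + 2 = k := by fin_cases k <;> rfl
  simp only [slabO, under, this]

theorem ae_eq_slab (hE : IsDS E) (k : Fin 3) (h0 : 0 ≤ vol E) (h1 : vol E ≤ 1)
    (hsub : slabO k (vol E) ⊆ E) : E =ᵐ[volume] slabO k (vol E) := by
  rw [slabO_eq_under] at hsub ⊢
  exact ae_eq_under hE _ measurable_const (fun _ _ => ⟨h0, h1⟩) (by simp) hsub

theorem sec_eq_vol (hE : IsDS E) {j : Fin 3} (hmu : mu E j = 0) {t : ℝ} (ht : t ∈ Ioo (0 : ℝ) 1) :
    sec E j t = vol E := by
  have h1 : azero E j = aone E j := by rw [hE.azero_eq, hmu]; simp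
  have h2 := hE.aone_le_sec j ht
  have h3 := hE.sec_le_azero j t
  have h4 := aone_le_vol hE j
  have h5 := vol_le_azero hE j
  linarith

theorem int_pz_le (hE : IsDS E) (j : Fin 3) : ∫ t in Ioo (0 : ℝ) 1, pz E j t ≤ per E := by
  have h := slice_le hE j (fun _ => 1) measurable_const ⟨1, fun _ => by simp⟩ (fun _ => zero_le_one)
  simp only [one_mul] at h
  refine h.trans ?_
  have : ∫ x, √(1 - nu E j x ^ 2) ∂(sig E) ≤ ∫ _x, (1 : ℝ) ∂(sig E) := by
    refine integral_mono_of_nonneg (Eventually.of_forall fun x => Real.sqrt_nonneg _)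
      (integrable_const _) (Eventually.of_forall fun x => ?_)
    exact Real.sqrt_le_one.2 (by nlinarith [sq_nonneg (nu E j x)])
  simpa [per_eq_real] using this

theorem Crit.per_le_I2 (h : Crit E lam c) : per E ≤ Iso.I2 (vol E) := by
  have h0 := per_nonneg E
  have h1 := h.per_tube
  have h2 := h.vol_le
  refine le_min (le_min (Real.le_sqrt_of_sq_le h1) h.per_slab) (Real.le_sqrt_of_sq_le ?_)
  nlinarith [Real.pi_pos]

theorem eq_cyl_mu (h : Crit E lam c) (j : Fin 3) (hmu : mu E j = 0) : Model E := by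
  have hE := h.ds
  have hV0 := h.vol_pos
  have hV := h.vol_le
  have hge : ∀ t ∈ Ioo (0 : ℝ) 1, per E ≤ pz E j t := fun t ht => by
    have := pz_ge_I2 hE j ht
    rw [sec_eq_vol hE hmu ht] at this
    exact h.per_le_I2.trans this
  have hint : IntegrableOn (pz E j) (Ioo (0 : ℝ) 1) := by
    refine Measure.integrableOn_of_bounded (M := 2) (by simp)
      (measurable_pz hE j).aestronglyMeasurable (Eventually.of_forall fun t => ?_)
    rw [Real.norm_eq_abs, abs_of_nonneg (pz_nonneg E j t)]; exact pz_le_two E j t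
  have hae : ∀ᵐ t ∂(volume.restrict (Ioo (0 : ℝ) 1)), pz E j t = per E := by
    have hnn : 0 ≤ᵐ[volume.restrict (Ioo (0 : ℝ) 1)] fun t => pz E j t - per E := by
      filter_upwards [ae_restrict_mem measurableSet_Ioo] with t ht using sub_nonneg.2 (hge t ht)
    have hi : Integrable (fun t => pz E j t - per E) (volume.restrict (Ioo (0 : ℝ) 1)) :=
      hint.sub (integrable_const _)
    have hz : ∫ t in Ioo (0 : ℝ) 1, (pz E j t - per E) = 0 := by
      refine le_antisymm ?_ (integral_nonneg_of_ae hnn)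
      rw [integral_sub hint (integrable_const _)]
      have := int_pz_le hE j
      simpa using this
    filter_upwards [(integral_eq_zero_iff_of_nonneg_ae hnn hi).1 hz] with t ht
    exact sub_eq_zero.1 ht
  have hgood : ∀ s < (1 : ℝ), ∃ t, s < t ∧ t ∈ Ioo (0 : ℝ) 1 ∧ pz E j t = per E := by
    intro s hs
    have hm : max s 0 < 1 := max_lt hs one_pos
    have hsub : Ioo (max s 0) 1 ⊆ Ioo (0 : ℝ) 1 := Ioo_subset_Ioo_left (le_max_right _ _)
    obtain ⟨t, ht, hp⟩ := Measure.exists_mem_of_measure_ne_zero_of_ae (μ := volume)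
      (s := Ioo (max s 0) 1) (by simpa using hm) (ae_restrict_of_ae_restrict_of_subset hsub hae)
    exact ⟨t, (le_max_left _ _).trans_lt ht.1, hsub ht, hp⟩
  have hcase : ∀ t ∈ Ioo (0 : ℝ) 1, pz E j t = per E →
      (per E = √(π * vol E) ∧ ∀ x ∈ Ioo (0 : ℝ) 1, slF E j t x = √(4 * vol E / π - x ^ 2)) ∨
      (per E = 1 ∧ ∀ x ∈ Ioo (0 : ℝ) 1, slF E j t x = vol E) ∨
      (per E = 1 ∧ ∀ y ∈ Ioo (0 : ℝ) 1, slG E j t y = vol E) := by
    intro t ht hp
    have P := slice_pair hE j ht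
    have ha : Iso.area (slF E j t) = vol E := (slice_area hE j ht).trans (sec_eq_vol hE hmu ht)
    have hp' : Iso.pl (slF E j t) (slG E j t) = per E := hp
    have := P.eq_I2 (by rw [ha, hp']; exact h.per_le_I2)
    rw [ha, hp'] at this
    rcases this with a | a | a | a
    · exact Or.inl a
    · exfalso
      have h1 := h.per_slab
      rw [a.1, Real.sqrt_le_one] at h1
      nlinarith [Real.pi_gt_three]
    · exact Or.inr (Or.inl a)
    · exact Or.inr (Or.inr a)
  have hslab : per E = 1 → 1 / π ≤ vol E := fun h1 => by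
    have := h.per_tube
    rw [h1] at this
    rw [div_le_iff₀ Real.pi_pos]; linarith
  by_cases hA : ∀ s < (1 : ℝ), ∃ t, s < t ∧ t ∈ Ioo (0 : ℝ) 1 ∧ per E = √(π * vol E) ∧
      ∀ x ∈ Ioo (0 : ℝ) 1, slF E j t x = √(4 * vol E / π - x ^ 2)
  · obtain ⟨t0, -, ht0, hper, hf0⟩ := hA 0 one_pos
    have hsq : per E ^ 2 = π * vol E := by
      rw [hper, Real.sq_sqrt (by positivity)]
    have hr2 : √(4 * vol E / π) ^ 2 = 4 * vol E / π := Real.sq_sqrt (by positivity)
    refine Or.inr (Or.inl ⟨?_, ?_, hsq, j, √(4 * vol E / π), by positivity, ?_, ?_⟩)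
    · have h1 := h.per_ball
      have h0 := per_nonneg E
      have h2 : (per E ^ 3) ^ 2 ≤ (9 * π / 2 * vol E ^ 2) ^ 2 :=
        pow_le_pow_left₀ (by positivity) h1 2
      have h3 : (per E ^ 3) ^ 2 = (π * vol E) ^ 3 := by rw [← hsq]; ring
      rw [h3] at h2
      have h4 : 0 < π ^ 2 * vol E ^ 3 := by positivity
      have h5 : π ^ 2 * vol E ^ 3 * π ≤ π ^ 2 * vol E ^ 3 * (81 / 4 * vol E) := by nlinarith
      have := le_of_mul_le_mul_left h5 h4
      linarith
    · have h1 := h.per_slab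
      have h0 := per_nonneg E
      rw [le_div_iff₀ Real.pi_pos]; nlinarith
    · rw [hr2]; field_simp
    · have hm : Measurable fun x : ℝ => √(4 * vol E / π - x ^ 2) := by fun_prop
      have e : tubeO j √(4 * vol E / π) = under j fun x => √(4 * vol E / π - x ^ 2) := by
        ext x
        simp only [tubeO, under, mem_ofPred_eq, hr2]
        refine and_congr_right fun hx => ?_
        rw [Real.lt_sqrt (hx (j + 2)).1.le]
        constructor <;> intro <;> linarith
      rw [e]
      refine ae_eq_under hE j hm (fun x hx => ?_) ?_ (under_subset_F hE j fun s hs => ?_)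
      · rw [← hf0 x hx]; exact (slice_pair hE j ht0).f_mem x hx
      · have ha : Iso.area (slF E j t0) = vol E :=
          (slice_area hE j ht0).trans (sec_eq_vol hE hmu ht0)
        refine Eq.trans ?_ ha
        exact setIntegral_congr_fun measurableSet_Ioo fun x hx => (hf0 x hx).symm
      · obtain ⟨t, h1, -, -, h2⟩ := hA s hs
        exact ⟨t, h1, h2⟩
  by_cases hC : ∀ s < (1 : ℝ), ∃ t, s < t ∧ per E = 1 ∧ ∀ x ∈ Ioo (0 : ℝ) 1, slF E j t x = vol E
  · obtain ⟨-, -, hper, -⟩ := hC 0 one_pos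
    refine Or.inr (Or.inr ⟨hslab hper, hper, j + 2, ae_eq_slab hE _ hV0.le (by linarith) ?_⟩)
    refine under_subset_F hE j (f := fun _ => vol E) fun s hs => ?_
    obtain ⟨t, h1, -, h2⟩ := hC s hs
    exact ⟨t, h1, h2⟩
  have hD : ∀ s < (1 : ℝ), ∃ t, s < t ∧ per E = 1 ∧ ∀ y ∈ Ioo (0 : ℝ) 1, slG E j t y = vol E := by
    intro s hs
    push Not at hA hC
    obtain ⟨sA, hsA, hA⟩ := hA
    obtain ⟨sC, hsC, hC⟩ := hC
    obtain ⟨t, h1, h2, h3⟩ := hgood (max s (max sA sC)) (max_lt hs (max_lt hsA hsC))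
    simp only [max_lt_iff] at h1
    rcases hcase t h2 h3 with a | a | a
    · obtain ⟨x, hx, hne⟩ := hA t h1.2.1 h2 a.1
      exact absurd (a.2 x hx) hne
    · obtain ⟨x, hx, hne⟩ := hC t h1.2.2 a.1
      exact absurd (a.2 x hx) hne
    · exact ⟨t, h1.1, a⟩
  obtain ⟨-, -, hper, -⟩ := hD 0 one_pos
  refine Or.inr (Or.inr ⟨hslab hper, hper, j + 1, ae_eq_slab hE _ hV0.le (by linarith) ?_⟩)
  refine slab_subset_G hE j fun s hs => ?_
  obtain ⟨t, h1, -, h2⟩ := hD s hs
  exact ⟨t, h1, h2⟩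

theorem mu_eq_zero_of_N (E : Set E3) (j : Fin 3) (h : ∫ x, nu E j x ^ 2 ∂(sig E) = 0) :
    mu E j = 0 := by
  have hi : Integrable (fun x => nu E j x ^ 2) (sig E) := by
    refine (integrable_const (1 : ℝ)).mono' ((measurable_nu E j).pow_const 2).aestronglyMeasurable
      (Eventually.of_forall fun x => ?_)
    have h0 := nu_nonneg E j x
    have h1 := nu_le_one E j x
    rw [Real.norm_eq_abs, abs_of_nonneg (sq_nonneg _)]; nlinarith
  have := (integral_eq_zero_iff_of_nonneg (fun x => sq_nonneg _) hi).1 h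
  rw [mu_eq, withDensity_congr_ae (g := 0), withDensity_zero]
  filter_upwards [this] with x hx
  have : nu E j x = 0 := by simpa using hx
  simp [this]

theorem eq_cyl (h : Crit E lam c) (j : Fin 3) (hj : per E = c j + lam * vol E) : Model E :=
  eq_cyl_mu h j (mu_eq_zero_of_N E j (by rw [h.N_eq j]; linarith))

end Crest.Agent.R214.Cs
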