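import Crest.Agent.R214.VarDefs
import Crest.Agent.R214.DSSig

/-! Row 214, module VAR: the reflected complement (architect helper39; statements are frozen). -/

set_option autoImplicit false
open MeasureTheory Set Filter Topology Real

noncomputable section
namespace Crest.Agent.R214.Va
open DS Cs

variable {E : Set E3}

theorem cplA_apply (x : E3) (j : Fin 3) : flip x j = 1 - x j := rfl

theorem cplA_meas : Measurable flip := by
  have : Continuous flip := by
    unfold flip
    fun_prop
  exact this.measurable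

theorem cplA_cube {x : E3} (hx : x ∈ cube) : flip x ∈ cube := fun j => by
  rw [cplA_apply]
  constructor <;> linarith [(hx j).1, (hx j).2]

theorem cplA_ins (i : Fin 3) (t : ℝ) (w : ℝ × ℝ) :
    flip (ins i t w) = ins i (1 - t) (1 - w.1, 1 - w.2) := by
  ext j
  rw [cplA_apply]
  rcases fin3_cases i j with rfl | rfl | rfl <;> simp

theorem cplA_mp : MeasurePreserving (fun w : ℝ × ℝ => ((1 - w.1, 1 - w.2) : ℝ × ℝ)) volume volume :=
  (Measure.measurePreserving_sub_left volume (1 : ℝ)).prod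
    (Measure.measurePreserving_sub_left volume (1 : ℝ))

theorem cplA_sq {w : ℝ × ℝ} : ((1 - w.1, 1 - w.2) : ℝ × ℝ) ∈ sq ↔ w ∈ sq := by
  simp only [DS.sq, mem_prod, mem_Ioo]
  constructor <;> rintro ⟨⟨a, b⟩, c, d⟩ <;> refine ⟨⟨?_, ?_⟩, ?_, ?_⟩ <;> linarith

theorem cplA_int {S : Set (ℝ × ℝ)} (hS : MeasurableSet S) {g : ℝ × ℝ → ℝ} (hg : Measurable g) :
    ∫ w in (fun w : ℝ × ℝ => ((1 - w.1, 1 - w.2) : ℝ × ℝ)) ⁻¹' S, g (1 - w.1, 1 - w.2) =
      ∫ w in S, g w := by
  have h := cplA_mp.restrict_preimage hS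
  rw [← h.map_eq, integral_map h.measurable.aemeasurable hg.aestronglyMeasurable]

theorem isDS_cpl (hE : IsDS E) : IsDS (cpl E) := by
  refine ⟨measurableSet_cube.inter (hE.meas.preimage cplA_meas).compl, fun x hx => hx.1,
    fun x hx y hy hxy => ⟨hy, fun h => hx.2 (hE.down _ h _ (cplA_cube hx.1) fun j => ?_)⟩⟩
  rw [cplA_apply, cplA_apply]
  linarith [hxy j]

theorem ht_cpl (hE : IsDS E) (i : Fin 3) {w : ℝ × ℝ} (hw : w ∈ sq) :
    ht (cpl E) i w = 1 - ht E i (1 - w.1, 1 - w.2) := by
  have hc := isDS_cpl hE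
  have a0 := ht_nonneg (cpl E) i w
  have a1 := ht_le_one (cpl E) i w
  have c0 := ht_nonneg E i (1 - w.1, 1 - w.2)
  have c1 := ht_le_one E i (1 - w.1, 1 - w.2)
  refine le_antisymm (not_lt.1 fun h => ?_) (not_lt.1 fun h => ?_)
  · obtain ⟨t, h1, h2⟩ := exists_between h
    have h3 := (hc.mem_of_lt_ht (by linarith) h2).2
    rw [cplA_ins] at h3
    exact h3 (hE.mem_of_lt_ht (by linarith) (by linarith))
  · obtain ⟨t, h1, h2⟩ := exists_between h
    have h3 : ins i t w ∈ cpl E := by
      refine ⟨(ins_mem_cube i t w).2 ⟨⟨by linarith, by linarith⟩, hw⟩, fun h4 => ?_⟩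
      rw [cplA_ins] at h4
      linarith [hE.le_ht h4]
    linarith [hc.le_ht h3]

theorem vol_cpl (hE : IsDS E) : vol (cpl E) = 1 - vol E := by
  have hc := isDS_cpl hE
  have e : (fun w : ℝ × ℝ => ((1 - w.1, 1 - w.2) : ℝ × ℝ)) ⁻¹' sq = sq := Set.ext fun w => cplA_sq
  have h1 := cplA_int measurableSet_sq (hE.measurable_ht 0)
  rw [e] at h1
  have hi : Integrable (fun w : ℝ × ℝ => ht E 0 (1 - w.1, 1 - w.2)) (volume.restrict sq) := by
    refine Integrable.of_bound ((hE.measurable_ht 0).comp cplA_mp.measurable).aestronglyMeasurable 1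
      (ae_of_all _ fun w => ?_)
    rw [Real.norm_eq_abs, abs_of_nonneg (ht_nonneg _ _ _)]
    exact ht_le_one _ _ _
  rw [← hc.integral_ht 0, ← hE.integral_ht 0,
    setIntegral_congr_fun measurableSet_sq fun w hw => ht_cpl hE 0 hw,
    integral_sub (integrable_const _) hi, h1]
  simp [Measure.real, volume_sq]

/-- `per_le_param'` with `T = flip`, `θ = nu E` -/
theorem per_cpl_le (hE : IsDS E) : per (cpl E) ≤ per E := by
  have hc := isDS_cpl hE
  have hi : ∀ i, Integrable (nu E i) (sig E) := fun i =>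
    Integrable.of_bound (measurable_nu E i).aestronglyMeasurable 1 (ae_of_all _ fun x => by
      rw [Real.norm_eq_abs, abs_of_nonneg (nu_nonneg _ _ _)]
      exact nu_le_one _ _ _)
  refine (per_le_param' (cpl E) (sig E) flip cplA_meas (nu E) (measurable_nu E) hi
    fun i g hg _ => ?_).trans_eq ?_
  · have e : dom (cpl E) i = (fun w : ℝ × ℝ => ((1 - w.1, 1 - w.2) : ℝ × ℝ)) ⁻¹' dom E i := by
      ext w
      simp only [dom, mem_preimage, mem_ofPred_eq, cplA_sq]
      refine and_congr_right fun hw => ?_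
      rw [ht_cpl hE i hw]
      constructor <;> rintro ⟨a, b⟩ <;> constructor <;> linarith
    have h1 := cplA_int (hE.measurableSet_dom i) ((hg.comp cplA_meas).comp (hE.measurable_gr i))
    have h2 := hE.integral_mu i (hg.comp cplA_meas)
    have h3 := integral_mu_nu E i fun x => g (flip x)
    simp only [Function.comp_def] at h1 h2
    rw [← h3, h2, ← h1, hc.integral_mu i hg, ← e]
    refine setIntegral_congr_fun (hc.measurableSet_dom i) fun w hw => ?_
    simp only [gr, cplA_ins, ht_cpl hE i hw.1, sub_sub_cancel]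
  · rw [per_eq_real]
    calc ∫ x, √(∑ i, nu E i x ^ 2) ∂(sig E) = ∫ _x, (1 : ℝ) ∂(sig E) := by
          refine integral_congr_ae ?_
          filter_upwards [nu_sq_ae E] with x hx
          rw [hx, Real.sqrt_one]
      _ = _ := by simp

end Crest.Agent.R214.Va
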