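import Crest.Agent.R214.DS

/-! Row 214, module VAR: Helly compactness for down-sets (auxiliary file, helper81). -/

set_option autoImplicit false
open MeasureTheory Set Filter Topology

noncomputable section
namespace Crest.Agent.R214.HellyA
open DS

/-- rational point -/
def rq (q : Fin 3 → ℚ) : E3 := WithLp.toLp 2 fun j => (q j : ℝ)

@[simp] theorem rq_apply (q : Fin 3 → ℚ) (j : Fin 3) : rq q j = (q j : ℝ) := rfl

/-- the diagonal vector scaled by `t` -/
def dg (t : ℝ) : E3 := WithLp.toLp 2 fun _ => t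

@[simp] theorem dg_apply (t : ℝ) (j : Fin 3) : dg t j = t := rfl

theorem meas_cube : MeasurableSet cube := by
  have : cube = ⋂ j : Fin 3, ({x : E3 | 0 < x j} ∩ {x : E3 | x j < 1}) := by
    ext x; simp [cube]
  rw [this]
  exact MeasurableSet.iInter fun j =>
    (measurableSet_lt measurable_const (by fun_prop)).inter (measurableSet_lt (by fun_prop) measurable_const)

theorem vol_box : volume {x : E3 | ∀ j, |x j| ≤ 1} ≠ ⊤ := by
  have hs : {x : E3 | ∀ j, |x j| ≤ 1} ⊆ Metric.closedBall 0 2 := by
    intro x hx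
    rw [mem_closedBall_zero_iff, EuclideanSpace.norm_eq, Real.sqrt_le_iff]
    refine ⟨by norm_num, ?_⟩
    have h : ∀ j, ‖x j‖ ^ 2 ≤ 1 := fun j => by
      rw [Real.norm_eq_abs]
      have := hx j
      nlinarith [abs_nonneg (x j)]
    rw [Fin.sum_univ_three]
    linarith [h 0, h 1, h 2]
  exact ((measure_mono hs).trans_lt measure_closedBall_lt_top).ne

theorem vol_cube : volume cube ≠ ⊤ := by
  refine ne_top_of_le_ne_top vol_box (measure_mono fun x hx j => ?_)
  have := hx j
  rw [abs_le]; constructor <;> linarith [this.1, this.2]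

/-- a measurable strict antichain in the cube is null -/
theorem antichain_null {N : Set E3} (hm : MeasurableSet N) (hs : N ⊆ cube)
    (ha : ∀ x ∈ N, ∀ y ∈ N, ¬ ∀ j, x j < y j) : volume N = 0 := by
  by_contra hne
  set T : ℕ → Set E3 := fun k => (fun x => x + dg (1 / ((k : ℝ) + 1))) ⁻¹' N with hT
  have hTm : ∀ k, MeasurableSet (T k) := fun k => hm.preimage (by fun_prop)
  have hTv : ∀ k, volume (T k) = volume N := fun k => measure_preimage_add_right _ _ _
  have hlt : ∀ k l : ℕ, k < l → Disjoint (T k) (T l) := by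
    intro k l hkl
    rw [Set.disjoint_left]
    intro x hk hl
    refine ha _ hl _ hk fun j => ?_
    have h1 : (1 : ℝ) / ((l : ℝ) + 1) < 1 / ((k : ℝ) + 1) := by
      apply one_div_lt_one_div_of_lt (by positivity)
      have : (k : ℝ) < l := by exact_mod_cast hkl
      linarith
    simp only [PiLp.add_apply, dg_apply]
    linarith
  have hd : Pairwise (Function.onFun Disjoint T) := by
    intro k l hkl
    rcases lt_or_gt_of_ne hkl with h | h
    · exact hlt k l h
    · exact (hlt l k h).symm
  have hU : volume (⋃ k, T k) = ⊤ := by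
    rw [measure_iUnion hd hTm]
    simp only [hTv]
    exact ENNReal.tsum_const_eq_top_of_ne_zero hne
  have hsub : (⋃ k, T k) ⊆ {x : E3 | ∀ j, |x j| ≤ 1} := by
    intro x hx j
    obtain ⟨k, hk⟩ := mem_iUnion.1 hx
    have h := hs hk j
    simp only [PiLp.add_apply, dg_apply] at h
    have h0 : (0 : ℝ) < 1 / ((k : ℝ) + 1) := by positivity
    have h1 : (1 : ℝ) / ((k : ℝ) + 1) ≤ 1 := by
      rw [div_le_one (by positivity)]
      have : (0 : ℝ) ≤ k := Nat.cast_nonneg k
      linarith
    rw [abs_le]; constructor <;> linarith [h.1, h.2]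
  exact vol_box (top_le_iff.1 (hU ▸ measure_mono hsub))

theorem helly (F : ℕ → Set E3) (hF : ∀ n, IsDS (F n)) :
    ∃ (E : Set E3) (k : ℕ → ℕ), IsDS E ∧ StrictMono k ∧
      Tendsto (fun n => volume (symmDiff (F (k n)) E)) atTop (𝓝 0) := by
  classical
  obtain ⟨L, φ, hφ, hL⟩ := CompactSpace.tendsto_subseq
    (fun n => (fun q : Fin 3 → ℚ => decide (rq q ∈ F n)))
  have hev : ∀ q, ∀ᶠ n in atTop, (rq q ∈ F (φ n) ↔ L q = true) := by
    intro q
    have h := (tendsto_pi_nhds.1 hL) q
    rw [nhds_discrete, tendsto_pure] at h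
    filter_upwards [h] with n hn
    simp only [Function.comp] at hn
    rw [← hn]; simp
  set E : Set E3 := {x | x ∈ cube ∧ ∃ q, L q = true ∧ ∀ j, x j < q j} with hE
  set E' : Set E3 := {x | ∃ q, rq q ∈ cube ∧ L q = false ∧ ∀ j, (q j : ℝ) < x j} with hE'
  have hEm : MeasurableSet E := by
    have : E = cube ∩ ⋃ q : Fin 3 → ℚ, ⋃ _ : L q = true, ⋂ j, {x : E3 | x j < q j} := by
      ext x; simp [hE]
    rw [this]
    exact meas_cube.inter (MeasurableSet.iUnion fun q => MeasurableSet.iUnion fun _ =>
      MeasurableSet.iInter fun j => measurableSet_lt (by fun_prop) measurable_const)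
  have hEm' : MeasurableSet E' := by
    have : E' = ⋃ q : Fin 3 → ℚ, ⋃ _ : rq q ∈ cube ∧ L q = false, ⋂ j, {x : E3 | (q j : ℝ) < x j} := by
      ext x; simp [hE', and_assoc]
    rw [this]
    exact MeasurableSet.iUnion fun q => MeasurableSet.iUnion fun _ =>
      MeasurableSet.iInter fun j => measurableSet_lt measurable_const (by fun_prop)
  have hDS : IsDS E := by
    refine ⟨hEm, fun x hx => hx.1, ?_⟩
    rintro x ⟨-, q, hq, hx⟩ y hy hyx
    exact ⟨hy, q, hq, fun j => (hyx j).trans_lt (hx j)⟩
  have hin : ∀ x ∈ E, ∀ᶠ n in atTop, x ∈ F (φ n) := by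
    rintro x ⟨hx, q, hq, hxq⟩
    filter_upwards [hev q] with n hn
    exact (hF _).down _ (hn.2 hq) x hx fun j => (hxq j).le
  have hout : ∀ x ∈ E', ∀ᶠ n in atTop, x ∉ F (φ n) := by
    rintro x ⟨q, hqc, hq, hxq⟩
    filter_upwards [hev q] with n hn hx
    have := hn.1 ((hF _).down _ hx _ hqc fun j => (hxq j).le)
    rw [hq] at this
    exact Bool.false_ne_true this
  have hN : volume (cube \ (E ∪ E')) = 0 := by
    refine antichain_null (meas_cube.diff (hEm.union hEm')) sdiff_subset ?_
    rintro x ⟨hx, hx'⟩ y ⟨hy, hy'⟩ hxy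
    choose q hq using fun j => exists_rat_btwn (hxy j)
    have hqc : rq q ∈ cube := fun j =>
      ⟨(hx j).1.trans (hq j).1, (hq j).2.trans (hy j).2⟩
    cases hLq : L q with
    | true => exact hx' (Or.inl ⟨hx, q, hLq, fun j => (hq j).1⟩)
    | false => exact hy' (Or.inr ⟨q, hqc, hLq, fun j => (hq j).2⟩)
  refine ⟨E, φ, hDS, hφ, ?_⟩
  have key := tendsto_measure_of_ae_tendsto_indicator (μ := (volume : Measure E3)) atTop
    (As := fun n => symmDiff (F (φ n)) E) (A := ∅) MeasurableSet.empty
    (fun n => (hF _).meas.symmDiff hEm) meas_cube vol_cube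
    (Eventually.of_forall fun n x hx => by
      rcases hx with hx | hx
      · exact (hF _).sub hx.1
      · exact hx.1.1) ?_
  · simpa using key
  · have : ∀ᵐ x ∂(volume : Measure E3), x ∉ cube \ (E ∪ E') := measure_eq_zero_iff_ae_notMem.1 hN
    filter_upwards [this] with x hx
    simp only [mem_empty_iff_false, iff_false, Set.mem_symmDiff]
    by_cases hc : x ∈ cube
    · by_cases h1 : x ∈ E
      · filter_upwards [hin x h1] with n hn
        tauto
      · have h2 : x ∈ E' := by
          by_contra h2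
          exact hx ⟨hc, fun h => h.elim h1 h2⟩
        filter_upwards [hout x h2] with n hn
        tauto
    · refine Eventually.of_forall fun n h => ?_
      rcases h with h | h
      · exact hc ((hF _).sub h.1)
      · exact hc h.1.1

end Crest.Agent.R214.HellyA
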