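import Crest.Agent.R214.VarProf
import Crest.Agent.R214.DSDiv
import Crest.Agent.R214.VarHellyA

/-! Row 214, module VAR: Helly compactness and existence of a minimiser (architect helper39; statements are frozen). -/

set_option autoImplicit false
open MeasureTheory Set Filter Topology Real

noncomputable section
namespace Crest.Agent.R214.Va
open DS Cs

/-- Extract a subsequence along which membership of every rational point of the cube stabilises, with
limit `L`; `E` = points of the cube strictly below a point of `L`. The exceptional set meets every line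
in the direction `(1,1,1)` in at most one point, so its translates along that line are disjoint. -/
theorem helly (F : ℕ → Set E3) (hF : ∀ n, IsDS (F n)) :
    ∃ (E : Set E3) (k : ℕ → ℕ), IsDS E ∧ StrictMono k ∧
      Tendsto (fun n => volume (symmDiff (F (k n)) E)) atTop (𝓝 0) :=
  HellyA.helly F hF

theorem isDS_empty : IsDS (∅ : Set E3) := by
  exact ⟨MeasurableSet.empty, empty_subset _, fun x hx => absurd hx (notMem_empty x)⟩

theorem per_empty : per (∅ : Set E3) = 0 := by
  have h : ∀ i, mu (∅ : Set E3) i = 0 := by
    intro i
    have hd : dom (∅ : Set E3) i = ∅ := by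
      ext w
      simp [dom, ht]
    simp [mu, hd]
  refine le_antisymm ?_ (per_nonneg _)
  have := per_le_sum (∅ : Set E3)
  simpa [h] using this

theorem vol_le_one {E : Set E3} (hE : IsDS E) : vol E ≤ 1 := by
  rw [← hE.integral_ht 0]
  have h1 : ∫ w in sq, ht E 0 w ≤ ∫ _w in sq, (1 : ℝ) := by
    refine integral_mono_of_nonneg (Eventually.of_forall fun w => ht_nonneg E 0 w)
      (integrable_const _) (Eventually.of_forall fun w => ht_le_one E 0 w)
  refine h1.trans ?_
  simp [Measure.real, volume_sq]

theorem exists_min : ∃ E, IsMin E := by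
  set S : Set ℝ := {r | ∃ E, IsDS E ∧ r = per E - Is (vol E)} with hS
  have hne : S.Nonempty := ⟨_, ∅, isDS_empty, rfl⟩
  have hbd : BddBelow S := by
    refine ⟨-1, ?_⟩
    rintro r ⟨E, -, rfl⟩
    have := per_nonneg E
    have := Is_le_one (vol E)
    linarith
  obtain ⟨u, -, hu, huS⟩ := exists_seq_tendsto_sInf hne hbd
  choose F hF hFu using huS
  obtain ⟨E, k, hE, hk, hlim⟩ := helly F hF
  have hv : Tendsto (fun n => vol (F (k n))) atTop (𝓝 (vol E)) := by
    have h0 : Tendsto (fun n => (volume (symmDiff (F (k n)) E)).toReal) atTop (𝓝 0) := by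
      have := (ENNReal.tendsto_toReal (a := 0) (by simp)).comp hlim
      simpa [Function.comp_def] using this
    rw [tendsto_iff_norm_sub_tendsto_zero]
    refine squeeze_zero (fun n => norm_nonneg _) (fun n => ?_) h0
    exact abs_measureReal_sub_le_measureReal_symmDiff' (hF (k n)).meas.nullMeasurableSet
      hE.meas.nullMeasurableSet (dshtB_volume_lt (hF (k n))).ne (dshtB_volume_lt hE).ne
  have hp : Tendsto (fun n => per (F (k n))) atTop (𝓝 (sInf S + Is (vol E))) := by
    have h1 := (hu.comp hk.tendsto_atTop).add ((continuous_Is.tendsto _).comp hv)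
    refine h1.congr fun n => ?_
    simp only [Function.comp_apply]
    rw [hFu (k n)]
    ring
  have hle : per E ≤ sInf S + Is (vol E) := by
    refine per_le_of_tendsto (fun n => hF (k n)) hE hlim fun ε hε => ?_
    exact (hp.eventually (ge_mem_nhds (by linarith))).frequently
  refine ⟨E, hE, fun G hG => ?_⟩
  have : sInf S ≤ per G - Is (vol G) := csInf_le hbd ⟨G, hG, rfl⟩
  linarith

end Crest.Agent.R214.Va
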