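import Crest.Agent.R214.VarB
import Crest.Agent.R214.VarHelly
import Crest.Agent.R214.VarCpl

/-! Row 214, module VAR: assembly (architect helper39; statements are frozen). -/

set_option autoImplicit false
open MeasureTheory Set Filter Topology Real

noncomputable section
namespace Crest.Agent.R214.Va
open DS Cs

variable {E : Set E3}

theorem IsMin.le (hE : IsMin E) : per E ≤ Is (vol E) := by
  have h := hE.2 ∅ isDS_empty
  rw [per_empty, show vol (∅ : Set E3) = 0 by simp [vol], Is_zero] at h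
  linarith

theorem IsMin.cpl (hE : IsMin E) : IsMin (cpl E) := by
  refine ⟨isDS_cpl hE.1, fun F hF => ?_⟩
  have h1 := hE.2 F hF
  have h2 := per_cpl_le hE.1
  rw [vol_cpl hE.1, Is_one_sub]
  linarith

theorem crit_of_min (hE : IsMin E) (h0 : 0 < vol E) (h1 : vol E ≤ 1 / 2) :
    ∃ lam c, Crit E lam c := by
  obtain ⟨lp, lm, hl, hG, hS⟩ := exists_sup h0 h1
  obtain ⟨lam, hlam, c, hd⟩ := exists_lam hE.1 hl fun f hf => first_var hE hS hf
  obtain ⟨L, hL⟩ := hS.lip
  have hb := bounds_of_le (per_nonneg E) h0 (hE.le.trans_eq (Is_of_le h1))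
  exact ⟨lam, c, hE.1, h0, h1, hb.1, hb.2.1, hb.2.2, hG lam hlam, hd,
    near_of_min hE hL hd, far_of_min hE hL hd, empty_of_min hE hL hd⟩

/-- the two cube theorems from the case analysis -/
theorem is_le_per (hc : ∀ E lam c, Crit E lam c → Model E) {D : Set E3} (hD : IsDS D) :
    Is (vol D) ≤ per D := by
  have key : ∀ E, IsMin E → vol E ≤ 1 / 2 → Is (vol E) ≤ per E := fun E hE h1 => by
    rcases (show 0 ≤ vol E from ENNReal.toReal_nonneg).eq_or_lt with h0 | h0
    · rw [← h0, Is_zero]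
      exact per_nonneg E
    · obtain ⟨lam, c, h⟩ := crit_of_min hE h0 h1
      rw [Is_of_le h1, per_of_model h0 (per_nonneg E) (hc E lam c h)]
  obtain ⟨E, hE⟩ := exists_min
  rcases le_total (vol E) (1 / 2) with h | h
  · have := key E hE h
    have := hE.2 D hD
    linarith
  · have := key _ hE.cpl (by rw [vol_cpl hE.1]; linarith)
    have := hE.cpl.2 D hD
    linarith

theorem cube_ineq_of (hc : ∀ E lam c, Crit E lam c → Model E) {D : Set E3} (hD : IsDS D)
    (h1 : vol D ≤ 1 / 2) : Mo.I3 (vol D) ≤ 2 * per D := by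
  have h := is_le_per hc hD
  rw [Is_of_le h1, Ic] at h
  linarith

theorem cube_eq_of (hc : ∀ E lam c, Crit E lam c → Model E) {D : Set E3} (hD : IsDS D)
    (h0 : 0 < vol D) (h1 : vol D ≤ 1 / 2) (h : 2 * per D ≤ Mo.I3 (vol D)) : Model D := by
  have hm : IsMin D := ⟨hD, fun F hF => by
    have := is_le_per hc hF
    rw [Is_of_le h1, Ic]
    linarith⟩
  obtain ⟨lam, c, hcr⟩ := crit_of_min hm h0 h1
  exact hc D lam c hcr

end Crest.Agent.R214.Va
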