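import Crest.Agent.R214.TopRig
import Crest.Agent.R214.Var

/-! Row 214: the core statements from the case analysis. -/

set_option autoImplicit false

open MeasureTheory Crest.GeometryTopology.PeriodicPerimeter

namespace Crest.Agent.R214.Mo

theorem coreIneq_of_cases (hc : ∀ E lam c, Cs.Crit E lam c → Cs.Model E) : CoreIneq :=
  coreIneq_of_cube fun _ hD _ h1 => Va.cube_ineq_of hc hD h1

theorem coreEq_of_cases (hc : ∀ E lam c, Cs.Crit E lam c → Cs.Model E) : CoreEq :=
  coreEq_of_cube (fun _ hD _ h1 => Va.cube_ineq_of hc hD h1)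
    (fun _ hD h0 h1 h => Va.cube_eq_of hc hD h0 h1 h) rigStep

end Crest.Agent.R214.Mo
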