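import Crest.Agent.R214.LawChk

/-!
# Row 214, Lawson case (helper50): cells and rows
-/

set_option autoImplicit false

open Real Set Finset

namespace Crest.Agent.R214.Law

/-- the check of one cell `[l1, l2] × [W1, W2]` (400 steps of length `h`) -/
def cellOK (l1 l2 W1 W2 m k t1 t2 h : ℕ) : Bool :=
  decide (W1 < 1000000) && decide (t1 ≤ 100) && decide (t2 ≤ 100) && decide (cup t1 W2 ≤ 1000000) &&
  decide (cup t2 W2 ≤ 1000000) && decide (0 < m) && decide (k ≤ m) && decide (m + k ≤ 1000000) &&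
  decide (0 < h) && decide (400 * h < 1000000) && decide (0 < l1) &&
  decide (l2 * l2 * (400 * h) * (400 * h) < pH2 (400 * h) (1000000 - W1) * 1000000000000) &&
  decide (force (1000000 - cup t1 W2) (fun c1 => force (1000000 - cup t2 W2) fun c2 =>
    force (1000000 - W1) fun E =>
    force (h * loop (fun j => force ((j + 1) * h) fun x => force (rr E c1 t1 c2 t2 x) (tt l1 m k))
      400 0 1000000 0) fun S =>
      if (2 * ((m + k) * l1) ≤ 3141592000000 ∧
          1000000000000 * 3141593 < S * 3141593 + (m + k) * l1 * 1000000) ∨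
        3141593 * 1000000000000000000 < 4 * ((m + k) * l1) * S then 1 else 0) = 1)

theorem istar1 {V A η : ℝ} (hA : A ≤ 1) (hA' : A ^ 2 ≤ π * V) (h0 : 0 ≤ η) (h : 2 * η ≤ π) :
    π * (A - η * V) ≤ π - η := by
  have p := Real.pi_pos
  rcases le_total 1 (π * V) with h1 | h1
  · nlinarith [mul_le_mul_of_nonneg_left h1 h0]
  · nlinarith [mul_nonneg (sub_nonneg.2 h) (sub_nonneg.2 h1), sq_nonneg (A - 1),
      mul_le_mul_of_nonneg_left (show 2 * A ≤ 1 + π * V by nlinarith [sq_nonneg (A - 1)]) p.le]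

theorem istar2 {V A η : ℝ} (hA' : A ^ 2 ≤ π * V) : 4 * η * (A - η * V) ≤ π := by
  have p := Real.pi_pos
  refine le_of_mul_le_mul_left ?_ p
  nlinarith [sq_nonneg (π - 2 * η * A), mul_le_mul_of_nonneg_left hA' (sq_nonneg η)]

theorem tt_sound {l1 m k r : ℕ} {lam : ℝ} (hl : (l1 : ℝ) ≤ lam * 1000000) (l0 : 0 < l1)
    (hk : m + k ≤ 1000000) :
    (√(tt l1 m k r : ℕ) / 1000000) ^ 2 ≤ 4 * ((m : ℝ) / 1000000) * (1 - m / 1000000 -
      k / 1000000 * (l1 / 1000000 / lam) ^ 2 * (min 1 (lam * √(r / 1000000))) ^ 2) := by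
  have l0' : (0 : ℝ) < l1 := by exact_mod_cast l0
  have lam0 : 0 < lam := by linarith
  obtain ⟨z, hz⟩ : ∃ z : ℕ, z = min 1000000 (cdiv (l1 * l1 * r) 1000000000000) := ⟨_, rfl⟩
  obtain ⟨s, hs⟩ : ∃ s : ℝ, s = min 1 (lam * √(r / 1000000)) := ⟨_, rfl⟩
  have s0 : 0 ≤ s := by rw [hs]; positivity
  have u0 : 0 ≤ (l1 : ℝ) / 1000000 / lam := by positivity
  have u1 : (l1 : ℝ) / 1000000 / lam ≤ 1 := by rw [div_le_one lam0]; linarith
  have e1 : ((l1 : ℝ) / 1000000 / lam) ^ 2 * s ^ 2 ≤ 1 :=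
    mul_le_one₀ (pow_le_one₀ u0 u1) (sq_nonneg _) (pow_le_one₀ s0 (hs ▸ min_le_left _ _))
  have e2 : ((l1 : ℝ) / 1000000 / lam) ^ 2 * s ^ 2 ≤ z / 1000000 := by
    rw [hz, Nat.cast_min, le_div_iff₀ (by norm_num)]
    refine le_min (by push_cast; linarith) ?_
    have h1 := le_cdiv (l1 * l1 * r) (show 0 < 1000000000000 by norm_num)
    have h2 : s ^ 2 ≤ (lam * √(r / 1000000)) ^ 2 := pow_le_pow_left₀ s0 (hs ▸ min_le_right _ _) 2
    rw [mul_pow, Real.sq_sqrt (by positivity)] at h2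
    have h3 := mul_le_mul_of_nonneg_left h2 (sq_nonneg ((l1 : ℝ) / 1000000 / lam))
    have h4 : ((l1 : ℝ) / 1000000 / lam) ^ 2 * (lam ^ 2 * (r / 1000000)) =
        l1 * l1 * r / 1000000000000000000 := by field_simp; ring
    push_cast at h1
    linarith
  rw [← hs, div_pow, Real.sq_sqrt (by positivity), mul_assoc (k / 1000000 : ℝ)]
  obtain ⟨v, hv⟩ : ∃ v : ℝ, v = ((l1 : ℝ) / 1000000 / lam) ^ 2 * s ^ 2 := ⟨_, rfl⟩
  rw [← hv] at e1 e2 ⊢
  have k0 : (0 : ℝ) ≤ k := by positivity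
  have m0 : (0 : ℝ) ≤ m := by positivity
  have hk' : (m : ℝ) + k ≤ 1000000 := by exact_mod_cast hk
  have e3 : ((1000000 - (m + cdiv (k * z) 1000000) : ℕ) : ℝ) ≤ 1000000 - m - k * v := by
    rcases le_total (m + cdiv (k * z) 1000000) 1000000 with h | h
    · rw [Nat.cast_sub h]
      have := le_cdiv (k * z) (show 0 < 1000000 by norm_num)
      push_cast at this ⊢
      nlinarith [mul_le_mul_of_nonneg_left e2 k0]
    · have e4 := mul_le_mul_of_nonneg_left e1 k0
      clear hz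
      rw [Nat.sub_eq_zero_of_le h, Nat.cast_zero]
      clear h
      linarith
  unfold tt
  rw [← hz, Nat.cast_mul]
  push_cast
  nlinarith [mul_le_mul_of_nonneg_left e3 m0]

/-- the data of a configuration of Lawson type -/
structure Data (lam V A W a0 : ℝ) : Prop where
  V0 : 0 ≤ V
  A1 : A ≤ 1
  A2 : A ^ 2 ≤ π * V
  a0_pos : 0 < a0
  base : Hole W a0 (lam * a0)
  Z : StepZ lam V A W a0

theorem cell_false {l1 l2 W1 W2 m k t1 t2 h : ℕ} (hc : cellOK l1 l2 W1 W2 m k t1 t2 h = true)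
    {lam V A W a0 : ℝ} (H : Data lam V A W a0) (h1 : (l1 : ℝ) ≤ lam * 1000000)
    (h2 : lam * 1000000 ≤ l2) (h3 : (W1 : ℝ) ≤ W * 1000000) (h4 : W * 1000000 ≤ W2) : False := by
  simp only [cellOK, Bool.and_eq_true, decide_eq_true_eq, force_eq] at hc
  obtain ⟨⟨⟨⟨⟨⟨⟨⟨⟨⟨⟨⟨cW, ct1⟩, ct2⟩, cc1⟩, cc2⟩, cm⟩, ckm⟩, cmk⟩, ch⟩, cn⟩, cl⟩, cb⟩, cf⟩ := hc
  have pl := Real.pi_gt_d6
  have pu := Real.pi_lt_d6
  have l0 : (0 : ℝ) < l1 := by exact_mod_cast cl
  have lam0 : 0 < lam := by linarith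
  have m0 : (0 : ℝ) < m := by exact_mod_cast cm
  have k0 : (0 : ℝ) ≤ k := by positivity
  have h0 : (0 : ℝ) < h := by exact_mod_cast ch
  have ckm' : (k : ℝ) ≤ m := by exact_mod_cast ckm
  have cmk' : (m : ℝ) + k ≤ 1000000 := by exact_mod_cast cmk
  have a0p := H.a0_pos
  have u0 : 0 ≤ (l1 : ℝ) / 1000000 / lam := by positivity
  have u1 : (l1 : ℝ) / 1000000 / lam ≤ 1 := by rw [div_le_one lam0]; linarith
  have u2 : ((l1 : ℝ) / 1000000 / lam) ^ 2 ≤ 1 := pow_le_one₀ u0 u1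
  have hb : ((400 : ℕ) : ℝ) * (h / 1000000) ≤ a0 := by
    by_contra hlt
    push_cast at hlt
    have e0 : a0 * 1000000 ≤ ((400 * h : ℕ) : ℝ) := by push_cast; linarith
    have e1 := pH2_sound cn cW h3 e0 (by positivity) H.base
    have e2 : ((l2 * l2 * (400 * h) * (400 * h) : ℕ) : ℝ) <
        ((pH2 (400 * h) (1000000 - W1) * 1000000000000 : ℕ) : ℝ) := by exact_mod_cast cb
    have e3 := pow_le_pow_left₀ (by positivity) (mul_le_mul h2 e0 (by positivity) (by positivity)) 2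
    push_cast at e2 e3
    nlinarith
  obtain ⟨R, hR⟩ : ∃ R : ℕ → ℕ, R = fun j => rr (1000000 - W1) (1000000 - cup t1 W2) t1
    (1000000 - cup t2 W2) t2 ((j + 1) * h) := ⟨_, rfl⟩
  have key := H.Z (m / 1000000) (k / 1000000 * (l1 / 1000000 / lam) ^ 2) (h / 1000000) 400
    (fun j => √(tt l1 m k (R j) : ℕ) / 1000000) (fun j => min 1 (lam * √(R j / 1000000)))
    (by positivity) (by positivity) (by nlinarith [mul_le_mul_of_nonneg_left u2 k0])
    (by positivity) hb fun j hj => ⟨by positivity, by positivity, tt_sound h1 cl cmk, by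
      intro a p a0 ha hp
      have p0 : 0 < p := (mul_pos lam0 a0).trans_le hp.1
      rw [min_mul_of_nonneg _ _ p0.le]
      refine le_min (by simpa using hp.1) ?_
      rw [mul_assoc]
      refine mul_le_mul_of_nonneg_left ?_ lam0.le
      have hx : (j + 1) * h < 1000000 :=
        lt_of_le_of_lt (Nat.mul_le_mul_right h (show j + 1 ≤ 400 by omega)) cn
      have e := rr_sound hx cW h3 h4 ct1 ct2 cc1 cc2 a0 (by push_cast; linarith) p0 hp.2
      refine abs_le_of_sq_le_sq' ?_ (by positivity) |>.2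
      rw [mul_pow, Real.sq_sqrt (by positivity), hR]
      linarith⟩
  have hl := loop_le (fun j => tt l1 m k (R j)) 400 0 1000000 0
  simp only [Nat.cast_zero, zero_add] at hl
  rw [← Finset.sum_div] at key
  obtain ⟨S, hS⟩ : ∃ S : ℕ, S = h * loop (fun j => tt l1 m k (R j)) 400 0 1000000 0 := ⟨_, rfl⟩
  have cf' : (2 * ((m + k) * l1) ≤ 3141592000000 ∧
      1000000000000 * 3141593 < S * 3141593 + (m + k) * l1 * 1000000) ∨
      3141593 * 1000000000000000000 < 4 * ((m + k) * l1) * S := by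
    by_contra hn
    rw [hS, hR] at hn
    rw [if_neg hn] at cf
    exact absurd cf (by norm_num)
  obtain ⟨η, hη⟩ : ∃ η : ℝ, η = (m + k) * l1 / 1000000000000 := ⟨_, rfl⟩
  have η0 : 0 ≤ η := by rw [hη]; positivity
  have e1 : η ≤ (m / 1000000 + k / 1000000 * (l1 / 1000000 / lam) ^ 2) * lam := by
    obtain ⟨u, hu⟩ : ∃ u : ℝ, u = (l1 : ℝ) / 1000000 / lam := ⟨_, rfl⟩
    have e : (l1 : ℝ) = u * lam * 1000000 := by rw [hu]; field_simp
    rw [← hu] at u0 u1 ⊢
    have e' : (m + k) * u ≤ m + k * u ^ 2 := by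
      nlinarith [mul_nonneg (sub_nonneg.2 u1)
        (show 0 ≤ m - k * u by nlinarith [mul_le_mul_of_nonneg_left u1 k0])]
    rw [hη, e]
    nlinarith [mul_le_mul_of_nonneg_right e' lam0.le]
  have e2 : (S : ℝ) / 1000000000000 ≤ A - η * V := by
    have := mul_le_mul_of_nonneg_left hl h0.le
    rw [hS]
    push_cast
    nlinarith [mul_le_mul_of_nonneg_right e1 H.V0]
  have S0 : (0 : ℝ) ≤ S := by positivity
  rcases cf' with ⟨c1, c2⟩ | c1
  · have c1' : (2 : ℝ) * ((m + k) * l1) ≤ 3141592000000 := by exact_mod_cast c1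
    have c2' : (1000000000000 : ℝ) * 3141593 < S * 3141593 + (m + k) * l1 * 1000000 := by
      exact_mod_cast c2
    have e3 := istar1 H.A1 H.A2 η0 (by rw [hη]; linarith)
    have e4 := mul_le_mul_of_nonneg_left e2 Real.pi_pos.le
    have e5 : (1 - S / 1000000000000) * 3.141593 < η := by rw [hη]; linarith
    have e6 : η ≤ π * (1 - S / 1000000000000) := by linarith
    rcases le_total 0 (1 - (S : ℝ) / 1000000000000) with h | h
    · nlinarith [mul_le_mul_of_nonneg_right pu.le h]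
    · have : 0 < η := by rw [hη]; positivity
      nlinarith [mul_nonneg Real.pi_pos.le (neg_nonneg.2 h)]
  · have c1' : (3141593 : ℝ) * 1000000000000000000 < 4 * ((m + k) * l1) * S := by
      exact_mod_cast c1
    have e3 := istar2 (η := η) H.A2
    have e4 := mul_le_mul_of_nonneg_left e2 (show 0 ≤ 4 * η by positivity)
    have e5 : 4 * η * (S / 1000000000000) = 4 * ((m + k) * l1) * S / 1000000000000000000000000 := by
      rw [hη]; ring
    linarith

def rowOK (l1 l2 : ℕ) : ℕ → List (ℕ × ℕ × ℕ × ℕ × ℕ × ℕ) → Bool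
  | _, [] => false
  | W1, (W2, m, k, t1, t2, h) :: r =>
    cellOK l1 l2 W1 W2 m k t1 t2 h && (decide (1000000 ≤ W2) || rowOK l1 l2 W2 r)

theorem row_false {l1 l2 : ℕ} {lam V A W a0 : ℝ} (H : Data lam V A W a0)
    (h1 : (l1 : ℝ) ≤ lam * 1000000) (h2 : lam * 1000000 ≤ l2) (hW : W ≤ 1)
    (L : List (ℕ × ℕ × ℕ × ℕ × ℕ × ℕ)) :
    ∀ W1 : ℕ, rowOK l1 l2 W1 L = true → (W1 : ℝ) ≤ W * 1000000 → False := by
  induction L with
  | nil => intro W1 h; simp [rowOK] at h
  | cons c r ih =>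
    obtain ⟨W2, m, k, t1, t2, h⟩ := c
    intro W1 hc h3
    simp only [rowOK, Bool.and_eq_true, Bool.or_eq_true, decide_eq_true_eq] at hc
    rcases le_total (W * 1000000) W2 with h4 | h4
    · exact cell_false hc.1 H h1 h2 h3 h4
    · rcases hc.2 with h5 | h5
      · have : (1000000 : ℝ) ≤ W2 := by exact_mod_cast h5
        exact cell_false hc.1 H h1 h2 h3 (by linarith)
      · exact ih W2 h5 h4

end Crest.Agent.R214.Law
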