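import Crest.Agent.R214.LawCell

/-! # Row 214, Lawson case (helper50): certificate, part 0 -/

set_option autoImplicit false

open Real Set Finset

namespace Crest.Agent.R214.Law

theorem row_500000 : rowOK 500000 600000 0
    [(1000000, 500000, 500000, 25, 50, 2264)] = true := by
  decide +kernel

theorem row_600000 : rowOK 600000 700000 0
    [(1000000, 500000, 500000, 25, 50, 2198)] = true := by
  decide +kernel

theorem row_700000 : rowOK 700000 800000 0
    [(1000000, 500000, 500000, 25, 50, 2130)] = true := by
  decide +kernel

theorem row_800000 : rowOK 800000 850000 0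
    [(1000000, 500000, 500000, 25, 50, 2095)] = true := by
  decide +kernel

theorem row_850000 : rowOK 850000 900000 0
    [(1000000, 500000, 500000, 25, 50, 2061)] = true := by
  decide +kernel

theorem row_900000 : rowOK 900000 950000 0
    [(1000000, 500000, 500000, 25, 50, 2027)] = true := by
  decide +kernel

theorem row_950000 : rowOK 950000 980000 0
    [(1000000, 500000, 500000, 25, 50, 2007)] = true := by
  decide +kernel

theorem row_980000 : rowOK 980000 1010000 0
    [(1000000, 500000, 500000, 25, 50, 1987)] = true := by
  decide +kernel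

theorem row_1010000 : rowOK 1010000 1025000 0
    [(1000000, 500000, 500000, 25, 50, 1977)] = true := by
  decide +kernel

theorem row_1025000 : rowOK 1025000 1055000 0
    [(515000, 500000, 500000, 20, 40, 1957),
     (1000000, 500000, 500000, 25, 50, 1959)] = true := by
  decide +kernel

theorem row_1055000 : rowOK 1055000 1075000 0
    [(515000, 500000, 500000, 20, 40, 1943),
     (1000000, 500000, 500000, 25, 50, 1946)] = true := by
  decide +kernel

theorem row_1075000 : rowOK 1075000 1095000 0
    [(500000, 500000, 500000, 20, 40, 1930),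
     (1000000, 500000, 500000, 25, 50, 1932)] = true := by
  decide +kernel

theorem row_1095000 : rowOK 1095000 1100000 0
    [(515000, 500000, 500000, 20, 40, 1927),
     (1000000, 500000, 500000, 25, 50, 1931)] = true := by
  decide +kernel

theorem row_1100000 : rowOK 1100000 1130000 0
    [(465000, 500000, 500000, 20, 40, 1908),
     (505000, 500000, 500000, 20, 40, 1908),
     (605000, 500000, 500000, 20, 40, 1911),
     (1000000, 500000, 500000, 25, 50, 1940)] = true := by
  decide +kernel

theorem row_1130000 : rowOK 1130000 1160000 0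
    [(455000, 500000, 500000, 20, 40, 1888),
     (485000, 500000, 500000, 20, 40, 1888),
     (530000, 500000, 500000, 20, 40, 1891),
     (1000000, 500000, 500000, 25, 50, 1898)] = true := by
  decide +kernel

theorem row_1160000 : rowOK 1160000 1190000 0
    [(455000, 500000, 500000, 20, 40, 1869),
     (485000, 500000, 500000, 20, 40, 1870),
     (525000, 500000, 500000, 20, 40, 1872),
     (1000000, 500000, 500000, 25, 50, 1880)] = true := by
  decide +kernel

theorem row_1190000 : rowOK 1190000 1220000 0
    [(455000, 500000, 500000, 20, 40, 1850),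
     (485000, 500000, 500000, 20, 40, 1851),
     (530000, 500000, 500000, 20, 40, 1855),
     (1000000, 500000, 500000, 25, 50, 1864)] = true := by
  decide +kernel

theorem row_1220000 : rowOK 1220000 1250000 0
    [(460000, 500000, 500000, 20, 40, 1832),
     (500000, 500000, 500000, 20, 40, 1834),
     (570000, 500000, 500000, 20, 40, 1840),
     (1000000, 500000, 500000, 25, 50, 1862)] = true := by
  decide +kernel

theorem part0 {lam V A W a0 : ℝ} (H : Data lam V A W a0) (hW0 : 0 ≤ W) (hW : W ≤ 1)
    (h1 : ((500000 : ℕ) : ℝ) ≤ lam * 1000000) (h2 : lam * 1000000 ≤ ((1250000 : ℕ) : ℝ)) : False := by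
  have w0 : ((0 : ℕ) : ℝ) ≤ W * 1000000 := by push_cast; positivity
  rcases le_total (lam * 1000000) ((600000 : ℕ) : ℝ) with h | h1
  · exact row_false H h1 h hW _ 0 row_500000 w0
  rcases le_total (lam * 1000000) ((700000 : ℕ) : ℝ) with h | h1
  · exact row_false H h1 h hW _ 0 row_600000 w0
  rcases le_total (lam * 1000000) ((800000 : ℕ) : ℝ) with h | h1
  · exact row_false H h1 h hW _ 0 row_700000 w0
  rcases le_total (lam * 1000000) ((850000 : ℕ) : ℝ) with h | h1
  · exact row_false H h1 h hW _ 0 row_800000 w0
  rcases le_total (lam * 1000000) ((900000 : ℕ) : ℝ) with h | h1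
  · exact row_false H h1 h hW _ 0 row_850000 w0
  rcases le_total (lam * 1000000) ((950000 : ℕ) : ℝ) with h | h1
  · exact row_false H h1 h hW _ 0 row_900000 w0
  rcases le_total (lam * 1000000) ((980000 : ℕ) : ℝ) with h | h1
  · exact row_false H h1 h hW _ 0 row_950000 w0
  rcases le_total (lam * 1000000) ((1010000 : ℕ) : ℝ) with h | h1
  · exact row_false H h1 h hW _ 0 row_980000 w0
  rcases le_total (lam * 1000000) ((1025000 : ℕ) : ℝ) with h | h1
  · exact row_false H h1 h hW _ 0 row_1010000 w0
  rcases le_total (lam * 1000000) ((1055000 : ℕ) : ℝ) with h | h1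
  · exact row_false H h1 h hW _ 0 row_1025000 w0
  rcases le_total (lam * 1000000) ((1075000 : ℕ) : ℝ) with h | h1
  · exact row_false H h1 h hW _ 0 row_1055000 w0
  rcases le_total (lam * 1000000) ((1095000 : ℕ) : ℝ) with h | h1
  · exact row_false H h1 h hW _ 0 row_1075000 w0
  rcases le_total (lam * 1000000) ((1100000 : ℕ) : ℝ) with h | h1
  · exact row_false H h1 h hW _ 0 row_1095000 w0
  rcases le_total (lam * 1000000) ((1130000 : ℕ) : ℝ) with h | h1
  · exact row_false H h1 h hW _ 0 row_1100000 w0
  rcases le_total (lam * 1000000) ((1160000 : ℕ) : ℝ) with h | h1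
  · exact row_false H h1 h hW _ 0 row_1130000 w0
  rcases le_total (lam * 1000000) ((1190000 : ℕ) : ℝ) with h | h1
  · exact row_false H h1 h hW _ 0 row_1160000 w0
  rcases le_total (lam * 1000000) ((1220000 : ℕ) : ℝ) with h | h1
  · exact row_false H h1 h hW _ 0 row_1190000 w0
  exact row_false H h1 h2 hW _ 0 row_1220000 w0

end Crest.Agent.R214.Law
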