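import Crest.Agent.R214.LawDefs

/-!
# Row 214, Lawson case (helper50): the integer checker and its soundness (unit `10⁻⁶`)
-/

set_option autoImplicit false

open Real Set Finset

namespace Crest.Agent.R214.Law

def cdiv (a b : ℕ) : ℕ := a / b + 1

theorem le_cdiv (a : ℕ) {b : ℕ} (hb : 0 < b) : (a : ℝ) ≤ (cdiv a b : ℕ) * (b : ℝ) := by
  have h : a ≤ cdiv a b * b := by
    have := Nat.lt_div_mul_add (a := a) hb
    unfold cdiv; nlinarith
  exact_mod_cast h

theorem div_le' (a b : ℕ) : ((a / b : ℕ) : ℝ) * b ≤ a := by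
  exact_mod_cast Nat.div_mul_le_self a b

/-- upper bound of `1 - gS t + t W` -/
def cup (t W : ℕ) : ℕ :=
  cdiv (1000000 * t ^ 2) 60000 + cdiv (1000000 * t ^ 4) 4000000000 +
    cdiv (3000000 * t ^ 6) 56000000000000 + cdiv (t * W) 100

/-- lower bound of `p²` for a hole -/
def pH2 (x E : ℕ) : ℕ :=
  if 3141593 * E * E ≤ 4 * (1000000 - x) * 1000000000000 then
    max (3141592 * (1000000 - x)) (((1000000 - x) * 1000000 / E + 3141592 * E / 4000000) ^ 2)
  else 3141592 * (1000000 - x)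

/-- upper bound of `(a / p)²` -/
def rr (E c1 t1 c2 t2 x : ℕ) : ℕ :=
  max (cdiv (x * 1000000) 3141592)
    (cdiv (x * x * 1000000)
      (min ((max 1000000 (max (c1 + t1 * x / 100) (c2 + t2 * x / 100))) ^ 2) (pH2 x E)))

/-- lower bound of `ω²` -/
def tt (l m k r : ℕ) : ℕ :=
  4 * m * (1000000 - (m + cdiv (k * min 1000000 (cdiv (l * l * r) 1000000000000)) 1000000))

def force (n : ℕ) (f : ℕ → ℕ) : ℕ :=
  match n with
  | 0 => f 0
  | m + 1 => f (m + 1)

theorem force_eq (n : ℕ) (f : ℕ → ℕ) : force n f = f n := by cases n <;> rfl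

def loop (T : ℕ → ℕ) : ℕ → ℕ → ℕ → ℕ → ℕ
  | 0, _, _, s => s
  | f + 1, j, g, s =>
    force (T j) fun t => force (2 * t * g / (t + g * g)) fun w =>
      force (j + 1) fun j' => force (s + w) fun s' => loop T f j' (w + 1) s'

theorem newton (t g : ℕ) : ((2 * t * g / (t + g * g) : ℕ) : ℝ) ≤ √(t : ℝ) := by
  refine Real.le_sqrt_of_sq_le ?_
  have h := div_le' (2 * t * g) (t + g * g)
  push_cast at h
  obtain ⟨w, hw⟩ : ∃ w : ℝ, w = ((2 * t * g / (t + g * g) : ℕ) : ℝ) := ⟨_, rfl⟩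
  have w0 : 0 ≤ w := by rw [hw]; positivity
  rw [← hw] at h ⊢
  have t0 : (0 : ℝ) ≤ t := by positivity
  have g0 : (0 : ℝ) ≤ g := by positivity
  rcases (show (0 : ℝ) ≤ t + g * g by positivity).eq_or_lt with e | e
  · have : t + g * g = 0 := by exact_mod_cast e.symm
    rw [hw, this]; simp
  · have h2 : (w * (t + g * g)) ^ 2 ≤ (2 * t * g) ^ 2 := pow_le_pow_left₀ (by positivity) h 2
    have h3 : (2 * (t : ℝ) * g) ^ 2 ≤ t * (t + g * g) ^ 2 := by
      nlinarith [mul_nonneg t0 (sq_nonneg ((t : ℝ) - g * g))]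
    have h4 : w ^ 2 * ((t : ℝ) + g * g) ^ 2 ≤ t * (t + g * g) ^ 2 := by
      rw [← mul_pow]; exact h2.trans h3
    exact le_of_mul_le_mul_right h4 (by positivity)

theorem loop_le (T : ℕ → ℕ) (f : ℕ) : ∀ j g s : ℕ,
    (loop T f j g s : ℝ) ≤ s + ∑ i ∈ range f, √(T (j + i) : ℝ) := by
  induction f with
  | zero => intro j g s; simp [loop]
  | succ f ih =>
    intro j g s
    rw [loop]
    simp only [force_eq]
    refine (ih _ _ _).trans ?_
    rw [sum_range_succ']
    have := newton (T j) g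
    push_cast
    simp only [add_zero, show ∀ i, j + 1 + i = j + (i + 1) from fun i => by omega]
    linarith

theorem cup_sound (t W2 : ℕ) {W : ℝ} (hW : W * 1000000 ≤ W2) (h : cup t W2 ≤ 1000000) :
    ((1000000 - cup t W2 : ℕ) : ℝ) ≤ 1000000 * (gS (t / 100) - t / 100 * W) := by
  rw [Nat.cast_sub h]
  have h1 := le_cdiv (1000000 * t ^ 2) (show 0 < 60000 by norm_num)
  have h2 := le_cdiv (1000000 * t ^ 4) (show 0 < 4000000000 by norm_num)
  have h3 := le_cdiv (3000000 * t ^ 6) (show 0 < 56000000000000 by norm_num)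
  have h4 := le_cdiv (t * W2) (show 0 < 100 by norm_num)
  have h5 : (t : ℝ) * (W * 1000000) ≤ t * W2 := mul_le_mul_of_nonneg_left hW (by positivity)
  simp only [cup, gS]
  push_cast at h1 h2 h3 h4 ⊢
  nlinarith

theorem pH2_pos {x : ℕ} (E : ℕ) (hx : x < 1000000) : 0 < pH2 x E := by
  unfold pH2
  split_ifs
  · exact lt_max_of_lt_left (by omega)
  · omega

theorem pH2_sound {x W1 : ℕ} {W a p : ℝ} (hx : x < 1000000) (hW1 : W1 < 1000000)
    (hW : (W1 : ℝ) ≤ W * 1000000) (ha : a * 1000000 ≤ x) (hp : 0 ≤ p) (H : Hole W a p) :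
    (pH2 x (1000000 - W1) : ℝ) ≤ (1000000 * p) ^ 2 := by
  have pl := Real.pi_gt_d6
  have pu := Real.pi_lt_d6
  obtain ⟨b, hb⟩ : ∃ b : ℕ, b = 1000000 - x := ⟨_, rfl⟩
  obtain ⟨E, hE⟩ : ∃ E : ℕ, E = 1000000 - W1 := ⟨_, rfl⟩
  have b1 : (b : ℝ) ≤ (1 - a) * 1000000 := by rw [hb, Nat.cast_sub hx.le]; push_cast; linarith
  have b0 : (0 : ℝ) ≤ b := by positivity
  have E1 : (1 - W) * 1000000 ≤ (E : ℝ) := by rw [hE, Nat.cast_sub hW1.le]; push_cast; linarith
  have E0 : (0 : ℝ) < E := by exact_mod_cast (show 0 < E by omega)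
  have q1 : ((3141592 * b : ℕ) : ℝ) ≤ (1000000 * p) ^ 2 := by
    have := H.1
    push_cast
    nlinarith [mul_le_mul pl.le b1 b0 Real.pi_pos.le]
  unfold pH2
  rw [← hb, ← hE]
  split_ifs with hc
  · rw [Nat.cast_max]
    refine max_le q1 ?_
    have hc' : (3141593 : ℝ) * E * E ≤ 4 * b * 1000000000000 := by exact_mod_cast hc
    have h2 := H.2 (E / 1000000) (by positivity) (by linarith) (by
      nlinarith [mul_le_mul_of_nonneg_right pu.le (mul_pos E0 E0).le])
    have h3 := div_le' (b * 1000000) E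
    have h4 := div_le' (3141592 * E) 4000000
    push_cast at h3 h4 ⊢
    refine pow_le_pow_left₀ (by positivity) ?_ 2
    have h5 : ((b * 1000000 / E : ℕ) : ℝ) ≤ 1000000 * ((1 - a) / (E / 1000000)) := by
      refine le_of_mul_le_mul_right (h3.trans ?_) E0
      field_simp
      linarith
    nlinarith [mul_le_mul_of_nonneg_right pl.le E0.le]
  · exact q1

theorem rr_sound {x W1 W2 t1 t2 : ℕ} {W a p : ℝ} (hx : x < 1000000) (hW1 : W1 < 1000000)
    (hW : (W1 : ℝ) ≤ W * 1000000) (hW' : W * 1000000 ≤ W2) (h1 : t1 ≤ 100) (h2 : t2 ≤ 100)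
    (c1 : cup t1 W2 ≤ 1000000) (c2 : cup t2 W2 ≤ 1000000) (a0 : 0 < a) (ha : a * 1000000 ≤ x)
    (hp : 0 < p) (H : π * a ≤ p ^ 2 ∨ Strip W a p ∨ Hole W a p) :
    a ^ 2 * 1000000 ≤
      (rr (1000000 - W1) (1000000 - cup t1 W2) t1 (1000000 - cup t2 W2) t2 x : ℕ) * p ^ 2 := by
  have pl := Real.pi_gt_d6
  have p2 : 0 < p ^ 2 := by positivity
  have x0 : (0 : ℝ) ≤ x := by positivity
  unfold rr
  rw [Nat.cast_max]
  obtain ⟨P, hP⟩ : ∃ P : ℕ, P = max 1000000 (max (1000000 - cup t1 W2 + t1 * x / 100)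
    (1000000 - cup t2 W2 + t2 * x / 100)) := ⟨_, rfl⟩
  rw [← hP]
  obtain ⟨q, hq⟩ : ∃ q : ℕ, q = min (P ^ 2) (pH2 x (1000000 - W1)) := ⟨_, rfl⟩
  rw [← hq]
  have q0 : 0 < q := by
    rw [hq]
    exact lt_min (pow_pos (by omega) 2) (pH2_pos _ hx)
  have key : a ^ 2 * q ≤ x ^ 2 * p ^ 2 → a ^ 2 * 1000000 ≤
      max ((cdiv (x * 1000000) 3141592 : ℕ) : ℝ) (cdiv (x * x * 1000000) q : ℕ) * p ^ 2 := by
    intro h
    refine le_trans ?_ (mul_le_mul_of_nonneg_right (le_max_right _ _) p2.le)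
    have h3 := le_cdiv (x * x * 1000000) q0
    have q0' : (0 : ℝ) < q := by exact_mod_cast q0
    refine le_of_mul_le_mul_right ?_ q0'
    push_cast at h3
    nlinarith [mul_le_mul_of_nonneg_right h3 p2.le]
  rcases H with H | H | H
  · refine le_trans ?_ (mul_le_mul_of_nonneg_right (le_max_left _ _) p2.le)
    have h3 := le_cdiv (x * 1000000) (show 0 < 3141592 by norm_num)
    push_cast at h3
    have h4 : 3.141592 * a ≤ p ^ 2 := (mul_le_mul_of_nonneg_right pl.le a0.le).trans H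
    nlinarith [mul_le_mul_of_nonneg_right h3 p2.le, mul_le_mul ha h4 (by positivity) x0]
  · apply key
    have one : ∀ t : ℕ, t ≤ 100 → cup t W2 ≤ 1000000 →
        a * ((1000000 - cup t W2 + t * x / 100 : ℕ) : ℝ) ≤ x * p := by
      intro t ht hc
      have e1 := cup_sound t W2 hW' hc
      have e2 := H (t / 100) (by positivity)
        (by rw [div_le_one (by norm_num)]; exact_mod_cast ht)
      have e3 := div_le' (t * x) 100
      rw [Nat.cast_add]
      obtain ⟨c, hc'⟩ : ∃ c : ℝ, c = ((1000000 - cup t W2 : ℕ) : ℝ) := ⟨_, rfl⟩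
      have c0 : 0 ≤ c := by rw [hc']; positivity
      rw [← hc'] at e1 ⊢
      push_cast at e3
      have e4 : c / 1000000 + t / 100 * a ≤ p := by linarith
      nlinarith [mul_le_mul_of_nonneg_left e4 x0, mul_le_mul_of_nonneg_right ha c0,
        mul_le_mul_of_nonneg_left e3 a0.le]
    have hP' : a * P ≤ x * p := by
      have e := H 0 le_rfl zero_le_one
      simp only [gS] at e
      rw [hP, Nat.cast_max, Nat.cast_max, mul_max_of_nonneg _ _ a0.le, mul_max_of_nonneg _ _ a0.le]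
      refine max_le ?_ (max_le (one t1 h1 c1) (one t2 h2 c2))
      push_cast
      nlinarith [mul_le_mul_of_nonneg_left (show 1 ≤ p by linarith) x0]
    have e : (q : ℝ) ≤ (P : ℝ) ^ 2 := by exact_mod_cast hq ▸ min_le_left _ _
    have := pow_le_pow_left₀ (by positivity) hP' 2
    nlinarith [mul_le_mul_of_nonneg_left e (sq_nonneg a)]
  · apply key
    have e : (q : ℝ) ≤ (pH2 x (1000000 - W1) : ℕ) := by exact_mod_cast hq ▸ min_le_right _ _
    have e2 := e.trans (pH2_sound hx hW1 hW ha hp.le H)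
    have := pow_le_pow_left₀ (by positivity) ha 2
    nlinarith [mul_le_mul_of_nonneg_left e2 (sq_nonneg a), mul_le_mul_of_nonneg_right this p2.le]

end Crest.Agent.R214.Law
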