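import Crest.Agent.R214.MoMain

/-! Row 214, module MODEL: the models along an arbitrary axis, centred at the lattice. -/

set_option autoImplicit false

open MeasureTheory Crest.GeometryTopology.PeriodicPerimeter

namespace Crest.Agent.R214.Mo

/-- distance to the nearest integer -/
noncomputable def dz (t : ℝ) : ℝ := |t - round t|

theorem dz_nonneg (t : ℝ) : 0 ≤ dz t := abs_nonneg _

theorem dz_le_half (t : ℝ) : dz t ≤ 1 / 2 := abs_sub_round t

theorem dz_le (t : ℝ) (a : ℤ) : dz t ≤ |t - a| := round_le t a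

theorem dz_sq (t : ℝ) : dz t ^ 2 = (t - round t) ^ 2 := sq_abs _

theorem dz_sq_le (t : ℝ) (a : ℤ) : dz t ^ 2 ≤ (t - a) ^ 2 := by
  rw [← sq_abs (t - a)]
  exact pow_le_pow_left₀ (dz_nonneg t) (dz_le t a) 2

/-- tube about the axis `i` -/
def tubeAx (i : Fin 3) (r : ℝ) : Set (En 3) :=
  {x | ∃ a b : ℤ, (x (i + 1) - a) ^ 2 + (x (i + 2) - b) ^ 2 < r ^ 2}

/-- slab across the axis `i`, centred at the lattice -/
def slabAx (i : Fin 3) (w : ℝ) : Set (En 3) := {x | ∃ a : ℤ, |x i - a| < w / 2}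

theorem mem_ball_iff {r : ℝ} (hr : 0 ≤ r) (x : En 3) :
    x ∈ periodicBall r ↔ ∑ i, dz (x i) ^ 2 < r ^ 2 := by
  constructor
  · rintro ⟨v, hv, h⟩
    rw [EuclideanSpace.dist_eq, Real.sqrt_lt' (lt_of_le_of_lt (Real.sqrt_nonneg _) h)] at h
    refine lt_of_le_of_lt (Finset.sum_le_sum fun i _ => ?_) h
    obtain ⟨a, ha⟩ := hv i
    rw [ha, Real.dist_eq, sq_abs]
    exact dz_sq_le _ a
  · intro h
    refine ⟨WithLp.toLp 2 fun i => (round (x i) : ℝ), fun i => ⟨round (x i), rfl⟩, ?_⟩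
    rw [EuclideanSpace.dist_eq]
    refine (Real.sqrt_lt_sqrt (Finset.sum_nonneg fun i _ => sq_nonneg _) h).trans_eq
      (Real.sqrt_sq hr)

theorem mem_tubeAx_iff (i : Fin 3) (r : ℝ) (x : En 3) :
    x ∈ tubeAx i r ↔ dz (x (i + 1)) ^ 2 + dz (x (i + 2)) ^ 2 < r ^ 2 :=
  ⟨fun ⟨a, b, h⟩ => lt_of_le_of_lt (add_le_add (dz_sq_le _ a) (dz_sq_le _ b)) h,
    fun h => ⟨round (x (i + 1)), round (x (i + 2)), by rwa [dz_sq, dz_sq] at h⟩⟩

theorem mem_slabAx_iff (i : Fin 3) (w : ℝ) (x : En 3) : x ∈ slabAx i w ↔ dz (x i) < w / 2 :=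
  ⟨fun ⟨a, h⟩ => lt_of_le_of_lt (dz_le _ a) h, fun h => ⟨round (x i), h⟩⟩

/-- cyclic rotation of the coordinates -/
def rot (k : Fin 3) (x : En 3) : En 3 := WithLp.toLp 2 fun j => x (j + k)

theorem cubic_rot (k : Fin 3) : IsCubicIsometry (rot k) :=
  ⟨Equiv.addRight k, fun _ => 1, 0, fun _ => Or.inl rfl, fun x i => by simp [rot]⟩

theorem tubeAx_eq (i : Fin 3) (r : ℝ) : tubeAx i r = rot (i + 1) ⁻¹' periodicTube r := by
  ext x
  fin_cases i <;> simp [tubeAx, periodicTube, rot]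

theorem congruent_preimage {n : ℕ} {g : En n → En n} (hg : IsCubicIsometry g) (F : Set (En n)) :
    CongruentModNull (g ⁻¹' F) F := by
  obtain ⟨h, hh, h1, h2⟩ := cubic_inv hg
  exact ⟨h, hh, by rw [Set.image_eq_preimage_of_inverse h2 h1]; simp⟩

theorem congruent_of_ae {n : ℕ} {E F : Set (En n)} (h : E =ᵐ[volume] F) : CongruentModNull E F :=
  ⟨fun x => x + 0, cubic_add 0, by simpa using measure_symmDiff_eq_zero_iff.2 h⟩

theorem congruent_image {n : ℕ} {g : En n → En n} (hg : IsCubicIsometry g) (F : Set (En n)) :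
    CongruentModNull (g '' F) F := ⟨g, hg, by simp⟩

theorem tubeAx_congruent (i : Fin 3) (r : ℝ) : CongruentModNull (tubeAx i r) (periodicTube r) := by
  rw [tubeAx_eq]
  exact congruent_preimage (cubic_rot _) _

theorem tubeAx_open (i : Fin 3) (r : ℝ) : IsOpen (tubeAx i r) := by
  simp only [tubeAx, Set.ofPred_exists]
  exact isOpen_iUnion fun a => isOpen_iUnion fun b => isOpen_lt (by fun_prop) (by fun_prop)

theorem tubeAx_periodic (i : Fin 3) (r : ℝ) : IsLatticePeriodic (tubeAx i r) := by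
  rw [tubeAx_eq]
  exact periodic_preimage (cubic_rot _) (tube_periodic r)

theorem slabAx_open (i : Fin 3) (w : ℝ) : IsOpen (slabAx i w) := by
  simp only [slabAx, Set.ofPred_exists]
  exact isOpen_iUnion fun a => isOpen_lt (by fun_prop) (by fun_prop)

theorem slabAx_periodic (i : Fin 3) (w : ℝ) : IsLatticePeriodic (slabAx i w) := by
  intro v hv x
  obtain ⟨m, hm⟩ := hv i
  simp only [slabAx, Set.mem_ofPred_eq, PiLp.add_apply, hm]
  refine ⟨fun ⟨a, h⟩ => ⟨a - m, ?_⟩, fun ⟨a, h⟩ => ⟨a + m, ?_⟩⟩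
  · convert h using 2
    push_cast
    ring
  · convert h using 2
    push_cast
    ring

/-- coordinate hyperplanes are null -/
theorem ae_coord_ne {n : ℕ} (i : Fin n) (c : ℝ) : ∀ᵐ x : En n, x i ≠ c := by
  have h : ∀ᵐ y : Fin n → ℝ, y i ≠ c := Measure.ae_eval_ne (fun _ : Fin n => (volume : Measure ℝ)) i c
  exact (PiLp.volume_preserving_ofLp (Fin n)).quasiMeasurePreserving.ae h

theorem slabAx_congruent (i : Fin 3) (w : ℝ) : CongruentModNull (slabAx i w) (periodicSlab w) := by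
  have hg := cubic_comp (cubic_add (WithLp.toLp 2 fun _ => w / 2 : En 3)) (cubic_rot i)
  refine congruent_trans (congruent_of_ae ?_) (congruent_preimage hg _)
  have h : ∀ᵐ x : En 3, ∀ a : ℤ, x i ≠ a - w / 2 := ae_all_iff.2 fun a => ae_coord_ne i _
  filter_upwards [h] with x hx
  refine propext ⟨fun ⟨a, ha⟩ => ⟨a, ?_⟩, fun ⟨a, ha⟩ => ⟨a, ?_⟩⟩
  · rw [abs_lt] at ha
    simp only [Function.comp, rot, PiLp.add_apply, zero_add]
    constructor <;> linarith [ha.1, ha.2]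
  · simp only [Function.comp, rot, PiLp.add_apply, zero_add] at ha
    have := lt_of_le_of_ne (show (a : ℝ) - w / 2 ≤ x i by linarith [ha.1]) (hx a).symm
    rw [abs_lt]
    constructor <;> linarith [ha.2]

theorem standard_of_congruent {W : ℝ} {E F : Set (En 3)} (h : CongruentModNull E F)
    (hF : IsStandardRegion W F) : IsStandardRegion W E := by
  rcases hF with ⟨a, b⟩ | ⟨a, a', b⟩ | ⟨a, b⟩
  · exact Or.inl ⟨a, congruent_trans h b⟩
  · exact Or.inr (Or.inl ⟨a, a', congruent_trans h b⟩)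
  · exact Or.inr (Or.inr ⟨a, congruent_trans h b⟩)

theorem tubeAx_vol (i : Fin 3) {r : ℝ} (h0 : 0 ≤ r) (h1 : r ≤ 1 / 2) :
    periodicVolume (tubeAx i r) = Real.pi * r ^ 2 := by
  rw [vol_congruent (tubeAx_congruent i r) (tube_open r).measurableSet (tube_periodic r),
    tube_vol h0 h1]

theorem tubeAx_per (i : Fin 3) {r : ℝ} (h0 : 0 ≤ r) (h1 : r < 1 / 2) :
    periodicPerimeter (tubeAx i r) ≤ ENNReal.ofReal (2 * Real.pi * r) := by
  rw [per_congruent (tubeAx_congruent i r) (tube_open r).measurableSet (tube_periodic r)]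
  exact tube_per h0 h1

theorem slabAx_vol (i : Fin 3) {w : ℝ} (h0 : 0 ≤ w) (h1 : w ≤ 1) :
    periodicVolume (slabAx i w) = w := by
  rw [vol_congruent (slabAx_congruent i w) (slab_measurable w) (slab_periodic w), slab_vol h0 h1]

theorem slabAx_per (i : Fin 3) {w : ℝ} (h0 : 0 ≤ w) (h1 : w < 1) :
    periodicPerimeter (slabAx i w) ≤ ENNReal.ofReal 2 := by
  rw [per_congruent (slabAx_congruent i w) (slab_measurable w) (slab_periodic w)]
  exact slab_per h0 h1

end Crest.Agent.R214.Mo
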