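import Crest.Agent.R214.MoMink

/-! Row 214, module MODEL: the periodic ball. -/

set_option autoImplicit false

open MeasureTheory Crest.GeometryTopology.PeriodicPerimeter

namespace Crest.Agent.R214.Mo

theorem ball_open (r : ℝ) : IsOpen (periodicBall r) := by
  have : periodicBall r = ⋃ v ∈ {v : En 3 | HasIntegerCoords v}, Metric.ball v r := by
    ext x; simp [periodicBall]
  rw [this]
  exact isOpen_biUnion fun v _ => Metric.isOpen_ball

theorem ball_periodic (r : ℝ) : IsLatticePeriodic (periodicBall r) := by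
  intro v hv x
  constructor
  · rintro ⟨u, hu, h⟩
    refine ⟨u - v, fun i => ?_, ?_⟩
    · obtain ⟨a, ha⟩ := hu i
      obtain ⟨b, hb⟩ := hv i
      exact ⟨a - b, by rw [PiLp.sub_apply, ha, hb, Int.cast_sub]⟩
    · rwa [← dist_add_right x (u - v) v, sub_add_cancel]
  · rintro ⟨u, hu, h⟩
    refine ⟨u + v, fun i => ?_, by rwa [dist_add_right]⟩
    obtain ⟨a, ha⟩ := hu i
    obtain ⟨b, hb⟩ := hv i
    exact ⟨a + b, by rw [PiLp.add_apply, ha, hb, Int.cast_add]⟩

theorem ball_vol {r : ℝ} (h0 : 0 ≤ r) (h1 : r ≤ 1 / 2) :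
    periodicVolume (periodicBall r) = 4 / 3 * Real.pi * r ^ 3 := by
  have e : periodicBall r ∩ {x : En 3 | ∀ i, (WithLp.toLp 2 fun _ => (-(1 / 2) : ℝ) : En 3) i ≤ x i ∧
      x i < (WithLp.toLp 2 fun _ => (-(1 / 2) : ℝ) : En 3) i + 1} = Metric.ball 0 r := by
    ext x
    constructor
    · rintro ⟨⟨v, hv, h⟩, hx⟩
      have : v = 0 := by
        ext i
        obtain ⟨m, hm⟩ := hv i
        have h2 : dist (x i) (v i) ≤ dist x v := PiLp.dist_apply_le x v i
        obtain ⟨h3, h4⟩ := hx i
        rw [hm, Real.dist_eq] at h2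
        obtain ⟨h5, h6⟩ := abs_lt.1 (h2.trans_lt (h.trans_le h1))
        have h7 : (-1 : ℝ) < m := by simp only at h3; linarith
        have h8 : (m : ℝ) < 1 := by simp only at h4; linarith
        have h9 : m = 0 := by
          have : (-1 : ℤ) < m := by exact_mod_cast h7
          have : m < 1 := by exact_mod_cast h8
          omega
        rw [hm, h9]; simp
      rwa [this] at h
    · intro h
      refine ⟨⟨0, fun i => ⟨0, by simp⟩, h⟩, fun i => ?_⟩
      have h2 : dist (x i) ((0 : En 3) i) ≤ dist x 0 := PiLp.dist_apply_le x 0 i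
      rw [PiLp.zero_apply, Real.dist_eq, sub_zero] at h2
      obtain ⟨h5, h6⟩ := abs_lt.1 (h2.trans_lt (lt_of_lt_of_le h h1))
      constructor <;> simp only <;> linarith
  rw [periodicVolume, volume_inter_cell (ball_open r).measurableSet (ball_periodic r)
    (WithLp.toLp 2 fun _ => (-(1 / 2) : ℝ)), e, EuclideanSpace.volume_ball_fin_three,
    ENNReal.toReal_mul, ENNReal.toReal_pow, ENNReal.toReal_ofReal h0,
    ENNReal.toReal_ofReal (by positivity)]
  ring

theorem ball_per {r : ℝ} (h0 : 0 ≤ r) (h1 : r < 1 / 2) :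
    periodicPerimeter (periodicBall r) ≤ ENNReal.ofReal (4 * Real.pi * r ^ 2) := by
  refine per_le_of_thick (ball_open r) (ball_periodic r) fun δ hδ => ?_
  have hc : Filter.Tendsto (fun ε : ℝ => 4 / 3 * Real.pi * (3 * r * ε + ε ^ 2))
      (nhdsWithin 0 (Set.Ioi 0)) (nhds 0) := by
    refine tendsto_nhdsWithin_of_tendsto_nhds ?_
    exact Continuous.tendsto' (by fun_prop) _ _ (by simp)
  filter_upwards [hc.eventually_le_const hδ, self_mem_nhdsWithin,
    Ioo_mem_nhdsGT (sub_pos.2 h1)] with ε h2 h3 h4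
  have hε : 0 < ε := h3
  have hs : Metric.thickening ε (periodicBall r) ⊆ periodicBall (r + ε) := fun x hx => by
    obtain ⟨z, ⟨v, hv, hz⟩, hxz⟩ := Metric.mem_thickening_iff.1 hx
    exact ⟨v, hv, by linarith [dist_triangle x z v]⟩
  refine (vol_mono hs).trans ?_
  rw [ball_vol (by positivity) (by linarith [h4.2]), ball_vol h0 h1.le]
  nlinarith [mul_le_mul_of_nonneg_right h2 hε.le]

end Crest.Agent.R214.Mo
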