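import Crest.Prelude.Def_PeriodicPerimeter

/-! Row 214, module MODEL: definitions (architect helper72; statements are frozen). -/

set_option autoImplicit false

open MeasureTheory Crest.GeometryTopology.PeriodicPerimeter

namespace Crest.Agent.R214.Mo

abbrev En (n : ℕ) : Type := EuclideanSpace ℝ (Fin n)

/-- lattice periodic functions -/
def PerF {n : ℕ} {α : Type*} (f : En n → α) : Prop :=
  ∀ v, HasIntegerCoords v → ∀ x, f (x + v) = f x

/-- the isoperimetric profile of the torus on `(0, 1/2]` -/
noncomputable def I3 (V : ℝ) : ℝ :=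
  min (min ((36 * Real.pi) ^ ((1 : ℝ) / 3) * V ^ ((2 : ℝ) / 3)) (2 * Real.sqrt (Real.pi * V))) 2

/-- the core inequality -/
def CoreIneq : Prop :=
  ∀ E : Set (En 3), MeasurableSet E → IsLatticePeriodic E → 0 < periodicVolume E →
    periodicVolume E ≤ 1 / 2 → ENNReal.ofReal (I3 (periodicVolume E)) ≤ periodicPerimeter E

/-- the core equality case -/
def CoreEq : Prop :=
  ∀ E : Set (En 3), MeasurableSet E → IsLatticePeriodic E → 0 < periodicVolume E →
    periodicVolume E ≤ 1 / 2 → periodicPerimeter E = ENNReal.ofReal (I3 (periodicVolume E)) →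
    IsStandardRegion (periodicVolume E) E

end Crest.Agent.R214.Mo
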