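import Crest.Agent.R214.MoCell

/-! Row 214, module MODEL: integration by parts on the torus. -/

set_option autoImplicit false

open MeasureTheory Crest.GeometryTopology.PeriodicPerimeter

namespace Crest.Agent.R214.Mo

variable {n : ℕ}

theorem PerF.bounded {F : Type*} [NormedAddCommGroup F] {f : En n → F} (hp : PerF f)
    (hf : Continuous f) : ∃ M, ∀ x, ‖f x‖ ≤ M := by
  obtain ⟨M, hM⟩ := (isCompact_closedBall (0 : En n) n).exists_bound_of_continuousOn
    hf.continuousOn
  refine ⟨M, fun x => ?_⟩
  obtain ⟨v, hv, hx⟩ := exists_add_mem_cell x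
  rw [← hp v hv x]
  exact hM _ (cell_subset_ball hx)

theorem PerF.fderiv {F : Type*} [NormedAddCommGroup F] [NormedSpace ℝ F] {f : En n → F}
    (hp : PerF f) : PerF (fderiv ℝ f) := by
  intro v hv x
  have e : (fun y => f (y + v)) = f := funext (hp v hv)
  rw [← fderiv_comp_add_right, e]

/-- periodic `C¹` maps are Lipschitz -/
theorem PerF.lipschitz {F : Type*} [NormedAddCommGroup F] [NormedSpace ℝ F] {f : En n → F}
    (hp : PerF f) (hf : ContDiff ℝ 1 f) : ∃ K, LipschitzWith K f := by
  obtain ⟨M, hM⟩ := hp.fderiv.bounded (hf.continuous_fderiv one_ne_zero)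
  refine ⟨Real.toNNReal M, lipschitzWith_of_nnnorm_fderiv_le (hf.differentiable one_ne_zero)
    fun x => ?_⟩
  rw [← NNReal.coe_le_coe, coe_nnnorm]
  exact (hM x).trans (Real.le_coe_toNNReal M)

theorem div_continuous {φ : En n → En n} (hφ : ContDiff ℝ 1 φ) : Continuous (divergence φ) := by
  have h := hφ.continuous_fderiv one_ne_zero
  unfold divergence
  refine continuous_finsetSum _ fun i _ => ?_
  exact (EuclideanSpace.proj (𝕜 := ℝ) i).continuous.comp (h.clm_apply continuous_const)

theorem div_perF {φ : En n → En n} (hp : PerF φ) : PerF (divergence φ) := by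
  intro v hv x
  unfold divergence
  rw [hp.fderiv v hv x]

theorem div_integrableOn {φ : En n → En n} (hφ : ContDiff ℝ 1 φ) :
    IntegrableOn (divergence φ) (unitCell n) := by
  exact ((div_continuous hφ).continuousOn.integrableOn_compact
    (isCompact_closedBall (0 : En n) n)).mono_set cell_subset_ball

theorem integral_cell_fderiv_int {g : En n → ℝ} (hg : Continuous g) :
    IntegrableOn g (unitCell n) :=
  (hg.continuousOn.integrableOn_compact (isCompact_closedBall (0 : En n) n)).mono_set
    cell_subset_ball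

/-- DIV0: difference quotients have integral zero (`integral_cell_add`), Rademacher and dominated
convergence -/
theorem integral_cell_fderiv {g : En n → ℝ} {K : NNReal} (hg : LipschitzWith K g) (hp : PerF g)
    (v : En n) : ∫ x in unitCell n, fderiv ℝ g x v = 0 := by
  have hfin : IsFiniteMeasure (volume.restrict (unitCell n)) :=
    ⟨by rw [Measure.restrict_apply_univ, volume_cell]; exact ENNReal.one_lt_top⟩
  have hc := hg.continuous
  have hpos : ∀ k : ℕ, (0 : ℝ) < (k : ℝ) + 1 := fun k => by positivity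
  have h := tendsto_integral_of_dominated_convergence (μ := volume.restrict (unitCell n))
    (F := fun (k : ℕ) x => ((k : ℝ) + 1) • (g (x + ((k : ℝ) + 1)⁻¹ • v) - g x))
    (f := fun x => fderiv ℝ g x v) (fun _ => K * ‖v‖)
    (fun k => Continuous.aestronglyMeasurable (by fun_prop)) (integrable_const _)
    (fun k => Filter.Eventually.of_forall fun x => by
      have h1 := hg.dist_le_mul (x + ((k : ℝ) + 1)⁻¹ • v) x
      rw [dist_eq_norm, dist_eq_norm, add_sub_cancel_left, norm_smul, norm_inv,
        Real.norm_of_nonneg (hpos k).le] at h1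
      rw [norm_smul, Real.norm_of_nonneg (hpos k).le]
      calc ((k : ℝ) + 1) * ‖g (x + ((k : ℝ) + 1)⁻¹ • v) - g x‖
          ≤ ((k : ℝ) + 1) * (K * (((k : ℝ) + 1)⁻¹ * ‖v‖)) :=
            mul_le_mul_of_nonneg_left h1 (hpos k).le
        _ = K * ‖v‖ := by field_simp)
    (ae_restrict_of_ae (hg.ae_differentiableAt.mono fun x hx => hx.hasFDerivAt.lim v (by
      simp only [Real.norm_of_nonneg (hpos _).le]
      exact Filter.tendsto_atTop_add_const_right _ _ tendsto_natCast_atTop_atTop)))
  have h0 : ∀ k : ℕ, ∫ x in unitCell n,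
      ((k : ℝ) + 1) • (g (x + ((k : ℝ) + 1)⁻¹ • v) - g x) = 0 := fun k => by
    rw [integral_smul, integral_sub (integral_cell_fderiv_int (by fun_prop))
      (integral_cell_fderiv_int hc), integral_cell_add hp, sub_self, smul_zero]
  simp only [h0] at h
  exact (tendsto_nhds_unique h tendsto_const_nhds)

theorem integral_cell_div {φ : En n → En n} (hφ : ContDiff ℝ 1 φ) (hp : PerF φ) :
    ∫ x in unitCell n, divergence φ x = 0 := by
  have hi : ∀ i : Fin n, ContDiff ℝ 1 fun x => φ x i := fun i =>
    (EuclideanSpace.proj (𝕜 := ℝ) i).contDiff.comp hφ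
  have e : ∀ (i : Fin n) x, fderiv ℝ φ x (EuclideanSpace.single i 1) i =
      fderiv ℝ (fun x => φ x i) x (EuclideanSpace.single i 1) := fun i x => by
    have h := ((EuclideanSpace.proj (𝕜 := ℝ) i).hasFDerivAt.comp x
      (hφ.differentiable one_ne_zero x).hasFDerivAt).fderiv
    have h' : fderiv ℝ (fun x => φ x i) x =
      (EuclideanSpace.proj (𝕜 := ℝ) i).comp (fderiv ℝ φ x) := h
    rw [h']; rfl
  unfold divergence
  simp only [e]
  rw [integral_finsetSum]
  · refine Finset.sum_eq_zero fun i _ => ?_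
    have hpi : PerF fun x => φ x i := fun v hv x => by simp only [hp v hv x]
    obtain ⟨K, hK⟩ := hpi.lipschitz (hi i)
    exact integral_cell_fderiv hK hpi _
  · intro i _
    exact (((((hi i).continuous_fderiv one_ne_zero).clm_apply
      continuous_const)).continuousOn.integrableOn_compact
      (isCompact_closedBall (0 : En n) n)).mono_set cell_subset_ball

theorem parts_lip {η ψ : En n → ℝ} {K L : NNReal} (hη : LipschitzWith K η) (hψ : LipschitzWith L ψ)
    {M N : ℝ} (hM : ∀ x, ‖η x‖ ≤ M) (hN : ∀ x, ‖ψ x‖ ≤ N) :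
    ∃ C, LipschitzWith C fun x => η x * ψ x := by
  refine ⟨Real.toNNReal (M * L + K * N), LipschitzWith.of_dist_le' fun x y => ?_⟩
  have h1 := hη.dist_le_mul x y
  have h2 := hψ.dist_le_mul x y
  rw [dist_eq_norm] at h1 h2 ⊢
  have hM0 : 0 ≤ M := (norm_nonneg _).trans (hM x)
  calc ‖η x * ψ x - η y * ψ y‖ = ‖η x * (ψ x - ψ y) + (η x - η y) * ψ y‖ := by congr 1; ring
    _ ≤ ‖η x‖ * ‖ψ x - ψ y‖ + ‖η x - η y‖ * ‖ψ y‖ := by
      rw [← norm_mul, ← norm_mul]; exact norm_add_le _ _
    _ ≤ M * (L * dist x y) + K * dist x y * N := by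
      gcongr
      · exact hM x
      · exact hN y
    _ = (M * L + K * N) * dist x y := by ring

/-- integration by parts against a periodic Lipschitz function -/
theorem parts {η : En n → ℝ} {K : NNReal} (hη : LipschitzWith K η) (hp : PerF η)
    {φ : En n → En n} (hφ : ContDiff ℝ 1 φ) (hφp : PerF φ) :
    ∫ x in unitCell n, η x * divergence φ x = -∫ x in unitCell n, fderiv ℝ η x (φ x) := by
  have hfin : IsFiniteMeasure (volume.restrict (unitCell n)) :=
    ⟨by rw [Measure.restrict_apply_univ, volume_cell]; exact ENNReal.one_lt_top⟩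
  obtain ⟨M, hM⟩ := hp.bounded hη.continuous
  obtain ⟨N, hN⟩ := hφp.bounded hφ.continuous
  obtain ⟨L, hL⟩ := hφp.lipschitz hφ
  have hd : Differentiable ℝ φ := hφ.differentiable one_ne_zero
  have hNi : ∀ i x, ‖φ x i‖ ≤ N := fun i x => (PiLp.norm_apply_le (φ x) i).trans (hN x)
  have hci : ∀ i, Continuous fun x => φ x i := fun i =>
    (EuclideanSpace.proj (𝕜 := ℝ) i).continuous.comp hφ.continuous
  -- the two integrands, coordinate by coordinate
  have hA : ∀ i, IntegrableOn (fun x => η x * fderiv ℝ φ x (EuclideanSpace.single i 1) i)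
      (unitCell n) := fun i => integral_cell_fderiv_int (hη.continuous.mul
    ((EuclideanSpace.proj (𝕜 := ℝ) i).continuous.comp
      ((hφ.continuous_fderiv one_ne_zero).clm_apply continuous_const)))
  have hB : ∀ i, IntegrableOn (fun x => fderiv ℝ η x (EuclideanSpace.single i 1) * φ x i)
      (unitCell n) := fun i => by
    refine Integrable.of_bound (((measurable_fderiv_apply_const ℝ η _).mul
      (hci i).measurable).aestronglyMeasurable) (K * N) (Filter.Eventually.of_forall fun x => ?_)
    rw [norm_mul]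
    refine mul_le_mul ?_ (hNi i x) (norm_nonneg _) K.2
    refine ((fderiv ℝ η x).le_opNorm _).trans ?_
    rw [EuclideanSpace.norm_single, norm_one, mul_one]
    exact norm_fderiv_le_of_lipschitz ℝ hη
  have hi : ∀ i, (∫ x in unitCell n, η x * fderiv ℝ φ x (EuclideanSpace.single i 1) i) +
      ∫ x in unitCell n, fderiv ℝ η x (EuclideanSpace.single i 1) * φ x i = 0 := fun i => by
    obtain ⟨C, hC⟩ := parts_lip hη ((EuclideanSpace.proj (𝕜 := ℝ) i).lipschitz.comp hL) hM (hNi i)
    rw [← integral_add (hA i) (hB i), ← integral_cell_fderiv hC (fun v hv x => by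
      simp only [Function.comp_apply, hp v hv x, hφp v hv x]) (EuclideanSpace.single i 1)]
    refine integral_congr_ae (ae_restrict_of_ae (hη.ae_differentiableAt.mono fun x hx => ?_))
    have h1 := ((EuclideanSpace.proj (𝕜 := ℝ) i).hasFDerivAt.comp x (hd x).hasFDerivAt)
    have h2 := (hx.hasFDerivAt.mul h1).fderiv
    have h3 : (fun x => η x * ((EuclideanSpace.proj (𝕜 := ℝ) i) ∘ φ) x) =
        η * ((EuclideanSpace.proj (𝕜 := ℝ) i) ∘ φ) := rfl
    simp only
    rw [h3, h2]
    simp [mul_comm]
  have e1 : ∀ x, η x * divergence φ x =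
      ∑ i, η x * fderiv ℝ φ x (EuclideanSpace.single i 1) i := fun x => by
    rw [divergence, Finset.mul_sum]
  have e2 : ∀ x, fderiv ℝ η x (φ x) =
      ∑ i, fderiv ℝ η x (EuclideanSpace.single i 1) * φ x i := fun x => by
    conv_lhs => rw [← (EuclideanSpace.basisFun (Fin n) ℝ).sum_repr (φ x)]
    simp [map_sum, mul_comm]
  simp only [e1, e2]
  rw [integral_finsetSum _ fun i _ => hA i, integral_finsetSum _ fun i _ => hB i, eq_neg_iff_add_eq_zero,
    ← Finset.sum_add_distrib]
  exact Finset.sum_eq_zero fun i _ => hi i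

end Crest.Agent.R214.Mo
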