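import Crest.Agent.R214.MoDiv

/-! Row 214, module MODEL: invariance of volume and perimeter. -/

set_option autoImplicit false

open MeasureTheory Crest.GeometryTopology.PeriodicPerimeter

namespace Crest.Agent.R214.Mo

variable {n : ℕ} {E F : Set (En n)}

theorem vol_congr (h : volume (symmDiff E F) = 0) : periodicVolume E = periodicVolume F := by

  have h' : E =ᵐ[volume] F := measure_symmDiff_eq_zero_iff.1 h
  unfold periodicVolume
  rw [measure_congr (h'.inter (ae_eq_refl (unitCell n)))]

theorem per_congr (h : volume (symmDiff E F) = 0) : periodicPerimeter E = periodicPerimeter F := by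

  have h' : E =ᵐ[volume] F := measure_symmDiff_eq_zero_iff.1 h
  unfold periodicPerimeter
  refine iSup_congr fun φ => ?_
  rw [setIntegral_congr_set (h'.inter (ae_eq_refl (unitCell n)))]

theorem vol_mono (h : E ⊆ F) : periodicVolume E ≤ periodicVolume F := by

  unfold periodicVolume
  refine ENNReal.toReal_mono ?_ (measure_mono (Set.inter_subset_inter_left _ h))
  exact ne_top_of_le_ne_top (by rw [volume_cell]; exact ENNReal.one_ne_top)
    (measure_mono Set.inter_subset_right)

theorem periodic_compl (hp : IsLatticePeriodic E) : IsLatticePeriodic Eᶜ := by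

  intro v hv x
  simp only [Set.mem_compl_iff, hp v hv x]

theorem vol_compl (hE : MeasurableSet E) : periodicVolume Eᶜ = 1 - periodicVolume E := by

  unfold periodicVolume
  have h1 : volume (unitCell n ∩ E) + volume (unitCell n \ E) = volume (unitCell n) :=
    measure_inter_add_sdiff _ hE
  have hfin : ∀ S : Set (En n), S ⊆ unitCell n → volume S ≠ ⊤ := fun S hS =>
    ne_top_of_le_ne_top (by rw [volume_cell]; exact ENNReal.one_ne_top) (measure_mono hS)
  have h2 := congrArg ENNReal.toReal h1
  rw [ENNReal.toReal_add (hfin _ Set.inter_subset_left) (hfin _ Set.sdiff_subset), volume_cell,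
    ENNReal.toReal_one, Set.inter_comm, Set.sdiff_eq, Set.inter_comm (unitCell n)] at h2
  linarith

theorem div_neg (φ : En n → En n) (x : En n) :
    divergence (fun y => -φ y) x = -divergence φ x := by
  unfold divergence
  rw [← Finset.sum_neg_distrib]
  refine Finset.sum_congr rfl fun i _ => ?_
  rw [fderiv_fun_neg]
  simp

theorem per_compl_le (hE : MeasurableSet E) : periodicPerimeter Eᶜ ≤ periodicPerimeter E := by
  unfold periodicPerimeter
  refine iSup_le fun φ => ?_
  obtain ⟨φ, h1, h2, h3⟩ := φ
  have hadm : IsAdmissibleField fun y => -φ y :=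
    ⟨h1.neg, fun v hv x => by simp only [h2 v hv x], fun x => by simpa using h3 x⟩
  refine le_iSup_of_le ⟨_, hadm⟩ (le_of_eq ?_)
  congr 1
  have h0 := integral_cell_div h1 h2
  have h4 := integral_inter_add_sdiff hE (div_integrableOn h1)
  simp only [div_neg, integral_neg]
  rw [Set.inter_comm, Set.sdiff_eq, Set.inter_comm (unitCell n) Eᶜ] at h4
  linarith

theorem per_compl (hE : MeasurableSet E) : periodicPerimeter Eᶜ = periodicPerimeter E := by

  refine le_antisymm (per_compl_le hE) ?_
  simpa using per_compl_le hE.compl

theorem measurable_image {g : En n → En n} (hg : IsCubicIsometry g) (hE : MeasurableSet E) :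
    MeasurableSet (g '' E) :=
  (cubic_measurableEmbedding hg).measurableSet_image.2 hE

theorem periodic_preimage {g : En n → En n} (hg : IsCubicIsometry g) (hp : IsLatticePeriodic E) :
    IsLatticePeriodic (g ⁻¹' E) := fun v hv x =>
  iff_of_eq (PerF.comp_cubic hg (f := fun x => x ∈ E) (fun v hv x => propext (hp v hv x)) v hv x)

theorem periodic_image {g : En n → En n} (hg : IsCubicIsometry g) (hp : IsLatticePeriodic E) :
    IsLatticePeriodic (g '' E) := by
  obtain ⟨h, hh, h1, h2⟩ := cubic_inv hg
  rw [Set.image_eq_preimage_of_inverse h1 h2]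
  exact periodic_preimage hh hp

theorem PerF.indicator {α : Type*} [Zero α] {f : En n → α} (hf : PerF f)
    (hp : IsLatticePeriodic E) : PerF (E.indicator f) := fun v hv x => by
  by_cases h : x ∈ E
  · rw [Set.indicator_of_mem h, Set.indicator_of_mem ((hp v hv x).2 h), hf v hv]
  · rw [Set.indicator_of_notMem h, Set.indicator_of_notMem fun k => h ((hp v hv x).1 k)]

theorem volume_preimage_inter {g : En n → En n} (hg : IsCubicIsometry g) (hE : MeasurableSet E)
    (hp : IsLatticePeriodic E) : volume (g ⁻¹' E ∩ unitCell n) = volume (E ∩ unitCell n) := by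
  have h := lintegral_cell_cubic hg (PerF.indicator (f := fun _ => (1 : ENNReal))
    (fun _ _ _ => rfl) hp)
  have hm : MeasurableSet (g ⁻¹' E) := (cubic_measurableEmbedding hg).measurable hE
  have e : (fun x => E.indicator (fun _ => (1 : ENNReal)) (g x)) =
      (g ⁻¹' E).indicator fun _ => (1 : ENNReal) := rfl
  rw [e, lintegral_indicator_const hm, lintegral_indicator_const hE, one_mul, one_mul,
    Measure.restrict_apply hm, Measure.restrict_apply hE] at h
  exact h

theorem vol_preimage {g : En n → En n} (hg : IsCubicIsometry g) (hE : MeasurableSet E)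
    (hp : IsLatticePeriodic E) : periodicVolume (g ⁻¹' E) = periodicVolume E := by
  rw [periodicVolume, volume_preimage_inter hg hE hp, periodicVolume]

theorem vol_image {g : En n → En n} (hg : IsCubicIsometry g) (hE : MeasurableSet E)
    (hp : IsLatticePeriodic E) : periodicVolume (g '' E) = periodicVolume E := by
  obtain ⟨h, hh, h1, h2⟩ := cubic_inv hg
  rw [Set.image_eq_preimage_of_inverse h1 h2]
  exact vol_preimage hh hE hp

/-- the divergence is the trace of the derivative -/
theorem div_eq_trace (φ : En n → En n) (x : En n) :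
    divergence φ x = LinearMap.trace ℝ _ (fderiv ℝ φ x : En n →ₗ[ℝ] En n) := by
  rw [LinearMap.trace_eq_matrix_trace ℝ (EuclideanSpace.basisFun (Fin n) ℝ).toBasis, divergence,
    Matrix.trace]
  simp [LinearMap.toMatrix_apply]

/-- pull back of a vector field by an affine isometry -/
theorem div_pull (L : En n ≃ₗᵢ[ℝ] En n) (c : En n) {φ : En n → En n} (hφ : ContDiff ℝ 1 φ)
    (x : En n) : divergence (fun y => L.symm (φ (L y + c))) x = divergence φ (L x + c) := by
  have h1 : HasFDerivAt (fun y => L y + c) (L.toContinuousLinearEquiv : En n →L[ℝ] En n) x :=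
    L.toContinuousLinearEquiv.hasFDerivAt.add_const c
  have h2 := ((hφ.differentiable one_ne_zero) (L x + c)).hasFDerivAt
  have h3 := L.symm.toContinuousLinearEquiv.hasFDerivAt.comp x (h2.comp x h1)
  have h4 : fderiv ℝ (fun y => L.symm (φ (L y + c))) x = _ := h3.fderiv
  rw [div_eq_trace, div_eq_trace, h4,
    ← LinearMap.trace_conj' (fderiv ℝ φ (L x + c) : En n →ₗ[ℝ] En n) L.symm.toLinearEquiv]
  rfl

theorem per_le_preimage {g : En n → En n} (hg : IsCubicIsometry g) (hE : MeasurableSet E)
    (hp : IsLatticePeriodic E) : periodicPerimeter E ≤ periodicPerimeter (g ⁻¹' E) := by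
  refine iSup_le fun φ => ?_
  obtain ⟨φ, h1, h2, h3⟩ := φ
  obtain ⟨L, c, e1, e2⟩ := cubic_form hg
  have hm : MeasurableSet (g ⁻¹' E) := (cubic_measurableEmbedding hg).measurable hE
  have hadm : IsAdmissibleField fun y => L.symm (φ (L y + c)) := by
    refine ⟨L.symm.contDiff.comp (h1.comp (L.contDiff.add contDiff_const)), fun v hv x => ?_,
      fun x => by rw [L.symm.norm_map]; exact h3 _⟩
    have := PerF.comp_cubic hg (f := φ) h2 v hv x
    simp only [e1] at this
    simp only [this]
  refine le_iSup_of_le ⟨_, hadm⟩ (le_of_eq (congrArg ENNReal.ofReal ?_))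
  have h := integral_cell_cubic hg ((div_perF h2).indicator hp)
  have e : (fun x => E.indicator (divergence φ) (g x)) =
      (g ⁻¹' E).indicator (divergence fun y => L.symm (φ (L y + c))) := by
    ext x
    by_cases hx : g x ∈ E
    · rw [Set.indicator_of_mem hx, Set.indicator_of_mem (Set.mem_preimage.2 hx), div_pull L c h1,
        e1]
    · rw [Set.indicator_of_notMem hx, Set.indicator_of_notMem (s := g ⁻¹' E) hx]
  rw [e, integral_indicator hm, integral_indicator hE, Measure.restrict_restrict hm,
    Measure.restrict_restrict hE] at h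
  exact h.symm

theorem per_preimage {g : En n → En n} (hg : IsCubicIsometry g) (hE : MeasurableSet E)
    (hp : IsLatticePeriodic E) : periodicPerimeter (g ⁻¹' E) = periodicPerimeter E := by
  refine le_antisymm ?_ (per_le_preimage hg hE hp)
  obtain ⟨h, hh, h1, h2⟩ := cubic_inv hg
  have := per_le_preimage hh ((cubic_measurableEmbedding hg).measurable hE)
    (periodic_preimage hg hp)
  rwa [h2.preimage_preimage] at this

theorem per_image {g : En n → En n} (hg : IsCubicIsometry g) (hE : MeasurableSet E)
    (hp : IsLatticePeriodic E) : periodicPerimeter (g '' E) = periodicPerimeter E := by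
  obtain ⟨h, hh, h1, h2⟩ := cubic_inv hg
  rw [Set.image_eq_preimage_of_inverse h1 h2]
  exact per_preimage hh hE hp

theorem vol_congruent (h : CongruentModNull E F) (hF : MeasurableSet F)
    (hp : IsLatticePeriodic F) : periodicVolume E = periodicVolume F := by
  obtain ⟨g, hg, h⟩ := h
  rw [vol_congr h, vol_image hg hF hp]

theorem per_congruent (h : CongruentModNull E F) (hF : MeasurableSet F)
    (hp : IsLatticePeriodic F) : periodicPerimeter E = periodicPerimeter F := by
  obtain ⟨g, hg, h⟩ := h
  rw [per_congr h, per_image hg hF hp]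

theorem congruent_trans {G : Set (En n)} (h : CongruentModNull E F) (h' : CongruentModNull F G) :
    CongruentModNull E G := by

  obtain ⟨g, hg, h⟩ := h
  obtain ⟨k, hk, h'⟩ := h'
  refine ⟨g ∘ k, cubic_comp hg hk, ?_⟩
  obtain ⟨g', hg', hl, hr⟩ := cubic_inv hg
  have h1 : volume (symmDiff (g '' F) ((g ∘ k) '' G)) = 0 := by
    rw [Set.image_comp, ← Set.image_symmDiff hl.injective,
      Set.image_eq_preimage_of_inverse hl hr]
    exact (cubic_measurePreserving hg').quasiMeasurePreserving.preimage_null h'
  exact measure_mono_null (symmDiff_triangle E (g '' F) ((g ∘ k) '' G)) (measure_union_null h h1)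

end Crest.Agent.R214.Mo
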