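import Crest.Agent.R214.MoDefs

/-! Row 214, module MODEL: the three branches of the profile. -/

set_option autoImplicit false

open MeasureTheory Crest.GeometryTopology.PeriodicPerimeter

namespace Crest.Agent.R214.Mo

theorem a_cube {W : ℝ} (h0 : 0 ≤ W) :
    ((36 * Real.pi) ^ ((1 : ℝ) / 3) * W ^ ((2 : ℝ) / 3)) ^ 3 = 36 * Real.pi * W ^ 2 := by
  have hp : 0 ≤ 36 * Real.pi := by positivity
  rw [mul_pow, ← Real.rpow_natCast, ← Real.rpow_mul hp, ← Real.rpow_natCast (W ^ ((2 : ℝ) / 3)),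
    ← Real.rpow_mul h0]
  norm_num

theorem b_sq {W : ℝ} (h0 : 0 ≤ W) : (2 * Real.sqrt (Real.pi * W)) ^ 2 = 4 * (Real.pi * W) := by
  rw [mul_pow, Real.sq_sqrt (by positivity)]; norm_num

theorem a_six {W : ℝ} (h0 : 0 ≤ W) :
    ((36 * Real.pi) ^ ((1 : ℝ) / 3) * W ^ ((2 : ℝ) / 3)) ^ 6 = (36 * Real.pi * W ^ 2) ^ 2 := by
  rw [← a_cube h0, ← pow_mul]

theorem b_six {W : ℝ} (h0 : 0 ≤ W) :
    (2 * Real.sqrt (Real.pi * W)) ^ 6 = (4 * (Real.pi * W)) ^ 3 := by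
  rw [← b_sq h0, ← pow_mul]

theorem a_le_b {W : ℝ} (h0 : 0 ≤ W) (h : W ≤ 4 * Real.pi / 81) :
    (36 * Real.pi) ^ ((1 : ℝ) / 3) * W ^ ((2 : ℝ) / 3) ≤ 2 * Real.sqrt (Real.pi * W) := by
  refine (pow_le_pow_iff_left₀ (by positivity) (by positivity) (n := 6) (by norm_num)).1 ?_
  rw [a_six h0, b_six h0]
  have hp := Real.pi_pos
  have : 0 ≤ Real.pi ^ 2 * W ^ 3 * (4 * Real.pi / 81 - W) := by
    have : 0 ≤ 4 * Real.pi / 81 - W := by linarith
    positivity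
  nlinarith

theorem b_le_a {W : ℝ} (h : 4 * Real.pi / 81 ≤ W) :
    2 * Real.sqrt (Real.pi * W) ≤ (36 * Real.pi) ^ ((1 : ℝ) / 3) * W ^ ((2 : ℝ) / 3) := by
  have hp := Real.pi_pos
  have h0 : 0 ≤ W := le_trans (by positivity) h
  refine (pow_le_pow_iff_left₀ (by positivity) (by positivity) (n := 6) (by norm_num)).1 ?_
  rw [a_six h0, b_six h0]
  have : 0 ≤ Real.pi ^ 2 * W ^ 3 * (W - 4 * Real.pi / 81) := by
    have : 0 ≤ W - 4 * Real.pi / 81 := by linarith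
    positivity
  nlinarith

theorem b_le_two {W : ℝ} (h : W ≤ 1 / Real.pi) : 2 * Real.sqrt (Real.pi * W) ≤ 2 := by
  have hp := Real.pi_pos
  have : Real.pi * W ≤ 1 := by rw [le_div_iff₀ hp] at h; linarith
  have := Real.sqrt_le_one.2 this
  linarith

theorem two_le_b {W : ℝ} (h : 1 / Real.pi ≤ W) : 2 ≤ 2 * Real.sqrt (Real.pi * W) := by
  have hp := Real.pi_pos
  have : 1 ≤ Real.pi * W := by rw [div_le_iff₀ hp] at h; linarith
  have := Real.one_le_sqrt.2 this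
  linarith

theorem kink_le : 4 * Real.pi / 81 ≤ 1 / Real.pi := by
  have hp := Real.pi_pos
  have := Real.pi_lt_d2
  rw [div_le_div_iff₀ (by norm_num) hp]
  nlinarith

theorem I3_ball {W : ℝ} (h0 : 0 < W) (h : W ≤ 4 * Real.pi / 81) :
    I3 W = (36 * Real.pi) ^ ((1 : ℝ) / 3) * W ^ ((2 : ℝ) / 3) := by
  have h1 := a_le_b h0.le h
  have h2 := b_le_two (h.trans kink_le)
  rw [I3, min_eq_left h1, min_eq_left (h1.trans h2)]

theorem I3_tube {W : ℝ} (h0 : 4 * Real.pi / 81 ≤ W) (h : W ≤ 1 / Real.pi) :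
    I3 W = 2 * Real.sqrt (Real.pi * W) := by
  rw [I3, min_eq_right (b_le_a h0), min_eq_left (b_le_two h)]

theorem I3_slab {W : ℝ} (h : 1 / Real.pi ≤ W) : I3 W = 2 := by
  rw [I3, min_eq_right (b_le_a (kink_le.trans h)), min_eq_right (two_le_b h)]

theorem ball_radius {W : ℝ} (h0 : 0 < W) (h : W ≤ 4 * Real.pi / 81) :
    0 < (3 * W / (4 * Real.pi)) ^ ((1 : ℝ) / 3) ∧ (3 * W / (4 * Real.pi)) ^ ((1 : ℝ) / 3) ≤ 1 / 3 ∧
    4 / 3 * Real.pi * ((3 * W / (4 * Real.pi)) ^ ((1 : ℝ) / 3)) ^ 3 = W ∧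
    4 * Real.pi * ((3 * W / (4 * Real.pi)) ^ ((1 : ℝ) / 3)) ^ 2 = I3 W := by
  have hp := Real.pi_pos
  have hx : 0 < 3 * W / (4 * Real.pi) := by positivity
  have hr : 0 < (3 * W / (4 * Real.pi)) ^ ((1 : ℝ) / 3) := Real.rpow_pos_of_pos hx _
  have h3 : ((3 * W / (4 * Real.pi)) ^ ((1 : ℝ) / 3)) ^ 3 = 3 * W / (4 * Real.pi) := by
    rw [← Real.rpow_natCast, ← Real.rpow_mul hx.le]; norm_num
  refine ⟨hr, ?_, ?_, ?_⟩
  · refine (pow_le_pow_iff_left₀ hr.le (by norm_num) (n := 3) (by norm_num)).1 ?_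
    rw [h3, div_le_iff₀ (by positivity)]
    linarith
  · rw [h3]; field_simp
  · rw [I3_ball h0 h]
    refine (pow_left_inj₀ (by positivity) (by positivity) (n := 3) (by norm_num)).1 ?_
    rw [a_cube h0.le, mul_pow, ← pow_mul, mul_comm 2 3, pow_mul, h3]
    field_simp
    ring

theorem tube_radius {W : ℝ} (h0 : 4 * Real.pi / 81 ≤ W) (h : W ≤ 1 / Real.pi) :
    0 < Real.sqrt (W / Real.pi) ∧ Real.sqrt (W / Real.pi) < 1 / 2 ∧
    Real.pi * Real.sqrt (W / Real.pi) ^ 2 = W ∧ 2 * Real.pi * Real.sqrt (W / Real.pi) = I3 W := by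
  have hp := Real.pi_pos
  have hW : 0 < W := lt_of_lt_of_le (by positivity) h0
  have hx : 0 < W / Real.pi := by positivity
  have h2 : Real.sqrt (W / Real.pi) ^ 2 = W / Real.pi := Real.sq_sqrt hx.le
  refine ⟨Real.sqrt_pos.2 hx, ?_, ?_, ?_⟩
  · rw [Real.sqrt_lt' (by norm_num), div_lt_iff₀ hp]
    have h3 := Real.pi_gt_three
    have : W * Real.pi ≤ 1 := by rwa [le_div_iff₀ hp] at h
    nlinarith
  · rw [h2]; field_simp
  · rw [I3_tube h0 h]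
    refine (pow_left_inj₀ (by positivity) (by positivity) (n := 2) (by norm_num)).1 ?_
    rw [b_sq hW.le, mul_pow, h2]
    field_simp
    ring

end Crest.Agent.R214.Mo
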