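import Crest.Agent.R214.MoMink

/-! Row 214, module MODEL: the periodic slab. -/

set_option autoImplicit false

open MeasureTheory Crest.GeometryTopology.PeriodicPerimeter

namespace Crest.Agent.R214.Mo

theorem slab_measurable (w : ℝ) : MeasurableSet (periodicSlab w) := by
  have e : periodicSlab w = ⋃ a : ℤ, (fun x : En 3 => x 0) ⁻¹' Set.Ico (a : ℝ) (a + w) := by
    ext x; simp [periodicSlab]
  rw [e]
  exact MeasurableSet.iUnion fun a => measurableSet_Ico.preimage (by fun_prop)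

theorem slab_periodic (w : ℝ) : IsLatticePeriodic (periodicSlab w) := by
  intro v hv x
  obtain ⟨m, hm⟩ := hv 0
  simp only [periodicSlab, Set.mem_ofPred_eq, PiLp.add_apply, hm]
  constructor
  · rintro ⟨a, h1, h2⟩
    exact ⟨a - m, by push_cast; linarith, by push_cast; linarith⟩
  · rintro ⟨a, h1, h2⟩
    exact ⟨a + m, by push_cast; linarith, by push_cast; linarith⟩

theorem slab_vol {w : ℝ} (h0 : 0 ≤ w) (h1 : w ≤ 1) : periodicVolume (periodicSlab w) = w := by
  have e : periodicSlab w ∩ unitCell 3 =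
      WithLp.ofLp ⁻¹' (Set.univ.pi fun i => Set.Ico ((0 : Fin 3 → ℝ) i) ((![w, 1, 1] : Fin 3 → ℝ) i)) := by
    ext x
    simp only [periodicSlab, unitCell, Set.mem_inter_iff, Set.mem_ofPred_eq, Set.mem_preimage,
      Set.mem_pi, Set.mem_univ, true_imp_iff, Set.mem_Ico, Fin.forall_fin_succ, Pi.zero_apply]
    simp only [Matrix.cons_val_zero, Matrix.cons_val_succ, IsEmpty.forall_iff, and_true]
    constructor
    · rintro ⟨⟨a, h2, h3⟩, ⟨h4, h5⟩, h6⟩
      have h7 : a < 1 := by exact_mod_cast (by linarith : (a : ℝ) < 1)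
      have h8 : (a : ℝ) ≤ 0 := by exact_mod_cast (by omega : a ≤ 0)
      exact ⟨⟨h4, by linarith⟩, h6⟩
    · rintro ⟨⟨h2, h3⟩, h4⟩
      exact ⟨⟨0, by simpa using h2, by simpa using h3⟩, ⟨h2, by linarith⟩, h4⟩
  rw [periodicVolume, e, (PiLp.volume_preserving_ofLp (Fin 3)).measure_preimage
    (MeasurableSet.univ_pi fun i => measurableSet_Ico).nullMeasurableSet, Real.volume_pi_Ico]
  simp [Fin.prod_univ_succ, h0]

theorem slab_null : volume {x : En 3 | ∃ a : ℤ, x 0 = a} = 0 := by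
  have e : {x : En 3 | ∃ a : ℤ, x 0 = a} =
      ⋃ a : ℤ, WithLp.ofLp ⁻¹' {f : Fin 3 → ℝ | f 0 = a} := by
    ext x; simp
  rw [e, measure_iUnion_null_iff]
  intro a
  rw [(PiLp.volume_preserving_ofLp (Fin 3)).measure_preimage
    (measurableSet_eq_fun (measurable_pi_apply 0) measurable_const).nullMeasurableSet]
  exact Measure.pi_hyperplane _ 0 _

theorem slab_per {w : ℝ} (h0 : 0 ≤ w) (h1 : w < 1) :
    periodicPerimeter (periodicSlab w) ≤ ENNReal.ofReal 2 := by
  set O : Set (En 3) := {x | ∃ a : ℤ, (a : ℝ) < x 0 ∧ x 0 < a + w} with hO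
  have hn : volume (symmDiff (periodicSlab w) O) = 0 := by
    refine measure_mono_null (fun x hx => ?_) slab_null
    rcases hx with ⟨⟨a, h2, h3⟩, h4⟩ | ⟨⟨a, h2, h3⟩, h4⟩
    · refine ⟨a, le_antisymm (not_lt.1 fun h => h4 ⟨a, h, h3⟩) h2⟩
    · exact absurd ⟨a, h2.le, h3⟩ h4
  have hopen : IsOpen O := by
    have e : O = ⋃ a : ℤ, (fun x : En 3 => x 0) ⁻¹' Set.Ioo (a : ℝ) (a + w) := by
      ext x; simp [hO]
    rw [e]
    exact isOpen_iUnion fun a => isOpen_Ioo.preimage (by fun_prop)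
  have hper : IsLatticePeriodic O := by
    intro v hv x
    obtain ⟨m, hm⟩ := hv 0
    simp only [hO, Set.mem_ofPred_eq, PiLp.add_apply, hm]
    constructor
    · rintro ⟨a, h1, h2⟩
      exact ⟨a - m, by push_cast; linarith, by push_cast; linarith⟩
    · rintro ⟨a, h1, h2⟩
      exact ⟨a + m, by push_cast; linarith, by push_cast; linarith⟩
  rw [per_congr hn]
  refine per_le_of_thick hopen hper fun δ hδ => ?_
  filter_upwards [Ioo_mem_nhdsGT (show (0 : ℝ) < (1 - w) / 2 by linarith)] with ε ⟨hε, hε'⟩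
  have hsub : Metric.thickening ε O ⊆
      (fun x : En 3 => x + EuclideanSpace.single 0 (-ε)) '' periodicSlab (w + 2 * ε) := by
    intro x hx
    obtain ⟨y, ⟨a, h2, h3⟩, h4⟩ := Metric.mem_thickening_iff.1 hx
    have h5 : |x 0 - y 0| < ε := (PiLp.dist_apply_le x y 0).trans_lt h4
    rw [abs_lt] at h5
    refine ⟨x - EuclideanSpace.single 0 (-ε), ⟨a, ?_, ?_⟩, sub_add_cancel _ _⟩
    · simp; linarith
    · simp; linarith
  refine (vol_mono hsub).trans ?_
  rw [vol_image (cubic_add _) (slab_measurable _) (slab_periodic _),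
    slab_vol (by linarith) (by linarith), ← vol_congr hn, slab_vol h0 h1.le]
  nlinarith

end Crest.Agent.R214.Mo
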