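import Crest.Agent.R214.MoMink

/-! Row 214, module MODEL: the periodic tube. -/

set_option autoImplicit false

open MeasureTheory Crest.GeometryTopology.PeriodicPerimeter

namespace Crest.Agent.R214.Mo

theorem tube_open (r : ℝ) : IsOpen (periodicTube r) := by
  have : periodicTube r = ⋃ a : ℤ, ⋃ b : ℤ, {x : En 3 | (x 0 - a) ^ 2 + (x 1 - b) ^ 2 < r ^ 2} := by
    ext x
    simp [periodicTube]
  rw [this]
  exact isOpen_iUnion fun a => isOpen_iUnion fun b => isOpen_lt (by fun_prop) (by fun_prop)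

theorem tube_periodic (r : ℝ) : IsLatticePeriodic (periodicTube r) := by
  intro v hv x
  obtain ⟨m, hm⟩ := hv 0
  obtain ⟨k, hk⟩ := hv 1
  simp only [periodicTube, Set.mem_ofPred_eq, PiLp.add_apply, hm, hk]
  constructor
  · rintro ⟨a, b, h⟩
    refine ⟨a - m, b - k, ?_⟩
    push_cast
    convert h using 3 <;> ring
  · rintro ⟨a, b, h⟩
    refine ⟨a + m, b + k, ?_⟩
    push_cast
    convert h using 3 <;> ring

theorem disc_vol {r : ℝ} (h0 : 0 ≤ r) :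
    volume {x : Fin 2 → ℝ | x 0 ^ 2 + x 1 ^ 2 < r ^ 2} = ENNReal.ofReal (Real.pi * r ^ 2) := by
  have e : {x : Fin 2 → ℝ | x 0 ^ 2 + x 1 ^ 2 < r ^ 2} =
      WithLp.toLp 2 ⁻¹' Metric.ball (0 : En 2) r := by
    ext x
    simp only [Set.mem_ofPred_eq, Set.mem_preimage, mem_ball_zero_iff, EuclideanSpace.norm_eq,
      Fin.sum_univ_two, Real.norm_eq_abs, sq_abs]
    exact (Real.sqrt_lt (by positivity) h0).symm
  rw [e, (PiLp.volume_preserving_toLp (Fin 2)).measure_preimage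
    measurableSet_ball.nullMeasurableSet, EuclideanSpace.volume_ball_fin_two,
    ← ENNReal.ofReal_pow h0, ← ENNReal.ofReal_mul (by positivity), mul_comm]

theorem int_eq_zero {x r : ℝ} {a : ℤ} (h0 : 0 ≤ r) (h1 : r ≤ 1 / 2) (hx : -(1 / 2) ≤ x)
    (hx' : x < -(1 / 2) + 1) (h : (x - a) ^ 2 < r ^ 2) : a = 0 := by
  have h2 := abs_lt.1 (abs_lt_of_sq_lt_sq h h0)
  have h3 : (-1 : ℝ) < a := by linarith [h2.2]
  have h4 : (a : ℝ) < 1 := by linarith [h2.1]
  have h5 : -1 < a := by exact_mod_cast h3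
  have h6 : a < 1 := by exact_mod_cast h4
  omega

theorem tube_vol {r : ℝ} (h0 : 0 ≤ r) (h1 : r ≤ 1 / 2) :
    periodicVolume (periodicTube r) = Real.pi * r ^ 2 := by
  have hD : MeasurableSet {x : Fin 2 → ℝ | x 0 ^ 2 + x 1 ^ 2 < r ^ 2} :=
    measurableSet_lt (by fun_prop) (by fun_prop)
  have hm := (volume_preserving_piFinSuccAbove (fun _ : Fin 3 => ℝ) 2).comp
    (PiLp.volume_preserving_ofLp (Fin 3))
  have e : periodicTube r ∩ {x | ∀ i, (WithLp.toLp 2 fun _ => -(1 / 2) : En 3) i ≤ x i ∧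
      x i < (WithLp.toLp 2 fun _ => -(1 / 2) : En 3) i + 1} =
      (MeasurableEquiv.piFinSuccAbove (fun _ : Fin 3 => ℝ) 2 ∘ WithLp.ofLp) ⁻¹'
        (Set.Ico (-(1 / 2) : ℝ) (-(1 / 2) + 1) ×ˢ {x : Fin 2 → ℝ | x 0 ^ 2 + x 1 ^ 2 < r ^ 2}) := by
    ext x
    change (∃ a b : ℤ, (x 0 - a) ^ 2 + (x 1 - b) ^ 2 < r ^ 2) ∧
      (∀ i, -(1 / 2) ≤ x i ∧ x i < -(1 / 2) + 1) ↔
      (-(1 / 2) ≤ x 2 ∧ x 2 < -(1 / 2) + 1) ∧ x 0 ^ 2 + x 1 ^ 2 < r ^ 2
    constructor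
    · rintro ⟨⟨a, b, h⟩, hx⟩
      obtain rfl := int_eq_zero h0 h1 (hx 0).1 (hx 0).2 (a := a) (by nlinarith [sq_nonneg (x 1 - b)])
      obtain rfl := int_eq_zero h0 h1 (hx 1).1 (hx 1).2 (a := b)
        (by nlinarith [sq_nonneg (x 0 - (0 : ℤ))])
      exact ⟨hx 2, by simpa using h⟩
    · rintro ⟨hx, h⟩
      have h2 := abs_lt.1 (abs_lt_of_sq_lt_sq (show x 0 ^ 2 < r ^ 2 by nlinarith [sq_nonneg (x 1)]) h0)
      have h3 := abs_lt.1 (abs_lt_of_sq_lt_sq (show x 1 ^ 2 < r ^ 2 by nlinarith [sq_nonneg (x 0)]) h0)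
      refine ⟨⟨0, 0, by simpa using h⟩, fun i => ?_⟩
      fin_cases i
      · exact ⟨by change _ ≤ x 0; linarith [h2.1], by change x 0 < _; linarith [h2.2]⟩
      · exact ⟨by change _ ≤ x 1; linarith [h3.1], by change x 1 < _; linarith [h3.2]⟩
      · exact hx
  rw [periodicVolume, volume_inter_cell (tube_open r).measurableSet (tube_periodic r)
    (WithLp.toLp 2 fun _ => -(1 / 2)), e,
    hm.measure_preimage (measurableSet_Ico.prod hD).nullMeasurableSet, Measure.volume_eq_prod,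
    Measure.prod_prod, disc_vol h0, Real.volume_Ico]
  norm_num
  positivity

theorem thick_tube {r ε : ℝ} (h0 : 0 ≤ r) :
    Metric.thickening ε (periodicTube r) ⊆ periodicTube (r + ε) := by
  intro x hx
  obtain ⟨z, ⟨a, b, h⟩, hd⟩ := Metric.mem_thickening_iff.1 hx
  refine ⟨a, b, ?_⟩
  have hε : 0 ≤ ε := dist_nonneg.trans hd.le
  rw [EuclideanSpace.dist_eq, Real.sqrt_lt (by positivity) hε, Fin.sum_univ_three] at hd
  simp only [Real.dist_eq, sq_abs] at hd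
  have h2 : (x 0 - z 0) ^ 2 + (x 1 - z 1) ^ 2 < ε ^ 2 := by nlinarith [sq_nonneg (x 2 - z 2)]
  have h3 : ((z 0 - a) * (x 0 - z 0) + (z 1 - b) * (x 1 - z 1)) ^ 2 ≤ (r * ε) ^ 2 := by
    rw [mul_pow]
    refine le_trans ?_ (mul_le_mul h.le h2.le (by positivity) (by positivity))
    nlinarith [sq_nonneg ((z 0 - a) * (x 1 - z 1) - (z 1 - b) * (x 0 - z 0))]
  have h4 := (abs_le.1 (abs_le_of_sq_le_sq h3 (by positivity))).2
  nlinarith

theorem tube_per {r : ℝ} (h0 : 0 ≤ r) (h1 : r < 1 / 2) :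
    periodicPerimeter (periodicTube r) ≤ ENNReal.ofReal (2 * Real.pi * r) := by
  refine per_le_of_thick (tube_open r) (tube_periodic r) fun δ hδ => ?_
  have hπ := Real.pi_pos
  filter_upwards [Ioo_mem_nhdsGT (show (0 : ℝ) < min (1 / 2 - r) (δ / Real.pi) from
    lt_min (by linarith) (by positivity))] with ε hε
  have h2 : ε ≤ 1 / 2 - r := hε.2.le.trans (min_le_left _ _)
  have h3 : ε * Real.pi ≤ δ := (le_div_iff₀ hπ).1 (hε.2.le.trans (min_le_right _ _))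
  refine (vol_mono (thick_tube h0)).trans ?_
  rw [tube_vol (by linarith [hε.1]) (by linarith), tube_vol h0 h1.le]
  nlinarith [mul_le_mul_of_nonneg_right h3 hε.1.le]

end Crest.Agent.R214.Mo
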