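import Crest.Agent.R214.MoBall
import Crest.Agent.R214.MoTube
import Crest.Agent.R214.MoSlab
import Crest.Agent.R214.MoReal

/-! Row 214, module MODEL: reduction of S0332, S0333 to the core statements. -/

set_option autoImplicit false

open MeasureTheory Crest.GeometryTopology.PeriodicPerimeter

namespace Crest.Agent.R214.Mo

/-- a standard region has perimeter at most the profile -/
theorem standard_per {W : ℝ} (h0 : 0 < W) (h1 : W ≤ 1 / 2) {F : Set (En 3)}
    (h : IsStandardRegion W F) : periodicPerimeter F ≤ ENNReal.ofReal (I3 W) := by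
  rcases h with ⟨a, b⟩ | ⟨a, a', b⟩ | ⟨a, b⟩
  · obtain ⟨r1, r2, -, r4⟩ := ball_radius h0 a
    rw [per_congruent b (ball_open _).measurableSet (ball_periodic _), ← r4]
    exact ball_per r1.le (by linarith)
  · obtain ⟨r1, r2, -, r4⟩ := tube_radius a a'
    rw [per_congruent b (tube_open _).measurableSet (tube_periodic _), ← r4]
    exact tube_per r1.le r2
  · rw [per_congruent b (slab_measurable _) (slab_periodic _), I3_slab a]
    exact slab_per h0.le (by linarith)

theorem congruent_refl {n : ℕ} (F : Set (En n)) : CongruentModNull F F :=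
  ⟨fun x => x + 0, cubic_add 0, by simp⟩

/-- standard regions exist -/
theorem exists_standard {W : ℝ} (h0 : 0 < W) (h1 : W ≤ 1 / 2) :
    ∃ F : Set (En 3), MeasurableSet F ∧ IsLatticePeriodic F ∧ periodicVolume F = W ∧
      IsStandardRegion W F := by
  rcases le_total W (4 * Real.pi / 81) with a | a
  · obtain ⟨r1, r2, r3, -⟩ := ball_radius h0 a
    exact ⟨_, (ball_open _).measurableSet, ball_periodic _,
      (ball_vol r1.le (by linarith)).trans r3, Or.inl ⟨a, congruent_refl _⟩⟩
  rcases le_total W (1 / Real.pi) with a' | a'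
  · obtain ⟨r1, r2, r3, -⟩ := tube_radius a a'
    exact ⟨_, (tube_open _).measurableSet, tube_periodic _, (tube_vol r1.le r2.le).trans r3,
      Or.inr (Or.inl ⟨a, a', congruent_refl _⟩)⟩
  · exact ⟨_, slab_measurable _, slab_periodic _, slab_vol h0.le (by linarith),
      Or.inr (Or.inr ⟨a', congruent_refl _⟩)⟩

theorem ineq_all (hI : CoreIneq) {V : ℝ} (hV : 0 < V) (hV' : V < 1) {E : Set (En 3)}
    (hE : MeasurableSet E) (hp : IsLatticePeriodic E) (hvol : periodicVolume E = V) :
    ENNReal.ofReal (I3 (min V (1 - V))) ≤ periodicPerimeter E := by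
  rcases le_total V (1 / 2) with a | a
  · rw [min_eq_left (by linarith), ← hvol]
    exact hI E hE hp (hvol ▸ hV) (hvol ▸ a)
  · have hc : periodicVolume Eᶜ = 1 - V := by rw [vol_compl hE, hvol]
    rw [min_eq_right (by linarith), ← hc, ← per_compl hE]
    exact hI Eᶜ hE.compl (periodic_compl hp) (by linarith) (by linarith)

theorem s0332 (hI : CoreIneq) (V : ℝ) (hV : 0 < V) (hV' : V < 1) :
    (∀ E : Set (EuclideanSpace ℝ (Fin 3)), MeasurableSet E → IsLatticePeriodic E →
        periodicVolume E = V →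
        ENNReal.ofReal (min (min ((36 * Real.pi) ^ ((1 : ℝ) / 3) * (min V (1 - V)) ^ ((2 : ℝ) / 3))
          (2 * Real.sqrt (Real.pi * min V (1 - V)))) 2) ≤ periodicPerimeter E) ∧
      ∃ E : Set (EuclideanSpace ℝ (Fin 3)), MeasurableSet E ∧ IsLatticePeriodic E ∧
        periodicVolume E = V ∧
        periodicPerimeter E = ENNReal.ofReal (min (min ((36 * Real.pi) ^ ((1 : ℝ) / 3) *
          (min V (1 - V)) ^ ((2 : ℝ) / 3)) (2 * Real.sqrt (Real.pi * min V (1 - V)))) 2) := by
  refine ⟨fun E hE hp hvol => ineq_all hI hV hV' hE hp hvol, ?_⟩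
  rcases le_total V (1 / 2) with a | a
  · obtain ⟨F, h1, h2, h3, h4⟩ := exists_standard hV a
    refine ⟨F, h1, h2, h3, le_antisymm ?_ (ineq_all hI hV hV' h1 h2 h3)⟩
    rw [min_eq_left (a := V) (by linarith)]
    exact standard_per hV a h4
  · obtain ⟨F, h1, h2, h3, h4⟩ := exists_standard (W := 1 - V) (by linarith) (by linarith)
    have hc : periodicVolume Fᶜ = V := by rw [vol_compl h1, h3]; ring
    refine ⟨Fᶜ, h1.compl, periodic_compl h2, hc,
      le_antisymm ?_ (ineq_all hI hV hV' h1.compl (periodic_compl h2) hc)⟩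
    rw [min_eq_right (a := V) (by linarith), per_compl h1]
    exact standard_per (by linarith) (by linarith) h4

theorem s0333 (hI : CoreIneq) (hQ : CoreEq)
    (V : ℝ) (hV : 0 < V) (hV' : V < 1) (E : Set (EuclideanSpace ℝ (Fin 3)))
    (hE : MeasurableSet E) (hper : IsLatticePeriodic E) (hvol : periodicVolume E = V) :
    periodicPerimeter E = ENNReal.ofReal (min (min ((36 * Real.pi) ^ ((1 : ℝ) / 3) *
          (min V (1 - V)) ^ ((2 : ℝ) / 3)) (2 * Real.sqrt (Real.pi * min V (1 - V)))) 2) ↔
      ((V ≤ 1 / 2 ∧ IsStandardRegion V E) ∨ (1 / 2 < V ∧ IsStandardRegion (1 - V) Eᶜ)) := by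
  have hc : periodicVolume Eᶜ = 1 - V := by rw [vol_compl hE, hvol]
  constructor
  · intro h
    rcases le_or_gt V (1 / 2) with a | a
    · rw [min_eq_left (a := V) (by linarith)] at h
      exact Or.inl ⟨a, hvol ▸ hQ E hE hper (hvol ▸ hV) (hvol ▸ a) (hvol ▸ h)⟩
    · rw [min_eq_right (a := V) (by linarith), ← per_compl hE] at h
      exact Or.inr ⟨a, hc ▸ hQ Eᶜ hE.compl (periodic_compl hper) (by linarith) (by linarith)
        (hc ▸ h)⟩
  · intro h
    refine le_antisymm ?_ (ineq_all hI hV hV' hE hper hvol)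
    rcases h with ⟨a, h⟩ | ⟨a, h⟩
    · rw [min_eq_left (a := V) (by linarith)]
      exact standard_per hV a h
    · rw [min_eq_right (a := V) (by linarith), ← per_compl hE]
      exact standard_per (by linarith) (by linarith) h

end Crest.Agent.R214.Mo
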