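import Crest.Agent.R214.MoInv

/-! Row 214, module MODEL: the perimeter is at most the outer Minkowski content. -/

set_option autoImplicit false

open MeasureTheory Crest.GeometryTopology.PeriodicPerimeter

namespace Crest.Agent.R214.Mo

variable {n : ℕ}

theorem per_le_of_thick_cut {E : Set (En n)} (hne : E.Nonempty) (hp : IsLatticePeriodic E) {ε : ℝ}
    (hε : 0 < ε) : ∃ η : En n → ℝ, LipschitzWith ⟨ε⁻¹, (inv_pos.2 hε).le⟩ η ∧ PerF η ∧
      (∀ x, 0 ≤ η x ∧ η x ≤ 1) ∧ (∀ x ∈ E, η x = 1) ∧
      ∀ x, x ∉ Metric.thickening ε E → η x = 0 := by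
  refine ⟨fun x => max (1 - ε⁻¹ * Metric.infDist x E) 0, LipschitzWith.of_dist_le_mul fun x y => ?_,
    fun v hv x => ?_, fun x => ⟨le_max_right _ _, max_le ?_ zero_le_one⟩, fun x hx => ?_,
    fun x hx => ?_⟩
  · have h1 := (Metric.lipschitz_infDist_pt E).dist_le_mul x y
    rw [NNReal.coe_one, one_mul, Real.dist_eq] at h1
    rw [Real.dist_eq]
    refine (abs_max_sub_max_le_abs _ _ _).trans ?_
    rw [show 1 - ε⁻¹ * Metric.infDist x E - (1 - ε⁻¹ * Metric.infDist y E) =
      -(ε⁻¹ * (Metric.infDist x E - Metric.infDist y E)) by ring, abs_neg, abs_mul,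
      abs_of_pos (inv_pos.2 hε)]
    exact mul_le_mul_of_nonneg_left h1 (inv_pos.2 hε).le
  · have h1 : (fun y : En n => y + v) '' E = E := by
      ext y
      constructor
      · rintro ⟨z, hz, rfl⟩
        exact (hp v hv z).2 hz
      · intro hy
        exact ⟨y - v, (hp v hv _).1 (by rwa [sub_add_cancel]), sub_add_cancel _ _⟩
    have h2 := Metric.infDist_image (x := x) (t := E) (isometry_add_right v)
    rw [h1] at h2
    simp only [h2]
  · have := mul_nonneg (inv_pos.2 hε).le (Metric.infDist_nonneg (x := x) (s := E))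
    linarith
  · simp only [Metric.infDist_zero_of_mem hx, mul_zero, sub_zero, zero_le_one, sup_of_le_left]
  · rw [Metric.mem_thickening_iff_infDist_lt hne, not_lt] at hx
    refine max_eq_right ?_
    have := mul_le_mul_of_nonneg_left hx (inv_pos.2 hε).le
    rw [inv_mul_cancel₀ hε.ne'] at this
    linarith

theorem per_le_of_thick_one {E : Set (En n)} (hne : E.Nonempty) (hE : MeasurableSet E)
    (hp : IsLatticePeriodic E) {ε : ℝ} (hε : 0 < ε) {φ : En n → En n} (hφ : IsAdmissibleField φ)
    {M : ℝ} (hM : ∀ x, ‖divergence φ x‖ ≤ M) :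
    ∫ x in E ∩ unitCell n, divergence φ x ≤
      (ε⁻¹ + M) * (periodicVolume (Metric.thickening ε E) - periodicVolume E) := by
  obtain ⟨η, h1, h2, h3, h4, h5⟩ := per_le_of_thick_cut hne hp hε
  have hT : MeasurableSet (Metric.thickening ε E) := Metric.isOpen_thickening.measurableSet
  have hS : MeasurableSet (Metric.thickening ε E \ E) := hT.diff hE
  have : IsFiniteMeasure (volume.restrict (unitCell n)) :=
    ⟨by rw [Measure.restrict_apply_univ, volume_cell]; exact ENNReal.one_lt_top⟩
  have hv : periodicVolume (Metric.thickening ε E) - periodicVolume E =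
      (volume.restrict (unitCell n)).real (Metric.thickening ε E \ E) := by
    rw [measureReal_diff (Metric.self_subset_thickening hε E) hE, measureReal_def, measureReal_def,
      Measure.restrict_apply hT, Measure.restrict_apply hE]
    rfl
  have hI : ∀ c : ℝ, ∫ x in unitCell n, (Metric.thickening ε E \ E).indicator (fun _ => c) x =
      c * (volume.restrict (unitCell n)).real (Metric.thickening ε E \ E) := fun c => by
    rw [integral_indicator_const _ hS, smul_eq_mul, mul_comm]
  have iI : ∀ c : ℝ, Integrable ((Metric.thickening ε E \ E).indicator fun _ => c)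
      (volume.restrict (unitCell n)) := fun c => (integrable_const c).indicator hS
  have i0 : Integrable (divergence φ) (volume.restrict (unitCell n)) := div_integrableOn hφ.1
  have i1 : Integrable (fun x => η x * divergence φ x) (volume.restrict (unitCell n)) :=
    i0.bdd_mul (c := 1) h1.continuous.aestronglyMeasurable (ae_of_all _ fun x => by
      rw [Real.norm_eq_abs, abs_of_nonneg (h3 x).1]; exact (h3 x).2)
  have a1 : ‖∫ x in unitCell n, fderiv ℝ η x (φ x)‖ ≤
      ∫ x in unitCell n, (Metric.thickening ε E \ E).indicator (fun _ => ε⁻¹) x := by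
    refine norm_integral_le_of_norm_le (iI _) (ae_of_all _ fun x => ?_)
    by_cases hx : x ∈ Metric.thickening ε E \ E
    · rw [Set.indicator_of_mem hx]
      refine (ContinuousLinearMap.le_opNorm _ _).trans ?_
      have := mul_le_mul (norm_fderiv_le_of_lipschitz ℝ (x₀ := x) h1) (hφ.2.2 x) (norm_nonneg _)
        (NNReal.coe_nonneg _)
      rwa [mul_one] at this
    · rw [Set.indicator_of_notMem hx]
      have : fderiv ℝ η x = 0 := by
        by_cases hxE : x ∈ E
        · exact IsLocalMax.fderiv_eq_zero (Filter.Eventually.of_forall fun y => by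
            rw [h4 x hxE]; exact (h3 y).2)
        · exact IsLocalMin.fderiv_eq_zero (Filter.Eventually.of_forall fun y => by
            rw [h5 x fun h => hx ⟨h, hxE⟩]; exact (h3 y).1)
      rw [this, ContinuousLinearMap.zero_apply, norm_zero]
  have a2 : ∫ x in unitCell n, E.indicator (divergence φ) x ≤ ∫ x in unitCell n,
      (η x * divergence φ x + (Metric.thickening ε E \ E).indicator (fun _ => M) x) := by
    refine integral_mono (i0.indicator hE) (i1.add (iI M)) fun x => ?_
    by_cases hxE : x ∈ E
    · simp only [Set.indicator_of_mem hxE, h4 x hxE, one_mul,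
        Set.indicator_of_notMem (fun h : x ∈ Metric.thickening ε E \ E => h.2 hxE), add_zero, le_refl]
    · simp only [Set.indicator_of_notMem hxE]
      by_cases hx : x ∈ Metric.thickening ε E
      · rw [Set.indicator_of_mem (show x ∈ Metric.thickening ε E \ E from ⟨hx, hxE⟩)]
        have b1 := abs_le.1 (hM x)
        have b2 := h3 x
        nlinarith [mul_nonneg b2.1 (show 0 ≤ divergence φ x + M by linarith),
          mul_nonneg (sub_nonneg.2 b2.2) (show 0 ≤ M by linarith)]
      · rw [h5 x hx, zero_mul, Set.indicator_of_notMem fun h => hx h.1, add_zero]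
  rw [integral_indicator hE, Measure.restrict_restrict hE, integral_add i1 (iI M),
    parts h1 h2 hφ.1 hφ.2.1, hI] at a2
  rw [hI, Real.norm_eq_abs] at a1
  rw [hv, add_mul]
  linarith [neg_abs_le (∫ x in unitCell n, fderiv ℝ η x (φ x))]

/-- MINK: `η = max 0 (1 - infDist x E / ε)` in `parts` -/
theorem per_le_of_thick {E : Set (En n)} (hE : IsOpen E) (hp : IsLatticePeriodic E) {P : ℝ}
    (h : ∀ δ > 0, ∀ᶠ ε in nhdsWithin (0 : ℝ) (Set.Ioi 0),
      periodicVolume (Metric.thickening ε E) ≤ periodicVolume E + (P + δ) * ε) :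
    periodicPerimeter E ≤ ENNReal.ofReal P := by
  refine iSup_le fun φ => ?_
  rcases E.eq_empty_or_nonempty with rfl | hne
  · simp
  obtain ⟨M, hM⟩ := (div_perF φ.2.2.1).bounded (div_continuous φ.2.1)
  have hM0 : 0 ≤ M := (norm_nonneg _).trans (hM 0)
  refine ENNReal.ofReal_le_ofReal (le_of_forall_pos_le_add fun δ hδ => ?_)
  have ht : Filter.Tendsto (fun ε : ℝ => (1 + M * ε) * (P + δ)) (nhdsWithin 0 (Set.Ioi 0))
      (nhds (P + δ)) := by
    have : Continuous fun ε : ℝ => (1 + M * ε) * (P + δ) := by fun_prop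
    simpa using (this.tendsto 0).mono_left nhdsWithin_le_nhds
  refine ge_of_tendsto ht ?_
  filter_upwards [h δ hδ, self_mem_nhdsWithin] with ε h1 hε
  have hε' : (0 : ℝ) < ε := hε
  refine (per_le_of_thick_one hne hE.measurableSet hp hε' φ.2 hM).trans ?_
  refine (mul_le_mul_of_nonneg_left (sub_le_iff_le_add'.2 h1)
    (add_nonneg (inv_pos.2 hε').le hM0)).trans (le_of_eq ?_)
  field_simp

end Crest.Agent.R214.Mo
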