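import Crest.Agent.R214.RigSec
import Crest.Agent.R214.BV0Per
import Crest.Agent.R214.BV0Slice

/-! Row 214, module RIG: the measurable centre of arc sections (helper60). -/

set_option autoImplicit false

open MeasureTheory Set Filter Topology
open scoped ENNReal RealInnerProductSpace ContDiff
open Crest.GeometryTopology.PeriodicPerimeter

noncomputable section

namespace Crest.Agent.R214.Rig

variable {n : ℕ}

/-- average along the direction `i` -/
def arcAvg (i : Fin n) (f : X n → ℝ) (x : X n) : ℝ := ∫ t in Ico (0 : ℝ) 1, f (x + t • ev i)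

theorem arcAvg_per (i : Fin n) {f : X n → ℝ} (hf : Per f) : Per (arcAvg i f) := by
  intro v hv x
  unfold arcAvg
  congr 1
  funext t
  rw [add_right_comm, hf v hv]

theorem arcAvg_indep (i : Fin n) {f : X n → ℝ} (hf : Per f) : Indep i (arcAvg i f) := by
  intro s x
  have hper : Function.Periodic (fun t : ℝ => f (x + t • ev i)) 1 := fun t => by
    have := hf _ (hasIntegerCoords_ev i 1) (x + t • ev i)
    simp only [add_smul, ← add_assoc]
    simpa using this
  have h := hper.intervalIntegral_add_eq s 0
  have e : ∀ t : ℝ, x + s • ev i + t • ev i = x + (t + s) • (ev i : X n) := fun t => by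
    rw [add_smul, add_assoc, add_comm (s • ev i)]
  unfold arcAvg
  simp only [e]
  rw [integral_Ico_eq_integral_Ioc, integral_Ico_eq_integral_Ioc,
    ← intervalIntegral.integral_of_le zero_le_one, ← intervalIntegral.integral_of_le zero_le_one,
    intervalIntegral.integral_comp_add_right (fun t : ℝ => f (x + t • ev i)) s]
  simpa [add_comm] using h

theorem arcAvg_measurable (i : Fin n) {f : X n → ℝ} (mf : Measurable f) : Measurable (arcAvg i f) := by
  have hmm : StronglyMeasurable (Function.uncurry fun (x : X n) (t : ℝ) => f (x + t • ev i)) :=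
    (mf.comp (by fun_prop : Measurable fun p : X n × ℝ => p.1 + p.2 • ev i)).stronglyMeasurable
  exact (hmm.integral_prod_right (ν := volume.restrict (Ico (0 : ℝ) 1))).measurable

/-- the weight whose averages are the Fourier coefficients of the sections -/
def arcG (E : Set (X n)) (i : Fin n) (a : ℝ) (y : X n) : ℝ :=
  chi E y * Real.cos (2 * Real.pi * (y i - a))

theorem arcG_per {E : Set (X n)} (hp : IsLatticePeriodic E) (i : Fin n) (a : ℝ) : Per (arcG E i a) := by
  intro v hv x
  obtain ⟨k, hk⟩ := hv i
  unfold arcG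
  rw [Per.chi hp v hv x]
  congr 1
  have : 2 * Real.pi * ((x + v) i - a) = 2 * Real.pi * (x i - a) + k * (2 * Real.pi) := by
    rw [PiLp.add_apply, hk]; ring
  rw [this, Real.cos_add_int_mul_two_pi]

theorem arcG_measurable {E : Set (X n)} (hE : MeasurableSet E) (i : Fin n) (a : ℝ) :
    Measurable (arcG E i a) :=
  (measurable_chi hE).mul (by fun_prop)

theorem arcAvg_arcG {E : Set (X n)} (hE : MeasurableSet E) (i : Fin n) (a : ℝ) (x : X n) {c m : ℝ}
    (h0 : 0 ≤ m) (h1 : m ≤ 1) (h : sec E i x =ᵐ[volume] arc c m) :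
    arcAvg i (arcG E i a) x =
      Real.sin (Real.pi * m) / Real.pi * Real.cos (2 * Real.pi * (c + x i - a)) := by
  have e : (fun t : ℝ => arcG E i a (x + t • ev i)) =
      (sec E i x).indicator fun t => Real.cos (2 * Real.pi * (t - (a - x i))) := by
    funext t
    have e1 : (x + t • (ev i : X n)) i - a = t - (a - x i) := by
      simp; ring
    unfold arcG
    rw [e1]
    by_cases ht : x + t • ev i ∈ E
    · rw [chi, indicator_of_mem ht, indicator_of_mem (show t ∈ sec E i x from ht), one_mul]
    · rw [chi, indicator_of_notMem ht, indicator_of_notMem (show t ∉ sec E i x from ht), zero_mul]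
  unfold arcAvg
  rw [e, integral_indicator (measurableSet_sec hE i x),
    Measure.restrict_restrict (measurableSet_sec hE i x),
    setIntegral_congr_set (h.inter (EventuallyEq.refl _ (Ico (0 : ℝ) 1))), integral_arc_cos c _ h0 h1]
  congr 3
  ring

theorem exists_centre' {E : Set (X n)} {i : Fin n} {m : X n → ℝ} (hE : MeasurableSet E)
    (hp : IsLatticePeriodic E) (h0 : ∀ x, 0 ≤ m x)
    (h1 : ∀ x, m x < 1) (h : ∀ᵐ x, ∃ c, sec E i x =ᵐ[volume] arc c (m x)) :
    ∃ b : X n → ℝ, Measurable b ∧ Per b ∧ Indep i b ∧
      ∀ᵐ x, sec E i x =ᵐ[volume] arc (b x - x i) (m x) := by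
  refine ⟨fun x => Complex.arg ((arcAvg i (arcG E i 0) x : ℂ) +
    (arcAvg i (arcG E i (1 / 4)) x : ℂ) * Complex.I) / (2 * Real.pi), ?_, ?_, ?_, ?_⟩
  · have m1 := arcAvg_measurable i (arcG_measurable hE i 0)
    have m2 := arcAvg_measurable i (arcG_measurable hE i (1 / 4))
    exact (Complex.measurable_arg.comp ((Complex.measurable_ofReal.comp m1).add
      ((Complex.measurable_ofReal.comp m2).mul_const _))).div_const _
  · intro v hv x
    simp only [arcAvg_per i (arcG_per hp i _) v hv x]
  · intro s x
    simp only [arcAvg_indep i (arcG_per hp i _) s x]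
  · filter_upwards [h] with x hx
    obtain ⟨c, hc⟩ := hx
    rcases (h0 x).eq_or_lt with hm | hm
    · rw [arc_nonpos _ hm.ge] at hc ⊢
      exact hc
    · have hr : 0 < Real.sin (Real.pi * m x) / Real.pi :=
        div_pos (Real.sin_pos_of_pos_of_lt_pi (mul_pos Real.pi_pos hm)
          (mul_lt_of_lt_one_right Real.pi_pos (h1 x))) Real.pi_pos
      rw [arcAvg_arcG hE i 0 x (h0 x) (h1 x).le hc, arcAvg_arcG hE i (1 / 4) x (h0 x) (h1 x).le hc]
      have e1 : Real.cos (2 * Real.pi * (c + x i - 1 / 4)) = Real.sin (2 * Real.pi * (c + x i)) := by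
        rw [← Real.cos_sub_pi_div_two]
        congr 1
        ring
      rw [sub_zero, e1]
      set r := Real.sin (Real.pi * m x) / Real.pi
      set θ := 2 * Real.pi * (c + x i) with hθ
      have e2 : ((r * Real.cos θ : ℝ) : ℂ) + ((r * Real.sin θ : ℝ) : ℂ) * Complex.I =
          r * (Complex.cos θ + Complex.sin θ * Complex.I) := by
        push_cast; ring
      have e3 := Complex.arg_mul_cos_add_sin_mul_I_sub hr θ
      have e4 : Complex.arg (r * (Complex.cos θ + Complex.sin θ * Complex.I)) / (2 * Real.pi) - x i =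
          c + (⌊(Real.pi - θ) / (2 * Real.pi)⌋ : ℤ) := by
        have hpi := Real.pi_pos
        rw [sub_eq_iff_eq_add] at e3
        rw [e3, hθ]
        field_simp
        ring
      rw [e2, e4, arc_add_int]
      exact hc

end Crest.Agent.R214.Rig
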