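import Crest.Agent.R214.RigSec
import Crest.Agent.R214.RigArcA
import Crest.Agent.R214.BV0Per

/-! Row 214, module RIG: sets whose sections are arcs. -/

set_option autoImplicit false

open MeasureTheory Set Filter Topology
open scoped ENNReal RealInnerProductSpace ContDiff
open Crest.GeometryTopology.PeriodicPerimeter

noncomputable section

namespace Crest.Agent.R214.Rig

variable {n : ℕ}

variable {E : Set (X n)} {μ : Measure (X n)} {w : X n → X n} {i : Fin n} {m b : X n → ℝ}

/-- `b = arg G / (2 π)`, `G x = ∫ t in sec E i x ∩ Ico 0 1, exp (2 π I (x i + t))`; real and imaginary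
part by `integral_arc_cos` with `a = - x i`, `a = 1 / 4 - x i`. -/
theorem exists_centre (hE : MeasurableSet E) (hp : IsLatticePeriodic E) (h0 : ∀ x, 0 ≤ m x)
    (h1 : ∀ x, m x < 1) (h : ∀ᵐ x, ∃ c, sec E i x =ᵐ[volume] arc c (m x)) :
    ∃ b : X n → ℝ, Measurable b ∧ Per b ∧ Indep i b ∧
      ∀ᵐ x, sec E i x =ᵐ[volume] arc (b x - x i) (m x) :=
  exists_centre' hE hp h0 h1 h

/-- the two end points of the arc over `x` -/
def arcB_r (i : Fin n) (m b : X n → ℝ) (z : X n × Bool) : X n :=
  pt i z.1 (b z.1 + (if z.2 then (1 : ℝ) else -1) * (m z.1 / 2))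

theorem arcB_meas_sgn : Measurable fun z : X n × Bool => (if z.2 then (1 : ℝ) else -1) :=
  (measurable_of_countable (fun s : Bool => if s then (1 : ℝ) else -1)).comp measurable_snd

theorem arcB_meas_r (mm : Measurable m) (mb : Measurable b) : Measurable (arcB_r i m b) := by
  have h1 : Measurable fun z : X n × Bool => z.1 i :=
    (EuclideanSpace.proj i : X n →L[ℝ] ℝ).continuous.measurable.comp measurable_fst
  unfold arcB_r pt
  exact measurable_fst.add ((((mb.comp measurable_fst).add
    (arcB_meas_sgn.mul ((mm.comp measurable_fst).div_const 2))).sub h1).smul_const _)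

theorem arcB_int_sgn : Integrable (fun z : X n × Bool => (if z.2 then (1 : ℝ) else -1))
    ((volume.restrict (unitCell n)).prod Measure.count) := by
  refine Integrable.of_bound arcB_meas_sgn.aestronglyMeasurable 1 (ae_of_all _ fun z => ?_)
  split_ifs <;> simp

theorem arcB_sum (mm : Measurable m) (mb : Measurable b) {f : X n → ℝ} (mf : Measurable f) {C : ℝ}
    (hC : ∀ x, ‖f x‖ ≤ C) :
    ∫ z : X n × Bool, f (arcB_r i m b z) * (if z.2 then (1 : ℝ) else -1)
        ∂((volume.restrict (unitCell n)).prod Measure.count) =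
      ∫ x in unitCell n, (f (pt i x (b x + m x / 2)) - f (pt i x (b x - m x / 2))) := by
  rw [integral_prod _ (ext_aux_int (arcB_meas_r mm mb) arcB_int_sgn mf hC)]
  refine integral_congr_ae (ae_of_all _ fun x => ?_)
  simp only [integral_count, Fintype.sum_bool, arcB_r]
  simp only [if_true, Bool.false_eq_true, if_false, one_mul, mul_one, neg_mul, mul_neg,
    sub_eq_add_neg]

theorem arcB_ftc {f : X n → ℝ} (hd : ContDiff ℝ 1 f) (i : Fin n) (x : X n) (s t : ℝ) :
    ∫ u in s..t, pd i f (x + u • ev i) = f (x + t • ev i) - f (x + s • ev i) := by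
  have hc : Continuous fun u : ℝ => pd i f (x + u • ev i) := by
    have := hd.continuous_fderiv one_ne_zero
    fun_prop
  refine intervalIntegral.integral_eq_sub_of_hasDerivAt
    (f := fun u : ℝ => f (x + u • ev i)) (fun u _ => ?_) (hc.intervalIntegrable _ _)
  have h1 : HasDerivAt (fun u : ℝ => x + u • ev i) (ev i) u := by
    simpa using ((hasDerivAt_id u).smul_const (ev i)).const_add x
  exact ((hd.differentiable one_ne_zero) _).hasFDerivAt.comp_hasDerivAt u h1

/-- `GG.coord_param`; for `C¹` functions: `setIntegral_sec`, `integral_arc`, FTC -/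
theorem param (h : GG E μ w) (hE : MeasurableSet E) (hp : IsLatticePeriodic E) (h0 : ∀ x, 0 ≤ m x)
    (h1 : ∀ x, m x < 1) (mm : Measurable m) (mb : Measurable b)
    (ha : ∀ᵐ x, sec E i x =ᵐ[volume] arc (b x - x i) (m x))
    {f : X n → ℝ} (hf : Per f) (mf : Measurable f) {C : ℝ} (hC : ∀ x, ‖f x‖ ≤ C) :
    ∫ x, f x * w x i ∂μ =
      ∫ x in unitCell n, (f (pt i x (b x + m x / 2)) - f (pt i x (b x - m x / 2))) := by
  rw [← arcB_sum mm mb mf hC]
  refine h.coord_param i (arcB_meas_r mm mb) arcB_meas_sgn arcB_int_sgn (fun g hd hg => ?_) hf mf hC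
  obtain ⟨D, hD⟩ := hg.bounded hd.continuous
  have cg : Continuous (pd i g) := by
    have := hd.continuous_fderiv one_ne_zero
    unfold pd
    fun_prop
  have pg : Per (pd i g) := fun v hv x => by simp only [pd, hg.fderiv v hv x]
  obtain ⟨D', hD'⟩ := pg.bounded cg
  rw [arcB_sum mm mb hd.continuous.measurable hD, setIntegral_sec hE hp i pg cg.measurable hD']
  refine integral_congr_ae (ae_restrict_of_ae ?_)
  filter_upwards [ha] with x hx
  have cu : Continuous fun t : ℝ => pd i g (x + t • ev i) := by fun_prop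
  have pu : ∀ t : ℝ, pd i g (x + (t + 1) • ev i) = pd i g (x + t • ev i) := fun t => by
    have := pg _ (hasIntegerCoords_ev i 1) (x + t • ev i)
    rw [← this, add_smul, add_assoc]
    simp
  rw [setIntegral_congr_set (hx.inter (ae_eq_refl (Ico (0 : ℝ) 1))),
    integral_arc cu pu _ (h0 x) (h1 x).le, arcB_ftc hd]
  simp only [pt]
  congr 3 <;> ring_nf

/-- the sign of the side of the arc -/
def arcC_s (i : Fin n) (b : X n → ℝ) (x : X n) : ℝ :=
  if 0 < Real.sin (2 * Real.pi * (x i - b x)) then 1 else -1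

theorem arcC_pt_apply (i : Fin n) (x : X n) (s : ℝ) : (pt i x s) i = s := by
  simp [pt]

theorem arcC_indep_pt {F : Type*} {f : X n → F} (hf : Indep i f) (x : X n) (s : ℝ) :
    f (pt i x s) = f x := hf _ x

theorem arcC_per (pb : Per b) : Per (arcC_s i b) := by
  intro v hv x
  obtain ⟨k, hk⟩ := hv i
  have e : 2 * Real.pi * ((x + v) i - b (x + v)) =
      2 * Real.pi * (x i - b x) + k * (2 * Real.pi) := by
    rw [pb v hv x, PiLp.add_apply, hk]; ring
  unfold arcC_s
  rw [e, Real.sin_add_int_mul_two_pi]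

theorem arcC_meas (mb : Measurable b) : Measurable (arcC_s i b) := by
  unfold arcC_s
  have h1 : Measurable fun x : X n => x i := by fun_prop
  exact Measurable.ite (measurableSet_lt measurable_const
    (Real.measurable_sin.comp ((h1.sub mb).const_mul _))) measurable_const measurable_const

theorem arcC_abs (x : X n) : |arcC_s i b x| = 1 := by
  unfold arcC_s
  split_ifs <;> simp

theorem arcC_plus (ib : Indep i b) {x : X n} {t : ℝ} (h0 : 0 < t) (h1 : t < 1) :
    arcC_s i b (pt i x (b x + t / 2)) = 1 := by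
  unfold arcC_s
  rw [arcC_pt_apply, arcC_indep_pt ib, if_pos]
  have hpi := Real.pi_pos
  exact Real.sin_pos_of_pos_of_lt_pi (by nlinarith) (by nlinarith)

theorem arcC_minus (ib : Indep i b) {x : X n} {t : ℝ} (h0 : 0 < t) (h1 : t < 1) :
    arcC_s i b (pt i x (b x - t / 2)) = -1 := by
  unfold arcC_s
  rw [arcC_pt_apply, arcC_indep_pt ib, if_neg]
  have hpi := Real.pi_pos
  exact not_lt.2 (Real.sin_neg_of_neg_of_neg_pi_lt (by nlinarith) (by nlinarith)).le

theorem arcC_param (h : GG E μ w) (hE : MeasurableSet E) (hp : IsLatticePeriodic E)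
    (h0 : ∀ x, 0 ≤ m x) (h1 : ∀ x, m x < 1) (mm : Measurable m) (im : Indep i m)
    (mb : Measurable b) (pb : Per b) (ib : Indep i b)
    (ha : ∀ᵐ x, sec E i x =ᵐ[volume] arc (b x - x i) (m x))
    {f : X n → ℝ} (hf : Per f) (mf : Measurable f) {C : ℝ} (hC : ∀ x, ‖f x‖ ≤ C)
    (hz : ∀ x, m x = 0 → f x = 0) :
    ∫ x, f x * arcC_s i b x * w x i ∂μ =
      ∫ x in unitCell n, (f (pt i x (b x + m x / 2)) + f (pt i x (b x - m x / 2))) := by
  have k := param h hE hp h0 h1 mm mb ha (f := fun x => f x * arcC_s i b x)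
    (fun v hv x => by simp only [hf v hv x, arcC_per pb v hv x]) (mf.mul (arcC_meas mb)) (C := C)
    (fun x => by rw [norm_mul, Real.norm_eq_abs (arcC_s i b x), arcC_abs, mul_one]; exact hC x)
  rw [k]
  refine integral_congr_ae (Eventually.of_forall fun x => ?_)
  rcases (h0 x).eq_or_lt with hx | hx
  · have e : ∀ s, f (pt i x s) = 0 := fun s => hz _ (by rw [arcC_indep_pt im, hx])
    simp only [e, zero_mul, sub_zero, add_zero]
  · simp only [arcC_plus ib hx (h1 x), arcC_minus ib hx (h1 x)]
    ring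

/-- with `s x = sign (sin (2 π (x i - b x)))`: `param` for `g * s` gives `∫ g s w_i = ∫ 2 g`, hence
`s * w_i = |w_i|` a.e. where `g > 0`; then `param` for `f * s`. -/
theorem param_abs (h : GG E μ w) (hE : MeasurableSet E) (hp : IsLatticePeriodic E)
    (h0 : ∀ x, 0 ≤ m x) (h1 : ∀ x, m x < 1) (mm : Measurable m) (pm : Per m) (im : Indep i m)
    (mb : Measurable b) (pb : Per b) (ib : Indep i b)
    (ha : ∀ᵐ x, sec E i x =ᵐ[volume] arc (b x - x i) (m x))
    (hle : ∫ x, m x / 2 * |w x i| ∂μ ≤ ∫ x in unitCell n, m x)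
    {f : X n → ℝ} (hf : Per f) (mf : Measurable f) {C : ℝ} (hC : ∀ x, ‖f x‖ ≤ C)
    (hz : ∀ x, m x = 0 → f x = 0) :
    ∫ x, f x * |w x i| ∂μ =
      ∫ x in unitCell n, (f (pt i x (b x + m x / 2)) + f (pt i x (b x - m x / 2))) := by
  have hg : ∀ x, ‖m x / 2‖ ≤ 1 := fun x => by
    rw [Real.norm_of_nonneg (by linarith [h0 x])]; linarith [h1 x]
  have mg : Measurable fun x => m x / 2 := mm.div_const 2
  have k1 := arcC_param h hE hp h0 h1 mm im mb pb ib ha (f := fun x => m x / 2)
    (fun v hv x => by simp only [pm v hv x]) mg hg (fun x hx => by simp only [hx, zero_div])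
  simp only [arcC_indep_pt im, add_halves] at k1
  have iw := sliceB_integrable_coord h i
  have i1 : Integrable (fun x => m x / 2 * |w x i|) μ :=
    iw.abs.bdd_mul mg.aestronglyMeasurable (Eventually.of_forall hg)
  have i2 : Integrable (fun x => m x / 2 * arcC_s i b x * w x i) μ :=
    iw.bdd_mul (c := 1) (mg.mul (arcC_meas mb)).aestronglyMeasurable (Eventually.of_forall fun x => by
      rw [norm_mul, Real.norm_eq_abs (arcC_s i b x), arcC_abs, mul_one]; exact hg x)
  have hs : ∀ x, arcC_s i b x * w x i ≤ |w x i| := fun x => by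
    refine (le_abs_self _).trans ?_
    rw [abs_mul, arcC_abs, one_mul]
  have hnn : 0 ≤ fun x => m x / 2 * |w x i| - m x / 2 * arcC_s i b x * w x i := fun x => by
    have := mul_le_mul_of_nonneg_left (hs x) (show 0 ≤ m x / 2 by linarith [h0 x])
    simp only [Pi.zero_apply]
    linarith
  have hzero : ∫ x, (m x / 2 * |w x i| - m x / 2 * arcC_s i b x * w x i) ∂μ = 0 := by
    refine le_antisymm ?_ (integral_nonneg hnn)
    rw [integral_sub i1 i2, k1]
    linarith
  have hae := (integral_eq_zero_iff_of_nonneg hnn (i1.sub i2)).1 hzero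
  rw [← arcC_param h hE hp h0 h1 mm im mb pb ib ha hf mf hC hz]
  refine integral_congr_ae ?_
  filter_upwards [hae] with x hx
  rcases (h0 x).eq_or_lt with h2 | h2
  · simp only [hz x h2.symm, zero_mul]
  · have h3 : m x / 2 * (|w x i| - arcC_s i b x * w x i) = 0 := by
      simp only [Pi.zero_apply] at hx
      linarith
    rcases mul_eq_zero.1 h3 with h4 | h4
    · linarith
    · rw [mul_assoc, sub_eq_zero.1 h4]

end Crest.Agent.R214.Rig
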