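import Crest.Agent.R214.RigDefs
import Crest.Agent.R214.BV0Slice

/-! Row 214, module RIG: elementary facts on the models and on sections. -/

set_option autoImplicit false

open MeasureTheory Set Filter Topology
open scoped ENNReal RealInnerProductSpace ContDiff
open Crest.GeometryTopology.PeriodicPerimeter

noncomputable section

namespace Crest.Agent.R214.Rig

variable {n : ℕ}

/-! ### part A -/

theorem dd_add_int (s : ℝ) (k : ℤ) : dd (s + k) = dd s := by
  simp only [dd, round_add_intCast]; push_cast; ring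

theorem abs_dd_le_half (s : ℝ) : |dd s| ≤ 1 / 2 := by
  exact abs_sub_round s

theorem abs_dd_le (s : ℝ) (k : ℤ) : |dd s| ≤ |s - k| := by
  exact round_le s k

theorem dd_of_abs_lt {s : ℝ} (h : |s| < 1 / 2) : dd s = s := by
  have h' := abs_lt.1 h
  have : round s = 0 := round_eq_zero_iff.2 ⟨h'.1.le, h'.2⟩
  simp [dd, this]

theorem measurable_dd : Measurable dd := by
  have h : Measurable fun s : ℝ => ((round s : ℤ) : ℝ) := by
    simp only [round_eq]
    exact (measurable_from_top (f := fun z : ℤ => (z : ℝ))).comp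
      (Int.measurable_floor.comp (measurable_id.add_const _))
  exact measurable_id.sub h

/-- `|dd|` is `1`-Lipschitz (by `abs_dd_le`) -/
theorem abs_abs_dd_sub_le (s t : ℝ) : |(|dd s| - |dd t|)| ≤ |s - t| := by
  have key : ∀ a b : ℝ, |dd a| - |dd b| ≤ |a - b| := fun a b => by
    have h1 := abs_dd_le a (round b)
    have h2 : |a - round b| ≤ |a - b| + |dd b| := by
      have : a - round b = (a - b) + dd b := by simp [dd]
      rw [this]; exact abs_add_le _ _
    linarith
  rw [abs_le]
  have h1 := key s t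
  have h2 := key t s
  rw [abs_sub_comm] at h2
  constructor <;> linarith

theorem continuous_dd_sq : Continuous fun s => dd s ^ 2 := by
  have h : LipschitzWith 1 fun s => |dd s| :=
    LipschitzWith.of_dist_le_mul fun s t => by
      simpa [Real.dist_eq] using abs_abs_dd_sub_le s t
  exact (h.continuous.pow 2).congr fun s => sq_abs _

theorem dd_add_coord {v : X n} (hv : HasIntegerCoords v) (x : X n) (j : Fin n) :
    dd ((x + v) j) = dd (x j) := by
  obtain ⟨k, hk⟩ := hv j
  rw [PiLp.add_apply, hk, dd_add_int]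

theorem coord_add_ev {i j : Fin n} (h : j ≠ i) (x : X n) (t : ℝ) : (x + t • ev i) j = x j := by
  simp [h]

theorem rr_nonneg (S : Finset (Fin n)) (x : X n) : 0 ≤ rr S x := by
  exact Finset.sum_nonneg fun _ _ => sq_nonneg _

theorem continuous_rr (S : Finset (Fin n)) : Continuous (rr S) := by
  unfold rr
  exact continuous_finsetSum _ fun j _ =>
    continuous_dd_sq.comp (EuclideanSpace.proj (𝕜 := ℝ) j).continuous

theorem per_rr (S : Finset (Fin n)) : Per (rr S) := by
  intro v hv x
  refine Finset.sum_congr rfl fun j _ => ?_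
  rw [dd_add_coord hv]

theorem indep_rr {S : Finset (Fin n)} {i : Fin n} (hi : i ∉ S) : Indep i (rr S) := by
  intro t x
  refine Finset.sum_congr rfl fun j hj => ?_
  rw [coord_add_ev (ne_of_mem_of_not_mem hj hi)]

theorem isOpen_model (S : Finset (Fin n)) (r : ℝ) : IsOpen (model S r) := by
  exact isOpen_lt (continuous_rr S) continuous_const

theorem periodic_model (S : Finset (Fin n)) (r : ℝ) : IsLatticePeriodic (model S r) := by
  intro v hv x
  simp only [model, mem_ofPred_eq, per_rr S v hv x]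

theorem isOpen_modelAt (S : Finset (Fin n)) (c : X n) (r : ℝ) : IsOpen (modelAt S c r) := by
  exact (isOpen_model S r).preimage (continuous_id.sub continuous_const)

theorem periodic_modelAt (S : Finset (Fin n)) (c : X n) (r : ℝ) :
    IsLatticePeriodic (modelAt S c r) := by
  intro v hv x
  simp only [modelAt, mem_ofPred_eq, add_sub_right_comm x v c]
  exact periodic_model S r v hv (x - c)

theorem continuous_hh (T : Finset (Fin n)) (r : ℝ) : Continuous (hh T r) := by
  exact (continuous_const.sub (continuous_rr T)).sqrt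

theorem per_hh (T : Finset (Fin n)) (r : ℝ) : Per (hh T r) := by
  intro v hv x
  simp only [hh, per_rr T v hv x]

theorem indep_hh {T : Finset (Fin n)} {i : Fin n} (hi : i ∉ T) (r : ℝ) : Indep i (hh T r) := by
  intro t x
  simp only [hh, indep_rr hi t x]

theorem hh_nonneg (T : Finset (Fin n)) (r : ℝ) (x : X n) : 0 ≤ hh T r x := Real.sqrt_nonneg _

theorem hh_le (T : Finset (Fin n)) {r : ℝ} (hr : 0 ≤ r) (x : X n) : hh T r x ≤ r := by
  refine Real.sqrt_le_iff.2 ⟨hr, ?_⟩
  linarith [rr_nonneg T x]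

theorem hh_pos_iff (T : Finset (Fin n)) (r : ℝ) (x : X n) : 0 < hh T r x ↔ x ∈ model T r := by
  rw [hh, Real.sqrt_pos, sub_pos]; rfl

theorem hh_sq {T : Finset (Fin n)} {r : ℝ} {x : X n} (hx : x ∈ model T r) :
    hh T r x ^ 2 = r ^ 2 - rr T x := by
  exact Real.sq_sqrt (sub_nonneg.2 (le_of_lt hx))

theorem measurable_dv (T : Finset (Fin n)) (j : Fin n) : Measurable (dv T j) := by
  unfold dv
  split_ifs
  · exact measurable_dd.comp (EuclideanSpace.proj (𝕜 := ℝ) j).continuous.measurable
  · exact measurable_const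

theorem per_dv (T : Finset (Fin n)) (j : Fin n) : Per (dv T j) := by
  intro v hv x
  simp only [dv, dd_add_coord hv]

theorem indep_dv {T : Finset (Fin n)} {i : Fin n} (hi : i ∉ T) (j : Fin n) : Indep i (dv T j) := by
  intro t x
  unfold dv
  split_ifs with hj
  · rw [coord_add_ev (ne_of_mem_of_not_mem hj hi)]
  · rfl

theorem abs_dv_le (T : Finset (Fin n)) (j : Fin n) (x : X n) : |dv T j x| ≤ 1 / 2 := by
  unfold dv
  split_ifs
  · exact abs_dd_le_half _
  · norm_num

theorem sum_dv_sq (T : Finset (Fin n)) (x : X n) : ∑ j, dv T j x ^ 2 = rr T x := by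
  simp only [dv, rr, ite_pow, ne_eq, OfNat.ofNat_ne_zero, not_false_eq_true, zero_pow]
  rw [Finset.sum_ite_mem, Finset.univ_inter]

/-- `round` is locally constant away from the half integers -/
theorem eventually_round {T : Finset (Fin n)} {x : X n} (hx : rr T x < 1 / 4) :
    ∀ᶠ y in 𝓝 x, ∀ j ∈ T, round (y j) = round (x j) := by
  rw [Filter.eventually_all_finset]
  intro j hj
  have h1 : dd (x j) ^ 2 ≤ rr T x :=
    Finset.single_le_sum (f := fun j => dd (x j) ^ 2) (fun _ _ => sq_nonneg _) hj
  have h2 : |x j - round (x j)| < 1 / 2 := by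
    refine abs_lt_of_sq_lt_sq ?_ (by norm_num)
    unfold dd at h1
    linarith
  have h3 : Continuous fun y : X n => |y j - round (x j)| := by fun_prop
  filter_upwards [h3.continuousAt.eventually_lt continuousAt_const h2] with y hy
  rw [abs_lt] at hy
  rw [round_eq, Int.floor_eq_iff]
  constructor <;> linarith

theorem dv_eventuallyEq {T : Finset (Fin n)} {x : X n} (hx : rr T x < 1 / 4) (j : Fin n) :
    dv T j =ᶠ[𝓝 x] fun y => if j ∈ T then y j - round (x j) else 0 := by
  filter_upwards [eventually_round hx] with y hy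
  by_cases hj : j ∈ T
  · simp only [dv, dd, if_pos hj, hy j hj]
  · simp only [dv, if_neg hj]

theorem rr_eq_sum (T : Finset (Fin n)) : rr T = fun x => ∑ j, dv T j x ^ 2 :=
  funext fun x => (sum_dv_sq T x).symm

theorem rr_lt_of_model {T : Finset (Fin n)} {r : ℝ} (h0 : 0 < r) (h1 : r < 1 / 2) {x : X n}
    (hx : x ∈ model T r) : rr T x < 1 / 4 := by
  have : rr T x < r ^ 2 := hx
  nlinarith

theorem contDiffAt_dv {T : Finset (Fin n)} {x : X n} (hx : rr T x < 1 / 4) (j : Fin n) :
    ContDiffAt ℝ ∞ (dv T j) x := by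
  refine ContDiffAt.congr_of_eventuallyEq ?_ (dv_eventuallyEq hx j)
  split_ifs
  · fun_prop
  · exact contDiffAt_const

theorem pd_dv {T : Finset (Fin n)} {x : X n} (hx : rr T x < 1 / 4) (j k : Fin n) :
    pd k (dv T j) x = if j ∈ T ∧ j = k then 1 else 0 := by
  unfold pd
  rw [(dv_eventuallyEq hx j).fderiv_eq]
  by_cases hj : j ∈ T
  · simp only [hj, if_true, true_and]
    have := ((EuclideanSpace.proj (𝕜 := ℝ) j : X n →L[ℝ] ℝ).hasFDerivAt (x := x)).sub_const
      (round (x j) : ℝ)
    rw [show (fun y : X n => y j - round (x j)) =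
      fun y => (EuclideanSpace.proj (𝕜 := ℝ) j : X n →L[ℝ] ℝ) y - round (x j) from rfl, this.fderiv]
    simp [Pi.single_apply]
  · simp [hj]

theorem contDiffAt_rr {T : Finset (Fin n)} {x : X n} (hx : rr T x < 1 / 4) :
    ContDiffAt ℝ ∞ (rr T) x := by
  rw [rr_eq_sum]
  exact ContDiffAt.sum fun j _ => (contDiffAt_dv hx j).pow 2

theorem pd_rr {T : Finset (Fin n)} {x : X n} (hx : rr T x < 1 / 4) (k : Fin n) :
    pd k (rr T) x = 2 * dv T k x := by
  have h1 : ∀ j, HasFDerivAt (dv T j) (fderiv ℝ (dv T j) x) x := fun j =>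
    ((contDiffAt_dv hx j).differentiableAt (by simp)).hasFDerivAt
  have h2 := HasFDerivAt.fun_sum (u := Finset.univ) fun j _ => (h1 j).pow 2
  have h3 := pd_dv hx
  unfold pd at h3 ⊢
  rw [rr_eq_sum, h2.fderiv]
  simp only [ContinuousLinearMap.sum_apply, ContinuousLinearMap.smul_apply, h3, smul_eq_mul]
  rw [Finset.sum_eq_single k]
  · by_cases hk : k ∈ T <;> simp [hk, dv]
  · intro j _ hj
    simp [hj]
  · simp

theorem contDiffAt_hh {T : Finset (Fin n)} {r : ℝ} (h0 : 0 < r) (h1 : r < 1 / 2) {x : X n}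
    (hx : x ∈ model T r) : ContDiffAt ℝ ∞ (hh T r) x := by
  have h2 : rr T x < r ^ 2 := hx
  exact (contDiffAt_const.sub (contDiffAt_rr (rr_lt_of_model h0 h1 hx))).sqrt (by linarith)

theorem pd_hh {T : Finset (Fin n)} {r : ℝ} (h0 : 0 < r) (h1 : r < 1 / 2) {x : X n}
    (hx : x ∈ model T r) (k : Fin n) : pd k (hh T r) x = - (dv T k x / hh T r x) := by
  have h2 : rr T x < r ^ 2 := hx
  have h3 := rr_lt_of_model h0 h1 hx
  have h4 := ((((contDiffAt_rr h3).differentiableAt (by simp)).hasFDerivAt).const_sub (r ^ 2)).sqrt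
    (by linarith)
  have h5 := pd_rr h3 k
  unfold pd at h5 ⊢
  rw [show hh T r = fun y => √(r ^ 2 - rr T y) from rfl, h4.fderiv]
  simp only [ContinuousLinearMap.smul_apply, ContinuousLinearMap.neg_apply, h5, smul_eq_mul]
  ring

theorem sec_model {T : Finset (Fin n)} {i : Fin n} (hi : i ∉ T) (r : ℝ) (x : X n) :
    sec (model (insert i T) r) i x = arc (- x i) (2 * hh T r x) := by
  ext t
  have h1 : rr (insert i T) (x + t • ev i) = dd (x i + t) ^ 2 + rr T x := by
    rw [← indep_rr hi t x]
    unfold rr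
    rw [Finset.sum_insert hi]
    simp
  have h2 : t ∈ sec (model (insert i T) r) i x ↔ |dd (x i + t)| < hh T r x := by
    rw [hh, Real.lt_sqrt (abs_nonneg _), sq_abs, lt_sub_iff_add_lt, ← h1]
    rfl
  rw [h2]
  constructor
  · intro h
    refine ⟨round (x i + t), ?_⟩
    rw [show t - -x i = x i + t by ring, mul_div_cancel_left₀ _ two_ne_zero]
    exact h
  · rintro ⟨k, hk⟩
    rw [show t - -x i = x i + t by ring, mul_div_cancel_left₀ _ two_ne_zero] at hk
    exact (abs_dd_le _ k).trans_lt hk

theorem mem_sec_model {S : Finset (Fin n)} {i : Fin n} (hi : i ∉ S) (r : ℝ) (x : X n) (t : ℝ) :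
    t ∈ sec (model S r) i x ↔ x ∈ model S r := by
  show rr S (x + t • ev i) < r ^ 2 ↔ rr S x < r ^ 2
  rw [indep_rr hi t x]

end Crest.Agent.R214.Rig
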