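import Crest.Agent.R214.RigDefs
import Crest.Agent.R214.BV0Slice

/-! Row 214, module RIG: Fubini for sections. -/

set_option autoImplicit false

open MeasureTheory Set Filter Topology
open scoped ENNReal RealInnerProductSpace ContDiff
open Crest.GeometryTopology.PeriodicPerimeter

noncomputable section

namespace Crest.Agent.R214.Rig

variable {n : ℕ}

variable {E F : Set (X n)}

theorem secA_ae_line_iff {N : Set (X n)} (hN : MeasurableSet N) (i : Fin n) :
    (∀ᵐ x : X n, ∀ᵐ t : ℝ, x + t • ev i ∈ N) ↔ ∀ᵐ x : X n, x ∈ N := by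
  have hm : MeasurableSet {p : X n × ℝ | p.1 + p.2 • ev i ∈ N} :=
    (by fun_prop : Measurable fun p : X n × ℝ => p.1 + p.2 • ev i) hN
  rw [Measure.ae_ae_comm (p := fun (x : X n) (t : ℝ) => x + t • ev i ∈ N) hm]
  constructor
  · intro h
    obtain ⟨t, ht⟩ := h.exists
    have h2 := (measurePreserving_add_right (volume : Measure (X n))
      (-(t • ev i))).quasiMeasurePreserving.ae ht
    filter_upwards [h2] with x hx
    simpa using hx
  · intro h
    refine Eventually.of_forall fun t => ?_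
    exact (measurePreserving_add_right (volume : Measure (X n))
      (t • ev i)).quasiMeasurePreserving.ae h

theorem secA_measurableSet_iff (hE : MeasurableSet E) (hF : MeasurableSet F) :
    MeasurableSet {x | x ∈ E ↔ x ∈ F} :=
  hE.mem.iff hF.mem |>.setOf

/-- `∫⁻ x, ∫⁻ t, 1_N (x + t • ev i) = ∫⁻ t, volume N` with `N = E ∆ F` (Tonelli + translation) -/
theorem ae_eq_of_sec (hE : MeasurableSet E) (hF : MeasurableSet F) (i : Fin n)
    (h : ∀ᵐ x, sec E i x =ᵐ[volume] sec F i x) : E =ᵐ[volume] F := by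
  rw [eventuallyEq_set]
  refine (secA_ae_line_iff (secA_measurableSet_iff hE hF) i).1 ?_
  filter_upwards [h] with x hx
  exact eventuallyEq_set.1 hx

theorem sec_ae_of_ae_eq (hE : MeasurableSet E) (hF : MeasurableSet F) (i : Fin n)
    (h : E =ᵐ[volume] F) : ∀ᵐ x, sec E i x =ᵐ[volume] sec F i x := by
  rw [eventuallyEq_set] at h
  filter_upwards [(secA_ae_line_iff (secA_measurableSet_iff hE hF) i).2 h] with x hx
  exact eventuallyEq_set.2 hx

theorem len_congr {A B : Set ℝ} (h : A =ᵐ[volume] B) : len A = len B := by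
  unfold len
  have h2 : (A ∩ Ico (0 : ℝ) 1 : Set ℝ) =ᵐ[volume] (B ∩ Ico (0 : ℝ) 1 : Set ℝ) :=
    h.inter (ae_eq_refl _)
  rw [measure_congr h2]

theorem len_empty : len ∅ = 0 := by
  simp [len]

theorem len_univ : len univ = 1 := by
  simp [len]

theorem secA_mem_add_int_iff {A : Set ℝ} (hp : ∀ t, t + 1 ∈ A ↔ t ∈ A) (k : ℤ) (t : ℝ) :
    t + k ∈ A ↔ t ∈ A := by
  have h1 : Function.Periodic (fun t => t ∈ A) (1 : ℝ) := fun t => propext (hp t)
  have h2 := h1.int_mul k t
  simp only [mul_one] at h2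
  exact h2.to_iff

theorem ae_empty_of_len {A : Set ℝ} (hA : MeasurableSet A) (hp : ∀ t, t + 1 ∈ A ↔ t ∈ A)
    (h : len A = 0) : A =ᵐ[volume] (∅ : Set ℝ) := by
  rw [ae_eq_empty]
  have hfin : volume (A ∩ Ico (0 : ℝ) 1) ≠ ⊤ :=
    ((measure_mono inter_subset_right).trans_lt (by simp)).ne
  have h0 : volume (A ∩ Ico (0 : ℝ) 1) = 0 := by
    unfold len at h
    rcases (ENNReal.toReal_eq_zero_iff _).1 h with h | h
    · exact h
    · exact absurd h hfin
  have hsub : A ⊆ ⋃ k : ℤ, (fun t : ℝ => t + (k : ℝ)) ⁻¹' (A ∩ Ico (0 : ℝ) 1) := by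
    intro t ht
    refine mem_iUnion.2 ⟨-⌊t⌋, (secA_mem_add_int_iff hp _ t).2 ht, ?_, ?_⟩
    · push_cast; linarith [Int.floor_le t]
    · push_cast; linarith [Int.lt_floor_add_one t]
  refine measure_mono_null hsub (measure_iUnion_null fun k => ?_)
  rw [measure_preimage_add_right]
  exact h0

theorem ae_univ_of_len {A : Set ℝ} (hA : MeasurableSet A) (hp : ∀ t, t + 1 ∈ A ↔ t ∈ A)
    (h : len A = 1) : A =ᵐ[volume] (univ : Set ℝ) := by
  have hfin : volume (A ∩ Ico (0 : ℝ) 1) ≠ ⊤ :=
    ((measure_mono inter_subset_right).trans_lt (by simp)).ne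
  have h1 : volume (A ∩ Ico (0 : ℝ) 1) = 1 := by
    unfold len at h
    exact (ENNReal.toReal_eq_one_iff _).1 h
  have h2 : volume (Ico (0 : ℝ) 1 ∩ A) + volume (Ico (0 : ℝ) 1 \ A) = volume (Ico (0 : ℝ) 1) :=
    measure_inter_add_sdiff _ hA
  have h3 : volume (Aᶜ ∩ Ico (0 : ℝ) 1) = 0 := by
    rw [inter_comm, h1, Real.volume_Ico] at h2
    rw [inter_comm, ← sdiff_eq]
    have h4 : (1 : ℝ≥0∞) + volume (Ico (0 : ℝ) 1 \ A) = 1 + 0 := by simpa using h2
    exact (ENNReal.add_right_inj ENNReal.one_ne_top).1 h4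
  have h5 : len Aᶜ = 0 := by simp [len, h3]
  have h6 := ae_empty_of_len hA.compl (fun t => not_congr (hp t)) h5
  rw [ae_eq_empty] at h6
  exact ae_eq_univ.2 h6

theorem arc_nonpos (c : ℝ) {m : ℝ} (h : m ≤ 0) : arc c m = ∅ := by
  ext t
  simp only [arc, mem_ofPred_eq, mem_empty_iff_false, iff_false, not_exists, not_lt]
  intro k
  linarith [abs_nonneg (t - c - k)]

theorem arc_add_int (c m : ℝ) (k : ℤ) : arc (c + k) m = arc c m := by
  ext t
  simp only [arc, mem_ofPred_eq]
  constructor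
  · rintro ⟨j, hj⟩
    refine ⟨j + k, ?_⟩
    have : t - c - ((j + k : ℤ) : ℝ) = t - (c + k) - j := by push_cast; ring
    rwa [this]
  · rintro ⟨j, hj⟩
    refine ⟨j - k, ?_⟩
    have : t - (c + k) - ((j - k : ℤ) : ℝ) = t - c - j := by push_cast; ring
    rwa [this]

theorem secA_fderiv_indep {G : Type*} [NormedAddCommGroup G] [NormedSpace ℝ G] {f : X n → G} {i : Fin n}
    (hf : Indep i f) : Indep i (fderiv ℝ f) := by
  intro t x
  rw [← fderiv_comp_add_right (t • ev i)]
  congr 1
  exact funext fun y => hf t y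

theorem pd_indep {f : X n → ℝ} {i : Fin n} (hf : Indep i f) (j : Fin n) : Indep i (pd j f) := by
  intro t x
  show fderiv ℝ f (x + t • ev i) (ev j) = fderiv ℝ f x (ev j)
  rw [secA_fderiv_indep hf t x]

theorem pd_eq_zero_of_indep {f : X n → ℝ} {i : Fin n} (hf : Indep i f) (x : X n) :
    pd i f x = 0 := by
  by_cases hd : DifferentiableAt ℝ f x
  · have h1 : HasLineDerivAt ℝ f (fderiv ℝ f x (ev i)) x (ev i) := hd.hasFDerivAt.hasLineDerivAt _
    have h2 : HasLineDerivAt ℝ f 0 x (ev i) := by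
      unfold HasLineDerivAt
      have : (fun t : ℝ => f (x + t • ev i)) = fun _ => f x := funext fun t => hf t x
      rw [this]
      exact hasDerivAt_const _ _
    exact h1.unique h2
  · show fderiv ℝ f x (ev i) = 0
    rw [fderiv_zero_of_not_differentiableAt hd]
    rfl

theorem divergence_indep {φ : X n → X n} {i : Fin n} (hf : Indep i φ) :
    Indep i (divergence φ) := by
  intro t x
  unfold divergence
  rw [secA_fderiv_indep hf t x]

/-- Fubini along `ev i` (`integral_cell_avg` applied to `chi E * f`) -/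
theorem setIntegral_sec (hE : MeasurableSet E) (hp : IsLatticePeriodic E) (i : Fin n)
    {f : X n → ℝ} (hf : Per f) (mf : Measurable f) {C : ℝ} (hC : ∀ x, ‖f x‖ ≤ C) :
    ∫ x in E ∩ unitCell n, f x =
      ∫ x in unitCell n, ∫ t in sec E i x ∩ Ico (0 : ℝ) 1, f (x + t • ev i) := by
  have hper : Per (E.indicator f) := by
    intro v hv x
    by_cases h : x ∈ E
    · rw [indicator_of_mem h, indicator_of_mem ((hp v hv x).2 h), hf v hv]
    · rw [indicator_of_notMem h, indicator_of_notMem fun k => h ((hp v hv x).1 k)]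
  have h := integral_cell_avg hper (mf.indicator hE).stronglyMeasurable
    (fun x => (norm_indicator_le_norm_self _ _).trans (hC x)) i
  rw [inter_comm, ← setIntegral_indicator hE, ← h]
  refine integral_congr_ae (Eventually.of_forall fun x => ?_)
  show _ = ∫ t in sec E i x ∩ Ico (0 : ℝ) 1, f (x + t • ev i)
  rw [inter_comm, ← setIntegral_indicator (measurableSet_sec hE i x)]
  rfl

theorem setIntegral_indep (hE : MeasurableSet E) (hp : IsLatticePeriodic E) (i : Fin n)
    {g : X n → ℝ} (hg : Per g) (mg : Measurable g) {C : ℝ} (hC : ∀ x, ‖g x‖ ≤ C) (hi : Indep i g) :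
    ∫ x in E ∩ unitCell n, g x = ∫ x in unitCell n, g x * len (sec E i x) := by
  rw [setIntegral_sec hE hp i hg mg hC]
  refine integral_congr_ae (Eventually.of_forall fun x => ?_)
  simp only [hi _ x]
  rw [setIntegral_const, smul_eq_mul, mul_comm]
  rfl

private theorem secB_inter (c : ℝ) {m : ℝ} (h1 : m ≤ 1) :
    Ioc (c - 1 / 2) (c - 1 / 2 + 1) ∩ arc c m = Ioo (c - m / 2) (c + m / 2) := by
  ext t
  constructor
  · rintro ⟨⟨k1, k2⟩, k, hk⟩
    rw [abs_lt] at hk
    have a1 : (k : ℝ) < 1 := by linarith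
    have a2 : (-1 : ℝ) < k := by linarith
    have a3 : k < 1 := by exact_mod_cast a1
    have a4 : -1 < k := by exact_mod_cast a2
    obtain rfl : k = 0 := by omega
    push_cast at hk
    constructor <;> linarith
  · rintro ⟨k1, k2⟩
    refine ⟨⟨by linarith, by linarith⟩, 0, ?_⟩
    rw [abs_lt]
    push_cast
    constructor <;> linarith

/-- integral of a continuous periodic function over one period of an arc -/
theorem integral_arc {u : ℝ → ℝ} (hu : Continuous u) (hp : ∀ t, u (t + 1) = u t) (c : ℝ) {m : ℝ}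
    (h0 : 0 ≤ m) (h1 : m ≤ 1) :
    ∫ t in arc c m ∩ Ico (0 : ℝ) 1, u t = ∫ t in (c - m / 2)..(c + m / 2), u t := by
  have hper : Function.Periodic ((arc c m).indicator u) 1 := by
    intro t
    by_cases h : t ∈ arc c m
    · rw [indicator_of_mem h, indicator_of_mem ((arc_add_one c m t).2 h), hp]
    · rw [indicator_of_notMem h, indicator_of_notMem fun k => h ((arc_add_one c m t).1 k)]
  have h := hper.intervalIntegral_add_eq 0 (c - 1 / 2)
  rw [intervalIntegral.integral_of_le (by linarith), intervalIntegral.integral_of_le (by linarith),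
    setIntegral_indicator (measurableSet_arc c m), setIntegral_indicator (measurableSet_arc c m),
    secB_inter c h1, zero_add] at h
  rw [intervalIntegral.integral_of_le (by linarith), integral_Ioc_eq_integral_Ioo, ← h, inter_comm]
  exact setIntegral_congr_set (Ico_ae_eq_Ioc.inter (ae_eq_refl _))

theorem integral_arc_cos (c a : ℝ) {m : ℝ} (h0 : 0 ≤ m) (h1 : m ≤ 1) :
    ∫ t in arc c m ∩ Ico (0 : ℝ) 1, Real.cos (2 * Real.pi * (t - a)) =
      Real.sin (Real.pi * m) / Real.pi * Real.cos (2 * Real.pi * (c - a)) := by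
  have hpi := Real.pi_pos.ne'
  rw [integral_arc (u := fun t => Real.cos (2 * Real.pi * (t - a))) (by fun_prop) (fun t => by
    rw [show 2 * Real.pi * (t + 1 - a) = 2 * Real.pi * (t - a) + 2 * Real.pi by ring,
      Real.cos_add_two_pi]) c h0 h1]
  have hd : ∀ t ∈ uIcc (c - m / 2) (c + m / 2), HasDerivAt
      (fun t => Real.sin (2 * Real.pi * (t - a)) / (2 * Real.pi))
      (Real.cos (2 * Real.pi * (t - a))) t := fun t _ => by
    have := ((((hasDerivAt_id t).sub_const a).const_mul (2 * Real.pi)).sin).div_const (2 * Real.pi)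
    refine this.congr_deriv ?_
    simp only [id]
    field_simp
  rw [intervalIntegral.integral_eq_sub_of_hasDerivAt hd (Continuous.intervalIntegrable (by fun_prop) _ _),
    show 2 * Real.pi * (c + m / 2 - a) = 2 * Real.pi * (c - a) + Real.pi * m by ring,
    show 2 * Real.pi * (c - m / 2 - a) = 2 * Real.pi * (c - a) - Real.pi * m by ring,
    Real.sin_add, Real.sin_sub]
  field_simp
  ring

/-- two angles with the same cosine and sine differ by an integer number of turns -/
theorem exists_int_of_cos_sin {b t : ℝ}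
    (h0 : Real.cos (2 * Real.pi * (b - 0)) = Real.cos (2 * Real.pi * (t - 0)))
    (h1 : Real.cos (2 * Real.pi * (b - 1 / 4)) = Real.cos (2 * Real.pi * (t - 1 / 4))) :
    ∃ k : ℤ, b = t + k := by
  rw [sub_zero, sub_zero] at h0
  rw [show 2 * Real.pi * (b - 1 / 4) = 2 * Real.pi * b - Real.pi / 2 by ring,
    show 2 * Real.pi * (t - 1 / 4) = 2 * Real.pi * t - Real.pi / 2 by ring,
    Real.cos_sub_pi_div_two, Real.cos_sub_pi_div_two] at h1
  have h : Real.cos (2 * Real.pi * b - 2 * Real.pi * t) = 1 := by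
    rw [Real.cos_sub, h0, h1]
    linarith [Real.sin_sq_add_cos_sq (2 * Real.pi * t)]
  obtain ⟨k, hk⟩ := (Real.cos_eq_one_iff _).1 h
  refine ⟨k, mul_left_cancel₀ (by positivity : 2 * Real.pi ≠ 0) ?_⟩
  linarith

end Crest.Agent.R214.Rig
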