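import Crest.Agent.R214.RigField
import Crest.Agent.R214.RigSec
import Crest.Agent.R214.BV0Per

/-! Row 214, module RIG: the calibration inequality and its equality case. -/

set_option autoImplicit false

open MeasureTheory Set Filter Topology
open scoped ENNReal RealInnerProductSpace ContDiff
open Crest.GeometryTopology.PeriodicPerimeter

noncomputable section

namespace Crest.Agent.R214.Rig

variable {n : ℕ}

variable {E : Set (X n)} {μ : Measure (X n)} {w : X n → X n} {T : Finset (Fin n)} {i : Fin n} {r : ℝ}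

/-- the defect in the Cauchy-Schwarz inequality -/
def defect (T : Finset (Fin n)) (i : Fin n) (r : ℝ) (x v : X n) : ℝ :=
  r * ‖v‖ - ∑ j, dv T j x * v j - hh T r x * |v i|

theorem calA_exists (hi : i ∉ T) (h0 : 0 < r) {x : X n} (hx : x ∈ model T r) (v : X n) :
    ∃ (u : X n) (s : ℝ), s * s = 1 ∧ s * v i = |v i| ∧ u i = hh T r x * s ∧
      (∀ j ≠ i, u j = dv T j x) ∧ ‖u‖ = r ∧
      ⟪u, v⟫ = ∑ j, dv T j x * v j + hh T r x * |v i| := by
  obtain ⟨s, hs1, hs2⟩ : ∃ s : ℝ, s * s = 1 ∧ s * v i = |v i| := by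
    rcases le_total 0 (v i) with h | h
    · exact ⟨1, by norm_num, by rw [one_mul, abs_of_nonneg h]⟩
    · exact ⟨-1, by norm_num, by rw [abs_of_nonpos h]; ring⟩
  have hdi : dv T i x = 0 := by simp [dv, hi]
  let u : X n := WithLp.toLp 2 fun j => dv T j x + if j = i then hh T r x * s else 0
  have hu : ∀ j, u j = dv T j x + if j = i then hh T r x * s else 0 := fun j => rfl
  refine ⟨u, s, hs1, hs2, by rw [hu, hdi]; simp, fun j hj => by rw [hu]; simp [hj], ?_, ?_⟩
  · have e : ‖u‖ ^ 2 = r ^ 2 := by
      rw [EuclideanSpace.norm_sq_eq]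
      have e1 : ∀ j, ‖u j‖ ^ 2 = dv T j x ^ 2 + if j = i then hh T r x ^ 2 else 0 := by
        intro j
        rw [Real.norm_eq_abs, sq_abs, hu]
        by_cases hj : j = i
        · subst hj
          rw [hdi]
          simp only [if_true]
          nlinarith [hs1]
        · simp [hj]
      simp only [e1, Finset.sum_add_distrib, Finset.sum_ite_eq', Finset.mem_univ, if_true]
      rw [sum_dv_sq, hh_sq hx]
      ring
    exact (pow_left_inj₀ (norm_nonneg _) h0.le two_ne_zero).1 e
  · rw [PiLp.inner_apply]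
    have e1 : ∀ j, ⟪u j, v j⟫ = dv T j x * v j + if j = i then hh T r x * |v i| else 0 := by
      intro j
      rw [hu]
      by_cases hj : j = i
      · subst hj
        simp only [if_true, ← hs2]
        simp only [RCLike.inner_apply, conj_trivial]
        ring
      · simp only [hj, if_false, add_zero, RCLike.inner_apply, conj_trivial]
        ring
    simp only [e1, Finset.sum_add_distrib, Finset.sum_ite_eq', Finset.mem_univ, if_true]

theorem defect_nonneg (hi : i ∉ T) (h0 : 0 < r) {x : X n} (hx : x ∈ model T r) (v : X n) :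
    0 ≤ defect T i r x v := by
  obtain ⟨u, s, -, -, -, -, hn, hin⟩ := calA_exists hi h0 hx v
  have := real_inner_le_norm u v
  rw [hn, hin] at this
  unfold defect
  linarith

theorem eq_of_defect (hi : i ∉ T) (h0 : 0 < r) {x : X n} (hx : x ∈ model T r) {v : X n}
    (h : defect T i r x v = 0) {j : Fin n} (hj : j ≠ i) :
    v j * hh T r x = dv T j x * |v i| := by
  obtain ⟨u, s, hs1, hs2, hui, huj, hn, hin⟩ := calA_exists hi h0 hx v
  have e : ⟪u, v⟫ = ‖u‖ * ‖v‖ := by
    rw [hn, hin]
    unfold defect at h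
    linarith
  have e2 := inner_eq_norm_mul_iff_real.1 e
  have e3 : ∀ k, ‖v‖ * u k = r * v k := by
    intro k
    have := congrArg (fun z : X n => z k) e2
    simpa [hn] using this
  have a1 := e3 j
  have a2 := e3 i
  rw [huj j hj] at a1
  rw [hui] at a2
  have a3 : r * |v i| = ‖v‖ * hh T r x := by
    rw [← hs2]
    calc r * (s * v i) = s * (r * v i) := by ring
      _ = s * (‖v‖ * (hh T r x * s)) := by rw [a2]
      _ = ‖v‖ * hh T r x * (s * s) := by ring
      _ = ‖v‖ * hh T r x := by rw [hs1, mul_one]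
  refine mul_left_cancel₀ h0.ne' ?_
  calc r * (v j * hh T r x) = (r * v j) * hh T r x := by ring
    _ = ‖v‖ * dv T j x * hh T r x := by rw [a1]
    _ = dv T j x * (‖v‖ * hh T r x) := by ring
    _ = r * (dv T j x * |v i|) := by rw [← a3]; ring

theorem volume_eq (hE : MeasurableSet E) (hp : IsLatticePeriodic E)
    (hlen : ∀ᵐ x, len (sec E i x) = 2 * hh T r x) :
    periodicVolume E = ∫ x in unitCell n, 2 * hh T r x := by
  rw [← integral_len_sec hE hp i]
  exact integral_congr_ae (ae_restrict_of_ae hlen)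

theorem cal_ineq (h : GG E μ w) (hE : MeasurableSet E) (hp : IsLatticePeriodic E) (hi : i ∉ T)
    (h0 : 0 < r) (h1 : r < 1 / 2) (hlen : ∀ᵐ x, len (sec E i x) = 2 * hh T r x) :
    ∫ x in model T r, defect T i r x (w x) ∂μ + ∫ x, hh T r x * |w x i| ∂μ ≤
      r * ∫ x, ‖w x‖ ∂μ - T.card * periodicVolume E := by
  haveI := h.fin
  have mM : MeasurableSet (model T r) := (isOpen_model T r).measurableSet
  have iw : Integrable (fun x => ‖w x‖) μ := h.int.norm
  have iwi : ∀ j, Integrable (fun x => w x j) μ := fun j => sliceB_integrable_coord h j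
  have ihw : Integrable (fun x => hh T r x * |w x i|) μ :=
    (iwi i).abs.bdd_mul (continuous_hh T r).aestronglyMeasurable (c := r)
      (Eventually.of_forall fun x => by
        rw [Real.norm_eq_abs, abs_of_nonneg (hh_nonneg T r x)]; exact hh_le T h0.le x)
  have idv : Integrable (fun x => ∑ j, dv T j x * w x j) μ :=
    integrable_finset_sum _ fun j _ =>
      (iwi j).bdd_mul (measurable_dv T j).aestronglyMeasurable (c := 1 / 2)
        (Eventually.of_forall fun x => by rw [Real.norm_eq_abs]; exact abs_dv_le T j x)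
  have idf : Integrable (fun x => defect T i r x (w x)) μ :=
    ((iw.const_mul r).sub idv).sub ihw
  -- the inequality with an error
  have key : ∀ ε : ℝ, 0 < ε → ε < 1 →
      ∫ x in model T r, defect T i r x (w x) ∂μ + ∫ x, hh T r x * |w x i| ∂μ ≤
        r * ∫ x, ‖w x‖ ∂μ - T.card * periodicVolume E +
          ε * (r * ∫ x, ‖w x‖ ∂μ + T.card * periodicVolume E) := by
    intro ε e0 e1
    obtain ⟨φ, hd, hpφ, hI, hn1, hφ, hdiv⟩ := exists_field T h0 h1 e0 e1
    have cdiv := continuous_divergence hd
    obtain ⟨C, hC⟩ := hpφ.divergence.bounded cdiv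
    have iφ : Integrable (fun x => ⟪φ x, w x⟫) μ :=
      iw.mono' (perA_meas h.meas hd).aestronglyMeasurable (Eventually.of_forall fun x =>
        (norm_inner_le_norm _ _).trans (mul_le_of_le_one_left (norm_nonneg _) (hn1 x)))
    have e2 : ∫ x, ⟪φ x, w x⟫ ∂μ = (1 - ε) * T.card / r * periodicVolume E := by
      rw [← h.eq φ hd hpφ, setIntegral_indep hE hp i hpφ.divergence cdiv.measurable hC
        (divergence_indep (hI i hi)), volume_eq hE hp hlen, ← integral_const_mul]
      refine integral_congr_ae (ae_restrict_of_ae (hlen.mono fun x hx => ?_))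
      simp only [hx]
      by_cases hm : x ∈ model T r
      · rw [hdiv x hm]
      · have : hh T r x = 0 :=
          le_antisymm (not_lt.1 fun h' => hm ((hh_pos_iff T r x).1 h')) (hh_nonneg T r x)
        simp [this]
    have pt : ∀ x, (model T r).indicator (fun x => defect T i r x (w x)) x + hh T r x * |w x i| ≤
        r * ‖w x‖ - r * ⟪φ x, w x⟫ + ε * (r * ‖w x‖) := by
      intro x
      by_cases hm : x ∈ model T r
      · rw [indicator_of_mem hm]
        have e3 : r * ⟪φ x, w x⟫ = (1 - ε) * ∑ j, dv T j x * w x j := by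
          rw [PiLp.inner_apply, Finset.mul_sum, Finset.mul_sum]
          refine Finset.sum_congr rfl fun j _ => ?_
          rw [hφ x hm j]
          simp only [RCLike.inner_apply, conj_trivial]
          field_simp
        have e4 := defect_nonneg hi h0 hm (-w x)
        unfold defect at e4 ⊢
        simp only [norm_neg, PiLp.neg_apply, mul_neg, Finset.sum_neg_distrib, abs_neg] at e4
        have e5 : 0 ≤ hh T r x * |w x i| := mul_nonneg (hh_nonneg T r x) (abs_nonneg _)
        rw [e3]
        nlinarith [mul_nonneg e0.le (add_nonneg e4 e5)]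
      · have h' : hh T r x = 0 :=
          le_antisymm (not_lt.1 fun h' => hm ((hh_pos_iff T r x).1 h')) (hh_nonneg T r x)
        rw [indicator_of_notMem hm, h']
        have e3 : ⟪φ x, w x⟫ ≤ ‖w x‖ :=
          (real_inner_le_norm _ _).trans (mul_le_of_le_one_left (norm_nonneg _) (hn1 x))
        have e4 : 0 ≤ ε * (r * ‖w x‖) := by positivity
        nlinarith [mul_le_mul_of_nonneg_left e3 h0.le]
    have is : Integrable (fun x => r * ‖w x‖ - r * ⟪φ x, w x⟫) μ :=
      (iw.const_mul r).sub (iφ.const_mul r)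
    have e6 := integral_mono ((idf.indicator mM).add ihw)
      (is.add ((iw.const_mul r).const_mul ε)) pt
    simp only [Pi.add_apply] at e6
    rw [integral_add (idf.indicator mM) ihw, integral_indicator mM,
      integral_add is ((iw.const_mul r).const_mul ε),
      integral_sub (iw.const_mul r) (iφ.const_mul r), integral_const_mul, integral_const_mul,
      integral_const_mul, integral_const_mul, e2] at e6
    have e7 : r * ((1 - ε) * T.card / r * periodicVolume E) =
        (1 - ε) * T.card * periodicVolume E := by field_simp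
    rw [e7] at e6
    linarith
  have lim : Tendsto (fun ε : ℝ => r * ∫ x, ‖w x‖ ∂μ - T.card * periodicVolume E +
      ε * (r * ∫ x, ‖w x‖ ∂μ + T.card * periodicVolume E)) (𝓝[>] 0)
      (𝓝 (r * ∫ x, ‖w x‖ ∂μ - T.card * periodicVolume E +
        0 * (r * ∫ x, ‖w x‖ ∂μ + T.card * periodicVolume E))) :=
    (tendsto_const_nhds.add (tendsto_id.mul tendsto_const_nhds)).mono_left nhdsWithin_le_nhds
  rw [zero_mul, add_zero] at lim
  refine ge_of_tendsto lim ?_
  filter_upwards [Ioo_mem_nhdsGT (zero_lt_one' ℝ)] with ε hε using key ε hε.1 hε.2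

theorem cal (h : GG E μ w) (hE : MeasurableSet E) (hp : IsLatticePeriodic E) (hi : i ∉ T)
    (h0 : 0 < r) (h1 : r < 1 / 2) (hlen : ∀ᵐ x, len (sec E i x) = 2 * hh T r x)
    (hP : r * ∫ x, ‖w x‖ ∂μ ≤ (T.card + 1) * periodicVolume E) :
    (∀ᵐ x ∂μ, x ∈ model T r → ∀ j ≠ i, w x j * hh T r x = dv T j x * |w x i|) ∧
    (∀ᵐ x, ∃ c, sec E i x =ᵐ[volume] arc c (2 * hh T r x)) ∧
    ∫ x, hh T r x * |w x i| ∂μ ≤ ∫ x in unitCell n, 2 * hh T r x := by
  have := h.fin
  have iw : ∀ j, Integrable (fun x => w x j) μ := fun j => sliceB_integrable_coord h j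
  have mh : Measurable (hh T r : X n → ℝ) := (continuous_hh T r).measurable
  have iB : Integrable (fun x => hh T r x * |w x i|) μ :=
    (iw i).abs.bdd_mul (c := r) mh.aestronglyMeasurable (ae_of_all _ fun x => by
      rw [Real.norm_of_nonneg (hh_nonneg T r x)]; exact hh_le T h0.le x)
  have iD : Integrable (fun x => defect T i r x (w x)) μ :=
    ((h.int.norm.const_mul r).sub (integrable_finsetSum _ fun j _ =>
      (iw j).bdd_mul (c := 1 / 2) (measurable_dv T j).aestronglyMeasurable
        (ae_of_all _ fun x => abs_dv_le T j x))).sub iB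
  have mM : MeasurableSet (model T r : Set (X n)) := (isOpen_model T r).measurableSet
  have hA0 : 0 ≤ ∫ x in model T r, defect T i r x (w x) ∂μ :=
    setIntegral_nonneg mM fun x hx => defect_nonneg hi h0 hx _
  have hc := cal_ineq h hE hp hi h0 h1 hlen
  have hV := volume_eq hE hp hlen
  have hB : ∫ x, hh T r x * |w x i| ∂μ ≤ ∫ x in unitCell n, 2 * hh T r x := by
    rw [← hV]; linarith
  have hB0 : 0 ≤ ∫ x, hh T r x * |w x i| ∂μ :=
    integral_nonneg fun x => mul_nonneg (hh_nonneg T r x) (abs_nonneg _)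
  have s1 := h.slice_le hE hp i (g := fun x => ENNReal.ofReal (hh T r x))
    (fun v hv x => by simp only [per_hh T r v hv x]) mh.ennreal_ofReal
    (fun t x => by simp only [indep_hh hi r t x])
  have s2 : ∫⁻ x, ENNReal.ofReal (hh T r x) * ‖w x i‖ₑ ∂μ =
      ENNReal.ofReal (∫ x, hh T r x * |w x i| ∂μ) := by
    rw [ofReal_integral_eq_lintegral_ofReal iB
      (ae_of_all _ fun x => mul_nonneg (hh_nonneg T r x) (abs_nonneg _))]
    refine lintegral_congr fun x => ?_
    rw [ENNReal.ofReal_mul (hh_nonneg T r x), Real.enorm_eq_ofReal_abs]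
  have i2 : Integrable (fun x : X n => 2 * hh T r x) (volume.restrict (unitCell n)) :=
    Per.integrable (f := fun x : X n => 2 * hh T r x) (fun v hv x => by
      simp only [per_hh T r v hv x]) (continuous_const.mul (continuous_hh T r)) _
  have s3 : ENNReal.ofReal (∫ x in unitCell n, 2 * hh T r x) =
      ∫⁻ x in unitCell n, ENNReal.ofReal (2 * hh T r x) :=
    ofReal_integral_eq_lintegral_ofReal i2
      (ae_of_all _ fun x => mul_nonneg zero_le_two (hh_nonneg T r x))
  have s4 : ∀ᵐ x, ENNReal.ofReal (2 * hh T r x) ≤ ENNReal.ofReal (hh T r x) * V1 (sec E i x) := by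
    filter_upwards [hlen] with x hx
    rcases (hh_nonneg T r x).eq_or_lt with h2 | h2
    · simp [← h2]
    · have := two_le_V1 (measurableSet_sec hE i x) (sec_add_one hp i x) (by linarith)
        (by linarith [hh_le T h0.le x])
      rw [mul_comm 2, ENNReal.ofReal_mul h2.le, ENNReal.ofReal_ofNat]
      exact mul_le_mul_right this _
  have s5 := lintegral_mono_ae (ae_restrict_of_ae (s := unitCell n) s4)
  have hVB : ∫ x in unitCell n, 2 * hh T r x ≤ ∫ x, hh T r x * |w x i| ∂μ := by
    rw [← ENNReal.ofReal_le_ofReal_iff hB0, s3, ← s2]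
    exact s5.trans s1
  refine ⟨?_, ?_, hB⟩
  · have hA : ∫ x in model T r, defect T i r x (w x) ∂μ = 0 := by
      refine le_antisymm ?_ hA0
      rw [← hV] at hVB; linarith
    have := (setIntegral_eq_zero_iff_of_nonneg_ae ((ae_restrict_iff' mM).2
      (ae_of_all _ fun x hx => defect_nonneg hi h0 hx (w x))) iD.integrableOn).1 hA
    filter_upwards [(ae_restrict_iff' mM).1 this] with x hx hm j hj
    exact eq_of_defect hi h0 hm (hx hm) hj
  · have s6 := ae_eq_of_ae_le_of_lintegral_le (ae_restrict_of_ae (s := unitCell n) s4)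
      (by rw [← s3]; exact ENNReal.ofReal_ne_top)
      (mh.ennreal_ofReal.mul (measurable_V1_sec hE i)).aemeasurable
      (by rw [← s3]; exact (s1.trans_eq s2).trans (ENNReal.ofReal_le_ofReal hB))
    have s7 : ∀ᵐ x, ENNReal.ofReal (2 * hh T r x) = ENNReal.ofReal (hh T r x) * V1 (sec E i x) := by
      refine null_of_cell (N := {x | ¬ ENNReal.ofReal (2 * hh T r x) =
        ENNReal.ofReal (hh T r x) * V1 (sec E i x)}) (fun v hv x => ?_) ?_
      · simp only [mem_ofPred_eq, per_hh T r v hv x, per_sec hp i v hv x]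
      · have := (ae_restrict_iff' measurableSet_unitCell).1 s6
        refine measure_mono_null ?_ (ae_iff.1 this)
        exact fun x hx hx' => hx.1 (hx' hx.2)
    filter_upwards [hlen, s7] with x hx h7
    rcases (hh_nonneg T r x).eq_or_lt with h2 | h2
    · refine ⟨0, ?_⟩
      rw [arc_nonpos 0 (by linarith)]
      exact ae_empty_of_len (measurableSet_sec hE i x) (sec_add_one hp i x) (by linarith)
    · rw [← hx]
      refine arc_of_V1_lt (measurableSet_sec hE i x) (sec_add_one hp i x) ?_
      rw [mul_comm 2, ENNReal.ofReal_mul h2.le, ENNReal.ofReal_ofNat] at h7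
      rw [← (ENNReal.mul_right_inj (by simpa using h2) ENNReal.ofReal_ne_top).1 h7]
      norm_num

end Crest.Agent.R214.Rig
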