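import Crest.Agent.R214.RigBasic
import Crest.Agent.R214.MoInv

/-! Row 214, module RIG: the models of the statement are the sets `modelAt`. -/

set_option autoImplicit false

open MeasureTheory Set Filter Topology
open scoped ENNReal RealInnerProductSpace ContDiff
open Crest.GeometryTopology.PeriodicPerimeter

noncomputable section

namespace Crest.Agent.R214.Rig

variable {n : ℕ}

theorem cong_sq_le (s : ℝ) (k : ℤ) : dd s ^ 2 ≤ (s - k) ^ 2 :=
  sq_le_sq.2 (abs_dd_le s k)

theorem cong_dd_neg (s : ℝ) : dd (-s) ^ 2 = dd s ^ 2 := by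
  have key : ∀ s : ℝ, dd (-s) ^ 2 ≤ dd s ^ 2 := fun s => by
    refine (cong_sq_le _ (-round s)).trans_eq ?_
    rw [dd]
    push_cast
    ring
  exact le_antisymm (key s) (by simpa using key (-s))

/-- the image of a model under a cubic isometry -/
theorem cong_image {g : X n → X n} {σ : Equiv.Perm (Fin n)} {ε : Fin n → ℝ} {c : X n}
    (hε : ∀ i, ε i = 1 ∨ ε i = -1) (hg : ∀ x, ∀ i, g x i = ε i * x (σ i) + c i)
    (S : Finset (Fin n)) (c' : X n) (r : ℝ) :
    g '' modelAt S c' r = modelAt (S.map σ.symm.toEmbedding) (g c') r := by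
  obtain ⟨h, -, h1, h2⟩ := Mo.cubic_inv (g := g) ⟨σ, ε, c, hε, hg⟩
  have key : ∀ x, rr (S.map σ.symm.toEmbedding) (g x - g c') = rr S (x - c') := fun x => by
    unfold rr
    rw [Finset.sum_map]
    refine Finset.sum_congr rfl fun j _ => ?_
    have e : (g x - g c') (σ.symm.toEmbedding j) = ε (σ.symm j) * (x - c') j := by
      simp only [Equiv.coe_toEmbedding, PiLp.sub_apply, hg, Equiv.apply_symm_apply]
      ring
    rw [e]
    rcases hε (σ.symm j) with h | h
    · rw [h, one_mul]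
    · rw [h, neg_one_mul, cong_dd_neg]
  ext y
  constructor
  · rintro ⟨x, hx, rfl⟩
    change rr _ (g x - g c') < r ^ 2
    rw [key]
    exact hx
  · intro hy
    refine ⟨h y, ?_, h2 y⟩
    change rr S (h y - c') < r ^ 2
    rw [← key, h2 y]
    exact hy

theorem cong_image_ae {g : X n → X n} (hg : IsCubicIsometry g) {A B : Set (X n)}
    (h : A =ᵐ[volume] B) : g '' A =ᵐ[volume] g '' B := by
  obtain ⟨k, hk, h1, h2⟩ := Mo.cubic_inv hg
  rw [Set.image_eq_preimage_of_inverse h1 h2]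
  exact (Mo.cubic_measurePreserving hk).quasiMeasurePreserving.preimage_ae_eq h

/-- congruence to a set that is a.e. a model -/
theorem cong_iff {M : Set (X n)} {S : Finset (Fin n)} {c' : X n} {r : ℝ}
    (hM : M =ᵐ[volume] modelAt S c' r) (F : Set (X n)) :
    CongruentModNull F M ↔
      ∃ (σ : Equiv.Perm (Fin n)) (c : X n), F =ᵐ[volume] modelAt (S.map σ.toEmbedding) c r := by
  constructor
  · rintro ⟨g, hg, h⟩
    have h1 := (measure_symmDiff_eq_zero_iff.1 h).trans (cong_image_ae hg hM)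
    obtain ⟨σ, ε, c, hε, hg'⟩ := hg
    rw [cong_image hε hg'] at h1
    exact ⟨σ.symm, _, h1⟩
  · rintro ⟨σ, c, h⟩
    let g : X n → X n := fun x => WithLp.toLp 2 fun i => 1 * x (σ.symm i) + (c i - c' (σ.symm i))
    have hg' : ∀ x, ∀ i, g x i = (fun _ => (1 : ℝ)) i * x (σ.symm i) +
        (WithLp.toLp 2 (fun i => c i - c' (σ.symm i)) : X n) i := fun x i => rfl
    have hε : ∀ i : Fin n, (fun _ => (1 : ℝ)) i = 1 ∨ (fun _ => (1 : ℝ)) i = -1 :=
      fun _ => Or.inl rfl
    have hg : IsCubicIsometry g := ⟨σ.symm, _, _, hε, hg'⟩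
    have hc : g c' = c := by
      ext i
      simp [g]
    refine ⟨g, hg, measure_symmDiff_eq_zero_iff.2 (h.trans ?_)⟩
    have h1 := cong_image_ae hg hM
    rw [cong_image hε hg', hc, Equiv.symm_symm] at h1
    exact h1.symm

theorem cong_modelAt_zero (S : Finset (Fin n)) (r : ℝ) : modelAt S 0 r = model S r := by
  ext x
  simp [modelAt]

theorem cong_ball {r : ℝ} (h0 : 0 < r) :
    periodicBall r = modelAt (Finset.univ : Finset (Fin 3)) 0 r := by
  rw [cong_modelAt_zero]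
  ext x
  change (∃ v : X 3, HasIntegerCoords v ∧ dist x v < r) ↔ rr Finset.univ x < r ^ 2
  constructor
  · rintro ⟨v, hv, h⟩
    rw [EuclideanSpace.dist_eq, Real.sqrt_lt' h0] at h
    refine lt_of_le_of_lt (Finset.sum_le_sum fun j _ => ?_) h
    obtain ⟨m, hm⟩ := hv j
    rw [Real.dist_eq, sq_abs, hm]
    exact cong_sq_le _ m
  · intro h
    refine ⟨WithLp.toLp 2 fun j => (round (x j) : ℝ), fun j => ⟨round (x j), rfl⟩, ?_⟩
    rw [EuclideanSpace.dist_eq, Real.sqrt_lt' h0]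
    refine lt_of_eq_of_lt (Finset.sum_congr rfl fun j _ => ?_) h
    rw [Real.dist_eq, sq_abs]
    rfl

theorem cong_tube (r : ℝ) :
    periodicTube r = modelAt (Finset.univ.erase (2 : Fin 3)) 0 r := by
  rw [cong_modelAt_zero]
  ext x
  have e : rr (Finset.univ.erase (2 : Fin 3)) x = dd (x 0) ^ 2 + dd (x 1) ^ 2 := by
    have : Finset.univ.erase (2 : Fin 3) = {0, 1} := by decide
    rw [this, rr, Finset.sum_pair (by decide)]
  change (∃ a b : ℤ, (x 0 - a) ^ 2 + (x 1 - b) ^ 2 < r ^ 2) ↔ rr _ x < r ^ 2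
  rw [e]
  constructor
  · rintro ⟨a, b, h⟩
    exact lt_of_le_of_lt (add_le_add (cong_sq_le _ a) (cong_sq_le _ b)) h
  · intro h
    exact ⟨round (x 0), round (x 1), h⟩

theorem cong_null (a : ℝ) : volume {x : X 3 | x 0 = a} = 0 := by
  have h := (PiLp.volume_preserving_ofLp (Fin 3)).measure_preimage
    (s := {y : Fin 3 → ℝ | y 0 = a})
    (measurableSet_eq_fun (measurable_pi_apply 0) measurable_const).nullMeasurableSet
  rw [show {x : X 3 | x 0 = a} = WithLp.ofLp ⁻¹' {y : Fin 3 → ℝ | y 0 = a} from rfl, h]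
  exact Measure.pi_hyperplane (fun _ : Fin 3 => (volume : Measure ℝ)) 0 a

theorem cong_slab {w : ℝ} (h0 : 0 < w) :
    periodicSlab w =ᵐ[volume] modelAt ({0} : Finset (Fin 3)) ((w / 2) • ev 0) (w / 2) := by
  have hae : ∀ᵐ x : X 3, ∀ a : ℤ, x 0 ≠ a := by
    rw [ae_all_iff]
    intro a
    exact measure_eq_zero_iff_ae_notMem.1 (cong_null a)
  filter_upwards [hae] with x hx
  have e : rr ({0} : Finset (Fin 3)) (x - (w / 2) • ev 0) = dd (x 0 - w / 2) ^ 2 := by
    rw [rr, Finset.sum_singleton]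
    simp
  refine propext ?_
  change (∃ a : ℤ, (a : ℝ) ≤ x 0 ∧ x 0 < a + w) ↔ rr _ (x - (w / 2) • ev 0) < (w / 2) ^ 2
  rw [e]
  constructor
  · rintro ⟨a, h1, h2⟩
    have h3 : (a : ℝ) < x 0 := lt_of_le_of_ne h1 (hx a).symm
    refine lt_of_le_of_lt (cong_sq_le _ a) (sq_lt_sq' ?_ ?_) <;> linarith
  · intro h
    have h1 := abs_lt_of_sq_lt_sq' h (by linarith)
    rw [dd] at h1
    exact ⟨round (x 0 - w / 2), by linarith [h1.1], by linarith [h1.2]⟩

theorem congruent_ball_iff {r : ℝ} (h0 : 0 < r) (F : Set (X 3)) :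
    CongruentModNull F (periodicBall r) ↔ ∃ c, F =ᵐ[volume] modelAt Finset.univ c r := by
  rw [cong_iff (cong_ball h0).eventuallyEq]
  constructor
  · rintro ⟨σ, c, h⟩
    rw [Finset.map_univ_equiv] at h
    exact ⟨c, h⟩
  · rintro ⟨c, h⟩
    exact ⟨Equiv.refl _, c, by rwa [Finset.map_univ_equiv]⟩

theorem congruent_tube_iff (r : ℝ) (F : Set (X 3)) :
    CongruentModNull F (periodicTube r) ↔
      ∃ k c, F =ᵐ[volume] modelAt (Finset.univ.erase k) c r := by
  rw [cong_iff (cong_tube r).eventuallyEq]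
  constructor
  · rintro ⟨σ, c, h⟩
    rw [Finset.map_erase, Finset.map_univ_equiv] at h
    exact ⟨_, c, h⟩
  · rintro ⟨k, c, h⟩
    refine ⟨Equiv.swap 2 k, c, ?_⟩
    rw [Finset.map_erase, Finset.map_univ_equiv]
    simpa using h

theorem congruent_slab_iff {w : ℝ} (h0 : 0 < w) (F : Set (X 3)) :
    CongruentModNull F (periodicSlab w) ↔ ∃ k c, F =ᵐ[volume] modelAt {k} c (w / 2) := by
  rw [cong_iff (cong_slab h0)]
  constructor
  · rintro ⟨σ, c, h⟩
    rw [Finset.map_singleton] at h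
    exact ⟨_, c, h⟩
  · rintro ⟨k, c, h⟩
    refine ⟨Equiv.swap 0 k, c, ?_⟩
    rw [Finset.map_singleton]
    simpa using h

end Crest.Agent.R214.Rig
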