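import Crest.Agent.R214.BV0Moll

/-! Row 214, module RIG: a periodic bounded function whose weak gradient vanishes on an open
periodic set is almost everywhere constant on every convex part of that set. -/

set_option autoImplicit false

open MeasureTheory Set Filter Topology
open scoped ENNReal RealInnerProductSpace ContDiff
open Crest.GeometryTopology.PeriodicPerimeter

noncomputable section

namespace Crest.Agent.R214

variable {n : ℕ}

theorem rc35_open {U : Set (X n)} (hU : IsOpen U) (δ : ℝ) :
    IsOpen {x : X n | Metric.closedBall x δ ⊆ U} := by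
  refine Metric.isOpen_iff.2 fun x hx => ?_
  obtain ⟨ε, hε, h⟩ := (isCompact_closedBall x δ).exists_thickening_subset_open hU hx
  refine ⟨ε, hε, fun y hy z hz => h ?_⟩
  refine Metric.mem_thickening_iff.2 ⟨z + (x - y), ?_, ?_⟩
  · rw [Metric.mem_closedBall, dist_eq_norm] at hz ⊢
    have : z + (x - y) - x = z - y := by abel
    rwa [this]
  · rw [dist_eq_norm]
    have : z - (z + (x - y)) = y - x := by abel
    rw [this, ← dist_eq_norm]
    exact hy

theorem rc35_per {U : Set (X n)} (hUp : IsLatticePeriodic U) (δ : ℝ) :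
    IsLatticePeriodic {x : X n | Metric.closedBall x δ ⊆ U} := by
  intro v hv x
  constructor
  · intro h z hz
    refine (hUp v hv z).1 (h ?_)
    rw [Metric.mem_closedBall, dist_add_right]
    exact hz
  · intro h z hz
    have h1 : z - v ∈ U := by
      refine h ?_
      rw [Metric.mem_closedBall, ← dist_add_right _ _ v, sub_add_cancel]
      exact hz
    have := (hUp v hv (z - v)).2 h1
    rwa [sub_add_cancel] at this

/-- the partial derivative of the mollification vanishes well inside `U` -/
theorem rc35_pd {u : X n → ℝ} (hu : Per u) (mu : Measurable u) {C : ℝ} (hC : ∀ x, ‖u x‖ ≤ C)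
    {U : Set (X n)} (hU : IsOpen U) (hUp : IsLatticePeriodic U) (j : Fin n)
    (H : ∀ φ : X n → ℝ, ContDiff ℝ ∞ φ → Per φ →
      (∃ δ : ℝ, 0 < δ ∧ ∀ x, φ x ≠ 0 → Metric.closedBall x δ ⊆ U) →
      ∫ x in unitCell n, pd j φ x * u x = 0) (k : ℕ) {x : X n}
    (hx : Metric.closedBall x (2 / ((k : ℝ) + 1)) ⊆ U) : pd j (moll k u) x = 0 := by
  set W : Set (X n) := {x : X n | Metric.closedBall x (2 / ((k : ℝ) + 1)) ⊆ U} with hW
  have hWo : IsOpen W := rc35_open hU _
  have hWp : IsLatticePeriodic W := rc35_per hUp _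
  have hsm : ContDiff ℝ ∞ (moll k u) := contDiff_moll mu.aestronglyMeasurable hC k
  set g : X n → ℝ := pd j (moll k u) with hg
  have hgc : Continuous g :=
    ((hsm.of_le (m := 1) (by exact_mod_cast le_top)).continuous_fderiv one_ne_zero).clm_apply
      continuous_const
  have hgp : Per g := fun v hv y => by
    simp only [hg, pd]; rw [(hu.moll k).fderiv v hv y]
  obtain ⟨D, hD⟩ := hgp.bounded hgc
  set v : X n → ℝ := W.indicator g with hv
  have hvp : Per v := by
    intro w hw y
    by_cases h : y ∈ W
    · rw [hv, indicator_of_mem h, indicator_of_mem ((hWp w hw y).2 h), hgp w hw y]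
    · rw [hv, indicator_of_notMem h, indicator_of_notMem fun h' => h ((hWp w hw y).1 h')]
  have hvm : Measurable v := hgc.measurable.indicator hWo.measurableSet
  have hvb : ∀ y, ‖v y‖ ≤ max C D := fun y =>
    ((norm_indicator_le_norm_self _ _).trans (hD y)).trans (le_max_right _ _)
  have hub : ∀ y, ‖u y‖ ≤ max C D := fun y => (hC y).trans (le_max_left _ _)
  have h1 := integral_cell_pd_moll hu hvp mu hvm hub hvb k j
  have hkpos : (0 : ℝ) < (k : ℝ) + 1 := by positivity
  rw [H (moll k v) (contDiff_moll hvm.aestronglyMeasurable hvb k) (hvp.moll k)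
    ⟨1 / ((k : ℝ) + 1), by positivity, fun y hy => ?_⟩, neg_zero] at h1
  · have hnn : ∀ y, 0 ≤ v y * g y := fun y => by
      by_cases h : y ∈ W
      · rw [hv, indicator_of_mem h]; exact mul_self_nonneg _
      · rw [hv, indicator_of_notMem h, zero_mul]
    have : IsFiniteMeasure (volume.restrict (unitCell n)) :=
      ⟨by rw [Measure.restrict_apply_univ, volume_unitCell]; exact ENNReal.one_lt_top⟩
    have hint : Integrable (fun y => v y * g y) (volume.restrict (unitCell n)) := by
      refine Integrable.of_bound (hvm.mul hgc.measurable).aestronglyMeasurable (max C D * D)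
        (Eventually.of_forall fun y => ?_)
      rw [norm_mul]
      exact mul_le_mul (hvb y) (hD y) (norm_nonneg _) ((norm_nonneg _).trans (hvb y))
    have h2 := (integral_eq_zero_iff_of_nonneg hnn hint).1 h1
    have hNo : IsOpen (W ∩ {y | g y ≠ 0}) := hWo.inter (isOpen_ne_fun hgc continuous_const)
    have hNp : IsLatticePeriodic (W ∩ {y | g y ≠ 0}) := by
      intro w hw y
      simp only [mem_inter_iff, mem_ofPred_eq, hgp w hw y, hWp w hw y]
    have hN : volume (W ∩ {y | g y ≠ 0}) = 0 := by
      refine null_of_cell hNp ?_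
      rw [← Measure.restrict_apply hNo.measurableSet]
      refine measure_mono_null (fun y hy => ?_) h2
      simp only [mem_compl_iff, mem_ofPred_eq, Pi.zero_apply]
      rw [hv, indicator_of_mem hy.1]
      exact mul_self_ne_zero.2 hy.2
    have hE := hNo.measure_eq_zero_iff volume |>.1 hN
    by_contra hne
    have : x ∈ W ∩ {y | g y ≠ 0} := ⟨hx, hne⟩
    rw [hE] at this
    exact this
  · by_contra hcon
    apply hy
    unfold moll
    refine integral_eq_zero_of_ae (Eventually.of_forall fun z => ?_)
    by_cases hz : 1 / ((k : ℝ) + 1) ≤ ‖z‖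
    · simp [rho_eq_zero k hz]
    · have hn : y - z ∉ W := fun h => hcon fun w hw => h (by
        rw [Metric.mem_closedBall, dist_eq_norm] at hw ⊢
        have e : w - (y - z) = (w - y) + z := by abel
        have e2 : 2 / ((k : ℝ) + 1) = 1 / ((k : ℝ) + 1) + 1 / ((k : ℝ) + 1) := by ring
        rw [e, e2]
        exact (norm_add_le _ _).trans (add_le_add hw (not_le.1 hz).le))
      simp [hv, indicator_of_notMem hn]

theorem rc35_pd_indep {f : X n → ℝ} {j : Fin n} (hf : Indep j f) (hd : Differentiable ℝ f)
    (x : X n) : pd j f x = 0 := by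
  have h1 : HasDerivAt (fun t : ℝ => x + t • ev j) (ev j) 0 := by
    simpa using ((hasDerivAt_id (0 : ℝ)).smul_const (ev j : X n)).const_add x
  have h2 : HasFDerivAt f (fderiv ℝ f x) ((fun t : ℝ => x + t • ev j) 0) := by
    simpa using (hd x).hasFDerivAt
  have h3 := h2.comp_hasDerivAt 0 h1
  have h4 : (f ∘ fun t : ℝ => x + t • ev j) = fun _ => f x := funext fun t => hf t x
  rw [h4] at h3
  exact h3.unique (hasDerivAt_const _ _)

/-- zero weak gradient on the open periodic set `U`: a.e. constant on convex subsets of `U` -/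
theorem rc35_const {u : X n → ℝ} (hu : Per u) (mu : Measurable u) {C : ℝ} (hC : ∀ x, ‖u x‖ ≤ C)
    {U : Set (X n)} (hU : IsOpen U) (hUp : IsLatticePeriodic U)
    (H : ∀ j, Indep j u ∨ ∀ φ : X n → ℝ, ContDiff ℝ ∞ φ → Per φ →
      (∃ δ : ℝ, 0 < δ ∧ ∀ x, φ x ≠ 0 → Metric.closedBall x δ ⊆ U) →
      ∫ x in unitCell n, pd j φ x * u x = 0)
    {K : Set (X n)} (hK : Convex ℝ K) (hKU : K ⊆ U) : ∃ c : ℝ, ∀ᵐ x, x ∈ K → u x = c := by
  have key : ∀ x ∈ K, ∀ y ∈ K, ∀ᶠ k : ℕ in atTop, moll k u x = moll k u y := by
    intro x hx y hy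
    have hs : segment ℝ x y ⊆ U := (hK.segment_subset hx hy).trans hKU
    have hcomp : IsCompact (segment ℝ x y) := by
      rw [segment_eq_image]
      exact isCompact_Icc.image (by fun_prop)
    obtain ⟨ε, hε, hsub⟩ := hcomp.exists_cthickening_subset_open hU hs
    have ht : Tendsto (fun k : ℕ => 2 * (1 / ((k : ℝ) + 1))) atTop (𝓝 (2 * 0)) :=
      tendsto_one_div_add_atTop_nhds_zero_nat.const_mul 2
    rw [mul_zero] at ht
    filter_upwards [ht.eventually (ge_mem_nhds hε)] with k hk
    have hsm : ContDiff ℝ ∞ (moll k u) := contDiff_moll mu.aestronglyMeasurable hC k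
    have hd : Differentiable ℝ (moll k u) := hsm.differentiable (by simp)
    have h0 : ∀ z ∈ segment ℝ x y, fderiv ℝ (moll k u) z = 0 := by
      intro z hz
      have hj : ∀ j, pd j (moll k u) z = 0 := by
        intro j
        rcases H j with h | h
        · exact rc35_pd_indep (h.moll k) hd z
        · refine rc35_pd hu mu hC hU hUp j h k fun w hw => hsub ?_
          refine Metric.closedBall_subset_cthickening hz ε (Metric.closedBall_subset_closedBall ?_ hw)
          rw [mul_one_div] at hk
          exact hk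
      ext w
      have e : w = ∑ j, w j • (ev j : X n) := by
        ext l
        simp [Finset.sum_apply, Pi.single_apply]
      rw [e, map_sum]
      simp only [map_smul, zero_apply]
      exact Finset.sum_eq_zero fun j _ => by
        rw [show fderiv ℝ (moll k u) z (ev j) = 0 from hj j, smul_zero]
    have := (convex_segment x y).norm_image_sub_le_of_norm_fderiv_le (𝕜 := ℝ) (C := 0)
      (fun z _ => hd z) (fun z hz => by rw [h0 z hz, norm_zero]) (left_mem_segment ℝ x y)
      (right_mem_segment ℝ x y)
    rw [zero_mul, norm_le_zero_iff, sub_eq_zero] at this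
    exact this.symm
  have hae := moll_tendsto_ae mu.aestronglyMeasurable hC
  by_cases hex : ∃ y ∈ K, Tendsto (fun k => moll k u y) atTop (𝓝 (u y))
  · obtain ⟨y, hy, hty⟩ := hex
    refine ⟨u y, ?_⟩
    filter_upwards [hae] with x hx hxK
    exact tendsto_nhds_unique (hx.congr' (key x hxK y hy)) hty
  · refine ⟨0, ?_⟩
    filter_upwards [hae] with x hx hxK
    exact absurd ⟨x, hxK, hx⟩ hex

end Crest.Agent.R214
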