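import Crest.Agent.R214.RigBasic
import Crest.Agent.R214.RigSec
import Crest.Agent.R214.BV0Moll
import Crest.Agent.R214.RigConst35

/-! Row 214, module RIG: zero weak derivative on a model gives a constant. -/

set_option autoImplicit false

open MeasureTheory Set Filter Topology
open scoped ENNReal RealInnerProductSpace ContDiff
open Crest.GeometryTopology.PeriodicPerimeter

noncomputable section

namespace Crest.Agent.R214.Rig

variable {n : ℕ}

/-- the partial derivative of the mollification vanishes well inside `U` -/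
theorem rc35_pd2 {i : Fin n} {u : X n → ℝ} (hu : Per u) (iu : Indep i u) (mu : Measurable u) {C : ℝ} (hC : ∀ x, ‖u x‖ ≤ C)
    {U : Set (X n)} (hU : IsOpen U) (hUp : IsLatticePeriodic U)
    (hUi : ∀ (t : ℝ) (x : X n), x + t • ev i ∈ U ↔ x ∈ U) (j : Fin n)
    (H : ∀ φ : X n → ℝ, ContDiff ℝ 1 φ → Per φ → Indep i φ → (∀ x ∉ U, φ x = 0) →
      ∫ x in unitCell n, pd j φ x * u x = 0) (k : ℕ) {x : X n}
    (hx : Metric.closedBall x (2 / ((k : ℝ) + 1)) ⊆ U) : pd j (moll k u) x = 0 := by
  set W : Set (X n) := {x : X n | Metric.closedBall x (2 / ((k : ℝ) + 1)) ⊆ U} with hW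
  have hWo : IsOpen W := rc35_open hU _
  have hWp : IsLatticePeriodic W := rc35_per hUp _
  have hsm : ContDiff ℝ ∞ (moll k u) := contDiff_moll mu.aestronglyMeasurable hC k
  set g : X n → ℝ := pd j (moll k u) with hg
  have hgc : Continuous g :=
    ((hsm.of_le (m := 1) (by exact_mod_cast le_top)).continuous_fderiv one_ne_zero).clm_apply
      continuous_const
  have hgp : Per g := fun v hv y => by
    simp only [hg, pd]; rw [(hu.moll k).fderiv v hv y]
  obtain ⟨D, hD⟩ := hgp.bounded hgc
  set v : X n → ℝ := W.indicator g with hv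
  have hvp : Per v := by
    intro w hw y
    by_cases h : y ∈ W
    · rw [hv, indicator_of_mem h, indicator_of_mem ((hWp w hw y).2 h), hgp w hw y]
    · rw [hv, indicator_of_notMem h, indicator_of_notMem fun h' => h ((hWp w hw y).1 h')]
  have hgi : Indep i g := fun t y => by
    simp only [hg, pd]
    rw [← fderiv_comp_add_right (t • ev i)]
    congr 2
    exact funext fun z => iu.moll k t z
  have hWi : ∀ (t : ℝ) (y : X n), y + t • ev i ∈ W ↔ y ∈ W := by
    have aux : ∀ (t : ℝ) (y : X n), y ∈ W → y + t • ev i ∈ W := by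
      intro t y h z hz
      have h1 : z + (-t) • ev i ∈ U := by
        refine h ?_
        rw [Metric.mem_closedBall, dist_eq_norm] at hz ⊢
        have : z + (-t) • ev i - y = z - (y + t • ev i) := by rw [neg_smul]; abel
        rwa [this]
      exact (hUi (-t) z).1 h1
    intro t y
    refine ⟨fun h => ?_, aux t y⟩
    have := aux (-t) _ h
    rwa [add_assoc, ← add_smul, add_neg_cancel, zero_smul, add_zero] at this
  have hvi : Indep i v := by
    intro t y
    by_cases h : y ∈ W
    · rw [hv, indicator_of_mem h, indicator_of_mem ((hWi t y).2 h), hgi t y]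
    · rw [hv, indicator_of_notMem h, indicator_of_notMem fun h' => h ((hWi t y).1 h')]
  have hvm : Measurable v := hgc.measurable.indicator hWo.measurableSet
  have hvb : ∀ y, ‖v y‖ ≤ max C D := fun y =>
    ((norm_indicator_le_norm_self _ _).trans (hD y)).trans (le_max_right _ _)
  have hub : ∀ y, ‖u y‖ ≤ max C D := fun y => (hC y).trans (le_max_left _ _)
  have h1 := integral_cell_pd_moll hu hvp mu hvm hub hvb k j
  have hkpos : (0 : ℝ) < (k : ℝ) + 1 := by positivity
  rw [H (moll k v) ((contDiff_moll hvm.aestronglyMeasurable hvb k).of_le (by exact_mod_cast le_top))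
    (hvp.moll k) (hvi.moll k) fun y hy => ?_, neg_zero] at h1
  · have hnn : ∀ y, 0 ≤ v y * g y := fun y => by
      by_cases h : y ∈ W
      · rw [hv, indicator_of_mem h]; exact mul_self_nonneg _
      · rw [hv, indicator_of_notMem h, zero_mul]
    have : IsFiniteMeasure (volume.restrict (unitCell n)) :=
      ⟨by rw [Measure.restrict_apply_univ, volume_unitCell]; exact ENNReal.one_lt_top⟩
    have hint : Integrable (fun y => v y * g y) (volume.restrict (unitCell n)) := by
      refine Integrable.of_bound (hvm.mul hgc.measurable).aestronglyMeasurable (max C D * D)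
        (Eventually.of_forall fun y => ?_)
      rw [norm_mul]
      exact mul_le_mul (hvb y) (hD y) (norm_nonneg _) ((norm_nonneg _).trans (hvb y))
    have h2 := (integral_eq_zero_iff_of_nonneg hnn hint).1 h1
    have hNo : IsOpen (W ∩ {y | g y ≠ 0}) := hWo.inter (isOpen_ne_fun hgc continuous_const)
    have hNp : IsLatticePeriodic (W ∩ {y | g y ≠ 0}) := by
      intro w hw y
      simp only [mem_inter_iff, mem_ofPred_eq, hgp w hw y, hWp w hw y]
    have hN : volume (W ∩ {y | g y ≠ 0}) = 0 := by
      refine null_of_cell hNp ?_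
      rw [← Measure.restrict_apply hNo.measurableSet]
      refine measure_mono_null (fun y hy => ?_) h2
      simp only [mem_compl_iff, mem_ofPred_eq, Pi.zero_apply]
      rw [hv, indicator_of_mem hy.1]
      exact mul_self_ne_zero.2 hy.2
    have hE := hNo.measure_eq_zero_iff volume |>.1 hN
    by_contra hne
    have : x ∈ W ∩ {y | g y ≠ 0} := ⟨hx, hne⟩
    rw [hE] at this
    exact this
  · unfold moll
    refine integral_eq_zero_of_ae (Eventually.of_forall fun z => ?_)
    by_cases hz : 1 / ((k : ℝ) + 1) ≤ ‖z‖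
    · simp [rho_eq_zero k hz]
    · have hn : y - z ∉ W := fun h => hy (h (by
        rw [Metric.mem_closedBall, dist_eq_norm, sub_sub_cancel]
        refine (not_le.1 hz).le.trans ?_
        gcongr
        norm_num))
      simp [hv, indicator_of_notMem hn]

theorem rc35_key {i : Fin n} {u : X n → ℝ} (hu : Per u) (iu : Indep i u) (mu : Measurable u) {C : ℝ}
    (hC : ∀ x, ‖u x‖ ≤ C) {U : Set (X n)} (hU : IsOpen U) (hUp : IsLatticePeriodic U)
    (hUi : ∀ (t : ℝ) (x : X n), x + t • ev i ∈ U ↔ x ∈ U)
    (H : ∀ φ : X n → ℝ, ContDiff ℝ 1 φ → Per φ → Indep i φ → (∀ x ∉ U, φ x = 0) →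
      ∀ j ≠ i, ∫ x in unitCell n, pd j φ x * u x = 0)
    {x y : X n} (hs : segment ℝ x y ⊆ U) : ∀ᶠ k : ℕ in atTop, moll k u x = moll k u y := by
  have hcomp : IsCompact (segment ℝ x y) := by
    rw [segment_eq_image]
    exact isCompact_Icc.image (by fun_prop)
  obtain ⟨ε, hε, hsub⟩ := hcomp.exists_cthickening_subset_open hU hs
  have ht : Tendsto (fun k : ℕ => 2 * (1 / ((k : ℝ) + 1))) atTop (𝓝 (2 * 0)) :=
    tendsto_one_div_add_atTop_nhds_zero_nat.const_mul 2
  rw [mul_zero] at ht
  filter_upwards [ht.eventually (ge_mem_nhds hε)] with k hk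
  have hsm : ContDiff ℝ ∞ (moll k u) := contDiff_moll mu.aestronglyMeasurable hC k
  have hd : Differentiable ℝ (moll k u) := hsm.differentiable (by simp)
  have h0 : ∀ z ∈ segment ℝ x y, fderiv ℝ (moll k u) z = 0 := by
    intro z hz
    have hj : ∀ j, pd j (moll k u) z = 0 := by
      intro j
      by_cases h : j = i
      · rw [h]
        exact rc35_pd_indep (iu.moll k) hd z
      · refine rc35_pd2 hu iu mu hC hU hUp hUi j (fun φ a b c d => H φ a b c d j h) k
          fun w hw => hsub ?_
        refine Metric.closedBall_subset_cthickening hz ε (Metric.closedBall_subset_closedBall ?_ hw)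
        rw [mul_one_div] at hk
        exact hk
    ext w
    have e : w = ∑ j, w j • (ev j : X n) := by
      ext l
      simp [Finset.sum_apply, Pi.single_apply]
    rw [e, map_sum]
    simp only [map_smul, zero_apply]
    exact Finset.sum_eq_zero fun j _ => by
      rw [show fderiv ℝ (moll k u) z (ev j) = 0 from hj j, smul_zero]
  have := (convex_segment x y).norm_image_sub_le_of_norm_fderiv_le (𝕜 := ℝ) (C := 0)
    (fun z _ => hd z) (fun z hz => by rw [h0 z hz, norm_zero]) (left_mem_segment ℝ x y)
    (right_mem_segment ℝ x y)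
  rw [zero_mul, norm_le_zero_iff, sub_eq_zero] at this
  exact this.symm

theorem rc35_convex (T : Finset (Fin n)) (a : ℝ) : Convex ℝ {x : X n | ∑ j ∈ T, x j ^ 2 < a} := by
  intro x hx y hy p q hp hq hpq
  simp only [mem_ofPred_eq, PiLp.add_apply, PiLp.smul_apply, smul_eq_mul] at hx hy ⊢
  have h1 : ∑ j ∈ T, (p * x j + q * y j) ^ 2 ≤ ∑ j ∈ T, (p * x j ^ 2 + q * y j ^ 2) := by
    refine Finset.sum_le_sum fun j _ => ?_
    have hq' : q = 1 - p := by linarith
    have := mul_nonneg (mul_nonneg hp hq) (sq_nonneg (x j - y j))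
    rw [hq'] at this ⊢
    nlinarith [this]
  rw [Finset.sum_add_distrib, ← Finset.mul_sum, ← Finset.mul_sum] at h1
  refine h1.trans_lt ?_
  rcases hp.eq_or_lt with rfl | hp'
  · have : q = 1 := by linarith
    rw [this]; linarith
  · have a1 := mul_lt_mul_of_pos_left hx hp'
    have a2 := mul_le_mul_of_nonneg_left hy.le hq
    have : p * a + q * a = a := by rw [← add_mul, hpq, one_mul]
    linarith

/-- For `0 < s' < s < r` and `k` large put `u = moll k B`, `v = (model T s').indicator (pd j u)`;
`η = moll k v` vanishes off `model T s` (`√(rr T ·)` is `1`-Lipschitz), and `integral_cell_pd_moll`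
gives `∫ v * pd j u = 0`. So `fderiv u = 0` on the open set `model T s'`, `u` is constant on the convex
set `{x | ∑ j ∈ T, x j ^ 2 < s' ^ 2}`, hence (periodicity) on `model T s'`; then `moll_tendsto_ae`, and
`s' ↑ r`. -/
theorem const_of_weak {T : Finset (Fin n)} {i : Fin n} (hi : i ∉ T) {r : ℝ} (h0 : 0 < r)
    (h1 : r < 1 / 2) {B : X n → ℝ} (mB : Measurable B) (pB : Per B) (iB : Indep i B) {C : ℝ}
    (hC : ∀ x, ‖B x‖ ≤ C)
    (h : ∀ s, 0 < s → s < r → ∀ η : X n → ℝ, ContDiff ℝ 1 η → Per η → Indep i η →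
      (∀ x ∉ model T s, η x = 0) → ∀ j ≠ i, ∫ x in unitCell n, pd j η x * B x = 0) :
    ∃ β, ∀ᵐ x, x ∈ model T r → B x = β := by
  have hrep : ∀ x : X n, ∃ x' : X n, (∑ j ∈ T, x' j ^ 2 = rr T x) ∧ ∀ k, moll k B x' = moll k B x := by
    intro x
    refine ⟨x + WithLp.toLp 2 fun j => ((-round (x j) : ℤ) : ℝ), ?_, fun k => ?_⟩
    · refine Finset.sum_congr rfl fun j _ => ?_
      simp [dd, sub_eq_add_neg]
    · exact (pB.moll k) _ (fun j => ⟨-round (x j), rfl⟩) x
  have key : ∀ x ∈ model T r, ∀ y ∈ model T r, ∀ᶠ k : ℕ in atTop, moll k B x = moll k B y := by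
    intro x hx y hy
    obtain ⟨x', hx1, hx2⟩ := hrep x
    obtain ⟨y', hy1, hy2⟩ := hrep y
    have hm : max (rr T x) (rr T y) < r ^ 2 := max_lt hx hy
    have hm0 : 0 ≤ max (rr T x) (rr T y) := (rr_nonneg T x).trans (le_max_left _ _)
    obtain ⟨a, ha1, ha2⟩ := exists_between hm
    have ha0 : 0 < a := hm0.trans_lt ha1
    have hs2 : √a ^ 2 = a := Real.sq_sqrt ha0.le
    have hsr : √a < r := (Real.sqrt_lt' h0).2 ha2
    have hseg : segment ℝ x' y' ⊆ model T √a := by
      refine ((rc35_convex T a).segment_subset (x := x') (y := y') ?_ ?_).trans fun z hz => ?_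
      · exact hx1.trans_lt ((le_max_left _ _).trans_lt ha1)
      · exact hy1.trans_lt ((le_max_right _ _).trans_lt ha1)
      · show rr T z < √a ^ 2
        rw [hs2]
        refine lt_of_le_of_lt (Finset.sum_le_sum fun j _ => ?_) hz
        have := abs_dd_le (z j) 0
        rw [Int.cast_zero, sub_zero] at this
        exact sq_le_sq.2 this
    have hUi : ∀ (t : ℝ) (z : X n), z + t • ev i ∈ model T √a ↔ z ∈ model T √a := fun t z => by
      show rr T (z + t • ev i) < _ ↔ rr T z < _
      rw [indep_rr hi t z]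
    filter_upwards [rc35_key pB iB mB hC (isOpen_model T √a) (periodic_model T √a) hUi
      (h √a (Real.sqrt_pos.2 ha0) hsr) hseg] with k hk
    rw [← hx2, ← hy2, hk]
  have hae := moll_tendsto_ae mB.aestronglyMeasurable hC
  by_cases hex : ∃ y ∈ model T r, Tendsto (fun k => moll k B y) atTop (𝓝 (B y))
  · obtain ⟨y, hy, hty⟩ := hex
    refine ⟨B y, ?_⟩
    filter_upwards [hae] with x hx hxK
    exact tendsto_nhds_unique (hx.congr' (key x hxK y hy)) hty
  · refine ⟨0, ?_⟩
    filter_upwards [hae] with x hx hxK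
    exact absurd ⟨x, hxK, hx⟩ hex

end Crest.Agent.R214.Rig
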