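import Crest.Agent.R214.BV0Defs

/-! Row 214, module RIG: definitions (architect helper90; statements are frozen). -/

set_option autoImplicit false

open MeasureTheory Set Filter Topology
open scoped ENNReal RealInnerProductSpace ContDiff
open Crest.GeometryTopology.PeriodicPerimeter

noncomputable section

namespace Crest.Agent.R214.Rig

variable {n : ℕ}

/-- signed distance to the nearest integer -/
def dd (s : ℝ) : ℝ := s - round s

/-- squared periodic distance to the origin, in the coordinates of `S` -/
def rr (S : Finset (Fin n)) (x : X n) : ℝ := ∑ j ∈ S, dd (x j) ^ 2

/-- ball (`S` = all coordinates), tube (two coordinates), slab (one coordinate), centred at `0` -/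
def model (S : Finset (Fin n)) (r : ℝ) : Set (X n) := {x | rr S x < r ^ 2}

/-- the model centred at `c` -/
def modelAt (S : Finset (Fin n)) (c : X n) (r : ℝ) : Set (X n) := {x | x - c ∈ model S r}

/-- half the length of the section of `model (insert i T) r` in direction `i` -/
def hh (T : Finset (Fin n)) (r : ℝ) (x : X n) : ℝ := √(r ^ 2 - rr T x)

/-- the vector whose coordinates in `T` are `dd (x j)`, the others being `0` -/
def dv (T : Finset (Fin n)) (j : Fin n) (x : X n) : ℝ := if j ∈ T then dd (x j) else 0

/-- the point of the line through `x` in direction `i` whose `i`-th coordinate is `s` -/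
def pt (i : Fin n) (x : X n) (s : ℝ) : X n := x + (s - x i) • ev i

end Crest.Agent.R214.Rig
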