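import Crest.Agent.R214.RigBasic

/-! Row 214, module RIG: the calibration field. -/

set_option autoImplicit false

open MeasureTheory Set Filter Topology
open scoped ENNReal RealInnerProductSpace ContDiff
open Crest.GeometryTopology.PeriodicPerimeter

noncomputable section

namespace Crest.Agent.R214.Rig

variable {n : ℕ}

namespace FieldAux

/-- the cut-off profile -/
def ff (c r r₂ : ℝ) (s : ℝ) : ℝ := c * Real.smoothTransition ((r₂ ^ 2 - s) / (r₂ ^ 2 - r ^ 2))

theorem contDiff_ff (c r r₂ : ℝ) : ContDiff ℝ 1 (ff c r r₂) := by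
  unfold ff
  exact contDiff_const.mul (Real.smoothTransition.contDiff.comp
    ((contDiff_const.sub contDiff_id).div_const _))

theorem ff_of_le {c r r₂ s : ℝ} (h : r ^ 2 < r₂ ^ 2) (hs : s ≤ r ^ 2) : ff c r r₂ s = c := by
  unfold ff
  rw [Real.smoothTransition.one_of_one_le, mul_one]
  rw [le_div_iff₀ (by linarith)]
  linarith

theorem ff_of_ge {c r r₂ s : ℝ} (h : r ^ 2 < r₂ ^ 2) (hs : r₂ ^ 2 ≤ s) : ff c r r₂ s = 0 := by
  unfold ff
  rw [Real.smoothTransition.zero_of_nonpos, mul_zero]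
  exact div_nonpos_of_nonpos_of_nonneg (by linarith) (by linarith)

theorem ff_sq_le {c r r₂ s : ℝ} : ff c r r₂ s ^ 2 ≤ c ^ 2 := by
  unfold ff
  have h0 := Real.smoothTransition.nonneg ((r₂ ^ 2 - s) / (r₂ ^ 2 - r ^ 2))
  have h1 := Real.smoothTransition.le_one ((r₂ ^ 2 - s) / (r₂ ^ 2 - r ^ 2))
  rw [mul_pow]
  exact mul_le_of_le_one_right (sq_nonneg c) (pow_le_one₀ h0 h1)

/-- the field -/
def fld (T : Finset (Fin n)) (c r r₂ : ℝ) (x : X n) : X n :=
  WithLp.toLp 2 fun j => ff c r r₂ (rr T x) * dv T j x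

theorem fld_apply (T : Finset (Fin n)) (c r r₂ : ℝ) (x : X n) (j : Fin n) :
    fld T c r r₂ x j = ff c r r₂ (rr T x) * dv T j x := rfl

theorem contDiff_fld (T : Finset (Fin n)) (c : ℝ) {r r₂ : ℝ} (h : r ^ 2 < r₂ ^ 2)
    (h2 : r₂ ^ 2 < 1 / 4) : ContDiff ℝ 1 (fld T c r r₂) := by
  rw [contDiff_euclidean]
  intro j
  rw [contDiff_iff_contDiffAt]
  intro x
  by_cases hx : rr T x < 1 / 4
  · have a : ContDiffAt ℝ 1 (rr T) x := (contDiffAt_rr hx).of_le (by exact_mod_cast le_top)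
    have b : ContDiffAt ℝ 1 (dv T j) x := (contDiffAt_dv hx j).of_le (by exact_mod_cast le_top)
    exact (((contDiff_ff c r r₂).contDiffAt.comp x a).mul b)
  · have hev : ∀ᶠ y in 𝓝 x, r₂ ^ 2 < rr T y :=
      (continuous_rr T).continuousAt.eventually (lt_mem_nhds (by linarith [not_lt.mp hx]))
    refine (contDiffAt_const (c := (0 : ℝ))).congr_of_eventuallyEq ?_
    filter_upwards [hev] with y hy
    rw [fld_apply, ff_of_ge h hy.le, zero_mul]

theorem norm_fld_sq (T : Finset (Fin n)) (c r r₂ : ℝ) (x : X n) :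
    ‖fld T c r r₂ x‖ ^ 2 = ff c r r₂ (rr T x) ^ 2 * rr T x := by
  rw [EuclideanSpace.real_norm_sq_eq]
  simp only [fld_apply, mul_pow]
  rw [← Finset.mul_sum, sum_dv_sq]

end FieldAux

open FieldAux in
/-- `φ x j = f (rr T x) * dv T j x` with `f` smooth, `0 ≤ f ≤ (1 - ε) / r`, `f = (1 - ε) / r` on
`(-∞, r ^ 2]`, `f = 0` on `[r₂ ^ 2, ∞)`, where `r < r₂ < 1 / 2` and `(1 - ε) * r₂ ≤ r`. -/
theorem exists_field (T : Finset (Fin n)) {r ε : ℝ} (h0 : 0 < r) (h1 : r < 1 / 2) (e0 : 0 < ε)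
    (e1 : ε < 1) :
    ∃ φ : X n → X n, ContDiff ℝ 1 φ ∧ Per φ ∧ (∀ i ∉ T, Indep i φ) ∧ (∀ x, ‖φ x‖ ≤ 1) ∧
      (∀ x ∈ model T r, ∀ j, φ x j = (1 - ε) * dv T j x / r) ∧
      ∀ x ∈ model T r, divergence φ x = (1 - ε) * T.card / r := by
  obtain ⟨r₂, hr, hr2, hr3⟩ : ∃ r₂ : ℝ, r < r₂ ∧ r₂ < 1 / 2 ∧ (1 - ε) * r₂ ≤ r := by
    have he : 0 < 1 - ε := by linarith
    refine ⟨min ((r + 1 / 2) / 2) (r / (1 - ε)), lt_min (by linarith) ?_,
      (min_le_left _ _).trans_lt (by linarith), ?_⟩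
    · rw [lt_div_iff₀ he]
      nlinarith
    · calc (1 - ε) * min ((r + 1 / 2) / 2) (r / (1 - ε)) ≤ (1 - ε) * (r / (1 - ε)) :=
            mul_le_mul_of_nonneg_left (min_le_right _ _) he.le
        _ = r := by field_simp
  have hsq : r ^ 2 < r₂ ^ 2 := by nlinarith
  have hsq2 : r₂ ^ 2 < 1 / 4 := by nlinarith
  have hcd := contDiff_fld T ((1 - ε) / r) hsq hsq2
  have hval : ∀ x ∈ model T r, ∀ j, fld T ((1 - ε) / r) r r₂ x j = (1 - ε) / r * dv T j x := by
    intro x hx j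
    rw [fld_apply, ff_of_le hsq (le_of_lt hx)]
  refine ⟨fld T ((1 - ε) / r) r r₂, hcd, ?_, ?_, ?_, ?_, ?_⟩
  · intro v hv x
    ext j
    rw [fld_apply, fld_apply, per_rr T v hv x, per_dv T j v hv x]
  · intro i hi t x
    ext j
    rw [fld_apply, fld_apply, indep_rr hi t x, indep_dv hi j t x]
  · intro x
    have key : ‖fld T ((1 - ε) / r) r r₂ x‖ ^ 2 ≤ 1 := by
      rw [norm_fld_sq]
      rcases le_total (r₂ ^ 2) (rr T x) with hx | hx
      · rw [ff_of_ge hsq hx]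
        norm_num
      · calc ff ((1 - ε) / r) r r₂ (rr T x) ^ 2 * rr T x ≤ ((1 - ε) / r) ^ 2 * r₂ ^ 2 :=
              mul_le_mul ff_sq_le hx (rr_nonneg T x) (sq_nonneg _)
          _ = ((1 - ε) * r₂ / r) ^ 2 := by ring
          _ ≤ 1 := by
              refine pow_le_one₀ (div_nonneg (mul_nonneg (by linarith) (by linarith)) h0.le) ?_
              rwa [div_le_one h0]
    nlinarith [norm_nonneg (fld T ((1 - ε) / r) r r₂ x)]
  · intro x hx j
    rw [hval x hx j]
    ring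
  · intro x hx
    have hx4 : rr T x < 1 / 4 := lt_trans hx (hsq.trans hsq2)
    rw [divergence_eq_sum (hcd.differentiable one_ne_zero)]
    have hj : ∀ j, pd j (fun y => fld T ((1 - ε) / r) r r₂ y j) x =
        (1 - ε) / r * if j ∈ T then 1 else 0 := by
      intro j
      have hev : (fun y => fld T ((1 - ε) / r) r r₂ y j) =ᶠ[𝓝 x]
          fun y => (1 - ε) / r * dv T j y := by
        filter_upwards [(isOpen_model T r).mem_nhds hx] with y hy
        exact hval y hy j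
      have hd : DifferentiableAt ℝ (dv T j) x :=
        (contDiffAt_dv hx4 j).differentiableAt (by simp)
      have := pd_dv hx4 j j
      simp only [and_true] at this
      show fderiv ℝ _ x (ev j) = _
      rw [hev.fderiv_eq, fderiv_const_mul hd, smul_apply, smul_eq_mul]
      exact congrArg _ this
    simp only [hj]
    rw [← Finset.mul_sum, Finset.sum_boole]
    simp only [Finset.filter_mem_eq_inter, Finset.univ_inter]
    ring

end Crest.Agent.R214.Rig
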