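import Crest.Agent.R214.RigBasic
import Crest.Agent.R214.RigSec
import Crest.Agent.R214.BV0Per

/-! Row 214, module RIG: the centre of the arcs has zero weak derivative. -/

set_option autoImplicit false

open MeasureTheory Set Filter Topology
open scoped ENNReal RealInnerProductSpace ContDiff
open Crest.GeometryTopology.PeriodicPerimeter

noncomputable section

namespace Crest.Agent.R214.Rig

variable {n : ℕ}

variable {E : Set (X n)} {μ : Measure (X n)} {w : X n → X n} {T : Finset (Fin n)} {i : Fin n} {r : ℝ}
  {b : X n → ℝ}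

theorem w35_sin_pos (h0 : 0 < r) (h1 : r < 1 / 2) {x : X n} (hx : x ∈ model T r) :
    0 < Real.sin (2 * Real.pi * hh T r x) := by
  have a := (hh_pos_iff T r x).2 hx
  have b := hh_le T h0.le x
  refine Real.sin_pos_of_pos_of_lt_pi (by positivity) ?_
  nlinarith [Real.pi_pos]

theorem w35_zero_near {s : ℝ} (hs0 : 0 < s) (hs : s < r) {η : X n → ℝ}
    (zη : ∀ x ∉ model T s, η x = 0) {x : X n} (hx : x ∉ model T r) : η =ᶠ[𝓝 x] fun _ => 0 := by
  have h2 : s ^ 2 < rr T x := lt_of_lt_of_le (by nlinarith) (not_lt.1 hx)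
  filter_upwards [(continuous_rr T).continuousAt.eventually (lt_mem_nhds h2)] with y hy
  exact zη y (not_lt.2 hy.le)

theorem weak_zero (h : GG E μ w) (hE : MeasurableSet E) (hp : IsLatticePeriodic E) (hi : i ∉ T)
    (h0 : 0 < r) (h1 : r < 1 / 2) (mb : Measurable b) (pb : Per b) (ib : Indep i b)
    (ha : ∀ᵐ x, sec E i x =ᵐ[volume] arc (b x - x i) (2 * hh T r x))
    (hw : ∀ᵐ x ∂μ, x ∈ model T r → ∀ j ≠ i, w x j * hh T r x = dv T j x * |w x i|)
    (habs : ∀ f : X n → ℝ, Per f → Measurable f → ∀ C : ℝ, (∀ x, ‖f x‖ ≤ C) →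
      (∀ x ∉ model T r, f x = 0) → ∫ x, f x * |w x i| ∂μ =
        ∫ x in unitCell n, (f (pt i x (b x + hh T r x)) + f (pt i x (b x - hh T r x))))
    (a : ℝ) {s : ℝ} (hs0 : 0 < s) (hs : s < r) {η : X n → ℝ} (hη : ContDiff ℝ 1 η) (pη : Per η)
    (iη : Indep i η) (zη : ∀ x ∉ model T s, η x = 0) {j : Fin n} (hj : j ≠ i) :
    ∫ x in unitCell n, pd j η x * Real.cos (2 * Real.pi * (b x - a)) = 0 := by
  have hπ := Real.pi_pos
  -- the two auxiliary functions
  set S : X n → ℝ := fun x => Real.sin (2 * Real.pi * hh T r x) with hS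
  set ψ : X n → ℝ := fun x => η x * (S x)⁻¹ with hψ
  set χ : X n → ℝ := fun x => ψ x * (hh T r x)⁻¹ with hχ
  set g : X n → ℝ := fun x => Real.cos (2 * Real.pi * (x i - a)) with hg
  have hhd : ∀ x ∈ model T r, ContDiffAt ℝ 1 (hh T r) x := fun x hx =>
    (contDiffAt_hh h0 h1 hx).of_le (by exact_mod_cast le_top)
  have hSd : ∀ x ∈ model T r, ContDiffAt ℝ 1 S x := fun x hx =>
    (contDiffAt_const.mul (hhd x hx)).sin
  have ψz : ∀ x ∉ model T r, ψ =ᶠ[𝓝 x] fun _ => 0 := fun x hx => by
    filter_upwards [w35_zero_near hs0 hs zη hx] with y hy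
    simp only [hψ, hy, zero_mul]
  have ψd : ContDiff ℝ 1 ψ := by
    refine contDiff_iff_contDiffAt.2 fun x => ?_
    by_cases hx : x ∈ model T r
    · exact hη.contDiffAt.mul ((hSd x hx).inv (w35_sin_pos h0 h1 hx).ne')
    · exact (contDiffAt_const (c := (0 : ℝ))).congr_of_eventuallyEq (ψz x hx)
  have χc : Continuous χ := by
    refine continuous_iff_continuousAt.2 fun x => ?_
    by_cases hx : x ∈ model T r
    · exact ψd.continuous.continuousAt.mul
        ((continuous_hh T r).continuousAt.inv₀ ((hh_pos_iff T r x).2 hx).ne')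
    · refine (continuousAt_const (y := (0 : ℝ))).congr ?_
      filter_upwards [ψz x hx] with y hy
      simp only [hχ, hy, zero_mul]
  have ψp : Per ψ := fun v hv x => by simp only [hψ, hS, pη v hv x, per_hh T r v hv x]
  have ψi : Indep i ψ := fun t x => by simp only [hψ, hS, iη t x, indep_hh hi r t x]
  have χp : Per χ := fun v hv x => by simp only [hχ, ψp v hv x, per_hh T r v hv x]
  have χi : Indep i χ := fun t x => by simp only [hχ, ψi t x, indep_hh hi r t x]
  have gd : ContDiff ℝ 1 g := by
    have : ContDiff ℝ 1 fun x : X n => x i := (EuclideanSpace.proj (𝕜 := ℝ) i).contDiff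
    exact (contDiff_const.mul (this.sub contDiff_const)).cos
  have gp : Per g := fun v hv x => by
    obtain ⟨m, hm⟩ := hv i
    simp only [hg, PiLp.add_apply, hm]
    rw [show 2 * Real.pi * (x i + m - a) = 2 * Real.pi * (x i - a) + m * (2 * Real.pi) by ring,
      Real.cos_add_int_mul_two_pi]
  have gj : Indep j g := fun t x => by simp [hg, hj.symm]
  have gb : ∀ x, ‖g x‖ ≤ 1 := fun x => Real.abs_cos_le_one _
  have cpd : ∀ {f : X n → ℝ}, ContDiff ℝ 1 f → Continuous (pd j f) := fun hf =>
    (hf.continuous_fderiv one_ne_zero).clm_apply continuous_const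
  have ppd : ∀ {f : X n → ℝ}, Per f → Per (pd j f) := fun hf v hv x => by
    simp only [pd]; rw [hf.fderiv v hv x]
  -- Gauss-Green
  have G := h.eq_coord (ψd.mul gd) (fun v hv x => by simp only [ψp v hv x, gp v hv x]) j
  have e1 : ∀ x, pd j (fun y => ψ y * g y) x = pd j ψ x * g x := fun x => by
    have := fderiv_fun_mul (ψd.differentiable one_ne_zero x) (gd.differentiable one_ne_zero x)
    have z : fderiv ℝ g x (ev j) = 0 := pd_eq_zero_of_indep gj x
    simp only [pd, this, ContinuousLinearMap.add_apply, ContinuousLinearMap.smul_apply, z,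
      smul_eq_mul]
    ring
  simp only [e1] at G
  obtain ⟨C1, hC1⟩ := (ppd ψp).bounded (cpd ψd)
  have hL : ∫ x in E ∩ unitCell n, pd j ψ x * g x =
      ∫ x in unitCell n, pd j ψ x * (S x / Real.pi * Real.cos (2 * Real.pi * (b x - a))) := by
    rw [setIntegral_sec hE hp i (f := fun x => pd j ψ x * g x) (C := C1 * 1)
      (fun v hv x => by simp only [ppd ψp v hv x, gp v hv x])
      ((cpd ψd).mul gd.continuous).measurable (fun x => by
        rw [norm_mul]
        exact mul_le_mul (hC1 x) (gb x) (norm_nonneg _) ((norm_nonneg _).trans (hC1 x)))]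
    refine integral_congr_ae (ae_restrict_of_ae ?_)
    filter_upwards [ha] with x hx
    simp only [pd_indep ψi j _ x]
    rw [integral_const_mul, setIntegral_congr_set (hx.inter (ae_eq_refl _))]
    congr 1
    have := integral_arc_cos (b x - x i) (a - x i) (m := 2 * hh T r x)
      (mul_nonneg zero_le_two (hh_nonneg T r x)) (by linarith [hh_le T h0.le x])
    rw [show Real.pi * (2 * hh T r x) = 2 * Real.pi * hh T r x by ring,
      show b x - x i - (a - x i) = b x - a by ring] at this
    rw [← this]
    refine integral_congr_ae (ae_of_all _ fun t => ?_)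
    simp only [hg, PiLp.add_apply, PiLp.smul_apply, smul_eq_mul, EuclideanSpace.single_apply,
      if_true, mul_one]
    congr 1
    ring
  obtain ⟨C2, hC2⟩ := χp.bounded χc
  have hR : ∫ x, ψ x * g x * w x j ∂μ = ∫ x in unitCell n,
      χ x * dv T j x * (2 * Real.cos (2 * Real.pi * hh T r x) * Real.cos (2 * Real.pi * (b x - a))) := by
    have e2 : ∫ x, ψ x * g x * w x j ∂μ = ∫ x, (χ x * dv T j x * g x) * |w x i| ∂μ := by
      refine integral_congr_ae ?_
      filter_upwards [hw] with x hx
      by_cases hm : x ∈ model T r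
      · have hpos := (hh_pos_iff T r x).2 hm
        have := hx hm j hj
        simp only [hχ]
        field_simp
        linear_combination (ψ x * g x) * this
      · have : ψ x = 0 := (ψz x hm).self_of_nhds
        simp only [hχ, this, zero_mul]
    rw [e2, habs (fun x => χ x * dv T j x * g x)
      (fun v hv x => by simp only [χp v hv x, per_dv T j v hv x, gp v hv x])
      ((χc.measurable.mul (measurable_dv T j)).mul gd.continuous.measurable) (C2 * (1 / 2) * 1)
      (fun x => by
        rw [norm_mul, norm_mul]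
        have c0 : 0 ≤ C2 := (norm_nonneg _).trans (hC2 x)
        exact mul_le_mul (mul_le_mul (hC2 x) (abs_dv_le T j x) (norm_nonneg _) c0) (gb x)
          (norm_nonneg _) (by positivity))
      (fun x hx => by
        have : ψ x = 0 := (ψz x hx).self_of_nhds
        simp only [hχ, this, zero_mul])]
    refine integral_congr_ae (ae_of_all _ fun x => ?_)
    simp only [pt, χi _ x, indep_dv hi j _ x, hg, PiLp.add_apply, PiLp.smul_apply, smul_eq_mul,
      EuclideanSpace.single_apply, if_true, mul_one]
    rw [show 2 * Real.pi * (x i + (b x + hh T r x - x i) - a) =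
        2 * Real.pi * (b x - a) + 2 * Real.pi * hh T r x by ring,
      show 2 * Real.pi * (x i + (b x - hh T r x - x i) - a) =
        2 * Real.pi * (b x - a) - 2 * Real.pi * hh T r x by ring, Real.cos_add, Real.cos_sub]
    ring
  rw [hL, hR] at G
  -- pointwise identity
  have e3 : ∀ x, pd j η x * Real.cos (2 * Real.pi * (b x - a)) =
      Real.pi * (pd j ψ x * (S x / Real.pi * Real.cos (2 * Real.pi * (b x - a)))) -
      Real.pi * (χ x * dv T j x *
        (2 * Real.cos (2 * Real.pi * hh T r x) * Real.cos (2 * Real.pi * (b x - a)))) := by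
    intro x
    by_cases hm : x ∈ model T r
    · have hpos := (hh_pos_iff T r x).2 hm
      have hev : η =ᶠ[𝓝 x] fun y => ψ y * S y := by
        filter_upwards [(isOpen_model T r).mem_nhds hm] with y hy
        have := (w35_sin_pos h0 h1 hy).ne'
        simp only [hψ]
        rw [inv_mul_cancel_right₀ this]
      have d1 := (ψd.differentiable one_ne_zero x).hasFDerivAt
      have d2 := ((hhd x hm).differentiableAt one_ne_zero).hasFDerivAt
      have d3 := (d1.mul ((d2.const_mul (2 * Real.pi)).sin)).fderiv
      have d4 : pd j η x = ψ x * (Real.cos (2 * Real.pi * hh T r x) *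
          (2 * Real.pi * pd j (hh T r) x)) + S x * pd j ψ x := by
        simp only [pd]
        rw [hev.fderiv_eq]
        have : (fun y => ψ y * S y) = ψ * fun y => Real.sin (2 * Real.pi * hh T r y) := rfl
        rw [this, d3]
        simp only [ContinuousLinearMap.add_apply, ContinuousLinearMap.smul_apply, smul_eq_mul, hS]
      rw [d4, pd_hh h0 h1 hm j]
      simp only [hχ]
      field_simp
      ring
    · have z1 : pd j η x = 0 := by
        simp only [pd]
        rw [(w35_zero_near hs0 hs zη hm).fderiv_eq]
        simp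
      have z2 : pd j ψ x = 0 := by
        simp only [pd]
        rw [(ψz x hm).fderiv_eq]
        simp
      have z3 : χ x = 0 := by
        have : ψ x = 0 := (ψz x hm).self_of_nhds
        simp only [hχ, this, zero_mul]
      rw [z1, z2, z3]
      ring
  have fin : IsFiniteMeasure (volume.restrict (unitCell n)) :=
    ⟨by rw [Measure.restrict_apply_univ, volume_unitCell]; exact ENNReal.one_lt_top⟩
  have mc : Measurable fun x => Real.cos (2 * Real.pi * (b x - a)) := by fun_prop
  have mh : Measurable (hh T r : X n → ℝ) := (continuous_hh T r).measurable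
  have i1 : Integrable (fun x => pd j ψ x * (S x / Real.pi * Real.cos (2 * Real.pi * (b x - a))))
      (volume.restrict (unitCell n)) := by
    refine ((ppd ψp).integrable (cpd ψd) _).mul_bdd (c := 1 / Real.pi * 1)
      (Measurable.aestronglyMeasurable (by fun_prop)) (ae_of_all _ fun x => ?_)
    rw [norm_mul, norm_div, Real.norm_of_nonneg hπ.le]
    exact mul_le_mul (div_le_div_of_nonneg_right (Real.abs_sin_le_one _) hπ.le)
      (Real.abs_cos_le_one _) (norm_nonneg _) (by positivity)
  have i2 : Integrable (fun x => χ x * dv T j x *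
      (2 * Real.cos (2 * Real.pi * hh T r x) * Real.cos (2 * Real.pi * (b x - a))))
      (volume.restrict (unitCell n)) := by
    refine ((χp.integrable χc _).mul_bdd (c := 1 / 2) (measurable_dv T j).aestronglyMeasurable
      (ae_of_all _ fun x => abs_dv_le T j x)).mul_bdd (c := 2 * 1 * 1)
      (Measurable.aestronglyMeasurable (by fun_prop)) (ae_of_all _ fun x => ?_)
    rw [norm_mul, norm_mul, Real.norm_two]
    exact mul_le_mul (mul_le_mul_of_nonneg_left (Real.abs_cos_le_one _) zero_le_two)
      (Real.abs_cos_le_one _) (norm_nonneg _) (by positivity)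
  simp only [e3]
  rw [integral_sub (i1.const_mul _) (i2.const_mul _), integral_const_mul, integral_const_mul, G,
    sub_self]

end Crest.Agent.R214.Rig
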