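import Crest.Agent.R214.RigCal
import Crest.Agent.R214.RigArc
import Crest.Agent.R214.RigWeak
import Crest.Agent.R214.RigConst
import Crest.Agent.R214.RigCong
import Crest.Agent.R214.BV0Riesz
import Crest.Agent.R214.MoReal

/-! Row 214, module RIG: backward rigidity of one Steiner step. -/

set_option autoImplicit false

open MeasureTheory Set Filter Topology
open scoped ENNReal RealInnerProductSpace ContDiff
open Crest.GeometryTopology.PeriodicPerimeter

noncomputable section

namespace Crest.Agent.R214.Rig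

variable {n : ℕ}

variable {E : Set (X n)} {μ : Measure (X n)} {w : X n → X n} {T : Finset (Fin n)} {i : Fin n} {r : ℝ}

theorem core (h : GG E μ w) (hE : MeasurableSet E) (hp : IsLatticePeriodic E) (hi : i ∉ T)
    (h0 : 0 < r) (h1 : r < 1 / 2) (hlen : ∀ᵐ x, len (sec E i x) = 2 * hh T r x)
    (hP : r * ∫ x, ‖w x‖ ∂μ ≤ (T.card + 1) * periodicVolume E) :
    ∃ t : ℝ, E =ᵐ[volume] modelAt (insert i T) (t • ev i) r := by
  obtain ⟨hw, harc, hle⟩ := cal h hE hp hi h0 h1 hlen hP
  have m0 : ∀ x, 0 ≤ 2 * hh T r x := fun x => mul_nonneg zero_le_two (hh_nonneg T r x)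
  have m1 : ∀ x, 2 * hh T r x < 1 := fun x => by linarith [hh_le T h0.le x]
  obtain ⟨b, mb, pb, ib, ha⟩ := exists_centre (m := fun x => 2 * hh T r x) hE hp m0 m1 harc
  have mm : Measurable fun x => 2 * hh T r x := (continuous_hh T r).measurable.const_mul 2
  have pm : Per fun x => 2 * hh T r x := fun v hv x => by simp only [per_hh T r v hv x]
  have im : Indep i fun x => 2 * hh T r x := fun t x => by simp only [indep_hh hi r t x]
  have e2 : ∀ x, 2 * hh T r x / 2 = hh T r x := fun x => by ring
  have habs : ∀ f : X n → ℝ, Per f → Measurable f → ∀ C : ℝ, (∀ x, ‖f x‖ ≤ C) →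
      (∀ x ∉ model T r, f x = 0) → ∫ x, f x * |w x i| ∂μ =
        ∫ x in unitCell n, (f (pt i x (b x + hh T r x)) + f (pt i x (b x - hh T r x))) := by
    intro f hf mf C hC hz
    have := param_abs (m := fun x => 2 * hh T r x) h hE hp m0 m1 mm pm im mb pb ib ha
      (by simpa only [e2] using hle) hf mf hC (fun x hx => hz x fun hx' => by
        have := (hh_pos_iff T r x).2 hx'
        linarith)
    simpa only [e2] using this
  have key : ∀ a : ℝ, ∃ β, ∀ᵐ x, x ∈ model T r → Real.cos (2 * Real.pi * (b x - a)) = β := by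
    intro a
    refine const_of_weak (B := fun x => Real.cos (2 * Real.pi * (b x - a))) (C := 1) hi h0 h1
      (by fun_prop) (fun v hv x => by simp only [pb v hv x]) (fun t x => by simp only [ib t x])
      (fun x => by simpa using Real.abs_cos_le_one _) ?_
    intro s s0 s1 η hη pη iη zη j hj
    exact weak_zero h hE hp hi h0 h1 mb pb ib ha hw habs a s0 s1 hη pη iη zη hj
  obtain ⟨β₀, k₀⟩ := key 0
  obtain ⟨β₁, k₁⟩ := key (1 / 4)
  have hex : ∃ t : ℝ, ∀ᵐ x, x ∈ model T r → ∃ k : ℤ, b x = t + k := by
    by_cases hx : ∃ x₀, Real.cos (2 * Real.pi * (b x₀ - 0)) = β₀ ∧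
        Real.cos (2 * Real.pi * (b x₀ - 1 / 4)) = β₁
    · obtain ⟨x₀, c0, c1⟩ := hx
      refine ⟨b x₀, ?_⟩
      filter_upwards [k₀, k₁] with x a0 a1 hx
      exact exists_int_of_cos_sin ((a0 hx).trans c0.symm) ((a1 hx).trans c1.symm)
    · refine ⟨0, ?_⟩
      filter_upwards [k₀, k₁] with x a0 a1 hx'
      exact absurd ⟨x, a0 hx', a1 hx'⟩ hx
  obtain ⟨t, ht⟩ := hex
  refine ⟨t, ae_eq_of_sec hE (isOpen_modelAt _ _ _).measurableSet i ?_⟩
  filter_upwards [ha, ht] with x hx hk
  have e : sec (modelAt (insert i T) (t • ev i) r) i x = arc (t - x i) (2 * hh T r x) := by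
    have e1 : sec (modelAt (insert i T) (t • ev i) r) i x =
        sec (model (insert i T) r) i (x + (-t) • ev i) := by
      ext s
      simp only [sec, modelAt, mem_ofPred_eq]
      rw [show x + s • ev i - t • ev i = x + (-t) • ev i + s • ev i by
        rw [neg_smul]; abel]
    rw [e1, sec_model hi, indep_hh hi r (-t) x]
    congr 1
    simp
    ring
  rw [e]
  by_cases hm : x ∈ model T r
  · obtain ⟨k, hk⟩ := hk hm
    rw [← arc_add_int (t - x i) _ k, show t - x i + k = b x - x i by rw [hk]; ring]
    exact hx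
  · have : 2 * hh T r x ≤ 0 := by
      have := (hh_pos_iff T r x).not.2 hm
      linarith [not_lt.1 this]
    rw [arc_nonpos _ this] at hx ⊢
    exact hx

theorem rig_model [NeZero n] {F : Set (X n)} (hE : MeasurableSet E) (hp : IsLatticePeriodic E)
    (hF : MeasurableSet F) (hlen : ∀ᵐ x, len (sec E i x) = len (sec F i x))
    {S : Finset (Fin n)} {c : X n} (h0 : 0 < r) (h1 : r < 1 / 2)
    (hM : F =ᵐ[volume] modelAt S c r)
    (hP : periodicPerimeter E ≤ ENNReal.ofReal (S.card * periodicVolume E / r)) :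
    ∃ c', E =ᵐ[volume] modelAt S c' r := by
  have mM : MeasurableSet (modelAt S c r) := (isOpen_modelAt _ _ _).measurableSet
  have hlen' : ∀ᵐ x, len (sec E i x) = len (sec (modelAt S c r) i x) := by
    filter_upwards [hlen, sec_ae_of_ae_eq hF mM i hM] with x a b
    rw [a, len_congr b]
  have esec : ∀ x, sec (modelAt S c r) i x = sec (model S r) i (x - c) := by
    intro x
    ext s
    simp only [sec, modelAt, mem_ofPred_eq]
    rw [show x + s • ev i - c = x - c + s • ev i by abel]
  by_cases hi : i ∈ S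
  · -- translate
    have hg := Mo.cubic_add (n := n) (-c)
    set E' : Set (X n) := (fun x => x + -c) '' E with hE'
    have mE' : MeasurableSet E' := Mo.measurable_image hg hE
    have pE' : IsLatticePeriodic E' := Mo.periodic_image hg hp
    have vE' : periodicVolume E' = periodicVolume E := Mo.vol_image hg hE hp
    have PE' : periodicPerimeter E' = periodicPerimeter E := Mo.per_image hg hE hp
    have memE' : ∀ x, x ∈ E' ↔ x + c ∈ E := by
      intro x
      constructor
      · rintro ⟨y, hy, rfl⟩
        simpa using hy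
      · intro hx
        exact ⟨x + c, hx, by simp⟩
    have hfin : periodicPerimeter E' ≠ ⊤ := by
      rw [PE']
      exact ne_top_of_le_ne_top ENNReal.ofReal_ne_top hP
    obtain ⟨σ, ν, hG, -, -, -⟩ := exists_GG hfin
    have hT : i ∉ S.erase i := Finset.notMem_erase i S
    have hins : insert i (S.erase i) = S := Finset.insert_erase hi
    have qmp := (measurePreserving_add_right (volume : Measure (X n)) c).quasiMeasurePreserving
    have hl : ∀ᵐ x, len (sec E' i x) = 2 * hh (S.erase i) r x := by
      filter_upwards [qmp.ae hlen'] with x hx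
      have e1 : sec E' i x = sec E i (x + c) := by
        ext s
        simp only [sec, mem_ofPred_eq, memE']
        rw [show x + s • ev i + c = x + c + s • ev i by abel]
      rw [e1, hx, esec, add_sub_cancel_right, ← hins, sec_model hT, hins, len_arc]
      · exact mul_nonneg zero_le_two (hh_nonneg _ _ _)
      · linarith [hh_le (S.erase i) h0.le x]
    have hV : 0 ≤ periodicVolume E := ENNReal.toReal_nonneg
    have hcard : ((S.erase i).card : ℝ) + 1 = S.card := by
      rw [← Finset.card_erase_add_one hi]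
      push_cast
      ring
    have hP' : r * ∫ x, ‖ν x‖ ∂σ ≤ ((S.erase i).card + 1) * periodicVolume E' := by
      rw [← hG.perimeter_toReal, PE', vE', hcard]
      have := ENNReal.toReal_le_of_le_ofReal (by positivity) hP
      rw [le_div_iff₀ h0] at this
      linarith
    obtain ⟨t, ht⟩ := core hG mE' pE' hT h0 h1 hl hP'
    rw [hins] at ht
    refine ⟨c + t • ev i, ?_⟩
    have qmp' := (measurePreserving_add_right (volume : Measure (X n)) (-c)).quasiMeasurePreserving
    filter_upwards [qmp'.ae ht] with x hx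
    have a1 : (x + -c ∈ E') = (x + -c ∈ modelAt S (t • ev i) r) := hx
    rw [memE', neg_add_cancel_right] at a1
    have a2 : (x + -c ∈ modelAt S (t • ev i) r) = (x ∈ modelAt S (c + t • ev i) r) := by
      simp only [modelAt, mem_ofPred_eq]
      rw [show x + -c - t • ev i = x - (c + t • ev i) by abel]
    exact a1.trans a2
  · refine ⟨c, ae_eq_of_sec hE mM i ?_⟩
    filter_upwards [hlen'] with x hx
    rw [esec] at hx ⊢
    by_cases hm : x - c ∈ model S r
    · have e : sec (model S r) i (x - c) = univ :=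
        eq_univ_of_forall fun t => (mem_sec_model hi r _ t).2 hm
      rw [e] at hx ⊢
      exact ae_univ_of_len (measurableSet_sec hE i x) (sec_add_one hp i x) (hx.trans len_univ)
    · have e : sec (model S r) i (x - c) = ∅ :=
        eq_empty_of_forall_notMem fun t ht => hm ((mem_sec_model hi r _ t).1 ht)
      rw [e] at hx ⊢
      exact ae_empty_of_len (measurableSet_sec hE i x) (sec_add_one hp i x) (hx.trans len_empty)

/-- RIG: one Steiner step backwards. -/
theorem rig_standard {W : ℝ} (h0 : 0 < W) (h1 : W ≤ 1 / 2) {E F : Set (X 3)} (hE : MeasurableSet E)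
    (hp : IsLatticePeriodic E) (hF : MeasurableSet F) (hvol : periodicVolume E = W) (i : Fin 3)
    (hlen : ∀ᵐ x, len (sec E i x) = len (sec F i x)) (hS : IsStandardRegion W F)
    (hP : periodicPerimeter E ≤ ENNReal.ofReal (Mo.I3 W)) : IsStandardRegion W E := by
  rcases hS with ⟨a, b⟩ | ⟨a, a', b⟩ | ⟨a, b⟩
  · obtain ⟨r1, r2, r3, r4⟩ := Mo.ball_radius h0 a
    refine Or.inl ⟨a, ?_⟩
    rw [congruent_ball_iff r1] at b ⊢
    obtain ⟨c, hc⟩ := b
    refine rig_model hE hp hF hlen r1 (by linarith) hc (hP.trans (le_of_eq ?_))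
    congr 1
    rw [hvol, ← r4, eq_div_iff r1.ne']
    simp only [Finset.card_univ, Fintype.card_fin, Nat.cast_ofNat]
    linarith
  · obtain ⟨r1, r2, r3, r4⟩ := Mo.tube_radius a a'
    refine Or.inr (Or.inl ⟨a, a', ?_⟩)
    rw [congruent_tube_iff] at b ⊢
    obtain ⟨k, c, hc⟩ := b
    refine ⟨k, rig_model hE hp hF hlen r1 r2 hc (hP.trans (le_of_eq ?_))⟩
    congr 1
    rw [hvol, ← r4, eq_div_iff r1.ne', Finset.card_erase_of_mem (Finset.mem_univ k)]
    simp only [Finset.card_univ, Fintype.card_fin]
    norm_num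
    linarith
  · refine Or.inr (Or.inr ⟨a, ?_⟩)
    rw [congruent_slab_iff h0] at b ⊢
    obtain ⟨k, c, hc⟩ := b
    refine ⟨k, rig_model hE hp hF hlen (by linarith) (by linarith) hc (hP.trans (le_of_eq ?_))⟩
    congr 1
    rw [hvol, Mo.I3_slab a, Finset.card_singleton]
    field_simp
    simp

end Crest.Agent.R214.Rig
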