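import Crest.Agent.R214.TestAC
import Crest.Agent.R214.BV0Slice

/-! Row 214, module RIG: the slicing inequality with a horizontal test field; sections are arcs. -/

set_option autoImplicit false

open MeasureTheory Set Filter Topology
open scoped ENNReal
open Crest.GeometryTopology.PeriodicPerimeter

noncomputable section

namespace Crest.Agent.R214

variable {n : ℕ} {E : Set (X n)}

theorem rga_abs_chi_sub (x y : X n) : |chi E x - chi E y| ≤ 1 := by
  unfold chi
  by_cases hx : x ∈ E <;> by_cases hy : y ∈ E <;> simp [hx, hy]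

theorem rga_enorm (i : Fin n) (x : X n) (d : ℝ) (hE : MeasurableSet E) :
    ∫⁻ t in Ico (0 : ℝ) 1, ENNReal.ofReal
      ((chi E (x + t • ev i + d • ev i) - chi E (x + t • ev i)) ^ 2) = dsh (sec E i x) d := by
  have hm : MeasurableSet {t : ℝ | ¬ (t + d ∈ sec E i x ↔ t ∈ sec E i x)} := by
    have h1 := measurableSet_sec hE i x
    have h2 : MeasurableSet {t : ℝ | t + d ∈ sec E i x} := (measurable_add_const d) h1
    have : {t : ℝ | ¬ (t + d ∈ sec E i x ↔ t ∈ sec E i x)} =
        symmDiff {t : ℝ | t + d ∈ sec E i x} (sec E i x) := by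
      ext t; simp only [mem_ofPred_eq, mem_symmDiff]; tauto
    rw [this]
    exact h2.symmDiff h1
  have e : ∀ t : ℝ, ENNReal.ofReal
      ((chi E (x + t • ev i + d • ev i) - chi E (x + t • ev i)) ^ 2) =
      {t : ℝ | ¬ (t + d ∈ sec E i x ↔ t ∈ sec E i x)}.indicator 1 t := fun t => by
    have a1 : x + t • ev i + d • ev i = x + (t + d) • ev i := by rw [add_smul, add_assoc]
    rw [a1]
    by_cases h1 : x + (t + d) • ev i ∈ E <;> by_cases h2 : x + t • ev i ∈ E <;>
      simp [chi, sec, indicator, h1, h2]
  simp only [e]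
  rw [lintegral_indicator_one hm, Measure.restrict_apply hm, dsh]
  congr 1
  ext t
  simp only [mem_inter_iff, mem_ofPred_eq]
  tauto

/-- one difference quotient -/
theorem rig_shift (hE : MeasurableSet E) (hp : IsLatticePeriodic E) (i : Fin n) {P c : ℝ}
    (hP0 : 0 ≤ P) (hP : periodicPerimeter E ≤ ENNReal.ofReal P) (hc : 0 < c)
    (g : X n → X n) (k : Fin n → X n → ℝ) (K : ℝ) (h : X n → ℝ)
    (hg : Measurable g) (hk : ∀ j, Measurable (k j)) (hK : ∀ j x, |k j x| ≤ K) (pg : Per g)
    (gi : ∀ x, g x i = 0)
    (hac : ∀ j, j ≠ i → ∀ x (s : ℝ), g (x + s • ev j) j - g x j = ∫ t in (0 : ℝ)..s, k j (x + t • ev j))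
    (mh : Measurable h) (ph : Per h) (ih : Indep i h) (h0 : ∀ x, 0 ≤ h x)
    (hn : ∀ x, ‖g x‖ ^ 2 + h x ^ 2 ≤ c ^ 2) {d : ℝ} (hd : 0 < d) :
    (∫ x in E ∩ unitCell n, ∑ j ∈ Finset.univ.erase i, k j x) +
      ∫ x in unitCell n, h x / d * (chi E (x + d • ev i) - chi E x) ^ 2 ≤ c * P := by
  classical
  have hc' : ∀ x, h x ≤ c := fun x =>
    abs_le_of_sq_le_sq' (by nlinarith [hn x, sq_nonneg ‖g x‖]) hc.le |>.2
  let s : X n → ℝ := fun x => chi E (x + d • ev i) - chi E x
  have ms : Measurable s := ((measurable_chi hE).comp (measurable_add_const _)).sub (measurable_chi hE)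
  have ps : Per s := fun v hv x => by
    simp only [s]
    rw [Per.chi hp v hv x, add_right_comm, Per.chi hp v hv]
  have bs : ∀ x, |s x| ≤ 1 := fun x => rga_abs_chi_sub _ _
  have ii : ∀ (x : X n) (a b : ℝ), IntervalIntegrable (fun t : ℝ => s (x + t • ev i)) volume a b :=
    fun x a b => (intervalIntegrable_const (c := (1 : ℝ))).mono_fun'
      (ms.comp (by fun_prop : Measurable fun t : ℝ => x + t • ev i)).aestronglyMeasurable
      (Eventually.of_forall fun t => bs _)
  let w : X n → ℝ := fun x => ∫ t in (-d)..0, s (x + t • ev i)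
  have mw : Measurable w := by
    have : StronglyMeasurable (Function.uncurry fun (x : X n) (t : ℝ) => s (x + t • ev i)) :=
      (ms.comp (by fun_prop : Measurable fun p : X n × ℝ => p.1 + p.2 • ev i)).stronglyMeasurable
    simp only [w, intervalIntegral.integral_of_le (by linarith : -d ≤ 0)]
    exact (this.integral_prod_right (ν := volume.restrict (Ioc (-d) 0))).measurable
  have bw : ∀ x, |w x| ≤ d := fun x => by
    have := intervalIntegral.norm_integral_le_of_norm_le_const (a := -d) (b := 0) (C := 1)
      (f := fun t : ℝ => s (x + t • ev i)) fun t _ => bs _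
    rw [Real.norm_eq_abs, one_mul, zero_sub, neg_neg, abs_of_pos hd] at this
    exact this
  let f : X n → ℝ := fun x => -(h x / d) * w x
  have bf : ∀ x, |f x| ≤ h x := fun x => by
    simp only [f]
    rw [abs_mul, abs_neg, abs_of_nonneg (div_nonneg (h0 x) hd.le)]
    calc h x / d * |w x| ≤ h x / d * d := mul_le_mul_of_nonneg_left (bw x) (div_nonneg (h0 x) hd.le)
      _ = h x := by field_simp
  let ki : X n → ℝ := fun x => -(h x / d) * (s x - s (x - d • ev i))
  have mki : Measurable ki :=
    (mh.div_const d).neg.mul (ms.sub (ms.comp (measurable_sub_const _)))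
  have bki : ∀ x, |ki x| ≤ c / d * 2 := fun x => by
    simp only [ki]
    rw [abs_mul, abs_neg, abs_of_nonneg (div_nonneg (h0 x) hd.le)]
    refine mul_le_mul (div_le_div_of_nonneg_right (hc' x) hd.le) ?_ (abs_nonneg _) (by positivity)
    exact (abs_sub _ _).trans (by linarith [bs x, bs (x - d • ev i)])
  have main := testAC_real hE hP0 hP hc (fun x => g x + f x • ev i)
    (fun j => if j = i then ki else k j) (max K (c / d * 2))
    (hg.add (((mh.div_const d).neg.mul mw).smul_const _))
    (fun j => by split_ifs; exacts [mki, hk j])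
    (fun j x => by
      split_ifs
      exacts [(bki x).trans (le_max_right _ _), (hK j x).trans (le_max_left _ _)])
    (fun v hv x => by
      have e1 : w (x + v) = w x := by
        simp only [w]
        refine intervalIntegral.integral_congr fun t _ => ?_
        beta_reduce
        rw [add_right_comm, ps v hv]
      simp only [f]
      rw [pg v hv x, ph v hv x, e1])
    (fun x => by
      refine abs_le_of_sq_le_sq' ?_ hc.le |>.2
      rw [norm_add_sq_real, inner_smul_right, EuclideanSpace.inner_single_right, gi x, norm_smul]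
      have := bf x
      have h2 : |f x| ^ 2 ≤ h x ^ 2 := pow_le_pow_left₀ (abs_nonneg _) this 2
      simp only [conj_trivial, mul_zero, PiLp.norm_single, norm_one, mul_one,
        Real.norm_eq_abs, add_zero]
      linarith [hn x])
    (fun j x a => by
      by_cases hj : j = i
      · subst hj
        simp only [if_true, PiLp.add_apply, PiLp.smul_apply, gi, PiLp.single_apply,
          smul_eq_mul, mul_one, zero_add, f, ki]
        have e1 : ∀ t : ℝ, h (x + t • ev j) = h x := fun t => ih t x
        simp only [e1]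
        rw [intervalIntegral.integral_const_mul, ← mul_sub]
        congr 1
        have e2 : w (x + a • ev j) = ∫ t in (-d + a)..(0 + a), s (x + t • ev j) := by
          simp only [w]
          rw [← intervalIntegral.integral_comp_add_right (fun t => s (x + t • ev j)) a]
          refine intervalIntegral.integral_congr fun t _ => ?_
          beta_reduce
          rw [add_smul, add_assoc, add_comm (a • ev j)]
        have e3 : ∫ t in (0 : ℝ)..a, s (x + t • ev j - d • ev j) =
            ∫ t in (0 + -d)..(a + -d), s (x + t • ev j) := by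
          rw [← intervalIntegral.integral_comp_add_right (fun t => s (x + t • ev j)) (-d)]
          refine intervalIntegral.integral_congr fun t _ => ?_
          beta_reduce
          rw [add_smul, neg_smul, ← add_assoc, ← sub_eq_add_neg]
        have i3 : IntervalIntegrable (fun t : ℝ => s (x + t • ev j - d • ev j)) volume 0 a := by
          have := ii (x - d • ev j) 0 a
          refine this.congr fun t _ => ?_
          beta_reduce
          rw [sub_add_eq_add_sub]
        rw [intervalIntegral.integral_sub (ii x 0 a) i3, e2, e3]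
        simp only [w, zero_add]
        rw [add_comm a (-d)]
        have q1 := intervalIntegral.integral_add_adjacent_intervals (ii x (-d) (-d + a))
          (ii x (-d + a) a)
        have q2 := intervalIntegral.integral_add_adjacent_intervals (ii x (-d) 0) (ii x 0 a)
        linarith
      · simp only [if_neg hj, PiLp.add_apply, PiLp.smul_apply, PiLp.single_apply,
          smul_eq_mul, mul_zero, add_zero]
        exact hac j hj x a)
  have : IsFiniteMeasure (volume.restrict (E ∩ unitCell n)) :=
    isFiniteMeasure_restrict.2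
      ((measure_mono inter_subset_right).trans_lt tac_volume_unitCell_lt_top).ne
  have e1 : ∀ x, ∑ j, (if j = i then ki else k j) x =
      (∑ j ∈ Finset.univ.erase i, k j x) + ki x := fun x => by
    rw [← Finset.sum_erase_add _ _ (Finset.mem_univ i), if_pos rfl]
    congr 1
    exact Finset.sum_congr rfl fun j hj => by rw [if_neg (Finset.ne_of_mem_erase hj)]
  simp only [e1] at main
  rw [integral_add (integrable_finsetSum _ fun j _ => Integrable.of_bound
      (hk j).aestronglyMeasurable K (Eventually.of_forall (hK j)))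
    (Integrable.of_bound mki.aestronglyMeasurable _ (Eventually.of_forall bki))] at main
  refine le_trans (le_of_eq ?_) main
  congr 1
  have bchi : ∀ x, |chi E x| ≤ 1 := fun x => by
    unfold chi; by_cases hx : x ∈ E <;> simp [hx]
  have bb : ∀ (a b : X n → ℝ), Measurable a → Measurable b → (∀ x, |a x| ≤ 1) → (∀ x, |b x| ≤ 1) →
      Integrable (fun x => h x / d * (a x * b x)) (volume.restrict (unitCell n)) := by
    intro a b ma mb ba bb
    refine Integrable.of_bound ((mh.div_const d).mul (ma.mul mb)).aestronglyMeasurable (c / d * (1 * 1))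
      (Eventually.of_forall fun x => ?_)
    rw [Real.norm_eq_abs, abs_mul, abs_mul, abs_of_nonneg (div_nonneg (h0 x) hd.le)]
    exact mul_le_mul (div_le_div_of_nonneg_right (hc' x) hd.le)
      (mul_le_mul (ba x) (bb x) (abs_nonneg _) zero_le_one) (by positivity) (by positivity)
  have e2 : ∫ x in E ∩ unitCell n, ki x =
      ∫ x in unitCell n, (h x / d * (chi E x * s (x - d • ev i)) - h x / d * (chi E x * s x)) := by
    rw [← Measure.restrict_restrict hE, ← integral_indicator hE]
    refine integral_congr_ae (Eventually.of_forall fun x => ?_)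
    by_cases hx : x ∈ E
    · simp only [indicator_of_mem hx, chi, ki]; ring
    · simp [indicator_of_notMem hx, chi]
  have pp : Per fun x => h x / d * (chi E x * s (x - d • ev i)) := fun v hv x => by
    beta_reduce
    rw [ph v hv x, Per.chi hp v hv x, add_sub_right_comm, ps v hv]
  have e3 := integral_cell_add pp (d • ev i)
  simp only [add_sub_cancel_right, ih d] at e3
  have m1 : Measurable fun x : X n => chi E (x + d • ev i) :=
    (measurable_chi hE).comp (measurable_add_const _)
  have m2 : Measurable fun x : X n => s (x - d • ev i) := ms.comp (measurable_sub_const _)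
  rw [e2, integral_sub (bb _ _ (measurable_chi hE) m2 bchi
      fun x => bs _) (bb _ _ (measurable_chi hE) ms bchi bs), ← e3,
    ← integral_sub (bb _ _ m1 ms (fun x => bchi _) bs) (bb _ _ (measurable_chi hE) ms bchi bs)]
  refine integral_congr_ae (Eventually.of_forall fun x => ?_)
  simp only [s]
  ring

/-- the slicing inequality with a horizontal test field `g` and a weight `h` -/
theorem rig_slice (hE : MeasurableSet E) (hp : IsLatticePeriodic E) (i : Fin n) {P c : ℝ}
    (hP0 : 0 ≤ P) (hP : periodicPerimeter E ≤ ENNReal.ofReal P) (hc : 0 < c)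
    (g : X n → X n) (k : Fin n → X n → ℝ) (K : ℝ) (h : X n → ℝ)
    (hg : Measurable g) (hk : ∀ j, Measurable (k j)) (hK : ∀ j x, |k j x| ≤ K) (pg : Per g)
    (gi : ∀ x, g x i = 0)
    (hac : ∀ j, j ≠ i → ∀ x (s : ℝ), g (x + s • ev j) j - g x j = ∫ t in (0 : ℝ)..s, k j (x + t • ev j))
    (mh : Measurable h) (ph : Per h) (ih : Indep i h) (h0 : ∀ x, 0 ≤ h x)
    (hn : ∀ x, ‖g x‖ ^ 2 + h x ^ 2 ≤ c ^ 2) :
    ∫⁻ x in unitCell n, ENNReal.ofReal (h x) * V1 (sec E i x) ≤
      ENNReal.ofReal (c * P - ∫ x in E ∩ unitCell n, ∑ j ∈ Finset.univ.erase i, k j x) := by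
  have hc' : ∀ x, h x ≤ c := fun x =>
    abs_le_of_sq_le_sq' (by nlinarith [hn x, sq_nonneg ‖g x‖]) hc.le |>.2
  have step : ∀ m : ℕ, ∫⁻ x in unitCell n, ENNReal.ofReal (h x) *
      (((m : ℝ≥0∞) + 1) * dsh (sec E i x) (1 / ((m : ℝ) + 1))) ≤
      ENNReal.ofReal (c * P - ∫ x in E ∩ unitCell n, ∑ j ∈ Finset.univ.erase i, k j x) := by
    intro m
    have hd : (0 : ℝ) < 1 / ((m : ℝ) + 1) := by positivity
    set d : ℝ := 1 / ((m : ℝ) + 1) with hdd
    have h1 := rig_shift hE hp i hP0 hP hc g k K h hg hk hK pg gi hac mh ph ih h0 hn hd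
    let F : X n → ℝ := fun x => h x / d * (chi E (x + d • ev i) - chi E x) ^ 2
    have mF : Measurable F := (mh.div_const d).mul
      ((((measurable_chi hE).comp (measurable_add_const _)).sub (measurable_chi hE)).pow_const 2)
    have F0 : ∀ x, 0 ≤ F x := fun x => mul_nonneg (div_nonneg (h0 x) hd.le) (sq_nonneg _)
    have bF : ∀ x, ‖F x‖ ≤ c / d * 1 := fun x => by
      rw [Real.norm_of_nonneg (F0 x)]
      refine mul_le_mul (div_le_div_of_nonneg_right (hc' x) hd.le) ?_ (sq_nonneg _) (by positivity)
      rw [← sq_abs]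
      exact pow_le_one₀ (abs_nonneg _) (rga_abs_chi_sub _ _)
    have pF : Per fun x => ENNReal.ofReal (F x) := fun v hv x => by
      simp only [F]
      rw [ph v hv x, Per.chi hp v hv x, add_right_comm, Per.chi hp v hv]
    have e1 : ENNReal.ofReal (∫ x in unitCell n, F x) = ∫⁻ x in unitCell n, ENNReal.ofReal (F x) :=
      ofReal_integral_eq_lintegral_ofReal
        (Integrable.of_bound mF.aestronglyMeasurable _ (Eventually.of_forall bF))
        (Eventually.of_forall F0)
    refine le_trans (le_of_eq ?_) (ENNReal.ofReal_le_ofReal (by linarith : ∫ x in unitCell n, F x ≤ _))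
    rw [e1, ← lintegral_cell_avg pF mF.ennreal_ofReal i]
    refine lintegral_congr fun x => ?_
    rw [← rga_enorm i x d hE, ← mul_assoc, ← lintegral_const_mul' _ _
      (ENNReal.mul_ne_top ENNReal.ofReal_ne_top (by simp))]
    refine lintegral_congr fun t => ?_
    simp only [F]
    rw [ih t x, ENNReal.ofReal_mul (div_nonneg (h0 x) hd.le)]
    congr 1
    rw [hdd, div_div_eq_mul_div, div_one, ENNReal.ofReal_mul (h0 x), ENNReal.ofReal_add (by positivity)
      zero_le_one, ENNReal.ofReal_natCast, ENNReal.ofReal_one]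
  calc ∫⁻ x in unitCell n, ENNReal.ofReal (h x) * V1 (sec E i x)
      = ∫⁻ x in unitCell n, liminf (fun m : ℕ => ENNReal.ofReal (h x) *
          (((m : ℝ≥0∞) + 1) * dsh (sec E i x) (1 / ((m : ℝ) + 1)))) atTop :=
        lintegral_congr fun x => (ENNReal.liminf_const_mul_of_ne_top ENNReal.ofReal_ne_top).symm
    _ ≤ liminf (fun m : ℕ => ∫⁻ x in unitCell n, ENNReal.ofReal (h x) *
          (((m : ℝ≥0∞) + 1) * dsh (sec E i x) (1 / ((m : ℝ) + 1)))) atTop :=
        lintegral_liminf_le fun m =>
          mh.ennreal_ofReal.mul ((measurable_dsh_sec hE i _).const_mul _)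
    _ ≤ _ := liminf_le_of_frequently_le' (Frequently.of_forall step)

/-- if the weighted variation of the sections is at most `2 ∫ h`, the sections are arcs -/
theorem rig_arcs (hE : MeasurableSet E) (hp : IsLatticePeriodic E) (i : Fin n) {h : X n → ℝ} {c : ℝ}
    (mh : Measurable h) (ph : Per h) (h0 : ∀ x, 0 ≤ h x) (hc : ∀ x, h x ≤ c)
    (hl : ∀ᵐ x, 0 < h x → 0 < len (sec E i x) ∧ len (sec E i x) < 1)
    (hle : ∫⁻ x in unitCell n, ENNReal.ofReal (h x) * V1 (sec E i x) ≤
      ENNReal.ofReal (2 * ∫ x in unitCell n, h x)) :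
    ∀ᵐ x, 0 < h x → ∃ b, sec E i x =ᵐ[volume] arc b (len (sec E i x)) := by
  let N : Set (X n) := {x | 0 < h x ∧ 4 ≤ V1 (sec E i x)}
  have mN : MeasurableSet N := (measurableSet_lt measurable_const mh).inter
    (measurableSet_le measurable_const (measurable_V1_sec hE i))
  have pN : IsLatticePeriodic N := fun v hv x => by
    simp only [N, mem_ofPred_eq]
    rw [ph v hv x, per_sec hp i v hv x]
  have hint : Integrable h (volume.restrict (unitCell n)) :=
    Integrable.of_bound mh.aestronglyMeasurable c
      (Eventually.of_forall fun x => by rw [Real.norm_of_nonneg (h0 x)]; exact hc x)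
  have e1 : ENNReal.ofReal (2 * ∫ x in unitCell n, h x) =
      ∫⁻ x in unitCell n, 2 * ENNReal.ofReal (h x) := by
    rw [lintegral_const_mul _ mh.ennreal_ofReal, ENNReal.ofReal_mul zero_le_two,
      ofReal_integral_eq_lintegral_ofReal hint (Eventually.of_forall h0), ENNReal.ofReal_ofNat]
  have l1 : ∫⁻ x in unitCell n, (2 * ENNReal.ofReal (h x) +
      N.indicator (fun x => 2 * ENNReal.ofReal (h x)) x) ≤
      ∫⁻ x in unitCell n, ENNReal.ofReal (h x) * V1 (sec E i x) := by
    refine lintegral_mono_ae ?_
    filter_upwards [ae_restrict_of_ae hl] with x hx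
    by_cases hN : x ∈ N
    · rw [indicator_of_mem hN, ← add_mul, mul_comm]
      refine mul_le_mul_right (le_trans (le_of_eq ?_) hN.2) _
      norm_num
    · rw [indicator_of_notMem hN, add_zero, mul_comm]
      rcases (h0 x).eq_or_lt with h1 | h1
      · simp [← h1]
      · exact mul_le_mul_right (two_le_V1 (measurableSet_sec hE i x) (sec_add_one hp i x)
          (hx h1).1 (hx h1).2) _
  rw [lintegral_add_left (mh.ennreal_ofReal.const_mul _)] at l1
  have l2 := l1.trans (hle.trans_eq e1)
  have fin : ∫⁻ x in unitCell n, 2 * ENNReal.ofReal (h x) ≠ ⊤ := e1 ▸ ENNReal.ofReal_ne_top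
  have l3 : ∫⁻ x in unitCell n, N.indicator (fun x => 2 * ENNReal.ofReal (h x)) x = 0 := by
    have := (ENNReal.add_le_add_iff_left fin).1 (l2.trans_eq (add_zero _).symm)
    exact le_antisymm this bot_le
  rw [lintegral_eq_zero_iff ((mh.ennreal_ofReal.const_mul _).indicator mN)] at l3
  have l4 : volume (N ∩ unitCell n) = 0 := by
    rw [← Measure.restrict_apply mN, measure_eq_zero_iff_ae_notMem]
    filter_upwards [l3] with x hx hN
    rw [indicator_of_mem hN] at hx
    simp only [Pi.zero_apply, mul_eq_zero, ENNReal.ofReal_eq_zero] at hx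
    rcases hx with hx | hx
    · exact two_ne_zero hx
    · exact absurd hN.1 (not_lt.2 hx)
  have l5 := measure_eq_zero_iff_ae_notMem.1 (null_of_cell pN l4)
  filter_upwards [l5] with x hx h1
  refine arc_of_V1_lt (measurableSet_sec hE i x) (sec_add_one hp i x) (not_le.1 fun h4 => hx ⟨h1, h4⟩)

end Crest.Agent.R214
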