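import Crest.Agent.R214.StGraph

/-! Row 214, module ST: Steiner's inequality on the torus. Architect helper2. -/

set_option autoImplicit false

open MeasureTheory Set Filter Topology
open scoped ENNReal RealInnerProductSpace
open Crest.GeometryTopology.PeriodicPerimeter

noncomputable section

namespace Crest.Agent.R214

variable {n : ℕ} {E : Set (X n)}

theorem Indep.pd {i : Fin n} {f : X n → ℝ} (h : Indep i f) (j : Fin n) : Indep i (pd j f) := by
  intro t x
  have e : (fun y => f (y + t • ev i)) = f := funext fun y => h t y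
  simp only [R214.pd]
  rw [← fderiv_comp_add_right, e]

theorem Per.pd {f : X n → ℝ} (h : Per f) (j : Fin n) : Per (pd j f) := fun v hv x => by
  simp only [R214.pd, h.fderiv v hv x]

theorem integral_mul_len (hE : MeasurableSet E) (hp : IsLatticePeriodic E) (i : Fin n)
    {v : X n → ℝ} (hv : Continuous v) (pv : Per v) (iv : Indep i v) :
    ∫ x in unitCell n, v x * len (sec E i x) = ∫ x in E ∩ unitCell n, v x := by
  obtain ⟨C, hC⟩ := pv.bounded hv
  have pH : Per (E.indicator v) := fun w hw x => by
    classical
    simp only [indicator_apply, hp w hw x, pv w hw x]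
  rw [inter_comm, ← setIntegral_indicator hE, ← integral_cell_avg pH
    (hv.stronglyMeasurable.indicator hE) (C := C)
    (fun x => (norm_indicator_le_norm_self _ _).trans (hC x)) i]
  refine integral_congr_ae (Eventually.of_forall fun x => ?_)
  simp only [len_sec_eq hE]
  rw [← integral_const_mul]
  refine integral_congr_ae (Eventually.of_forall fun t => ?_)
  classical
  simp only [chi, indicator_apply, iv t x]
  split_ifs <;> simp

/-- the folded boundary field -/
def bfold (i : Fin n) (φ : X n → X n) (m : X n → ℝ) (x : X n) : X n :=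
  WithLp.toLp 2 fun j => if j = i then |φ (lev i x (m x / 2)) j - φ (lev i x (-(m x / 2))) j| / 2
    else (φ (lev i x (m x / 2)) j + φ (lev i x (-(m x / 2))) j) / 2

theorem norm_bfold_le (i : Fin n) {φ : X n → X n} (h1 : ∀ x, ‖φ x‖ ≤ 1) (m : X n → ℝ) (x : X n) :
    ‖bfold i φ m x‖ ≤ 1 := by
  set a := φ (lev i x (m x / 2)) with ha
  set b := φ (lev i x (-(m x / 2))) with hb
  have k1 : ‖a‖ ^ 2 ≤ 1 := pow_le_one₀ (norm_nonneg _) (h1 _)
  have k2 : ‖b‖ ^ 2 ≤ 1 := pow_le_one₀ (norm_nonneg _) (h1 _)
  rw [EuclideanSpace.real_norm_sq_eq] at k1 k2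
  refine (sq_le_one_iff₀ (norm_nonneg _)).1 ?_
  rw [EuclideanSpace.real_norm_sq_eq]
  calc ∑ j, bfold i φ m x j ^ 2 ≤ ∑ j, (a j ^ 2 + b j ^ 2) / 2 := Finset.sum_le_sum fun j _ => by
        simp only [bfold, ← ha, ← hb]
        split_ifs
        · rw [div_pow, sq_abs]; nlinarith [sq_nonneg (a j + b j)]
        · nlinarith [sq_nonneg (a j - b j)]
    _ ≤ 1 := by rw [← Finset.sum_div, Finset.sum_add_distrib]; linarith

theorem continuous_bfold (i : Fin n) {φ : X n → X n} (hφ : Continuous φ) {m : X n → ℝ}
    (hm : Continuous m) : Continuous (bfold i φ m) := by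
  refine (PiLp.continuous_toLp 2 _).comp (continuous_pi fun j => ?_)
  split_ifs <;> fun_prop

theorem per_bfold (i : Fin n) {φ : X n → X n} (pφ : Per φ) {m : X n → ℝ} (pm : Per m) :
    Per (bfold i φ m) := fun v hv x => by
  simp only [bfold, pm v hv x, pφ.lev i hv]

theorem indep_bfold (i : Fin n) (φ : X n → X n) {m : X n → ℝ} (im : Indep i m) :
    Indep i (bfold i φ m) := fun t x => by
  simp only [bfold, im t x, lev_add_ev]

/-- the lines with a proper section -/
def prp (E : Set (X n)) (i : Fin n) : Set (X n) := {x | 0 < len (sec E i x) ∧ len (sec E i x) < 1}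

theorem measurableSet_prp (hE : MeasurableSet E) (i : Fin n) : MeasurableSet (prp E i) :=
  (measurableSet_lt measurable_const (measurable_len_sec hE i)).inter
    (measurableSet_lt (measurable_len_sec hE i) measurable_const)

theorem periodic_prp (hp : IsLatticePeriodic E) (i : Fin n) : IsLatticePeriodic (prp E i) :=
  fun v hv x => by simp only [prp, mem_ofPred_eq, per_sec hp i v hv x]

theorem norm_chi_le (A : Set (X n)) (x : X n) : ‖chi A x‖ ≤ 1 := by
  classical
  simp only [chi, indicator_apply]
  split_ifs <;> simp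

theorem norm_len_le (A : Set ℝ) : ‖len A‖ ≤ 1 := by
  rw [Real.norm_eq_abs, abs_of_nonneg (len_nonneg _)]
  exact len_le_one _

variable {σ : Measure (X n)} {ν : X n → X n}

/-- the horizontal terms -/
theorem st_hor (h : GG E σ ν) (hE : MeasurableSet E) (hp : IsLatticePeriodic E) (i j : Fin n)
    {ψ : X n → ℝ} (cψ : Continuous ψ) (pψ : Per ψ) (iψ : Indep i ψ) (h1 : ∀ x, ‖ψ x‖ ≤ 1) (k : ℕ) :
    ∫ x in unitCell n, ψ x * pd j (moll k fun x => len (sec E i x)) x =
      - ∫ x, moll k ψ x * ν x j ∂σ := by
  have c1 : ContDiff ℝ 1 (moll k ψ) :=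
    (contDiff_moll cψ.aestronglyMeasurable h1 k).of_le (by exact_mod_cast le_top)
  rw [integral_cell_pd_moll (per_len_sec hp i) pψ (measurable_len_sec hE i) cψ.measurable
    (fun x => norm_len_le _) h1, integral_mul_len hE hp i
    ((c1.continuous_fderiv one_ne_zero).clm_apply continuous_const) ((pψ.moll k).pd j)
    ((iψ.moll k).pd j), h.eq_coord c1 (pψ.moll k)]

/-- the vertical term -/
theorem st_ver (h : GG E σ ν) (hE : MeasurableSet E) (hp : IsLatticePeriodic E) (i : Fin n)
    {c : X n → ℝ} (cc : Continuous c) (pc : Per c) (ic : Indep i c) (h0 : ∀ x, 0 ≤ c x)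
    (h1 : ∀ x, ‖c x‖ ≤ 1) (k : ℕ) :
    ∫ x in unitCell n, 2 * c x ≤ ∫ x, moll k c x * |ν x i| ∂σ +
      2 * ∫ x in unitCell n, c x * (1 - moll k (chi (prp E i)) x) := by
  have := h.fin
  have mZ := measurableSet_prp hE i
  have cm : Continuous (moll k c) := (contDiff_moll cc.aestronglyMeasurable h1 k).continuous
  have cz : Continuous (moll k (chi (prp E i))) :=
    (contDiff_moll (measurable_chi mZ).aestronglyMeasurable (norm_chi_le _) k).continuous
  have pz : Per (moll k (chi (prp E i))) := (Per.chi (periodic_prp hp i)).moll k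
  have m0 : ∀ x, 0 ≤ moll k c x := fun x => by
    have := moll_mono (u := fun _ => (0 : ℝ)) (v := c) aestronglyMeasurable_const
      cc.aestronglyMeasurable (C := 1) (fun _ => by simp) h1 h0 k x
    rwa [moll_const] at this
  have e1 := integral_cell_moll (Per.chi (periodic_prp hp i)) pc (measurable_chi mZ) cc.measurable
    (norm_chi_le _) h1 k
  have e2 : ∫ x in unitCell n, c x * (1 - moll k (chi (prp E i)) x) =
      (∫ x in unitCell n, c x) - ∫ x in unitCell n, c x * moll k (chi (prp E i)) x := by
    rw [← integral_sub (pc.integrable cc _)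
      (Per.integrable (f := fun x => c x * moll k (chi (prp E i)) x)
        (fun v hv x => by simp only [pc v hv x, pz v hv x]) (cc.mul cz) _)]
    simp only [mul_sub, mul_one]
  have e3 : ∫ x in unitCell n, moll k c x * chi (prp E i) x =
      ∫ x in unitCell n ∩ prp E i, moll k c x := by
    rw [← setIntegral_indicator mZ]
    refine integral_congr_ae (Eventually.of_forall fun x => ?_)
    classical
    simp only [chi, indicator_apply]
    split_ifs <;> simp
  have s2 := h.slice_two hE hp i (g := fun x => ENNReal.ofReal (moll k c x))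
    (fun v hv x => by simp only [pc.moll k v hv x]) cm.measurable.ennreal_ofReal
    (fun t x => by simp only [ic.moll k t x])
  have i1 : Integrable (fun x => 2 * moll k c x) (volume.restrict (unitCell n ∩ prp E i)) :=
    (IntegrableOn.mono_set ((pc.moll k).integrable cm _) inter_subset_left).const_mul 2
  have i2 : Integrable (fun x => moll k c x * |ν x i|) σ :=
    (((EuclideanSpace.proj i : X n →L[ℝ] ℝ).integrable_comp h.int).abs).bdd_mul
      cm.aestronglyMeasurable (Eventually.of_forall (norm_moll_le h1 k))
  have s3 : ∫ x in unitCell n ∩ prp E i, 2 * moll k c x ≤ ∫ x, moll k c x * |ν x i| ∂σ := by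
    rw [← ENNReal.ofReal_le_ofReal_iff (integral_nonneg fun x => mul_nonneg (m0 x) (abs_nonneg _)),
      ofReal_integral_eq_lintegral_ofReal i1
        (Eventually.of_forall fun x => mul_nonneg zero_le_two (m0 x)),
      ofReal_integral_eq_lintegral_ofReal i2
        (Eventually.of_forall fun x => mul_nonneg (m0 x) (abs_nonneg _))]
    refine le_trans (le_of_eq ?_) (s2.trans (le_of_eq ?_))
    · refine lintegral_congr fun x => ?_
      rw [ENNReal.ofReal_mul zero_le_two, ENNReal.ofReal_ofNat]
    · refine lintegral_congr fun x => ?_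
      rw [ENNReal.ofReal_mul (m0 x), Real.enorm_eq_ofReal_abs]
  rw [integral_const_mul] at s3 ⊢
  rw [e2, e1, e3]
  linarith

theorem st_sum (h : GG E σ ν) (hν : ∀ x, ‖ν x‖ = 1) (i : Fin n) {Ψ : X n → X n}
    (cΨ : Continuous Ψ) (h1 : ∀ x, ‖Ψ x‖ ≤ 1) (k : ℕ) :
    ∑ j, ∫ x, moll k (fun y => Ψ y j) x * (if j = i then |ν x j| else ν x j) ∂σ ≤ σ.real univ := by
  have := h.fin
  have hj : ∀ j x, ‖Ψ x j‖ ≤ 1 := fun j x => (PiLp.norm_apply_le _ j).trans (h1 x)
  have ii : ∀ j, Integrable
      (fun x => moll k (fun y => Ψ y j) x * (if j = i then |ν x j| else ν x j)) σ := fun j => by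
    have i0 := (EuclideanSpace.proj j : X n →L[ℝ] ℝ).integrable_comp h.int
    have cj : Continuous fun y => Ψ y j := by fun_prop
    refine Integrable.bdd_mul ?_
      (contDiff_moll cj.aestronglyMeasurable (hj j) k).continuous.aestronglyMeasurable
      (Eventually.of_forall (norm_moll_le (hj j) k))
    split_ifs
    · exact i0.abs
    · exact i0
  rw [← integral_finsetSum _ fun j _ => ii j]
  refine (integral_mono (integrable_finsetSum _ fun j _ => ii j) (integrable_const (1 : ℝ))
    fun x => ?_).trans (by simp)
  let w : X n := WithLp.toLp 2 fun j => if j = i then |ν x j| else ν x j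
  have hw : ‖w‖ = 1 := by
    rw [← hν x, EuclideanSpace.norm_eq, EuclideanSpace.norm_eq]
    congr 1
    refine Finset.sum_congr rfl fun j _ => ?_
    simp only [w]
    split_ifs <;> simp
  have e : ∑ j, moll k (fun y => Ψ y j) x * (if j = i then |ν x j| else ν x j) =
      ⟪w, moll k Ψ x⟫ := by
    rw [PiLp.inner_apply]
    refine Finset.sum_congr rfl fun j _ => ?_
    have := moll_clm (EuclideanSpace.proj j : X n →L[ℝ] ℝ) cΨ.aestronglyMeasurable h1 k x
    simp only [PiLp.proj_apply] at this
    simp [w, this]
  show ∑ j, _ ≤ (1 : ℝ)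
  rw [e]
  refine (real_inner_le_norm _ _).trans ?_
  rw [hw, one_mul]
  exact norm_moll_le h1 k x

theorem st_step (h : GG E σ ν) (hν : ∀ x, ‖ν x‖ = 1) (hE : MeasurableSet E)
    (hp : IsLatticePeriodic E) (i : Fin n) {φ : X n → X n} (hd : ContDiff ℝ 1 φ) (pφ : Per φ)
    (h1 : ∀ x, ‖φ x‖ ≤ 1) (k : ℕ) {M : X n → ℝ} (hM : M = moll k fun x => len (sec E i x))
    (M0 : ∀ x, 0 ≤ M x) (M1 : ∀ x, M x ≤ 1) :
    ∫ x in hyp i M ∩ unitCell n, divergence φ x ≤ σ.real univ +
      2 * ∫ x in unitCell n, bfold i φ M x i * (1 - moll k (chi (prp E i)) x) := by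
  have cM : ContDiff ℝ 1 M := hM ▸ (contDiff_moll (measurable_len_sec hE i).aestronglyMeasurable
    (fun x => norm_len_le _) k).of_le (by exact_mod_cast le_top)
  have pM : Per M := hM ▸ (per_len_sec hp i).moll k
  have iM : Indep i M := hM ▸ (indep_len_sec hE hp i).moll k
  have cF := continuous_bfold i hd.continuous cM.continuous
  have pF := per_bfold i pφ pM
  have iF := indep_bfold i φ iM
  have nF := norm_bfold_le i h1 M
  have cj : ∀ j, ContDiff ℝ 1 fun y => φ y j := fun j => by fun_prop
  have pj : ∀ j, Per fun y => φ y j := fun j v hv x => by simp only [pφ v hv x]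
  have cFj : ∀ j, Continuous fun y => bfold i φ M y j := fun j =>
    (EuclideanSpace.proj j : X n →L[ℝ] ℝ).continuous.comp cF
  have pFj : ∀ j, Per fun y => bfold i φ M y j := fun j v hv x => by simp only [pF v hv x]
  have iFj : ∀ j, Indep i fun y => bfold i φ M y j := fun j t x => by simp only [iF t x]
  have nFj : ∀ j x, ‖bfold i φ M x j‖ ≤ 1 := fun j x => (PiLp.norm_apply_le _ j).trans (nF x)
  simp only [divergence_eq_sum (hd.differentiable one_ne_zero)]
  rw [integral_finsetSum _ fun j _ => IntegrableOn.mono_set (((pj j).pd j).integrable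
    (((cj j).continuous_fderiv one_ne_zero).clm_apply continuous_const) _) inter_subset_right]
  have key : ∀ j, ∫ x in hyp i M ∩ unitCell n, pd j (fun y => φ y j) x ≤
      ∫ x, moll k (fun y => bfold i φ M y j) x * (if j = i then |ν x j| else ν x j) ∂σ +
        if j = i then 2 * ∫ x in unitCell n, bfold i φ M x i * (1 - moll k (chi (prp E i)) x)
        else 0 := by
    intro j
    rw [graph_formula cM pM iM M0 M1 (cj j) (pj j) j]
    by_cases hj : j = i
    · subst hj
      simp only [if_true, iM.pd_self (cM.differentiable one_ne_zero), zero_mul, sub_zero]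
      refine le_trans ?_ (st_ver h hE hp j (cFj j) (pFj j) (iFj j)
        (fun x => by simp only [bfold, if_true]; positivity) (nFj j) k)
      have c1 := hd.continuous
      have c2 := cM.continuous
      refine integral_mono (Per.integrable (fun v hv x => by simp only [pM v hv x, pφ.lev j hv])
        (by fun_prop) _) (((pFj j).integrable (cFj j) _).const_mul 2) fun x => ?_
      simp only [bfold, if_true]
      linarith [le_abs_self (φ (lev j x (M x / 2)) j - φ (lev j x (-(M x / 2))) j)]
    · simp only [hj, if_false, zero_sub, add_zero]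
      have := st_hor h hE hp i j (cFj j) (pFj j) (iFj j) (nFj j) k
      rw [← hM] at this
      rw [integral_neg, neg_le, ← this]
      refine le_of_eq (integral_congr_ae (Eventually.of_forall fun x => ?_))
      simp only [bfold, hj, if_false]
      ring
  refine (Finset.sum_le_sum fun j _ => key j).trans ?_
  rw [Finset.sum_add_distrib, Finset.sum_ite_eq', if_pos (Finset.mem_univ _)]
  linarith [st_sum h hν i cF nF k]

/-- Steiner's inequality -/
theorem perimeter_stn_le (hE : MeasurableSet E) (hp : IsLatticePeriodic E)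
    (i : Fin n) : periodicPerimeter (stn i E) ≤ periodicPerimeter E := by
  by_cases hP : periodicPerimeter E = ⊤
  · rw [hP]; exact le_top
  have : NeZero n := ⟨i.pos.ne'⟩
  obtain ⟨σ, ν, h, hν, -, hσ⟩ := exists_GG hP
  have := h.fin
  refine perimeter_le_of fun φ hd pφ h1 => ?_
  rw [← hσ, ← ofReal_measureReal (measure_ne_top _ _)]
  refine ENNReal.ofReal_le_ofReal ?_
  set m : X n → ℝ := fun x => len (sec E i x) with hm
  have mm : Measurable m := measurable_len_sec hE i
  have nm : ∀ x, ‖m x‖ ≤ 1 := fun x => norm_len_le _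
  have cM : ∀ k, Continuous (moll k m) := fun k =>
    (contDiff_moll mm.aestronglyMeasurable nm k).continuous
  have M0 : ∀ k x, 0 ≤ moll k m x := fun k x => by
    have := moll_mono (u := fun _ => (0 : ℝ)) (v := m) aestronglyMeasurable_const
      mm.aestronglyMeasurable (C := 1) (fun _ => by simp) nm (fun _ => len_nonneg _) k x
    rwa [moll_const] at this
  have M1 : ∀ k x, moll k m x ≤ 1 := fun k x => (le_abs_self _).trans (norm_moll_le nm k x)
  have tm := ae_restrict_of_ae (s := unitCell n) (moll_tendsto_ae mm.aestronglyMeasurable nm)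
  have mZ := measurableSet_prp hE i
  have tz := ae_restrict_of_ae (s := unitCell n)
    (moll_tendsto_ae (measurable_chi mZ).aestronglyMeasurable (norm_chi_le (prp E i)))
  have cg := continuous_divergence hd
  have pg := pφ.divergence
  obtain ⟨C, hC⟩ := pg.bounded cg
  have T1 : Tendsto (fun k => ∫ x in hyp i (moll k m) ∩ unitCell n, divergence φ x) atTop
      (𝓝 (∫ x in stn i E ∩ unitCell n, divergence φ x)) := by
    rw [stn, integral_hyp mm (per_len_sec hp i) (indep_len_sec hE hp i) (fun _ => len_nonneg _)
      (fun _ => len_le_one _) cg pg]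
    simp only [fun k => integral_hyp (cM k).measurable ((per_len_sec hp i).moll k)
      ((indep_len_sec hE hp i).moll k) (M0 k) (M1 k) cg pg]
    refine tendsto_integral_of_dominated_convergence (fun _ => C)
      (fun k => ((continuous_sgm i cg).comp (continuous_id.prodMk (cM k))).aestronglyMeasurable)
      (integrable_const _) (fun k => Eventually.of_forall fun x => abs_sgm_le i hC x (M0 k x) (M1 k x))
      ?_
    filter_upwards [tm] with x hx
    exact (((continuous_sgm i cg).comp (Continuous.prodMk_right x)).tendsto _).comp hx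
  have T2 : Tendsto (fun k => ∫ x in unitCell n,
      bfold i φ (moll k m) x i * (1 - moll k (chi (prp E i)) x)) atTop (𝓝 (∫ _x in unitCell n, 0)) := by
    have c1 := hd.continuous
    refine tendsto_integral_of_dominated_convergence (fun _ => 2) (fun k => ?_)
      (integrable_const _) (fun k => Eventually.of_forall fun x => ?_) ?_
    · have c2 := continuous_bfold i c1 (cM k)
      have c3 := (contDiff_moll (measurable_chi mZ).aestronglyMeasurable (norm_chi_le _) k).continuous
      exact (((EuclideanSpace.proj i : X n →L[ℝ] ℝ).continuous.comp c2).mul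
        (continuous_const.sub c3)).aestronglyMeasurable
    · rw [norm_mul]
      have a1 := (PiLp.norm_apply_le _ i).trans (norm_bfold_le i h1 (moll k m) x)
      have a2 : ‖1 - moll k (chi (prp E i)) x‖ ≤ 2 :=
        (norm_sub_le _ _).trans (by linarith [norm_moll_le (norm_chi_le (prp E i)) k x, norm_one (α := ℝ)])
      nlinarith [norm_nonneg (bfold i φ (moll k m) x i), norm_nonneg (1 - moll k (chi (prp E i)) x)]
    · filter_upwards [tm, tz] with x hx hz
      have c2 : Continuous fun s : ℝ => |φ (lev i x (s / 2)) i - φ (lev i x (-(s / 2))) i| / 2 := by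
        fun_prop
      have t := ((c2.tendsto _).comp hx).mul (hz.const_sub 1)
      have e : |φ (lev i x (m x / 2)) i - φ (lev i x (-(m x / 2))) i| / 2 *
          (1 - chi (prp E i) x) = 0 := by
        by_cases hx : x ∈ prp E i
        · simp [chi, hx]
        · have h2 : m x = 0 ∨ m x = 1 := by
            by_contra hc
            push Not at hc
            exact hx ⟨lt_of_le_of_ne (len_nonneg _) hc.1.symm, lt_of_le_of_ne (len_le_one _) hc.2⟩
          rcases h2 with h2 | h2
          · simp [h2]
          · have := pφ.lev_add_one i x (-(1 / 2))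
            rw [show (-(1 / 2) + 1 : ℝ) = 1 / 2 by norm_num] at this
            rw [h2, this]
            simp
      rw [e] at t
      simpa [bfold, Function.comp_def] using t
  rw [integral_zero] at T2
  have T3 := (T2.const_mul 2).const_add (σ.real univ)
  rw [mul_zero, add_zero] at T3
  exact le_of_tendsto_of_tendsto' T1 T3 fun k =>
    st_step h hν hE hp i hd pφ h1 k rfl (M0 k) (M1 k)

theorem perimeter_st3_le {E : Set (X 3)} (hE : MeasurableSet E) (hp : IsLatticePeriodic E) :
    periodicPerimeter (st3 E) ≤ periodicPerimeter E := by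
  have m0 := measurableSet_stn hE 0
  have p0 := periodic_stn hp 0
  exact (perimeter_stn_le (measurableSet_stn m0 1) (periodic_stn p0 1) 2).trans
    ((perimeter_stn_le m0 p0 1).trans (perimeter_stn_le hE hp 0))

end Crest.Agent.R214
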