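import Crest.Agent.R214.BV0

/-! Row 214, module ST: the circular Steiner symmetral (definitions and elementary facts).
Architect helper2. -/

set_option autoImplicit false

open MeasureTheory Set Filter Topology
open scoped ENNReal RealInnerProductSpace
open Crest.GeometryTopology.PeriodicPerimeter

noncomputable section

namespace Crest.Agent.R214

variable {n : ℕ}

/-- distance to the nearest integer -/
def dz (t : ℝ) : ℝ := |t - round t|

/-- the symmetric hypograph of `m` in direction `i` -/
def hyp (i : Fin n) (m : X n → ℝ) : Set (X n) := {x | x i ∈ arc 0 (m x)}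

/-- the Steiner symmetral in direction `i` -/
def stn (i : Fin n) (E : Set (X n)) : Set (X n) := hyp i fun x => len (sec E i x)

/-- symmetric and decreasing in direction `j` -/
def Dn (j : Fin n) (F : Set (X n)) : Prop :=
  ∀ x ∈ F, ∀ y : X n, (∀ k, k ≠ j → y k = x k) → dz (y j) ≤ dz (x j) → y ∈ F

/-- symmetric and decreasing in all directions -/
def Down (F : Set (X n)) : Prop := ∀ x ∈ F, ∀ y : X n, (∀ k, dz (y k) ≤ dz (x k)) → y ∈ F

/-- the three symmetrisations -/
def st3 (E : Set (X 3)) : Set (X 3) := stn 2 (stn 1 (stn 0 E))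

theorem dz_nonneg (t : ℝ) : 0 ≤ dz t := abs_nonneg _

theorem dz_le_half (t : ℝ) : dz t ≤ 1 / 2 := abs_sub_round t

theorem dz_le (t : ℝ) (k : ℤ) : dz t ≤ |t - k| := round_le t k

theorem dz_add_int (t : ℝ) (k : ℤ) : dz (t + k) = dz t := by
  simp only [dz, round_add_intCast]
  push_cast
  ring_nf

theorem dz_neg (t : ℝ) : dz (-t) = dz t := by
  have key : ∀ t : ℝ, dz (-t) ≤ dz t := fun t => by
    refine (dz_le _ (-round t)).trans_eq ?_
    rw [dz, ← abs_neg]
    push_cast
    ring_nf
  exact le_antisymm (key t) (by simpa using key (-t))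

theorem dz_of_abs_le {t : ℝ} (h : |t| ≤ 1 / 2) : dz t = |t| := by
  refine le_antisymm (by simpa using dz_le t 0) ?_
  rw [dz]
  by_cases h0 : round t = 0
  · simp [h0]
  · have h1 : (1 : ℝ) ≤ |(round t : ℝ)| := by exact_mod_cast Int.one_le_abs h0
    have h2 := abs_sub_abs_le_abs_sub (round t : ℝ) t
    rw [abs_sub_comm] at h2
    linarith

theorem continuous_dz : Continuous dz := by
  refine (LipschitzWith.of_dist_le_mul (K := 1) fun s t => ?_).continuous
  have key : ∀ s t : ℝ, dz s - dz t ≤ |s - t| := fun s t => by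
    have h1 := dz_le s (round t)
    have h2 := abs_add_le (s - t) (t - round t)
    rw [show s - t + (t - round t) = s - round t by ring] at h2
    rw [dz.eq_def t]
    linarith
  rw [Real.dist_eq, Real.dist_eq, NNReal.coe_one, one_mul, abs_le]
  have h1 := key s t
  have h2 := key t s
  rw [abs_sub_comm] at h2
  constructor <;> linarith

theorem mem_arc_iff {c m t : ℝ} : t ∈ arc c m ↔ dz (t - c) < m / 2 :=
  ⟨fun ⟨k, hk⟩ => (dz_le _ k).trans_lt hk, fun h => ⟨round (t - c), h⟩⟩

theorem mem_hyp {i : Fin n} {m : X n → ℝ} {x : X n} : x ∈ hyp i m ↔ dz (x i) < m x / 2 := by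
  rw [hyp, mem_ofPred_eq, mem_arc_iff, sub_zero]

theorem mem_stn {i : Fin n} {E : Set (X n)} {x : X n} :
    x ∈ stn i E ↔ dz (x i) < len (sec E i x) / 2 := mem_hyp

theorem measurableSet_hyp (i : Fin n) {m : X n → ℝ} (hm : Measurable m) :
    MeasurableSet (hyp i m) := by
  have : hyp i m = {x | dz (x i) < m x / 2} := Set.ext fun _ => mem_hyp
  rw [this]
  exact measurableSet_lt (continuous_dz.measurable.comp (by fun_prop)) (hm.div_const 2)

theorem periodic_hyp (i : Fin n) {m : X n → ℝ} (hm : Per m) : IsLatticePeriodic (hyp i m) := by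
  intro v hv x
  obtain ⟨k, hk⟩ := hv i
  rw [mem_hyp, mem_hyp, hm v hv, PiLp.add_apply, hk, dz_add_int]

theorem sec_hyp {i : Fin n} {m : X n → ℝ} (hm : Indep i m) (x : X n) :
    sec (hyp i m) i x = arc (- x i) (m x) := by
  ext t
  rw [sec, mem_ofPred_eq, mem_hyp, hm, mem_arc_iff]
  simp [add_comm]

theorem len_sec_hyp {i : Fin n} {m : X n → ℝ} (hm : Indep i m) {x : X n} (h0 : 0 ≤ m x)
    (h1 : m x ≤ 1) : len (sec (hyp i m) i x) = m x := by
  rw [sec_hyp hm, len_arc _ h0 h1]

variable {E : Set (X n)}

theorem per_len_sec (hp : IsLatticePeriodic E) (i : Fin n) : Per fun x => len (sec E i x) :=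
  fun v hv x => congrArg len (per_sec hp i v hv x)

theorem measurableSet_stn (hE : MeasurableSet E) (i : Fin n) : MeasurableSet (stn i E) :=
  measurableSet_hyp i (measurable_len_sec hE i)

theorem periodic_stn (hp : IsLatticePeriodic E) (i : Fin n) : IsLatticePeriodic (stn i E) :=
  periodic_hyp i (per_len_sec hp i)

theorem len_sec_stn (hE : MeasurableSet E) (hp : IsLatticePeriodic E) (i : Fin n) (x : X n) :
    len (sec (stn i E) i x) = len (sec E i x) :=
  len_sec_hyp (indep_len_sec hE hp i) (len_nonneg _) (len_le_one _)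

theorem volume_stn (hE : MeasurableSet E) (hp : IsLatticePeriodic E) (i : Fin n) :
    periodicVolume (stn i E) = periodicVolume E := by
  rw [← integral_len_sec (measurableSet_stn hE i) (periodic_stn hp i) i, ← integral_len_sec hE hp i]
  simp only [len_sec_stn hE hp i]

theorem eq_add_ev {i : Fin n} {x y : X n} (h : ∀ k, k ≠ i → y k = x k) :
    y = x + (y i - x i) • ev i := by
  ext k
  by_cases hk : k = i
  · subst hk; simp
  · simp [h k hk, hk]

theorem dn_stn (hE : MeasurableSet E) (hp : IsLatticePeriodic E) (i : Fin n) : Dn i (stn i E) := by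
  intro x hx y h1 h2
  rw [mem_stn] at hx ⊢
  have := indep_len_sec hE hp i (y i - x i) x
  rw [← eq_add_ev h1] at this
  exact h2.trans_lt (hx.trans_eq (congrArg (· / 2) this.symm))

theorem len_mono {A B : Set ℝ} (h : A ⊆ B) : len A ≤ len B :=
  ENNReal.toReal_mono
    ((measure_mono inter_subset_right).trans_lt (by simp)).ne
    (measure_mono (inter_subset_inter_left _ h))

theorem Dn.stn {j : Fin n} (h : Dn j E) {i : Fin n} (hij : i ≠ j) : Dn j (stn i E) := by
  intro x hx y h1 h2
  rw [mem_stn] at hx ⊢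
  rw [h1 i hij]
  refine hx.trans_le (div_le_div_of_nonneg_right (len_mono fun t ht => ?_) zero_le_two)
  refine h _ ht _ (fun k hk => by simp [h1 k hk]) ?_
  simpa [hij.symm] using h2

theorem down_of_dn {F : Set (X 3)} (h : ∀ j, Dn j F) : Down F := by
  intro x hx y hy
  have h0 : (WithLp.toLp 2 ![y 0, x 1, x 2] : X 3) ∈ F :=
    h 0 x hx _ (fun k hk => by fin_cases k <;> simp at hk ⊢) (by simpa using hy 0)
  have h1 : (WithLp.toLp 2 ![y 0, y 1, x 2] : X 3) ∈ F :=
    h 1 _ h0 _ (fun k hk => by fin_cases k <;> simp at hk ⊢) (by simpa using hy 1)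
  exact h 2 _ h1 _ (fun k hk => by fin_cases k <;> simp at hk ⊢) (by simpa using hy 2)

section three
variable {E : Set (X 3)}

theorem measurableSet_st3 (hE : MeasurableSet E) : MeasurableSet (st3 E) :=
  measurableSet_stn (measurableSet_stn (measurableSet_stn hE 0) 1) 2

theorem periodic_st3 (hp : IsLatticePeriodic E) : IsLatticePeriodic (st3 E) :=
  periodic_stn (periodic_stn (periodic_stn hp 0) 1) 2

theorem volume_st3 (hE : MeasurableSet E) (hp : IsLatticePeriodic E) :
    periodicVolume (st3 E) = periodicVolume E := by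
  have m0 := measurableSet_stn hE 0
  have p0 := periodic_stn hp 0
  rw [st3, volume_stn (measurableSet_stn m0 1) (periodic_stn p0 1), volume_stn m0 p0,
    volume_stn hE hp]

theorem down_st3 (hE : MeasurableSet E) (hp : IsLatticePeriodic E) : Down (st3 E) := by
  have m0 := measurableSet_stn hE 0
  have p0 := periodic_stn hp 0
  refine down_of_dn fun j => ?_
  fin_cases j
  · exact ((dn_stn hE hp 0).stn (by decide)).stn (by decide)
  · exact (dn_stn m0 p0 1).stn (by decide)
  · exact dn_stn (measurableSet_stn m0 1) (periodic_stn p0 1) 2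

end three

end Crest.Agent.R214
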