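import Crest.Agent.R214.StDefs

/-! Row 214, module ST: integrals over symmetric hypographs, the graph formula. -/

set_option autoImplicit false

open MeasureTheory Set Filter Topology
open scoped ENNReal RealInnerProductSpace
open Crest.GeometryTopology.PeriodicPerimeter

noncomputable section

namespace Crest.Agent.R214

variable {n : ℕ}

/-- the point of the line through `x` in direction `i` whose `i`-th coordinate is `t` -/
def lev (i : Fin n) (x : X n) (t : ℝ) : X n := x + (t - x i) • ev i

theorem lev_apply (i : Fin n) (x : X n) (t : ℝ) : lev i x t i = t := by simp [lev]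

theorem lev_apply_ne {i j : Fin n} (h : j ≠ i) (x : X n) (t : ℝ) : lev i x t j = x j := by
  simp [lev, h]

theorem lev_add (i : Fin n) (x : X n) (s t : ℝ) : lev i x (s + t) = lev i x s + t • ev i := by
  simp only [lev, add_assoc, ← add_smul]
  congr 2
  ring

theorem lev_add_ev (i : Fin n) (x : X n) (s t : ℝ) : lev i (x + s • ev i) t = lev i x t := by
  simp only [lev, add_assoc, ← add_smul]
  congr 2
  simp only [PiLp.add_apply, PiLp.smul_apply, PiLp.single_apply, if_true, smul_eq_mul]
  ring

theorem Indep.lev {F : Type*} {i : Fin n} {f : X n → F} (h : Indep i f) (x : X n) (t : ℝ) :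
    f (lev i x t) = f x := h _ _

theorem Per.lev {F : Type*} {f : X n → F} (h : Per f) (i : Fin n) {v : X n}
    (hv : HasIntegerCoords v) (x : X n) (t : ℝ) : f (lev i (x + v) t) = f (lev i x t) := by
  obtain ⟨k, hk⟩ := hv i
  have e : R214.lev i (x + v) t = R214.lev i x t + ((-k : ℤ) : ℝ) • ev i + v := by
    simp only [R214.lev, PiLp.add_apply, hk]
    push_cast
    module
  rw [e, h v hv, h _ (hasIntegerCoords_ev i _)]

theorem Per.lev_add_one {F : Type*} {f : X n → F} (h : Per f) (i : Fin n) (x : X n) (t : ℝ) :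
    f (R214.lev i x (t + 1)) = f (R214.lev i x t) := by
  have := h _ (hasIntegerCoords_ev i 1) (R214.lev i x t)
  rw [Int.cast_one] at this
  rw [lev_add, this]

@[fun_prop]
theorem continuous_lev (i : Fin n) {Y : Type*} [TopologicalSpace Y] {a : Y → X n} {b : Y → ℝ}
    (ha : Continuous a) (hb : Continuous b) : Continuous fun y => lev i (a y) (b y) := by
  unfold lev
  fun_prop

theorem contDiff_lev (i : Fin n) {b : X n → ℝ} (hb : ContDiff ℝ 1 b) :
    ContDiff ℝ 1 fun y => lev i y (b y) := by
  unfold lev
  fun_prop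

/-- integral of `g` over the symmetric segment of length `s` -/
def sgm (i : Fin n) (g : X n → ℝ) (x : X n) (s : ℝ) : ℝ :=
  ∫ u in (-1 : ℝ)..1, s / 2 * g (lev i x (s / 2 * u))

theorem sgm_eq (i : Fin n) (g : X n → ℝ) (x : X n) (s : ℝ) :
    sgm i g x s = ∫ t in (-(s / 2))..(s / 2), g (lev i x t) := by
  have := intervalIntegral.smul_integral_comp_mul_left (a := -1) (b := 1)
    (fun t => g (lev i x t)) (s / 2)
  rw [mul_neg, mul_one] at this
  rw [← this, sgm, intervalIntegral.integral_const_mul, smul_eq_mul]

theorem continuous_sgm (i : Fin n) {g : X n → ℝ} (hg : Continuous g) :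
    Continuous fun p : X n × ℝ => sgm i g p.1 p.2 := by
  unfold sgm
  refine intervalIntegral.continuous_parametric_intervalIntegral_of_continuous' ?_ _ _
  unfold Function.uncurry
  fun_prop

theorem abs_sgm_le (i : Fin n) {g : X n → ℝ} {C : ℝ} (hC : ∀ x, ‖g x‖ ≤ C) (x : X n) {s : ℝ}
    (h0 : 0 ≤ s) (h1 : s ≤ 1) : ‖sgm i g x s‖ ≤ C := by
  have hC0 : 0 ≤ C := (norm_nonneg _).trans (hC 0)
  rw [sgm_eq]
  refine (intervalIntegral.norm_integral_le_of_norm_le_const fun t _ => hC _).trans ?_
  rw [show s / 2 - -(s / 2) = s by ring, abs_of_nonneg h0]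
  nlinarith

/-- Fubini for symmetric hypographs -/
theorem integral_hyp {i : Fin n} {m : X n → ℝ} (hm : Measurable m) (pm : Per m) (im : Indep i m)
    (h0 : ∀ x, 0 ≤ m x) (h1 : ∀ x, m x ≤ 1) {g : X n → ℝ} (hg : Continuous g) (pg : Per g) :
    ∫ x in hyp i m ∩ unitCell n, g x = ∫ x in unitCell n, sgm i g x (m x) := by
  obtain ⟨C, hC⟩ := pg.bounded hg
  have mH := measurableSet_hyp i hm
  have pH : Per ((hyp i m).indicator g) := fun v hv x => by
    classical
    simp only [indicator_apply, periodic_hyp i pm v hv x, pg v hv x]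
  rw [inter_comm, ← setIntegral_indicator mH, ← integral_cell_avg pH
    (hg.stronglyMeasurable.indicator mH) (C := C)
    (fun x => (norm_indicator_le_norm_self _ _).trans (hC x)) i]
  refine integral_congr_ae (Eventually.of_forall fun x => ?_)
  have hper : Function.Periodic (fun t => (hyp i m).indicator g (lev i x t)) 1 :=
    fun t => pH.lev_add_one i x t
  have e1 : ∀ t : ℝ, x + t • ev i = lev i x (x i + t) := fun t => by simp [lev]
  simp only [e1]
  rw [integral_Ico_eq_integral_Ioc, ← intervalIntegral.integral_of_le zero_le_one,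
    intervalIntegral.integral_comp_add_left (fun t => (hyp i m).indicator g (lev i x t)), add_zero,
    hper.intervalIntegral_add_eq (x i) (-(1 / 2)), sgm_eq,
    intervalIntegral.integral_of_le (by norm_num),
    intervalIntegral.integral_of_le (by linarith [h0 x]), integral_Ioc_eq_integral_Ioo,
    integral_Ioc_eq_integral_Ioo]
  have e2 : Ioo (-(m x / 2)) (m x / 2) =
      Ioo (-(1 / 2 : ℝ)) (-(1 / 2) + 1) ∩ Ioo (-(m x / 2)) (m x / 2) :=
    (inter_eq_right.2 (Ioo_subset_Ioo (by linarith [h1 x]) (by linarith [h1 x]))).symm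
  rw [e2, ← setIntegral_indicator measurableSet_Ioo]
  refine setIntegral_congr_fun measurableSet_Ioo fun t ht => ?_
  have h2 : |t| ≤ 1 / 2 := abs_le.2 ⟨ht.1.le, by linarith [ht.2]⟩
  classical
  simp only [indicator_apply, mem_hyp, lev_apply, im.lev, dz_of_abs_le h2, abs_lt, mem_Ioo]

theorem cell_subset_ball : unitCell n ⊆ Metric.closedBall (0 : X n) (Real.sqrt n) := by
  intro x hx
  rw [mem_closedBall_zero_iff, EuclideanSpace.norm_eq]
  refine Real.sqrt_le_sqrt ?_
  calc ∑ i, ‖x i‖ ^ 2 ≤ ∑ _i : Fin n, (1 : ℝ) := Finset.sum_le_sum fun i _ => by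
        rw [Real.norm_eq_abs, sq_abs]
        nlinarith [(hx i).1, (hx i).2]
    _ = n := by simp

theorem swap_cell {H : ℝ → X n → ℝ} (hH : Continuous (Function.uncurry H)) (a b : ℝ) :
    ∫ u in a..b, ∫ x in unitCell n, H u x = ∫ x in unitCell n, ∫ u in a..b, H u x := by
  refine intervalIntegral_integral_swap ?_
  rw [Measure.prod_restrict]
  exact (hH.continuousOn.integrableOn_compact (μ := volume.prod volume)
    (isCompact_uIcc.prod (isCompact_closedBall _ _))).mono_set
    (prod_mono uIoc_subset_uIcc cell_subset_ball)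

theorem Indep.pd_self {i : Fin n} {m : X n → ℝ} (im : Indep i m) (hm : Differentiable ℝ m)
    (x : X n) : pd i m x = 0 := by
  have h1 : HasDerivAt (fun t : ℝ => m (x + t • ev i)) (fderiv ℝ m (x + (0 : ℝ) • ev i) (ev i)) 0 :=
    (hm _).hasFDerivAt.comp_hasDerivAt 0
      (by simpa using ((hasDerivAt_id (0 : ℝ)).smul_const (ev i)).const_add x)
  have h2 : (fun t : ℝ => m (x + t • ev i)) = fun _ => m x := funext fun t => im t x
  rw [h2, zero_smul, add_zero] at h1
  exact h1.unique (hasDerivAt_const _ _)

theorem hasDerivAt_lev {f : X n → ℝ} (hf : Differentiable ℝ f) (i : Fin n) (x : X n) (t : ℝ) :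
    HasDerivAt (fun t => f (lev i x t)) (pd i f (lev i x t)) t :=
  (hf _).hasFDerivAt.comp_hasDerivAt t (by
    have := (((hasDerivAt_id t).sub_const (x i)).smul_const (ev i)).const_add x
    rw [one_smul] at this
    exact this)

/-- the graph formula -/
theorem graph_formula {i : Fin n} {m : X n → ℝ} (hm : ContDiff ℝ 1 m) (pm : Per m)
    (im : Indep i m) (h0 : ∀ x, 0 ≤ m x) (h1 : ∀ x, m x ≤ 1) {f : X n → ℝ} (hf : ContDiff ℝ 1 f)
    (pf : Per f) (j : Fin n) :
    ∫ x in hyp i m ∩ unitCell n, pd j f x = ∫ x in unitCell n,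
      ((if j = i then f (lev i x (m x / 2)) - f (lev i x (-(m x / 2))) else 0) -
        pd j m x * ((f (lev i x (m x / 2)) + f (lev i x (-(m x / 2)))) / 2)) := by
  have df := hf.differentiable one_ne_zero
  have dm := hm.differentiable one_ne_zero
  have cf := hf.continuous
  have cm := hm.continuous
  have cdf := hf.continuous_fderiv one_ne_zero
  have cdm := hm.continuous_fderiv one_ne_zero
  have cpd : ∀ k, Continuous (pd k f) := fun k => cdf.clm_apply continuous_const
  have cpm : Continuous (pd j m) := cdm.clm_apply continuous_const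
  have ppd : Per (pd j f) := fun v hv x => by simp only [pd, pf.fderiv v hv x]
  rw [integral_hyp cm.measurable pm im h0 h1 (cpd j) ppd]
  by_cases hj : j = i
  · subst hj
    refine integral_congr_ae (Eventually.of_forall fun x => ?_)
    simp only [if_true, im.pd_self dm, zero_mul, sub_zero]
    rw [sgm_eq]
    exact intervalIntegral.integral_eq_sub_of_hasDerivAt (fun t _ => hasDerivAt_lev df j x t)
      (((cpd j).comp (by fun_prop)).intervalIntegrable _ _)
  simp only [hj, if_false, zero_sub]
  -- the derivative of `x ↦ m x / 2 * f (lev i x (m x / 2 * u))`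
  have key : ∀ u : ℝ, ∫ x in unitCell n, (m x / 2 * pd j f (lev i x (m x / 2 * u)) +
      pd j m x / 2 * (f (lev i x (m x / 2 * u)) +
        u * (pd i f (lev i x (m x / 2 * u)) * (m x / 2)))) = 0 := by
    intro u
    have c1 : ContDiff ℝ 1 fun x => m x / 2 * f (lev i x (m x / 2 * u)) :=
      (hm.div_const 2).mul (hf.comp (contDiff_lev i ((hm.div_const 2).mul contDiff_const)))
    have p1 : Per fun x => m x / 2 * f (lev i x (m x / 2 * u)) := fun v hv x => by
      simp only [pm v hv x, pf.lev i hv]
    rw [← integral_cell_pd p1 c1 j]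
    refine integral_congr_ae (Eventually.of_forall fun x => ?_)
    have d1 : HasFDerivAt (fun y => m y / 2) ((1 / 2 : ℝ) • fderiv ℝ m x) x := by
      simpa [div_eq_inv_mul] using (dm x).hasFDerivAt.const_mul (2⁻¹ : ℝ)
    have d2 : HasFDerivAt (fun y : X n => lev i y (m y / 2 * u))
        (ContinuousLinearMap.id ℝ (X n) + (u • ((1 / 2 : ℝ) • fderiv ℝ m x) -
          (EuclideanSpace.proj i : X n →L[ℝ] ℝ)).smulRight (ev i)) x :=
      (hasFDerivAt_id x).add (((d1.mul_const u).sub
        (EuclideanSpace.proj i : X n →L[ℝ] ℝ).hasFDerivAt).smul_const (ev i))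
    have d3 := d1.mul ((df _).hasFDerivAt.comp x d2)
    have e := congrArg (fun L : X n →L[ℝ] ℝ => L (ev j)) d3.fderiv
    refine Eq.trans ?_ e.symm
    simp [pd, Ne.symm hj]
    ring
  have sw := swap_cell (n := n) (H := fun u x => m x / 2 * pd j f (lev i x (m x / 2 * u)) +
      pd j m x / 2 * (f (lev i x (m x / 2 * u)) +
        u * (pd i f (lev i x (m x / 2 * u)) * (m x / 2)))) (by
    have := cpd i
    have := cpd j
    unfold Function.uncurry
    fun_prop) (-1) 1
  simp only [key, intervalIntegral.integral_zero] at sw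
  have e3 : ∀ x, ∫ u in (-1 : ℝ)..1, (m x / 2 * pd j f (lev i x (m x / 2 * u)) +
      pd j m x / 2 * (f (lev i x (m x / 2 * u)) +
        u * (pd i f (lev i x (m x / 2 * u)) * (m x / 2)))) = sgm i (pd j f) x (m x) +
        pd j m x * ((f (lev i x (m x / 2)) + f (lev i x (-(m x / 2)))) / 2) := by
    intro x
    have := cpd i
    have := cpd j
    rw [intervalIntegral.integral_add (Continuous.intervalIntegrable (by fun_prop) _ _)
      (Continuous.intervalIntegrable (by fun_prop) _ _), intervalIntegral.integral_const_mul _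
      (fun u => f (lev i x (m x / 2 * u)) + u * (pd i f (lev i x (m x / 2 * u)) * (m x / 2))),
      intervalIntegral.integral_eq_sub_of_hasDerivAt
        (f := fun u => u * f (lev i x (m x / 2 * u)))
        (f' := fun u => f (lev i x (m x / 2 * u)) +
          u * (pd i f (lev i x (m x / 2 * u)) * (m x / 2)))
        (fun u _ => by
          have d := (hasDerivAt_lev df i x (m x / 2 * u)).comp u
            ((hasDerivAt_id u).const_mul (m x / 2))
          have := (hasDerivAt_id u).mul d
          rw [one_mul, mul_one] at this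
          exact this)
        (Continuous.intervalIntegrable (by fun_prop) _ _), sgm]
    simp only [mul_one, mul_neg]
    ring
  simp only [e3] at sw
  have i1 : Integrable (fun x => sgm i (pd j f) x (m x)) (volume.restrict (unitCell n)) := by
    have c : Continuous fun x => sgm i (pd j f) x (m x) :=
      (continuous_sgm i (cpd j)).comp (continuous_id.prodMk cm)
    exact (c.continuousOn.integrableOn_compact (isCompact_closedBall _ _)).mono_set
      cell_subset_ball
  have i2 : Integrable (fun x => pd j m x *
      ((f (lev i x (m x / 2)) + f (lev i x (-(m x / 2)))) / 2)) (volume.restrict (unitCell n)) := by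
    have c : Continuous fun x => pd j m x *
      ((f (lev i x (m x / 2)) + f (lev i x (-(m x / 2)))) / 2) := by fun_prop
    exact (c.continuousOn.integrableOn_compact (isCompact_closedBall _ _)).mono_set
      cell_subset_ball
  rw [integral_add i1 i2] at sw
  rw [integral_neg]
  linarith

end Crest.Agent.R214
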