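import Crest.Prelude.Def_PeriodicPerimeter

/-!
# Row 214: the test inequality for fields that are absolutely continuous along the axes

If the `i`-th component of a bounded measurable periodic field `Φ`, `‖Φ‖ ≤ 1`, is along the `i`-th
axis the integral of a bounded measurable function `k i`, then `∫_{E ∩ cell} ∑ k i ≤ P(E)`.
-/

set_option autoImplicit false

open MeasureTheory Filter Topology Set ContinuousLinearMap
open scoped Convolution
open Crest.GeometryTopology.PeriodicPerimeter

namespace Crest.Agent.R214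

section

variable {n : ℕ}

theorem tac_measurableSet_unitCell : MeasurableSet (unitCell n) := by
  have : unitCell n = ⋂ i, (fun x : EuclideanSpace ℝ (Fin n) => x i) ⁻¹' Ico (0 : ℝ) 1 := by
    ext x; simp [unitCell]
  rw [this]
  exact MeasurableSet.iInter fun i => (by fun_prop : Measurable fun x : EuclideanSpace ℝ (Fin n) => x i)
    measurableSet_Ico

theorem tac_volume_unitCell_lt_top : volume (unitCell n) < ⊤ := by
  have hsub : unitCell n ⊆ Metric.closedBall 0 n := by
    intro x hx
    rw [mem_closedBall_zero_iff, EuclideanSpace.norm_eq]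
    refine Real.sqrt_le_iff.2 ⟨by positivity, ?_⟩
    calc ∑ i, ‖x i‖ ^ 2 ≤ ∑ _i : Fin n, (1 : ℝ) := Finset.sum_le_sum fun i _ => by
            rw [Real.norm_eq_abs, sq_abs]
            have := hx i
            nlinarith [this.1, this.2]
      _ = n := by simp
      _ ≤ (n : ℝ) ^ 2 := by exact_mod_cast Nat.le_self_pow two_ne_zero n
  exact (measure_mono hsub).trans_lt measure_closedBall_lt_top

theorem tac_locInt {F : Type} [NormedAddCommGroup F] [NormedSpace ℝ F] [MeasurableSpace F]
    [BorelSpace F] [SecondCountableTopology F]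
    {g : EuclideanSpace ℝ (Fin n) → F} (hg : Measurable g) {K : ℝ} (hK : ∀ x, ‖g x‖ ≤ K) :
    LocallyIntegrable g volume := by
  intro x
  refine ⟨Metric.ball x 1, Metric.ball_mem_nhds x one_pos, ?_⟩
  exact Measure.integrableOn_of_bounded (M := K) measure_ball_lt_top.ne hg.aestronglyMeasurable
    (Eventually.of_forall hK)

theorem tac_norm_conv_le {F : Type} [NormedAddCommGroup F] [NormedSpace ℝ F]
    (ρ : ContDiffBump (0 : EuclideanSpace ℝ (Fin n)))
    {g : EuclideanSpace ℝ (Fin n) → F} {K : ℝ} (hK : ∀ x, ‖g x‖ ≤ K)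
    (x : EuclideanSpace ℝ (Fin n)) :
    ‖(ρ.normed volume ⋆[lsmul ℝ ℝ, volume] g : _ → F) x‖ ≤ K := by
  rw [convolution_lsmul]
  calc ‖∫ t, ρ.normed volume t • g (x - t)‖ ≤ ∫ t, ρ.normed volume t * K := by
        refine norm_integral_le_of_norm_le (ρ.integrable_normed.mul_const K)
          (Eventually.of_forall fun t => ?_)
        rw [norm_smul, Real.norm_of_nonneg (ρ.nonneg_normed t)]
        exact mul_le_mul_of_nonneg_left (hK _) (ρ.nonneg_normed t)
    _ = K := by rw [integral_mul_const, ρ.integral_normed, one_mul]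

theorem tac_conv_step (ρ : ContDiffBump (0 : EuclideanSpace ℝ (Fin n)))
    {f k : EuclideanSpace ℝ (Fin n) → ℝ} (hf : Measurable f) (hk : Measurable k) {K : ℝ}
    (hf1 : ∀ x, |f x| ≤ 1) (hK : ∀ x, |k x| ≤ K) (e : EuclideanSpace ℝ (Fin n))
    (hac : ∀ x (s : ℝ), f (x + s • e) - f x = ∫ t in (0 : ℝ)..s, k (x + t • e))
    (x : EuclideanSpace ℝ (Fin n)) (s : ℝ) :
    (ρ.normed volume ⋆[lsmul ℝ ℝ, volume] f : _ → ℝ) (x + s • e) -
        (ρ.normed volume ⋆[lsmul ℝ ℝ, volume] f : _ → ℝ) x =
      ∫ t in (0 : ℝ)..s, (ρ.normed volume ⋆[lsmul ℝ ℝ, volume] k : _ → ℝ) (x + t • e) := by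
  have hint : ∀ z : EuclideanSpace ℝ (Fin n),
      Integrable (fun y => ρ.normed volume y • f (z - y)) volume := fun z => by
    simp only [smul_eq_mul]
    refine ρ.integrable_normed.mul_bdd (c := 1) ?_ (Eventually.of_forall fun y => hf1 _)
    exact (hf.comp (measurable_const.sub measurable_id)).aestronglyMeasurable
  simp only [convolution_lsmul]
  rw [← integral_sub (hint _) (hint _)]
  have e1 : ∀ y, ρ.normed volume y • f (x + s • e - y) - ρ.normed volume y • f (x - y) =
      ∫ t in (0 : ℝ)..s, ρ.normed volume y • k (x + t • e - y) := fun y => by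
    rw [← smul_sub, show x + s • e - y = (x - y) + s • e by abel, hac,
      ← intervalIntegral.integral_smul]
    refine intervalIntegral.integral_congr fun t _ => ?_
    rw [show x - y + t • e = x + t • e - y by abel]
  simp only [e1]
  symm
  refine intervalIntegral_integral_swap ?_
  have hm : Measurable fun p : ℝ × EuclideanSpace ℝ (Fin n) => k (x + p.1 • e - p.2) :=
    hk.comp (by fun_prop)
  have h1 : Integrable (fun p : ℝ × EuclideanSpace ℝ (Fin n) => (1 : ℝ) * ρ.normed volume p.2)
      ((volume.restrict (uIoc 0 s)).prod volume) :=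
    Integrable.mul_prod (intervalIntegrable_const (c := (1 : ℝ)) (μ := volume) (a := 0) (b := s)).def'
      ρ.integrable_normed
  have h2 := h1.mul_bdd (c := K) hm.aestronglyMeasurable (Eventually.of_forall fun p => hK _)
  simpa [Function.uncurry_def] using h2

theorem tac_div_conv (ρ : ContDiffBump (0 : EuclideanSpace ℝ (Fin n)))
    {Φ : EuclideanSpace ℝ (Fin n) → EuclideanSpace ℝ (Fin n)}
    {k : EuclideanSpace ℝ (Fin n) → ℝ} {K : ℝ} (i : Fin n)
    (hΦ : Measurable Φ) (hk : Measurable k) (hK : ∀ x, |k x| ≤ K) (hn : ∀ x, ‖Φ x‖ ≤ 1)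
    (hac : ∀ x (s : ℝ), Φ (x + s • EuclideanSpace.single i 1) i - Φ x i =
      ∫ t in (0 : ℝ)..s, k (x + t • EuclideanSpace.single i 1))
    (x : EuclideanSpace ℝ (Fin n)) :
    fderiv ℝ (ρ.normed volume ⋆[lsmul ℝ ℝ, volume] Φ : _ → EuclideanSpace ℝ (Fin n)) x
        (EuclideanSpace.single i 1) i =
      (ρ.normed volume ⋆[lsmul ℝ ℝ, volume] k : _ → ℝ) x := by
  set e : EuclideanSpace ℝ (Fin n) := EuclideanSpace.single i 1 with he
  set φ := (ρ.normed volume ⋆[lsmul ℝ ℝ, volume] Φ : _ → EuclideanSpace ℝ (Fin n)) with hφ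
  set κ := (ρ.normed volume ⋆[lsmul ℝ ℝ, volume] k : _ → ℝ) with hκ
  have hC : ContDiff ℝ 1 φ := ρ.hasCompactSupport_normed.contDiff_convolution_left _
    (n := 1) ρ.contDiff_normed (tac_locInt hΦ hn)
  have hκc : Continuous κ := ρ.hasCompactSupport_normed.continuous_convolution_left _
    ρ.continuous_normed (tac_locInt hk (K := K) hK)
  have hcomp : ∀ z, φ z i =
      (ρ.normed volume ⋆[lsmul ℝ ℝ, volume] (fun y => Φ y i) : _ → ℝ) z := fun z => by
    rw [hφ, convolution_lsmul, convolution_lsmul]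
    have hint : Integrable (fun y => ρ.normed volume y • Φ (z - y)) volume :=
      ρ.integrable_normed.smul_of_top_left
        (memLp_top_of_bound (hΦ.comp (measurable_const.sub measurable_id)).aestronglyMeasurable 1
          (Eventually.of_forall fun y => hn _))
    have := (EuclideanSpace.proj (𝕜 := ℝ) i).integral_comp_comm hint
    simpa using this.symm
  have hf1 : ∀ y, |Φ y i| ≤ 1 := fun y =>
    (PiLp.norm_apply_le (Φ y) i |>.trans (hn y) :)
  have hstep := tac_conv_step ρ (f := fun y => Φ y i) (by fun_prop) hk hf1 hK e hac x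
  have hl : HasDerivAt (fun s : ℝ => x + s • e) e 0 := by
    simpa using ((hasDerivAt_id (0 : ℝ)).smul_const e).const_add x
  have d1 : HasDerivAt (fun s : ℝ => φ (x + s • e) i) (fderiv ℝ φ x e i) 0 := by
    have h1 : HasFDerivAt φ (fderiv ℝ φ x) (x + (0 : ℝ) • e) := by
      simpa using (hC.differentiable one_ne_zero x).hasFDerivAt
    have h2 := h1.comp_hasDerivAt (0 : ℝ) hl
    exact (EuclideanSpace.proj (𝕜 := ℝ) i).hasFDerivAt.comp_hasDerivAt (0 : ℝ) h2
  have hc2 : Continuous fun t : ℝ => κ (x + t • e) := hκc.comp (by fun_prop)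
  have d2 : HasDerivAt (fun s : ℝ => φ (x + s • e) i) (κ x) 0 := by
    have h1 := intervalIntegral.integral_hasDerivAt_right (hc2.intervalIntegrable 0 0)
      hc2.stronglyMeasurable.stronglyMeasurableAtFilter hc2.continuousAt
    have h2 := h1.add_const (φ x i)
    simp only [zero_smul, add_zero] at h2
    refine h2.congr_of_eventuallyEq (Eventually.of_forall fun s => ?_)
    have := hstep s
    simp only [hcomp]
    linarith
  exact d1.unique d2

/-- **Lemma T.** -/
theorem testAC {E : Set (EuclideanSpace ℝ (Fin n))} (_hE : MeasurableSet E)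
    (Φ : EuclideanSpace ℝ (Fin n) → EuclideanSpace ℝ (Fin n))
    (k : Fin n → EuclideanSpace ℝ (Fin n) → ℝ) (K : ℝ)
    (hΦ : Measurable Φ) (hk : ∀ i, Measurable (k i)) (hK : ∀ i x, |k i x| ≤ K)
    (hper : ∀ v, HasIntegerCoords v → ∀ x, Φ (x + v) = Φ x) (hn : ∀ x, ‖Φ x‖ ≤ 1)
    (hac : ∀ i x (s : ℝ), Φ (x + s • EuclideanSpace.single i 1) i - Φ x i =
      ∫ t in (0 : ℝ)..s, k i (x + t • EuclideanSpace.single i 1)) :
    ENNReal.ofReal (∫ x in E ∩ unitCell n, ∑ i, k i x) ≤ periodicPerimeter E := by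
  let ρ : ℕ → ContDiffBump (0 : EuclideanSpace ℝ (Fin n)) := fun j =>
    ⟨1 / ((j : ℝ) + 1) / 2, 1 / ((j : ℝ) + 1), by positivity, half_lt_self (by positivity)⟩
  have hρ : Tendsto (fun j => (ρ j).rOut) atTop (𝓝 0) := tendsto_one_div_add_atTop_nhds_zero_nat
  have hρ' : ∀ᶠ j in atTop, (ρ j).rOut ≤ 2 * (ρ j).rIn :=
    Eventually.of_forall fun j => by simp only [ρ]; linarith
  let κ : ℕ → Fin n → EuclideanSpace ℝ (Fin n) → ℝ := fun j i =>
    ((ρ j).normed volume ⋆[lsmul ℝ ℝ, volume] (k i) : _ → ℝ)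
  have hle : ∀ j, ENNReal.ofReal (∫ x in E ∩ unitCell n, ∑ i, κ j i x) ≤ periodicPerimeter E := by
    intro j
    let φ := ((ρ j).normed volume ⋆[lsmul ℝ ℝ, volume] Φ : _ → EuclideanSpace ℝ (Fin n))
    have hadm : IsAdmissibleField φ := by
      refine ⟨(ρ j).hasCompactSupport_normed.contDiff_convolution_left _
        (n := 1) (ρ j).contDiff_normed (tac_locInt hΦ hn), fun v hv x => ?_,
        tac_norm_conv_le (ρ j) hn⟩
      simp only [φ, convolution_lsmul]
      refine integral_congr_ae (Eventually.of_forall fun t => ?_)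
      beta_reduce
      rw [show x + v - t = (x - t) + v by abel, hper v hv]
    refine le_trans (le_of_eq ?_) (le_iSup (fun ψ : {ψ // IsAdmissibleField ψ} =>
      ENNReal.ofReal (∫ x in E ∩ unitCell n, divergence ψ.1 x)) ⟨φ, hadm⟩)
    congr 1
    refine integral_congr_ae (Eventually.of_forall fun x => ?_)
    simp only [divergence]
    exact Finset.sum_congr rfl fun i _ =>
      (tac_div_conv (ρ j) i hΦ (hk i) (hK i) hn (hac i) x).symm
  have : IsFiniteMeasure (volume.restrict (E ∩ unitCell n)) :=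
    isFiniteMeasure_restrict.2
      ((measure_mono inter_subset_right).trans_lt tac_volume_unitCell_lt_top).ne
  have hlim : Tendsto (fun j => ∫ x in E ∩ unitCell n, ∑ i, κ j i x) atTop
      (𝓝 (∫ x in E ∩ unitCell n, ∑ i, k i x)) := by
    refine tendsto_integral_of_dominated_convergence (fun _ => ∑ _i : Fin n, K) (fun j => ?_)
      (integrable_const _) (fun j => Eventually.of_forall fun x => ?_) ?_
    · refine (continuous_finsetSum _ fun i _ => ?_).aestronglyMeasurable
      exact (ρ j).hasCompactSupport_normed.continuous_convolution_left _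
        (ρ j).continuous_normed (tac_locInt (hk i) (K := K) (hK i))
    · exact (norm_sum_le _ _).trans (Finset.sum_le_sum fun i _ =>
        tac_norm_conv_le (ρ j) (g := k i) (hK i) x)
    · have : ∀ᵐ x ∂(volume : Measure (EuclideanSpace ℝ (Fin n))), ∀ i,
          Tendsto (fun j => κ j i x) atTop (𝓝 (k i x)) :=
        ae_all_iff.2 fun i => ContDiffBump.ae_convolution_tendsto_right_of_locallyIntegrable hρ hρ'
          (tac_locInt (hk i) (K := K) (hK i))
      filter_upwards [ae_restrict_of_ae this] with x hx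
      exact tendsto_finsetSum _ fun i _ => hx i
  exact le_of_tendsto' (ENNReal.tendsto_ofReal hlim) hle

/-- Lemma T with a real bound and a field of norm at most `c`. -/
theorem testAC_real {E : Set (EuclideanSpace ℝ (Fin n))} (hE : MeasurableSet E) {P c : ℝ}
    (hP0 : 0 ≤ P) (hP : periodicPerimeter E ≤ ENNReal.ofReal P) (hc : 0 < c)
    (Φ : EuclideanSpace ℝ (Fin n) → EuclideanSpace ℝ (Fin n))
    (k : Fin n → EuclideanSpace ℝ (Fin n) → ℝ) (K : ℝ)
    (hΦ : Measurable Φ) (hk : ∀ i, Measurable (k i)) (hK : ∀ i x, |k i x| ≤ K)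
    (hper : ∀ v, HasIntegerCoords v → ∀ x, Φ (x + v) = Φ x) (hn : ∀ x, ‖Φ x‖ ≤ c)
    (hac : ∀ i x (s : ℝ), Φ (x + s • EuclideanSpace.single i 1) i - Φ x i =
      ∫ t in (0 : ℝ)..s, k i (x + t • EuclideanSpace.single i 1)) :
    ∫ x in E ∩ unitCell n, ∑ i, k i x ≤ c * P := by
  have h := testAC hE (fun x => c⁻¹ • Φ x) (fun i x => c⁻¹ * k i x) (c⁻¹ * K)
    (hΦ.const_smul c⁻¹ :) (fun i => (hk i).const_mul _)
    (fun i x => by
      rw [abs_mul, abs_of_pos (inv_pos.2 hc)]
      exact mul_le_mul_of_nonneg_left (hK i x) (inv_pos.2 hc).le)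
    (fun v hv x => by rw [hper v hv])
    (fun x => by
      rw [norm_smul, Real.norm_of_nonneg (inv_pos.2 hc).le, inv_mul_le_iff₀ hc, mul_one]
      exact hn x)
    (fun i x s => by
      rw [intervalIntegral.integral_const_mul, ← hac]
      simp only [PiLp.smul_apply, smul_eq_mul]
      ring)
  have h2 := (ENNReal.ofReal_le_ofReal_iff hP0).1 (h.trans hP)
  simp only [← Finset.mul_sum, integral_const_mul] at h2
  rwa [inv_mul_le_iff₀ hc] at h2

end

end Crest.Agent.R214
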