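import Crest.Agent.R214.MoAxis
import Crest.Agent.R214.Bridge
import Crest.Agent.R214.St
import Crest.Agent.R214.CsDefs

/-! Row 214: the top glue (helper72). Core statements from the cube theorem, Steiner symmetrisation,
the bridge and the backward rigidity. -/

set_option autoImplicit false

open MeasureTheory Crest.GeometryTopology.PeriodicPerimeter

namespace Crest.Agent.R214.Mo

/-- the inequality in the cube -/
def CubeIneq : Prop :=
  ∀ D, DS.IsDS D → 0 < DS.vol D → DS.vol D ≤ 1 / 2 → I3 (DS.vol D) ≤ 2 * DS.per D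

/-- the equality case in the cube -/
def CubeEq : Prop :=
  ∀ D, DS.IsDS D → 0 < DS.vol D → DS.vol D ≤ 1 / 2 → 2 * DS.per D ≤ I3 (DS.vol D) → Cs.Model D

/-- backward rigidity of one Steiner step -/
def RigStep : Prop :=
  ∀ (i : Fin 3) (E : Set (En 3)) (W : ℝ), MeasurableSet E → IsLatticePeriodic E →
    periodicVolume E = W → 0 < W → W ≤ 1 / 2 → periodicPerimeter E = ENNReal.ofReal (I3 W) →
    IsStandardRegion W (stn i E) → IsStandardRegion W E

theorem I3_nonneg {W : ℝ} (h : 0 ≤ W) : 0 ≤ I3 W := by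
  unfold I3
  positivity

theorem coreIneq_of_cube (hI : CubeIneq) : CoreIneq := by
  intro E hE hp h0 h1
  have hd := down_st3 hE hp
  have hm := measurableSet_st3 hE
  have hv : DS.vol (cubeOf (st3 E)) = periodicVolume E := by
    rw [hd.vol_cubeOf hm, volume_st3 hE hp]
  have := hI _ (hd.isDS hm) (hv ▸ h0) (hv ▸ h1)
  rw [hv] at this
  exact (ENNReal.ofReal_le_ofReal this).trans ((hd.two_per_le hm).trans (perimeter_st3_le hE hp))

theorem standard_of_model {F : Set (En 3)} (hd : Down F) (h : Cs.Model (cubeOf F)) :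
    IsStandardRegion (DS.vol (cubeOf F)) F := by
  have hπ := Real.pi_pos
  rcases h with ⟨a, -, r, hr, e, h⟩ | ⟨a, a', -, i, r, hr, e, h⟩ | ⟨a, -, i, h⟩
  · refine Or.inl ⟨a, ?_⟩
    have e1 : 3 * DS.vol (cubeOf F) / (4 * Real.pi) = (r / 2) ^ 3 := by
      rw [← e]
      field_simp
      ring
    have e2 : ((r / 2) ^ 3) ^ ((1 : ℝ) / 3) = r / 2 := by
      have := Real.pow_rpow_inv_natCast (x := r / 2) (n := 3) (by positivity) (by norm_num)
      rwa [Nat.cast_ofNat, ← one_div] at this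
    rw [e1, e2]
    exact congruent_ballZ (by positivity) 0 (by simpa using hd.ae_ballZ h)
  · refine Or.inr (Or.inl ⟨a, a', ?_⟩)
    have e1 : DS.vol (cubeOf F) / Real.pi = (r / 2) ^ 2 := by
      rw [← e]
      field_simp
      ring
    rw [e1, Real.sqrt_sq (by positivity)]
    exact congruent_tubeZ i _ 0 (by simpa using hd.ae_tubeZ i h)
  · exact Or.inr (Or.inr ⟨a, congruent_slabZ i _ 0 (by simpa using hd.ae_slabZ i h)⟩)

theorem coreEq_of_cube (hI : CubeIneq) (hQ : CubeEq) (hR : RigStep) : CoreEq := by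
  intro E hE hp h0 h1 hP
  have hC := coreIneq_of_cube hI
  have step : ∀ (i : Fin 3) (A : Set (En 3)), MeasurableSet A → IsLatticePeriodic A →
      periodicVolume A = periodicVolume E →
      periodicPerimeter A = ENNReal.ofReal (I3 (periodicVolume E)) →
      periodicVolume (stn i A) = periodicVolume E ∧
        periodicPerimeter (stn i A) = ENNReal.ofReal (I3 (periodicVolume E)) := by
    intro i A hA hp hv hP
    have hv' : periodicVolume (stn i A) = periodicVolume E := (volume_stn hA hp i).trans hv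
    refine ⟨hv', le_antisymm (hP ▸ perimeter_stn_le hA hp i) ?_⟩
    have := hC _ (measurableSet_stn hA i) (periodic_stn hp i) (hv' ▸ h0) (hv' ▸ h1)
    rwa [hv'] at this
  have m0 := measurableSet_stn hE 0
  have p0 := periodic_stn hp 0
  have m1 := measurableSet_stn m0 1
  have p1 := periodic_stn p0 1
  obtain ⟨v0, q0⟩ := step 0 E hE hp rfl hP
  obtain ⟨v1, q1⟩ := step 1 _ m0 p0 v0 q0
  obtain ⟨-, q2⟩ := step 2 _ m1 p1 v1 q1
  have hd := down_st3 hE hp
  have hm := measurableSet_st3 hE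
  have hv : DS.vol (cubeOf (st3 E)) = periodicVolume E := by
    rw [hd.vol_cubeOf hm, volume_st3 hE hp]
  have h2 : 2 * DS.per (cubeOf (st3 E)) ≤ I3 (periodicVolume E) :=
    (ENNReal.ofReal_le_ofReal_iff (I3_nonneg h0.le)).1 ((hd.two_per_le hm).trans_eq q2)
  have hs := standard_of_model hd (hQ _ (hd.isDS hm) (hv ▸ h0) (hv ▸ h1) (hv ▸ h2))
  rw [hv] at hs
  exact hR 0 E _ hE hp rfl h0 h1 hP (hR 1 _ _ m0 p0 v0 h0 h1 q0 (hR 2 _ _ m1 p1 v1 h0 h1 q1 hs))

end Crest.Agent.R214.Mo
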