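import Crest.Agent.R214.Top
import Crest.Agent.R214.RigMain

/-! Row 214: the backward rigidity step in the form used by the top glue. -/

set_option autoImplicit false

open MeasureTheory Crest.GeometryTopology.PeriodicPerimeter

namespace Crest.Agent.R214.Mo

theorem rigStep : RigStep := fun i _ _ hE hp hv h0 h1 hP hs =>
  Rig.rig_standard h0 h1 hE hp (measurableSet_stn hE i) hv i
    (Filter.Eventually.of_forall fun x => (len_sec_stn hE hp i x).symm) hs hP.le

end Crest.Agent.R214.Mo
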