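import Crest.Agent.R214.VarEst

/-! Row 214, module VAR: stationarity under stretches (architect helper39; statements are frozen). -/

set_option autoImplicit false
open MeasureTheory Set Filter Topology Real

noncomputable section
namespace Crest.Agent.R214.Va
open DS Cs

variable {E : Set E3}

def Qf (E : Set E3) (f : Fin 3 → ℝ → ℝ) : ℝ := ∑ j, ∫ x, f j (x j) * (1 - nu E j x ^ 2) ∂(sig E)

def Wf (E : Set E3) (f : Fin 3 → ℝ → ℝ) : ℝ := ∑ j, ∫ t in Ioo (0 : ℝ) 1, f j t * sec E j t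

/-- bounded measurable functions of mean zero -/
def Adm (f : Fin 3 → ℝ → ℝ) : Prop :=
  (∀ j, Measurable (f j)) ∧ (∃ K, ∀ j t, |f j t| ≤ K) ∧ ∀ j, ∫ t in Ioo (0 : ℝ) 1, f j t = 0

/-- one-sided derivatives of the profile -/
def Sup (V lp lm : ℝ) : Prop :=
  ∀ η, 0 < η → ∀ᶠ h in 𝓝 (0 : ℝ), min (lp * h) (lm * h) - η * |h| ≤ Is (V + h) - Is V

theorem fvA_real {V lp lm Q W C s0 : ℝ} (hI : Sup V lp lm) (hs0 : 0 < s0)
    (h : ∀ s, 0 < s → s ≤ s0 → ∃ k, |k - s * W| ≤ C * s ^ 2 ∧ Is (V + k) - Is V ≤ s * Q + C * s ^ 2) :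
    min (lp * W) (lm * W) ≤ Q := by
  have key : ∀ η, 0 < η → min (lp * W) (lm * W) - η * |W| ≤ Q := by
    intro η hη
    obtain ⟨δ, hδ, hδ'⟩ := Metric.eventually_nhds_iff.1 (hI η hη)
    have t1 : Tendsto (fun s : ℝ => Q + (C + (|lp| + |lm|) * C + η * C) * s) (𝓝[>] 0) (𝓝 Q) := by
      have : Tendsto (fun s : ℝ => Q + (C + (|lp| + |lm|) * C + η * C) * s) (𝓝 0)
          (𝓝 (Q + (C + (|lp| + |lm|) * C + η * C) * 0)) :=
        (by fun_prop : Continuous fun s : ℝ => Q + (C + (|lp| + |lm|) * C + η * C) * s).tendsto 0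
      rw [mul_zero, add_zero] at this
      exact this.mono_left nhdsWithin_le_nhds
    have t2 : Tendsto (fun s : ℝ => s * |W| + C * s ^ 2) (𝓝[>] 0) (𝓝 0) := by
      have : Tendsto (fun s : ℝ => s * |W| + C * s ^ 2) (𝓝 0) (𝓝 (0 * |W| + C * 0 ^ 2)) :=
        (by fun_prop : Continuous fun s : ℝ => s * |W| + C * s ^ 2).tendsto 0
      simp only [zero_mul, ne_eq, OfNat.ofNat_ne_zero, not_false_eq_true, zero_pow, mul_zero,
        add_zero] at this
      exact this.mono_left nhdsWithin_le_nhds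
    refine ge_of_tendsto t1 ?_
    filter_upwards [t2.eventually (gt_mem_nhds hδ), Ioo_mem_nhdsGT hs0] with s hs hs'
    obtain ⟨k, hk, hk'⟩ := h s hs'.1 hs'.2.le
    have hkb : |k| ≤ s * |W| + C * s ^ 2 := by
      have e : k = (k - s * W) + s * W := by ring
      have := abs_add_le (k - s * W) (s * W)
      rw [← e, abs_mul, abs_of_pos hs'.1] at this
      linarith
    have h1 := hδ' (y := k) (by rw [Real.dist_eq, sub_zero]; exact hkb.trans_lt hs)
    have h2 : s * min (lp * W) (lm * W) - (|lp| + |lm|) * (C * s ^ 2) ≤ min (lp * k) (lm * k) := by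
      have a1 : s * min (lp * W) (lm * W) ≤ s * (lp * W) :=
        mul_le_mul_of_nonneg_left (min_le_left _ _) hs'.1.le
      have a2 : s * min (lp * W) (lm * W) ≤ s * (lm * W) :=
        mul_le_mul_of_nonneg_left (min_le_right _ _) hs'.1.le
      have hC : 0 ≤ C * s ^ 2 := (abs_nonneg _).trans hk
      have b : ∀ l : ℝ, s * (l * W) - |l| * (C * s ^ 2) ≤ l * k := fun l => by
        have c1 : |l * (k - s * W)| ≤ |l| * (C * s ^ 2) := by
          rw [abs_mul]; exact mul_le_mul_of_nonneg_left hk (abs_nonneg _)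
        have c2 := neg_abs_le (l * (k - s * W))
        nlinarith
      have d1 := mul_nonneg (abs_nonneg lp) hC
      have d2 := mul_nonneg (abs_nonneg lm) hC
      refine le_min ?_ ?_
      · have := b lp; nlinarith
      · have := b lm; nlinarith
    have h3 : η * |k| ≤ η * (s * |W| + C * s ^ 2) := mul_le_mul_of_nonneg_left hkb hη.le
    refine le_of_mul_le_mul_left ?_ hs'.1
    nlinarith
  refine le_of_forall_pos_le_add fun ε hε => ?_
  have hW : 0 < |W| + 1 := by positivity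
  have h1 := key (ε / (|W| + 1)) (div_pos hε hW)
  have h2 : ε / (|W| + 1) * |W| ≤ ε := by
    rw [div_mul_eq_mul_div, div_le_iff₀ hW]
    nlinarith [abs_nonneg W]
  linarith

/-- stretch with `g j = 1 + s f j`, `b = 0` (the cube is mapped onto itself), `s → 0+` -/
theorem first_var (hE : IsMin E) {lp lm : ℝ} (hI : Sup (vol E) lp lm) {f : Fin 3 → ℝ → ℝ}
    (hf : Adm f) : min (lp * Wf E f) (lm * Wf E f) ≤ Qf E f := by
  obtain ⟨hm, ⟨K, hK⟩, h0⟩ := hf
  have hK0 : 0 ≤ K := (abs_nonneg _).trans (hK 0 0)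
  have hP := per_nonneg E
  refine fvA_real (C := K ^ 2 * (4 + 10 * per E)) (s0 := 1 / (2 * (K + 1))) hI (by positivity) ?_
  intro s hs hs1
  have hsK : s * K ≤ 1 / 2 := by
    rw [le_div_iff₀ (by positivity)] at hs1
    nlinarith
  have hu : ∀ j t, |s * f j t| ≤ s * K := fun j t => by
    rw [abs_mul, abs_of_pos hs]; exact mul_le_mul_of_nonneg_left (hK j t) hs.le
  have hex : ∀ j, ∃ φ : ℝ ≃o ℝ, Rp φ (fun t => 1 + s * f j t) ∧
      ∀ t, φ t = 0 + ∫ r in (0 : ℝ)..t, (1 + s * f j r) := fun j =>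
    exists_rp (fun t => 1 + s * f j t) (measurable_const.add ((hm j).const_mul s))
      (fun t => by have := abs_le.1 (hu j t); linarith [this.1])
      (fun t => by have := abs_le.1 (hu j t); linarith [this.2]) 0 le_rfl
  choose φ hφ hφ' using hex
  have z0 : ∀ j, φ j 0 = 0 := fun j => by rw [hφ' j 0]; simp
  have z1 : ∀ j, φ j 1 = 1 := fun j => by
    have hi : IntervalIntegrable (f j) volume 0 1 := by
      rw [intervalIntegrable_iff_integrableOn_Ioc_of_le zero_le_one]
      exact Measure.integrableOn_of_bounded (by simp) (hm j).aestronglyMeasurable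
        (Eventually.of_forall (hK j))
    rw [hφ' j 1, intervalIntegral.integral_add intervalIntegrable_const (hi.const_mul s),
      intervalIntegral.integral_const_mul, intervalIntegral.integral_of_le (f := f j) zero_le_one,
      integral_Ioc_eq_integral_Ioo, h0 j]
    simp
  have hcube : ∀ x ∈ cube, Ph φ x ∈ cube := fun x hx j => by
    have a1 := (φ j).strictMono (hx j).1
    have a2 := (φ j).strictMono (hx j).2
    rw [z0] at a1; rw [z1] at a2
    exact ⟨a1, a2⟩
  have n1 : (sig E).real {x | Ph φ x ∉ cube} = 0 := by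
    have : sig E {x | Ph φ x ∉ cube} = 0 :=
      measure_mono_null (fun x hx hc => hx (hcube x hc)) hE.1.sig_compl_cube
    simp [Measure.real, this]
  have n2 : E ∩ {x | Ph φ x ∉ cube} = ∅ :=
    eq_empty_of_forall_notMem fun x hx => hx.2 (hcube x (hE.1.sub hx.1))
  have e1 := per_str_est (u := fun j t => s * f j t) hE.1 hφ (fun i => Or.inl (z1 i).ge)
    (s := s * K) (by linarith) hu
  have e2 := vol_str_est (u := fun j t => s * f j t) hE.1 hφ (s := s * K) (by linarith) hu
  have e3 := hE.2 (str E φ) (isDS_str hE.1 fun j => (z0 j).le)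
  have q1 : ∑ j, ∫ x, s * f j (x j) * (1 - nu E j x ^ 2) ∂(sig E) = s * Qf E f := by
    rw [Qf, Finset.mul_sum]
    refine Finset.sum_congr rfl fun j _ => ?_
    rw [← integral_const_mul]
    simp only [mul_assoc]
  have q2 : ∑ j, ∫ t in Ioo (0 : ℝ) 1, s * f j t * sec E j t = s * Wf E f := by
    rw [Wf, Finset.mul_sum]
    refine Finset.sum_congr rfl fun j _ => ?_
    rw [← integral_const_mul]
    simp only [mul_assoc]
  rw [n1, q1] at e1
  rw [n2, q2, measureReal_empty] at e2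
  have p1 : 0 ≤ K ^ 2 * s ^ 2 := by positivity
  have p2 : 0 ≤ K ^ 2 * s ^ 2 * per E := by positivity
  refine ⟨vol (str E φ) - vol E, ?_, ?_⟩
  · have : vol (str E φ) - vol E - s * Wf E f = vol (str E φ) - (vol E - 0 + s * Wf E f) := by ring
    rw [this]
    refine e2.trans ?_
    nlinarith
  · rw [add_sub_cancel]
    nlinarith

theorem lam_abs {V : Type*} [AddCommGroup V] [Module ℝ V] (P : V → Prop) (Q W : V → ℝ)
    (hP : ∀ (a b : ℝ) f g, P f → P g → P (a • f + b • g))
    (hQ : ∀ (a b : ℝ) f g, P f → P g → Q (a • f + b • g) = a * Q f + b * Q g)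
    (hW : ∀ (a b : ℝ) f g, P f → P g → W (a • f + b • g) = a * W f + b * W g)
    {lp lm : ℝ} (hl : lp ≤ lm) (h : ∀ f, P f → min (lp * W f) (lm * W f) ≤ Q f) :
    ∃ lam ∈ Icc lp lm, ∀ f, P f → Q f = lam * W f := by
  have key : ∀ f, P f → W f = 0 → Q f = 0 := by
    intro f hf h0
    have h1 := h f hf
    have h2 := h _ (hP (-1) 0 f f hf hf)
    rw [hQ _ _ _ _ hf hf, hW _ _ _ _ hf hf] at h2
    simp only [h0, mul_zero, min_self, add_zero, zero_mul] at h1 h2
    linarith
  by_cases hex : ∃ f0, P f0 ∧ W f0 ≠ 0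
  · obtain ⟨f0, hf0, hw0⟩ := hex
    have hf1 := hP (W f0)⁻¹ 0 f0 f0 hf0 hf0
    have hw1 : W ((W f0)⁻¹ • f0 + (0 : ℝ) • f0) = 1 := by
      rw [hW _ _ _ _ hf0 hf0, inv_mul_cancel₀ hw0]; ring
    generalize (W f0)⁻¹ • f0 + (0 : ℝ) • f0 = f1 at hf1 hw1
    refine ⟨Q f1, ⟨?_, ?_⟩, fun f hf => ?_⟩
    · have h1 := h f1 hf1
      rw [hw1, mul_one, mul_one, min_eq_left hl] at h1
      exact h1
    · have h2 := h _ (hP (-1) 0 f1 f1 hf1 hf1)
      rw [hQ _ _ _ _ hf1 hf1, hW _ _ _ _ hf1 hf1, hw1] at h2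
      have : min (lp * (-1 * 1 + 0 * 1)) (lm * (-1 * 1 + 0 * 1)) = -lm := by
        rw [min_eq_right (by linarith)]; ring
      rw [this] at h2
      linarith
    · have h3 := key _ (hP 1 (-W f) f f1 hf hf1) (by rw [hW _ _ _ _ hf hf1, hw1]; ring)
      rw [hQ _ _ _ _ hf hf1] at h3
      linarith
  · refine ⟨lp, ⟨le_rfl, hl⟩, fun f hf => ?_⟩
    have h0 : W f = 0 := by
      by_contra hne
      exact hex ⟨f, hf, hne⟩
    rw [key f hf h0, h0, mul_zero]

theorem lam_intQ (E : Set E3) (j : Fin 3) {g : ℝ → ℝ} (hg : Measurable g) {K : ℝ}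
    (hK : ∀ t, |g t| ≤ K) : Integrable (fun x : E3 => g (x j) * (1 - nu E j x ^ 2)) (sig E) := by
  have hm : Measurable fun x : E3 => g (x j) * (1 - nu E j x ^ 2) :=
    (hg.comp (by fun_prop)).mul (measurable_const.sub ((measurable_nu E j).pow_const 2))
  refine Integrable.of_bound hm.aestronglyMeasurable K (Eventually.of_forall fun x => ?_)
  have h0 := nu_nonneg E j x
  have h1 := nu_le_one E j x
  have h2 : |1 - nu E j x ^ 2| ≤ 1 := abs_le.2 ⟨by nlinarith, by nlinarith⟩
  rw [Real.norm_eq_abs, abs_mul]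
  calc |g (x j)| * |1 - nu E j x ^ 2| ≤ |g (x j)| * 1 := by gcongr
    _ ≤ K := by rw [mul_one]; exact hK _

theorem lam_int1 {g : ℝ → ℝ} (hg : Measurable g) {K : ℝ} (hK : ∀ t, |g t| ≤ K) :
    IntegrableOn g (Ioo (0 : ℝ) 1) :=
  Measure.integrableOn_of_bounded (M := K) (by simp) hg.aestronglyMeasurable
    (Eventually.of_forall fun t => by rw [Real.norm_eq_abs]; exact hK t)

theorem lam_intW (hE : IsDS E) (j : Fin 3) {g : ℝ → ℝ} (hg : Measurable g) {K : ℝ}
    (hK : ∀ t, |g t| ≤ K) : IntegrableOn (fun t => g t * sec E j t) (Ioo (0 : ℝ) 1) := by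
  refine lam_int1 (K := K) (hg.mul (hE.measurable_sec j)) fun t => ?_
  rw [abs_mul, abs_of_nonneg (sec_nonneg E j t)]
  calc |g t| * sec E j t ≤ |g t| * 1 := by gcongr; exact hE.sec_le_one j t
    _ ≤ K := by rw [mul_one]; exact hK _

theorem Adm.comb (a b : ℝ) {f g : Fin 3 → ℝ → ℝ} (hf : Adm f) (hg : Adm g) :
    Adm (a • f + b • g) := by
  obtain ⟨fm, ⟨K, hK⟩, f0⟩ := hf
  obtain ⟨gm, ⟨L, hL⟩, g0⟩ := hg
  refine ⟨fun j => ((fm j).const_mul a).add ((gm j).const_mul b), ⟨|a| * K + |b| * L, fun j t => ?_⟩,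
    fun j => ?_⟩
  · change |a * f j t + b * g j t| ≤ _
    refine (abs_add_le _ _).trans ?_
    rw [abs_mul, abs_mul]
    gcongr
    · exact hK j t
    · exact hL j t
  · change ∫ t in Ioo (0 : ℝ) 1, (a * f j t + b * g j t) = 0
    rw [integral_add ((lam_int1 (fm j) (hK j)).const_mul a) ((lam_int1 (gm j) (hL j)).const_mul b),
      integral_const_mul, integral_const_mul, f0, g0]
    ring

theorem Qf_comb (E : Set E3) (a b : ℝ) {f g : Fin 3 → ℝ → ℝ} (hf : Adm f) (hg : Adm g) :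
    Qf E (a • f + b • g) = a * Qf E f + b * Qf E g := by
  obtain ⟨fm, ⟨K, hK⟩, -⟩ := hf
  obtain ⟨gm, ⟨L, hL⟩, -⟩ := hg
  unfold Qf
  rw [Finset.mul_sum, Finset.mul_sum, ← Finset.sum_add_distrib]
  refine Finset.sum_congr rfl fun j _ => ?_
  rw [← integral_const_mul, ← integral_const_mul, ← integral_add
    ((lam_intQ E j (fm j) (hK j)).const_mul a) ((lam_intQ E j (gm j) (hL j)).const_mul b)]
  refine integral_congr_ae (Eventually.of_forall fun x => ?_)
  change (a * f j (x j) + b * g j (x j)) * _ = _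
  ring

theorem Wf_comb (hE : IsDS E) (a b : ℝ) {f g : Fin 3 → ℝ → ℝ} (hf : Adm f) (hg : Adm g) :
    Wf E (a • f + b • g) = a * Wf E f + b * Wf E g := by
  obtain ⟨fm, ⟨K, hK⟩, -⟩ := hf
  obtain ⟨gm, ⟨L, hL⟩, -⟩ := hg
  unfold Wf
  rw [Finset.mul_sum, Finset.mul_sum, ← Finset.sum_add_distrib]
  refine Finset.sum_congr rfl fun j _ => ?_
  rw [← integral_const_mul, ← integral_const_mul, ← integral_add
    ((lam_intW hE j (fm j) (hK j)).const_mul a) ((lam_intW hE j (gm j) (hL j)).const_mul b)]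
  refine integral_congr_ae (Eventually.of_forall fun x => ?_)
  change (a * f j x + b * g j x) * _ = _
  ring

/-- linear algebra: `Q = lam W` on `Adm`; then `c i = Q (1 at i) - lam * vol E` -/
theorem exists_lam (hE : IsDS E) {lp lm : ℝ} (hl : lp ≤ lm)
    (h : ∀ f, Adm f → min (lp * Wf E f) (lm * Wf E f) ≤ Qf E f) :
    ∃ lam ∈ Icc lp lm, ∃ c : Fin 3 → ℝ, ∀ (i : Fin 3) (g : ℝ → ℝ), Measurable g → (∀ t, |g t| ≤ 1) →
      ∫ x, g (x i) * (1 - nu E i x ^ 2) ∂(sig E) =
        ∫ t in Ioo (0 : ℝ) 1, g t * (c i + lam * sec E i t) := by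
  obtain ⟨lam, hlam, hQW⟩ := lam_abs Adm (Qf E) (Wf E) (fun a b _ _ hf hg => hf.comb a b hg)
    (fun a b _ _ hf hg => Qf_comb E a b hf hg) (fun a b _ _ hf hg => Wf_comb hE a b hf hg) hl h
  refine ⟨lam, hlam, fun i => (∫ x, (1 - nu E i x ^ 2) ∂(sig E)) - lam * vol E,
    fun i g hg hg1 => ?_⟩
  set m : ℝ := ∫ t in Ioo (0 : ℝ) 1, g t with hm
  have gi := lam_int1 hg hg1
  have hb : ∀ t, |g t - m| ≤ 1 + |m| := fun t => (abs_sub _ _).trans (by gcongr; exact hg1 t)
  have hadm : Adm (fun j t => if j = i then g t - m else 0) := by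
    refine ⟨fun j => ?_, ⟨1 + |m|, fun j t => ?_⟩, fun j => ?_⟩
    · by_cases hj : j = i
      · simp only [hj, if_true]; exact hg.sub_const m
      · simp only [hj, if_false]; exact measurable_const
    · by_cases hj : j = i
      · simp only [hj, if_true]; exact hb t
      · simp only [hj, if_false, abs_zero]; positivity
    · by_cases hj : j = i
      · simp only [hj, if_true]
        rw [integral_sub gi (integrable_const _), ← hm]
        simp
      · simp only [hj, if_false, integral_zero]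
  have e := hQW _ hadm
  unfold Qf Wf at e
  rw [Finset.sum_eq_single i (fun j _ hj => by simp [hj]) (by simp),
    Finset.sum_eq_single i (fun j _ hj => by simp [hj]) (by simp)] at e
  simp only [if_true] at e
  have q1 : Integrable (fun x : E3 => 1 - nu E i x ^ 2) (sig E) := by
    simpa using lam_intQ E i (g := fun _ => 1) measurable_const (K := 1) (fun _ => by simp)
  have s1 : IntegrableOn (sec E i) (Ioo (0 : ℝ) 1) := by
    simpa using lam_intW hE i (g := fun _ => 1) measurable_const (K := 1) (fun _ => by simp)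
  have e1 : ∫ x, (g (x i) - m) * (1 - nu E i x ^ 2) ∂(sig E) =
      ∫ x, g (x i) * (1 - nu E i x ^ 2) ∂(sig E) - m * ∫ x, (1 - nu E i x ^ 2) ∂(sig E) := by
    rw [← integral_const_mul, ← integral_sub (lam_intQ E i hg hg1) (q1.const_mul m)]
    exact integral_congr_ae (Eventually.of_forall fun x => by ring)
  have e2 : ∫ t in Ioo (0 : ℝ) 1, (g t - m) * sec E i t =
      (∫ t in Ioo (0 : ℝ) 1, g t * sec E i t) - m * vol E := by
    rw [← hE.integral_sec i, ← integral_const_mul,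
      ← integral_sub (lam_intW hE i hg hg1) (s1.const_mul m)]
    exact integral_congr_ae (Eventually.of_forall fun x => by ring)
  have e3 : ∀ C : ℝ, ∫ t in Ioo (0 : ℝ) 1, g t * (C + lam * sec E i t) =
      C * m + lam * ∫ t in Ioo (0 : ℝ) 1, g t * sec E i t := by
    intro C
    rw [hm, ← integral_const_mul, ← integral_const_mul,
      ← integral_add (gi.const_mul C) ((lam_intW hE i hg hg1).const_mul lam)]
    exact integral_congr_ae (Eventually.of_forall fun x => by ring)
  rw [e3]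
  rw [e1, e2] at e
  linarith

end Crest.Agent.R214.Va
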