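import Crest.Agent.R214.VarA

/-! Row 214, module VAR: inserting an empty slab at the far wall (auxiliary file). -/

set_option autoImplicit false
open MeasureTheory Set Filter Topology Real

noncomputable section
namespace Crest.Agent.R214.Va
open DS Cs

variable {E : Set E3} {lam : ℝ} {c : Fin 3 → ℝ}

theorem e62_ind {η : ℝ} (hη1 : η ≤ 1) (a : ℝ) (f : ℝ → ℝ) :
    ∫ t in Ioo (0 : ℝ) 1, (Ioo (1 - η) 1).indicator (fun _ => a) t * f t =
      a * ∫ t in Ioo (1 - η) 1, f t := by
  have h1 : (fun t => (Ioo (1 - η) 1).indicator (fun _ => a) t * f t) =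
      (Ioo (1 - η) 1).indicator fun t => a * f t := by
    funext t
    by_cases ht : t ∈ Ioo (1 - η) 1
    · simp only [indicator_of_mem ht]
    · simp only [indicator_of_notMem ht, zero_mul]
  rw [h1, setIntegral_indicator measurableSet_Ioo,
    inter_eq_right.mpr (Ioo_subset_Ioo_left (by linarith)), integral_const_mul]

theorem e62_int (hE : IsDS E) (i : Fin 3) (a b : ℝ) : IntegrableOn (sec E i) (Ioo a b) :=
  Measure.integrableOn_of_bounded (M := 1) measure_Ioo_lt_top.ne
    (hE.measurable_sec i).aestronglyMeasurable (ae_of_all _ fun t => by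
      rw [Real.norm_of_nonneg (sec_nonneg E i t)]
      exact hE.sec_le_one i t)

theorem e62_step (hE : IsMin E)
    (hd : ∀ (i : Fin 3) (g : ℝ → ℝ), Measurable g → (∀ t, |g t| ≤ 1) →
      ∫ x, g (x i) * (1 - nu E i x ^ 2) ∂(sig E) =
        ∫ t in Ioo (0 : ℝ) 1, g t * (c i + lam * sec E i t))
    (i : Fin 3) (h0 : aone E i = 0) {η s : ℝ} (hη : 0 < η) (hη1 : η ≤ 1) (hs : 0 < s)
    (hs2 : s ≤ 1 / 2) :
    ∃ V', |V' - (vol E - s * ∫ t in Ioo (1 - η) 1, sec E i t)| ≤ 4 * s ^ 2 ∧
      Is V' - Is (vol E) ≤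
        -s * (c i * η + lam * ∫ t in Ioo (1 - η) 1, sec E i t) + 10 * s ^ 2 * per E := by
  classical
  let v : ℝ → ℝ := (Ioo (1 - η) 1).indicator fun _ => -s
  let u : Fin 3 → ℝ → ℝ := fun j t => if j = i then v t else 0
  have hvm : Measurable v := measurable_const.indicator measurableSet_Ioo
  have hv : ∀ t, -s ≤ v t ∧ v t ≤ 0 := fun t => by
    by_cases ht : t ∈ Ioo (1 - η) 1
    · simp only [v, indicator_of_mem ht]
      exact ⟨le_rfl, by linarith⟩
    · simp only [v, indicator_of_notMem ht]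
      exact ⟨by linarith, le_rfl⟩
  have hum : ∀ j, Measurable (u j) := fun j => by
    by_cases hj : j = i
    · simp only [u, if_pos hj]
      exact hvm
    · simp only [u, if_neg hj]
      exact measurable_const
  have hu : ∀ j t, -s ≤ u j t ∧ u j t ≤ 0 := fun j t => by
    by_cases hj : j = i
    · simp only [u, if_pos hj]
      exact hv t
    · simp only [u, if_neg hj]
      exact ⟨by linarith, le_rfl⟩
  have hua : ∀ j t, |u j t| ≤ s := fun j t => abs_le.mpr ⟨(hu j t).1, by linarith [(hu j t).2]⟩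
  have hex : ∀ j, ∃ φ : ℝ ≃o ℝ, Rp φ (fun t => 1 + u j t) ∧
      ∀ t, φ t = 0 + ∫ r in (0 : ℝ)..t, (1 + u j r) := fun j =>
    exists_rp (fun t => 1 + u j t) (measurable_const.add (hum j)) (fun t => by linarith [(hu j t).1])
      (fun t => by linarith [(hu j t).2]) 0 le_rfl
  choose φ hφ hφe using hex
  have hφ0 : ∀ j, φ j 0 = 0 := fun j => by rw [hφe j 0]; simp
  have hφ1 : ∀ j, φ j 1 ≤ 1 := fun j => by
    rw [hφe j 1, zero_add]
    have hi : IntervalIntegrable (fun r => 1 + u j r) volume 0 1 := by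
      rw [intervalIntegrable_iff_integrableOn_Ioo_of_le zero_le_one]
      exact Measure.integrableOn_of_bounded (M := 1) measure_Ioo_lt_top.ne
        (measurable_const.add (hum j)).aestronglyMeasurable (ae_of_all _ fun t => by
          rw [Real.norm_eq_abs]
          exact abs_le.mpr ⟨by linarith [(hu j t).1], by linarith [(hu j t).2]⟩)
    have := intervalIntegral.integral_mono_on zero_le_one hi
      (intervalIntegrable_const (c := (1 : ℝ))) (fun t _ => by linarith [(hu j t).2])
    simpa using this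
  have h1 : ∀ j, 1 ≤ φ j 1 ∨ aone E j = 0 := fun j => by
    by_cases hj : j = i
    · exact Or.inr (hj ▸ h0)
    · left
      rw [hφe j 1]
      simp [u, if_neg hj]
  have hsub : {x : E3 | Ph φ x ∉ cube} ⊆ cubeᶜ := fun x hx hc => hx fun j => by
    have a1 : φ j 0 < φ j (x j) := (φ j).strictMono (hc j).1
    have a2 : φ j (x j) < φ j 1 := (φ j).strictMono (hc j).2
    exact ⟨(hφ0 j) ▸ a1, a2.trans_le (hφ1 j)⟩
  have hz1 : (sig E).real {x | Ph φ x ∉ cube} = 0 := by
    rw [measureReal_def, measure_mono_null hsub hE.1.sig_compl_cube, ENNReal.toReal_zero]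
  have hz2 : volume.real (E ∩ {x | Ph φ x ∉ cube}) = 0 := by
    rw [eq_empty_of_forall_notMem (s := E ∩ {x | Ph φ x ∉ cube})
      fun x hx => hsub hx.2 (hE.1.sub hx.1), measureReal_empty]
  have hP := per_str_est hE.1 hφ h1 (by linarith : s ≤ 1) hua
  have hV := vol_str_est hE.1 hφ (by linarith : s ≤ 1) hua
  have hQ : ∑ j, ∫ x, u j (x j) * (1 - nu E j x ^ 2) ∂(sig E) =
      -s * (c i * η + lam * ∫ t in Ioo (1 - η) 1, sec E i t) := by
    rw [Finset.sum_eq_single i (fun j _ hj => by simp [u, if_neg hj]) (by simp),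
      hd i (u i) (hum i) (fun t => (hua i t).trans (by linarith))]
    simp only [u, if_true, v]
    rw [e62_ind hη1, integral_add (integrable_const _) ((e62_int hE.1 i _ _).const_mul lam),
      integral_const_mul, setIntegral_const, Real.volume_real_Ioo_of_le (by linarith), smul_eq_mul]
    ring
  have hW : ∑ j, ∫ t in Ioo (0 : ℝ) 1, u j t * sec E j t =
      -s * ∫ t in Ioo (1 - η) 1, sec E i t := by
    rw [Finset.sum_eq_single i (fun j _ hj => by simp [u, if_neg hj]) (by simp)]
    simp only [u, if_true, v]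
    rw [e62_ind hη1]
  rw [hz1, hQ] at hP
  rw [hz2, hW] at hV
  have hm := hE.2 _ (isDS_str (φ := φ) hE.1 fun j => (hφ0 j).le)
  refine ⟨vol (str E φ), ?_, by linarith⟩
  convert hV using 1
  · congr 1
    ring
  · ring

theorem e62_main (hE : IsMin E) {L : ℝ}
    (hL : ∀ᶠ h in 𝓝 (0 : ℝ), -(L * |h|) ≤ Is (vol E + h) - Is (vol E))
    (hd : ∀ (i : Fin 3) (g : ℝ → ℝ), Measurable g → (∀ t, |g t| ≤ 1) →
      ∫ x, g (x i) * (1 - nu E i x ^ 2) ∂(sig E) =
        ∫ t in Ioo (0 : ℝ) 1, g t * (c i + lam * sec E i t))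
    (i : Fin 3) (h0 : aone E i = 0) : c i ≤ 0 := by
  obtain ⟨ρ, hρ, hL'⟩ := Metric.eventually_nhds_iff.mp hL
  have key : ∀ δ, 0 < δ → c i ≤ (|lam| + |L|) * δ := fun δ hδ => by
    have ht := hE.1.tendsto_sec_one i
    rw [h0] at ht
    obtain ⟨a, ha, hsub⟩ := mem_nhdsLT_iff_exists_Ioo_subset.mp (ht.eventually (gt_mem_nhds hδ))
    have ha1 : a < 1 := ha
    obtain ⟨η, hη, hη1, hηa⟩ : ∃ η : ℝ, 0 < η ∧ η ≤ 1 ∧ a ≤ 1 - η :=
      ⟨min 1 (1 - a), lt_min one_pos (by linarith), min_le_left _ _, by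
        linarith [min_le_right 1 (1 - a)]⟩
    set A := ∫ t in Ioo (1 - η) 1, sec E i t with hA
    have hA0 : 0 ≤ A := integral_nonneg fun t => sec_nonneg E i t
    have hA1 : A ≤ η * δ := by
      have := setIntegral_mono_on (e62_int hE.1 i (1 - η) 1) (g := fun _ => δ)
        (integrableOn_const measure_Ioo_lt_top.ne) measurableSet_Ioo
        (fun t ht => le_of_lt (hsub ⟨lt_of_le_of_lt hηa ht.1, ht.2⟩))
      rwa [setIntegral_const, Real.volume_real_Ioo_of_le (by linarith), smul_eq_mul,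
        sub_sub_cancel] at this
    have hP := per_nonneg E
    have hev : ∀ᶠ s in 𝓝[>] (0 : ℝ),
        c i * η ≤ (|lam| + |L|) * A + s * (4 * |L| + 10 * per E) := by
      have hc : Tendsto (fun s : ℝ => s * A + 4 * s ^ 2) (𝓝[>] 0) (𝓝 0) := by
        have : Continuous fun s : ℝ => s * A + 4 * s ^ 2 := by fun_prop
        have h2 := this.tendsto 0
        simp only [zero_mul, ne_eq, OfNat.ofNat_ne_zero, not_false_eq_true, zero_pow, mul_zero,
          add_zero] at h2
        exact h2.mono_left nhdsWithin_le_nhds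
      filter_upwards [hc.eventually (gt_mem_nhds hρ), Ioc_mem_nhdsGT (by norm_num : (0 : ℝ) < 1 / 2)]
        with s hs1 hs2
      obtain ⟨V', hV1, hV2⟩ := e62_step hE hd i h0 hη hη1 hs2.1 hs2.2
      rw [← hA] at hV1 hV2
      have hsA : 0 ≤ s * A := mul_nonneg hs2.1.le hA0
      have hh : |V' - vol E| ≤ s * A + 4 * s ^ 2 := by
        rw [abs_le] at hV1 ⊢
        constructor <;> linarith [hV1.1, hV1.2]
      have h3 := hL' (y := V' - vol E) (by
        rw [Real.dist_eq, sub_zero]
        exact hh.trans_lt hs1)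
      rw [add_sub_cancel] at h3
      have h4 : L * |V' - vol E| ≤ |L| * (s * A + 4 * s ^ 2) :=
        (mul_le_mul_of_nonneg_right (le_abs_self L) (abs_nonneg _)).trans
          (mul_le_mul_of_nonneg_left hh (abs_nonneg L))
      have h5 : -lam * A ≤ |lam| * A := mul_le_mul_of_nonneg_right (neg_le_abs lam) hA0
      have h6 : s * (c i * η) ≤ s * ((|lam| + |L|) * A + s * (4 * |L| + 10 * per E)) := by
        have h7 := mul_le_mul_of_nonneg_left h5 hs2.1.le
        nlinarith
      exact le_of_mul_le_mul_left h6 hs2.1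
    have hlim : Tendsto (fun s : ℝ => (|lam| + |L|) * A + s * (4 * |L| + 10 * per E)) (𝓝[>] 0)
        (𝓝 ((|lam| + |L|) * A)) := by
      have : Continuous fun s : ℝ => (|lam| + |L|) * A + s * (4 * |L| + 10 * per E) := by fun_prop
      have h2 := this.tendsto 0
      simp only [zero_mul, add_zero] at h2
      exact h2.mono_left nhdsWithin_le_nhds
    have h8 := ge_of_tendsto hlim hev
    have h9 : (|lam| + |L|) * A ≤ (|lam| + |L|) * (η * δ) :=
      mul_le_mul_of_nonneg_left hA1 (by positivity)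
    refine le_of_mul_le_mul_right ?_ hη
    nlinarith
  have hlim : Tendsto (fun δ : ℝ => (|lam| + |L|) * δ) (𝓝[>] 0) (𝓝 0) := by
    have : Continuous fun δ : ℝ => (|lam| + |L|) * δ := by fun_prop
    have h2 := this.tendsto 0
    simp only [mul_zero] at h2
    exact h2.mono_left nhdsWithin_le_nhds
  exact ge_of_tendsto hlim (eventually_mem_nhdsWithin.mono fun δ hδ => key δ hδ)

end Crest.Agent.R214.Va
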