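import Crest.Agent.R214.VarA

/-! Row 214, module VAR: deleting the slab at the near wall (proof of `near_of_min`). -/

set_option autoImplicit false
open MeasureTheory Set Filter Topology Real

noncomputable section
namespace Crest.Agent.R214.Va
open DS Cs

variable {E : Set E3} {lam : ℝ} {c : Fin 3 → ℝ}

/-- real indicator -/
def nearInd (A : Set ℝ) (t : ℝ) : ℝ := A.indicator (fun _ => (1 : ℝ)) t

theorem near_ind_meas {A : Set ℝ} (hA : MeasurableSet A) : Measurable (nearInd A) :=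
  measurable_const.indicator hA

theorem near_ind_mem (A : Set ℝ) (t : ℝ) : 0 ≤ nearInd A t ∧ nearInd A t ≤ 1 := by
  unfold nearInd
  by_cases h : t ∈ A <;> simp [h]

theorem near_ind_abs (A : Set ℝ) (t : ℝ) : |nearInd A t| ≤ 1 := by
  rw [abs_of_nonneg (near_ind_mem A t).1]; exact (near_ind_mem A t).2

theorem near_ind_int {A B : Set ℝ} (hA : MeasurableSet A) (hAB : A ⊆ B) (f : ℝ → ℝ) :
    ∫ t in B, nearInd A t * f t = ∫ t in A, f t := by
  have : (fun t => nearInd A t * f t) = A.indicator f := by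
    funext t
    unfold nearInd
    by_cases h : t ∈ A <;> simp [h]
  rw [this, setIntegral_indicator hA, inter_eq_right.2 hAB]

theorem near_sec_intOn (hE : IsDS E) (i : Fin 3) {A : Set ℝ} (hA : volume A ≠ ⊤) :
    IntegrableOn (sec E i) A :=
  Measure.integrableOn_of_bounded (M := 1) hA (hE.measurable_sec i).aestronglyMeasurable
    (Eventually.of_forall fun t => by
      rw [Real.norm_eq_abs, abs_of_nonneg (sec_nonneg E i t)]; exact hE.sec_le_one i t)

theorem near_sec_int (hE : IsDS E) (i : Fin 3) {A : Set ℝ} (hA : MeasurableSet A) (hA' : volume A ≠ ⊤)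
    {lo : ℝ} (h : ∀ t ∈ A, lo ≤ sec E i t) :
    volume.real A * lo ≤ ∫ t in A, sec E i t ∧ ∫ t in A, sec E i t ≤ volume.real A * azero E i := by
  have hi := near_sec_intOn hE i hA'
  constructor
  · have := setIntegral_mono_on (integrableOn_const hA') hi hA h
    simpa using this
  · have := setIntegral_mono_on hi (integrableOn_const hA') hA fun t _ => hE.sec_le_azero i t
    simpa using this

theorem near_prim {η s t : ℝ} (ht : 0 ≤ t) :
    ∫ r in (0 : ℝ)..t, (1 + s * nearInd (Ioo 0 η) r) = t + s * volume.real (Ioc 0 t ∩ Ioo 0 η) := by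
  have hi : IntervalIntegrable (nearInd (Ioo 0 η)) volume 0 t := by
    refine (intervalIntegrable_const (c := (1 : ℝ))).mono_fun
      (near_ind_meas measurableSet_Ioo).aestronglyMeasurable (Eventually.of_forall fun r => ?_)
    simpa using near_ind_abs (Ioo 0 η) r
  rw [intervalIntegral.integral_add intervalIntegrable_const (hi.const_mul s),
    intervalIntegral.integral_const_mul, intervalIntegral.integral_of_le ht (f := nearInd _)]
  unfold nearInd
  rw [setIntegral_indicator measurableSet_Ioo]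
  simp

theorem near_step (hE : IsDS E)
    (hd : ∀ (i : Fin 3) (g : ℝ → ℝ), Measurable g → (∀ t, |g t| ≤ 1) →
      ∫ x, g (x i) * (1 - nu E i x ^ 2) ∂(sig E) = ∫ t in Ioo (0 : ℝ) 1, g t * (c i + lam * sec E i t))
    (i : Fin 3) {η κ ε s : ℝ} (hη : η < 1) (hε : 0 < ε) (hεη : 4 * ε < η) (hs : s * (η - ε) = ε)
    (hκ : ∀ t ∈ Ioo (0 : ℝ) η, azero E i - κ ≤ sec E i t) :
    ∃ F, IsDS F ∧ per F ≤ per E - (1 - 3 * s) * (sig E).real {x | x i < ε} +
        ε * (1 + s) * (c i + lam * azero E i + |lam| * κ) + 10 * s ^ 2 * per E ∧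
      |vol F - vol E| ≤ 4 * ε * s + κ * (ε * (1 + s)) + 4 * s ^ 2 := by
  have hs0 : 0 < s := by
    by_contra h
    push Not at h
    nlinarith
  have hs3 : 3 * s ≤ 1 := by
    by_contra h
    push Not at h
    nlinarith
  have hsη : s * η = ε * (1 + s) := by linarith
  have hκ0 : 0 ≤ κ := by
    have := hκ ε ⟨hε, by linarith⟩
    have := hE.sec_le_azero i ε
    linarith
  set u : Fin 3 → ℝ → ℝ := fun j t => (if j = i then s else 0) * nearInd (Ioo 0 η) t with hu
  have hu0 : ∀ j t, 0 ≤ u j t ∧ u j t ≤ s := fun j t => by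
    have := near_ind_mem (Ioo 0 η) t
    simp only [hu]
    split_ifs
    · constructor <;> nlinarith [this.1, this.2]
    · simp [hs0.le]
  have hum : ∀ j, Measurable (u j) := fun j => (near_ind_meas measurableSet_Ioo).const_mul _
  choose φ hφ hφ' using fun j => exists_rp (fun t => 1 + u j t) ((hum j).const_add 1)
    (fun t => by linarith [(hu0 j t).1]) (fun t => by linarith [(hu0 j t).2])
    (if j = i then -(s * η) else 0) (by split_ifs <;> nlinarith)
  have hφj : ∀ j, j ≠ i → ∀ t, φ j t = t := fun j hj t => by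
    rw [hφ' j t]; simp [hu, hj]
  have hφ1 : φ i 1 = 1 := by
    rw [hφ' i 1]
    simp only [hu, if_true]
    have hs' : Ioo (0 : ℝ) η ⊆ Ioc 0 1 := fun r hr => ⟨hr.1, by linarith [hr.2]⟩
    rw [near_prim zero_le_one, inter_eq_right.2 hs', Real.volume_real_Ioo_of_le (by linarith)]
    ring
  have hφε : φ i ε = 0 := by
    rw [hφ' i ε]
    simp only [hu, if_true]
    have hs' : Ioc (0 : ℝ) ε ⊆ Ioo 0 η := fun r hr => ⟨hr.1, by linarith [hr.2]⟩
    rw [near_prim hε.le, inter_eq_left.2 hs', Real.volume_real_Ioc_of_le hε.le]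
    linarith
  have habs : ∀ j t, |u j t| ≤ s := fun j t => by
    rw [abs_of_nonneg (hu0 j t).1]; exact (hu0 j t).2
  have hp := per_str_est hE hφ (fun j => Or.inl (by
    by_cases hj : j = i
    · rw [hj, hφ1]
    · rw [hφj j hj])) (by linarith) habs
  have hv := vol_str_est hE hφ (by linarith) habs
  have hsub : {x : E3 | x i < ε} ⊆ {x | Ph φ x ∉ cube} := fun x hx hc => by
    have h1 : 0 < φ i (x i) := (hc i).1
    have h2 : φ i (x i) < φ i ε := (φ i).strictMono hx
    linarith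
  have hS := measureReal_mono (μ := sig E) hsub
  have hdel : E ∩ {x | Ph φ x ∉ cube} = E ∩ {x | x i ∈ Ioc 0 ε} := by
    ext x
    refine and_congr_right fun hx => ?_
    have hc := hE.sub hx
    constructor
    · intro h
      refine ⟨(hc i).1, ?_⟩
      by_contra h'
      push Not at h'
      refine h fun j => ?_
      by_cases hj : j = i
      · subst hj
        have h1 : φ j ε < φ j (x j) := (φ j).strictMono h'
        have h2 : φ j (x j) < φ j 1 := (φ j).strictMono (hc j).2
        exact ⟨show 0 < φ j (x j) by linarith, show φ j (x j) < 1 by linarith⟩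
      · have := hφj j hj (x j)
        exact ⟨show 0 < φ j (x j) by rw [this]; exact (hc j).1,
          show φ j (x j) < 1 by rw [this]; exact (hc j).2⟩
    · intro h hc'
      have h1 : 0 < φ i (x i) := (hc' i).1
      have h2 : φ i (x i) ≤ φ i ε := (φ i).monotone h.2
      linarith
  have hM : volume.real (E ∩ {x | Ph φ x ∉ cube}) = ∫ t in Ioc 0 ε, sec E i t := by
    rw [hdel, ← near_ind_int measurableSet_Ioc (B := Ioo 0 1) (fun r hr => ⟨hr.1, by linarith [hr.2]⟩),
      ← integral_coord hE i (near_ind_meas measurableSet_Ioc) (near_ind_abs _)]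
    have : (fun x : E3 => nearInd (Ioc 0 ε) (x i)) =
        {x : E3 | x i ∈ Ioc 0 ε}.indicator fun _ => (1 : ℝ) := by
      funext x
      unfold nearInd
      by_cases h : x i ∈ Ioc 0 ε
      · rw [indicator_of_mem h, indicator_of_mem (show x ∈ {x : E3 | x i ∈ Ioc 0 ε} from h)]
      · rw [indicator_of_notMem h, indicator_of_notMem (show x ∉ {x : E3 | x i ∈ Ioc 0 ε} from h)]
    have hm : MeasurableSet {x : E3 | x i ∈ Ioc 0 ε} := c71_meas i measurableSet_Ioc
    rw [this, setIntegral_indicator hm]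
    simp
  have hsubη : Ioo (0 : ℝ) η ⊆ Ioo 0 1 := Ioo_subset_Ioo_right hη.le
  have hQ : ∑ j, ∫ x, u j (x j) * (1 - nu E j x ^ 2) ∂(sig E) =
      s * (η * c i + lam * ∫ t in Ioo 0 η, sec E i t) := by
    rw [Finset.sum_eq_single i (fun j _ hj => by simp [hu, hj]) (by simp)]
    simp only [hu, if_true, mul_assoc]
    have hi : Integrable (sec E i) (volume.restrict (Ioo 0 η)) := near_sec_intOn hE i (by simp)
    rw [integral_const_mul, hd i _ (near_ind_meas measurableSet_Ioo) (near_ind_abs _),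
      near_ind_int measurableSet_Ioo hsubη,
      integral_add (integrable_const _) (hi.const_mul lam),
      integral_const_mul, setIntegral_const, Real.volume_real_Ioo_of_le (by linarith)]
    simp
  have hW : ∑ j, ∫ t in Ioo (0 : ℝ) 1, u j t * sec E j t = s * ∫ t in Ioo 0 η, sec E i t := by
    rw [Finset.sum_eq_single i (fun j _ hj => by simp [hu, hj]) (by simp)]
    simp only [hu, if_true, mul_assoc]
    rw [integral_const_mul, near_ind_int measurableSet_Ioo hsubη]
  have hI := near_sec_int hE i measurableSet_Ioo (A := Ioo 0 η) (by simp) hκ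
  have hJ := near_sec_int hE i measurableSet_Ioc (A := Ioc 0 ε) (by simp)
    fun t ht => hκ t ⟨ht.1, by linarith [ht.2]⟩
  rw [Real.volume_real_Ioo_of_le (by linarith), sub_zero] at hI
  rw [Real.volume_real_Ioc_of_le hε.le, sub_zero] at hJ
  rw [hQ] at hp
  rw [hM, hW] at hv
  set I := ∫ t in Ioo 0 η, sec E i t
  set J := ∫ t in Ioc 0 ε, sec E i t
  set a := azero E i
  have ha1 : a ≤ 1 := azero_le_one E i
  have ha0 : 0 ≤ a := ENNReal.toReal_nonneg
  refine ⟨str E φ, isDS_str hE fun j => (hφ j).zero, ?_, ?_⟩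
  · have h1 : lam * I ≤ η * (lam * a + |lam| * κ) := by
      have e : lam * I = η * (lam * a) + lam * (I - η * a) := by ring
      have h2 : lam * (I - η * a) ≤ |lam| * (η * κ) := by
        refine (le_abs_self _).trans ?_
        rw [abs_mul]
        refine mul_le_mul_of_nonneg_left (abs_le.2 ⟨by linarith [hI.1], ?_⟩) (abs_nonneg _)
        nlinarith [hI.2]
      nlinarith
    have h2 := mul_le_mul_of_nonneg_left h1 hs0.le
    have h3 := mul_le_mul_of_nonneg_left hS (show 0 ≤ 1 - 3 * s by linarith)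
    rw [← hsη]
    nlinarith
  · have hJ1 : J ≤ ε := by nlinarith [hJ.2]
    have h1 := mul_le_mul_of_nonneg_left hI.1 hs0.le
    have h2 := mul_le_mul_of_nonneg_left hI.2 hs0.le
    have h3 := mul_le_mul_of_nonneg_left hJ1 hs0.le
    have e1 : s * (η * (a - κ)) = ε * (1 + s) * (a - κ) := by rw [← hsη]; ring
    have e2 : s * (η * a) = ε * (1 + s) * a := by rw [← hsη]; ring
    have h4 : 0 ≤ ε * s := by positivity
    have h5 : ε * s * a ≤ ε * s := by nlinarith
    have h6 : 0 ≤ ε * s * a := by positivity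
    have h7 : 0 ≤ ε * s * κ := by positivity
    have h8 : 0 ≤ ε * κ := by positivity
    rw [abs_le] at hv ⊢
    constructor <;> linarith [hv.1, hv.2, hJ.1, hJ.2]

theorem near_aux (hE : IsMin E) {L : ℝ}
    (hL : ∀ᶠ h in 𝓝 (0 : ℝ), -(L * |h|) ≤ Is (vol E + h) - Is (vol E))
    (hd : ∀ (i : Fin 3) (g : ℝ → ℝ), Measurable g → (∀ t, |g t| ≤ 1) →
      ∫ x, g (x i) * (1 - nu E i x ^ 2) ∂(sig E) = ∫ t in Ioo (0 : ℝ) 1, g t * (c i + lam * sec E i t))
    (i : Fin 3) (δ : ℝ) (hδ : 0 < δ) :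
    ∀ᶠ ε in 𝓝[>] (0 : ℝ), (sig E).real {x | x i < ε} ≤ ε * (c i + lam * azero E i + δ) := by
  obtain ⟨ρ, hρ, hL'⟩ := Metric.eventually_nhds_iff.1 hL
  set κ := δ / (2 * (|lam| + |L| + 1)) with hκ
  have hκ0 : 0 < κ := by positivity
  have hκδ : (|lam| + |L|) * κ < δ := by
    have : κ * (2 * (|lam| + |L| + 1)) = δ := by rw [hκ]; field_simp
    nlinarith [abs_nonneg lam, abs_nonneg L]
  have hsec : ∀ᶠ t in 𝓝[>] (0 : ℝ), azero E i - κ < sec E i t :=
    (hE.1.tendsto_sec_zero i).eventually (lt_mem_nhds (by linarith))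
  obtain ⟨η₀, hη₀, hη₀'⟩ := (nhdsGT_basis (0 : ℝ)).eventually_iff.1 hsec
  set η := min η₀ (1 / 2) with hηd
  have hη : 0 < η := lt_min hη₀ (by norm_num)
  have hη1 : η < 1 := (min_le_right _ _).trans_lt (by norm_num)
  have hsk : ∀ t ∈ Ioo (0 : ℝ) η, azero E i - κ ≤ sec E i t := fun t ht =>
    (hη₀' ⟨ht.1, ht.2.trans_le (min_le_left _ _)⟩).le
  set A := c i + lam * azero E i with hA
  have hr : ContinuousAt (fun ε : ℝ => (η - ε)⁻¹) 0 :=
    ContinuousAt.inv₀ (by fun_prop) (by simpa using hη.ne')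
  have e1 : ∀ᶠ ε in 𝓝 (0 : ℝ), 4 * ε * (ε * (η - ε)⁻¹) + κ * (ε * (1 + ε * (η - ε)⁻¹)) +
      4 * (ε * (η - ε)⁻¹) ^ 2 < ρ :=
    ContinuousAt.eventually_lt (by fun_prop) continuousAt_const (by simpa using hρ)
  have e2 : ∀ᶠ ε in 𝓝 (0 : ℝ), (1 + ε * (η - ε)⁻¹) * (A + |lam| * κ) +
      10 * (ε * (η - ε)⁻¹) * (η - ε)⁻¹ * per E + |L| * (4 * (ε * (η - ε)⁻¹) +
        κ * (1 + ε * (η - ε)⁻¹) + 4 * (ε * (η - ε)⁻¹) * (η - ε)⁻¹) <
      (1 - 3 * (ε * (η - ε)⁻¹)) * (A + δ) :=
    ContinuousAt.eventually_lt (by fun_prop) (by fun_prop) (by simp; linarith)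
  have e3 : ∀ᶠ ε in 𝓝 (0 : ℝ), 4 * ε < η :=
    ContinuousAt.eventually_lt (by fun_prop) continuousAt_const (by simpa using hη)
  have e4 : ∀ᶠ ε in 𝓝 (0 : ℝ), 3 * (ε * (η - ε)⁻¹) < 1 :=
    ContinuousAt.eventually_lt (by fun_prop) continuousAt_const (by simp)
  filter_upwards [nhdsWithin_le_nhds e1, nhdsWithin_le_nhds e2, nhdsWithin_le_nhds e3,
    nhdsWithin_le_nhds e4, self_mem_nhdsWithin] with ε h1 h2 h3 h4 hε
  have hε : 0 < ε := hε
  have hne : η - ε ≠ 0 := by linarith
  obtain ⟨F, hF, hp, hv⟩ := near_step hE.1 hd i (s := ε * (η - ε)⁻¹) hη1 hε h3 (by field_simp) hsk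
  have h5 := hL' (y := vol F - vol E) (by rw [Real.dist_eq, sub_zero]; linarith)
  rw [add_sub_cancel] at h5
  have h6 := hE.2 F hF
  set r := (η - ε)⁻¹
  set S := (sig E).real {x | x i < ε}
  have h7 : L * |vol F - vol E| ≤ |L| * (4 * ε * (ε * r) + κ * (ε * (1 + ε * r)) + 4 * (ε * r) ^ 2) :=
    (mul_le_mul_of_nonneg_right (le_abs_self L) (abs_nonneg _)).trans
      (mul_le_mul_of_nonneg_left hv (abs_nonneg L))
  have h8 := mul_lt_mul_of_pos_left h2 hε
  refine le_of_mul_le_mul_left (a := 1 - 3 * (ε * r)) ?_ (by linarith)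
  nlinarith

end Crest.Agent.R214.Va
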