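import Crest.Agent.R214.VarA
import Crest.Agent.R214.VarEmpty62
import Crest.Agent.R214.VarNear

/-! Row 214, module VAR: deleting and inserting end slabs (architect helper39; statements are frozen). -/

set_option autoImplicit false
open MeasureTheory Set Filter Topology Real

noncomputable section
namespace Crest.Agent.R214.Va
open DS Cs

variable {E : Set E3} {lam : ℝ} {c : Fin 3 → ℝ}

/-- the density identity -/
def Dens (E : Set E3) (lam : ℝ) (c : Fin 3 → ℝ) : Prop :=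
  ∀ (i : Fin 3) (g : ℝ → ℝ), Measurable g → (∀ t, |g t| ≤ 1) →
    ∫ x, g (x i) * (1 - nu E i x ^ 2) ∂(sig E) = ∫ t in Ioo (0 : ℝ) 1, g t * (c i + lam * sec E i t)

/-- Fix a small `η`; for `ε < η / 2` put `d = ε η / (η - ε)`, `u i = (d / η) 1_{(0, η)}`, `u j = 0`
otherwise, `b i = - d`: `φ i 1 = 1`, `φ i ε = 0`, the slab `x i ≤ ε` is deleted. -/
theorem near_of_min (hE : IsMin E) {L : ℝ}
    (hL : ∀ᶠ h in 𝓝 (0 : ℝ), -(L * |h|) ≤ Is (vol E + h) - Is (vol E)) (hd : Dens E lam c)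
    (i : Fin 3) (δ : ℝ) (hδ : 0 < δ) :
    ∀ᶠ ε in 𝓝[>] (0 : ℝ), (sig E).real {x | x i < ε} ≤ ε * (c i + lam * azero E i + δ) :=
  near_aux hE hL hd i δ hδ

private def farChi (a t : ℝ) : ℝ := (Ici a).indicator (fun _ => (1 : ℝ)) t

private theorem far_meas (a : ℝ) : Measurable (farChi a) :=
  measurable_const.indicator measurableSet_Ici

private theorem far_bd (a t : ℝ) : 0 ≤ farChi a t ∧ farChi a t ≤ 1 := by
  unfold farChi
  by_cases h : t ∈ Ici a
  · rw [indicator_of_mem h]; exact ⟨zero_le_one, le_rfl⟩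
  · rw [indicator_of_notMem h]; exact ⟨le_rfl, zero_le_one⟩

private theorem far_abs (a t : ℝ) : |farChi a t| ≤ 1 := by
  rw [abs_of_nonneg (far_bd a t).1]; exact (far_bd a t).2

private theorem far_int {a : ℝ} (ha : 0 < a) (f : ℝ → ℝ) :
    ∫ t in Ioo (0 : ℝ) 1, farChi a t * f t = ∫ t in Ioo a 1, f t := by
  have h1 : (fun t => farChi a t * f t) = (Ici a).indicator f := by
    funext t
    unfold farChi
    by_cases h : t ∈ Ici a
    · rw [indicator_of_mem h, indicator_of_mem h, one_mul]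
    · rw [indicator_of_notMem h, indicator_of_notMem h, zero_mul]
  have h2 : Ioo (0 : ℝ) 1 ∩ Ici a = Ico a 1 := by
    ext t
    exact ⟨fun h => ⟨h.2, h.1.2⟩, fun h => ⟨⟨ha.trans_le h.1, h.2⟩, h.1⟩⟩
  rw [h1, setIntegral_indicator measurableSet_Ici, h2, integral_Ico_eq_integral_Ioo]

private theorem far_prim {a b : ℝ} (ha : 0 < a) (hab : a ≤ b) :
    ∫ t in (0 : ℝ)..b, farChi a t = b - a := by
  have h2 : Ioc (0 : ℝ) b ∩ Ici a = Icc a b := by
    ext t
    exact ⟨fun h => ⟨h.2, h.1.2⟩, fun h => ⟨⟨ha.trans_le h.1, h.2⟩, h.1⟩⟩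
  unfold farChi
  rw [intervalIntegral.integral_of_le (ha.le.trans hab), setIntegral_indicator measurableSet_Ici, h2]
  simp [hab]

private theorem far_secInt (hE : IsDS E) (i : Fin 3) (a : ℝ) : IntegrableOn (sec E i) (Ioo a 1) :=
  Measure.integrableOn_of_bounded (M := 1) (by simp) (hE.measurable_sec i).aestronglyMeasurable
    (Eventually.of_forall fun t => by
      rw [Real.norm_eq_abs, abs_of_nonneg (sec_nonneg E i t)]; exact hE.sec_le_one i t)

private theorem far_sec (hE : IsDS E) (i : Fin 3) {a d : ℝ} (ha : 0 < a) (ha1 : a ≤ 1)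
    (h : ∀ t ∈ Ioo a 1, sec E i t ≤ d) :
    (1 - a) * aone E i ≤ ∫ t in Ioo a 1, sec E i t ∧ ∫ t in Ioo a 1, sec E i t ≤ (1 - a) * d := by
  have hc : ∀ r : ℝ, ∫ _t in Ioo a 1, r = (1 - a) * r := fun r => by
    simp [ha1]
  have hi : ∀ r : ℝ, IntegrableOn (fun _ : ℝ => r) (Ioo a 1) := fun r => integrableOn_const (by simp)
  constructor
  · rw [← hc]
    exact setIntegral_mono_on (hi _) (far_secInt hE i a) measurableSet_Ioo fun t ht =>
      hE.aone_le_sec i ⟨ha.trans ht.1, ht.2⟩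
  · rw [← hc]
    exact setIntegral_mono_on (far_secInt hE i a) (hi _) measurableSet_Ioo h

private theorem far_key (hE : IsMin E) (hd : Dens E lam c) (i : Fin 3) {η d ε s : ℝ}
    (hη : η < 1) (hε : 0 < ε) (hεη : ε < η) (hs : s * (η - ε) = ε) (hs3 : s ≤ 1 / 3) (hd0 : 0 ≤ d)
    (hsec : ∀ t ∈ Ioo (1 - η) 1, sec E i t ≤ aone E i + d) :
    ∃ h : ℝ, |h| ≤ 4 * s ^ 2 + 4 * (s * ε) + (s * η + ε) * d ∧
      (1 - 3 * s) * (sig E).real {x | 1 - ε < x i} ≤ s * η * (c i + lam * aone E i + |lam| * d) +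
        10 * s ^ 2 * per E - (Is (vol E + h) - Is (vol E)) := by
  have hs0 : 0 < s := by
    by_contra h
    have := mul_nonpos_of_nonpos_of_nonneg (not_lt.1 h) (sub_pos.2 hεη).le
    linarith
  have ha : 0 < 1 - η := sub_pos.2 hη
  have hb : 0 < 1 - ε := by linarith
  obtain ⟨u, hui, huj⟩ : ∃ u : Fin 3 → ℝ → ℝ, (∀ t, u i t = s * farChi (1 - η) t) ∧
      ∀ j, j ≠ i → ∀ t, u j t = 0 :=
    ⟨fun j t => if j = i then s * farChi (1 - η) t else 0, fun t => if_pos rfl,
      fun j hj t => if_neg hj⟩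
  have hu0 : ∀ j t, 0 ≤ u j t ∧ u j t ≤ s := fun j t => by
    by_cases hj : j = i
    · rw [hj, hui]
      have := far_bd (1 - η) t
      exact ⟨mul_nonneg hs0.le this.1, mul_le_of_le_one_right hs0.le this.2⟩
    · rw [huj j hj]; exact ⟨le_rfl, hs0.le⟩
  have hum : ∀ j, Measurable (u j) := fun j => by
    by_cases hj : j = i
    · rw [hj, show u i = fun t => s * farChi (1 - η) t from funext hui]
      exact (far_meas _).const_mul s
    · rw [show u j = fun _ => 0 from funext (huj j hj)]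
      exact measurable_const
  have hu : ∀ j t, |u j t| ≤ s := fun j t => by
    rw [abs_of_nonneg (hu0 j t).1]; exact (hu0 j t).2
  choose φ hφ hφ' using fun j => exists_rp (fun t => 1 + u j t) ((hum j).const_add 1)
    (fun t => by linarith [(hu0 j t).1]) (fun t => by linarith [(hu0 j t).2]) 0 le_rfl
  have hj : ∀ j, j ≠ i → ∀ t, φ j t = t := fun j hj t => by
    rw [hφ']; simp [huj j hj]
  have hi0 : φ i 0 = 0 := by rw [hφ']; simp
  have hi1 : φ i (1 - ε) = 1 := by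
    have hint : IntervalIntegrable (farChi (1 - η)) volume 0 (1 - ε) :=
      (intervalIntegrable_const (c := (1 : ℝ))).mono_fun (far_meas _).aestronglyMeasurable
        (Eventually.of_forall fun t => by simpa using far_abs (1 - η) t)
    rw [hφ']
    simp only [hui]
    rw [intervalIntegral.integral_add intervalIntegrable_const (hint.const_mul s),
      intervalIntegral.integral_const_mul, far_prim ha (by linarith)]
    simp only [intervalIntegral.integral_const, smul_eq_mul]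
    linarith
  have h1 : ∀ j, 1 ≤ φ j 1 ∨ aone E j = 0 := fun j => Or.inl (by
    by_cases hji : j = i
    · rw [hji]
      exact hi1.ge.trans ((φ i).monotone (by linarith))
    · rw [hj j hji])
  have hsub : {x : E3 | 1 - ε < x i} ⊆ {x | Ph φ x ∉ cube} := fun x hx hc => by
    have h2 : φ i (x i) < 1 := (hc i).2
    rw [← hi1, (φ i).lt_iff_lt] at h2
    exact lt_asymm h2 hx
  have hset : E ∩ {x | Ph φ x ∉ cube} = E ∩ {x | x i ∈ Ici (1 - ε)} := by
    ext x
    refine and_congr_right fun hx => ?_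
    have hxc := hE.1.sub hx
    constructor
    · intro h
      by_contra h'
      refine h fun j => ?_
      show 0 < φ j (x j) ∧ φ j (x j) < 1
      by_cases hji : j = i
      · rw [hji]
        constructor
        · rw [← hi0]; exact (φ i).strictMono (hxc i).1
        · rw [← hi1]; exact (φ i).strictMono (not_le.1 h')
      · rw [hj j hji]; exact hxc j
    · intro h hc
      have h2 : φ i (x i) < 1 := (hc i).2
      rw [← hi1, (φ i).lt_iff_lt] at h2
      exact absurd h (not_le.2 h2)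
  have hD : volume.real (E ∩ {x | Ph φ x ∉ cube}) = ∫ t in Ioo (1 - ε) 1, sec E i t := by
    have hm : MeasurableSet {x : E3 | x i ∈ Ici (1 - ε)} := c71_meas i measurableSet_Ici
    rw [hset, ← far_int hb, ← integral_coord hE.1 i (far_meas _) (far_abs _)]
    have : (fun x : E3 => farChi (1 - ε) (x i)) =
        {x : E3 | x i ∈ Ici (1 - ε)}.indicator fun _ => (1 : ℝ) := rfl
    rw [this, setIntegral_indicator hm]
    simp
  have hW : ∑ j, ∫ t in Ioo (0 : ℝ) 1, u j t * sec E j t = s * ∫ t in Ioo (1 - η) 1, sec E i t := by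
    rw [Finset.sum_eq_single i (fun j _ hj => by simp [huj j hj]) (fun h => absurd (Finset.mem_univ i) h)]
    simp only [hui, mul_assoc]
    rw [integral_const_mul, far_int ha]
  have hQ : ∑ j, ∫ x, u j (x j) * (1 - nu E j x ^ 2) ∂(sig E) =
      s * (η * c i + lam * ∫ t in Ioo (1 - η) 1, sec E i t) := by
    rw [Finset.sum_eq_single i (fun j _ hj => by simp [huj j hj]) (fun h => absurd (Finset.mem_univ i) h)]
    simp only [hui, mul_assoc]
    have hci : IntegrableOn (fun _ : ℝ => c i) (Ioo (1 - η) 1) := integrableOn_const (by simp)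
    rw [integral_const_mul, hd i _ (far_meas _) (far_abs _), far_int ha,
      integral_add hci ((far_secInt hE.1 i _).const_mul lam),
      integral_const_mul]
    have : (0 : ℝ) ≤ η := by linarith
    simp [this]
  have hP := per_str_est hE.1 hφ h1 (by linarith : s ≤ 1) hu
  have hV := vol_str_est hE.1 hφ (by linarith : s ≤ 1) hu
  have hM := hE.2 _ (isDS_str hE.1 fun j => (hφ j).zero)
  rw [hQ] at hP
  rw [hD, hW] at hV
  obtain ⟨l1, u1⟩ := far_sec hE.1 i ha (by linarith) hsec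
  obtain ⟨l2, u2⟩ := far_sec hE.1 i hb (by linarith) fun t ht => hsec t ⟨by linarith [ht.1], ht.2⟩
  obtain ⟨-, u3⟩ := far_sec hE.1 i hb (by linarith) fun t _ => hE.1.sec_le_one i t
  rw [sub_sub_cancel] at l1 u1 l2 u2 u3
  have hA0 := aone_nonneg E i
  have hA1 : aone E i ≤ 1 :=
    (hE.1.aone_le_sec i (t := 1 / 2) ⟨by norm_num, by norm_num⟩).trans (hE.1.sec_le_one i _)
  have hA : (sig E).real {x | 1 - ε < x i} ≤ (sig E).real {x | Ph φ x ∉ cube} := measureReal_mono hsub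
  generalize ∫ t in Ioo (1 - η) 1, sec E i t = J at *
  generalize ∫ t in Ioo (1 - ε) 1, sec E i t = D at *
  generalize aone E i = A at *
  refine ⟨vol (str E φ) - vol E, ?_, ?_⟩
  · have e1 : s * η * A = ε * A + s * ε * A := by linear_combination A * hs
    have e2 : s * J ≤ s * (η * (A + d)) := mul_le_mul_of_nonneg_left u1 hs0.le
    have e3 : s * (η * A) ≤ s * J := mul_le_mul_of_nonneg_left l1 hs0.le
    have e4 : s * D ≤ s * (ε * 1) := mul_le_mul_of_nonneg_left u3 hs0.le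
    have e5 : s * ε * A ≤ s * ε * 1 := mul_le_mul_of_nonneg_left hA1 (by positivity)
    have e6 : 0 ≤ s * ε * A := by positivity
    have e7 : 0 ≤ s * η * d := mul_nonneg (mul_nonneg hs0.le (by linarith)) hd0
    have e8 : 0 ≤ ε * d := by positivity
    have e9 : 0 ≤ s * ε := by positivity
    obtain ⟨v1, v2⟩ := abs_le.1 hV
    refine abs_le.2 ⟨?_, ?_⟩ <;> nlinarith
  · rw [add_sub_cancel]
    have e1 : (1 - 3 * s) * (sig E).real {x | 1 - ε < x i} ≤
        (1 - 3 * s) * (sig E).real {x | Ph φ x ∉ cube} :=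
      mul_le_mul_of_nonneg_left hA (by linarith)
    have e2 : lam * (J - η * A) ≤ |lam| * (η * d) :=
      (mul_le_mul_of_nonneg_right (le_abs_self lam) (by linarith)).trans
        (mul_le_mul_of_nonneg_left (by linarith) (abs_nonneg lam))
    have e3 := mul_le_mul_of_nonneg_left e2 hs0.le
    nlinarith

/-- the same with `u i = (d / η) 1_{(1 - η, 1)}`, `b = 0`: `φ i (1 - ε) = 1`. -/
theorem far_of_min (hE : IsMin E) {L : ℝ}
    (hL : ∀ᶠ h in 𝓝 (0 : ℝ), -(L * |h|) ≤ Is (vol E + h) - Is (vol E)) (hd : Dens E lam c)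
    (i : Fin 3) (δ : ℝ) (hδ : 0 < δ) :
    ∀ᶠ ε in 𝓝[>] (0 : ℝ), (sig E).real {x | 1 - ε < x i} ≤ ε * (c i + lam * aone E i + δ) := by
  obtain ⟨ρ, hρ, hρL⟩ := Metric.eventually_nhds_iff.1 hL
  obtain ⟨d, hd0, hdδ⟩ : ∃ d : ℝ, 0 < d ∧ (|lam| + 2 * |L|) * d < δ := by
    have h0 : 0 < |lam| + 2 * |L| + 1 := by positivity
    refine ⟨δ / (|lam| + 2 * |L| + 1), by positivity, ?_⟩
    rw [← mul_div_assoc, div_lt_iff₀ h0]
    nlinarith
  obtain ⟨η, hη0, hη1, hsec⟩ : ∃ η : ℝ, 0 < η ∧ η < 1 ∧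
      ∀ t ∈ Ioo (1 - η) 1, sec E i t ≤ aone E i + d := by
    have h := (hE.1.tendsto_sec_one i).eventually (ge_mem_nhds (lt_add_of_pos_right _ hd0))
    obtain ⟨a, ha, h⟩ := mem_nhdsLT_iff_exists_Ioo_subset.1 h
    have ha' : a < 1 := ha
    refine ⟨min (1 - a) (1 / 2), lt_min (by linarith) (by norm_num),
      (min_le_right _ _).trans_lt (by norm_num), fun t ht => h ⟨?_, ht.2⟩⟩
    linarith [ht.1, min_le_left (1 - a) (1 / 2)]
  obtain ⟨B, hB⟩ : ∃ B, B = c i + lam * aone E i := ⟨_, rfl⟩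
  have hr : ContinuousAt (fun ε : ℝ => (η - ε)⁻¹) 0 :=
    (continuousAt_const.sub continuousAt_id).inv₀ (by simpa using hη0.ne')
  have t1 : ∀ᶠ ε in 𝓝 (0 : ℝ), ε * (η - ε)⁻¹ < 1 / 3 :=
    ContinuousAt.eventually_lt (by fun_prop) continuousAt_const (by simp)
  have t2 : ∀ᶠ ε in 𝓝 (0 : ℝ), 4 * (ε * (η - ε)⁻¹) ^ 2 + 4 * (ε * (η - ε)⁻¹ * ε) +
      (ε * (η - ε)⁻¹ * η + ε) * d < ρ :=
    ContinuousAt.eventually_lt (by fun_prop) continuousAt_const (by simpa using hρ)
  have t3 : ∀ᶠ ε in 𝓝 (0 : ℝ), (η - ε)⁻¹ * η * (B + |lam| * d) +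
      10 * (ε * (η - ε)⁻¹ ^ 2) * per E +
      |L| * (4 * (ε * (η - ε)⁻¹ ^ 2) + 4 * ((η - ε)⁻¹ * ε) + ((η - ε)⁻¹ * η + 1) * d) <
      (1 - 3 * (ε * (η - ε)⁻¹)) * (B + δ) := by
    refine ContinuousAt.eventually_lt (by fun_prop) (by fun_prop) ?_
    simp only [sub_zero, zero_mul, mul_zero, inv_mul_cancel₀ hη0.ne']
    linarith
  filter_upwards [nhdsWithin_le_nhds t1, nhdsWithin_le_nhds t2, nhdsWithin_le_nhds t3,
    Ioo_mem_nhdsGT hη0] with ε a1 a2 a3 hε
  obtain ⟨h, h1, h2⟩ := far_key hE hd i hη1 hε.1 hε.2 (s := ε * (η - ε)⁻¹)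
    (inv_mul_cancel_right₀ (sub_pos.2 hε.2).ne' ε) a1.le hd0.le hsec
  have h3 := hρL (y := h) (by rw [Real.dist_eq, sub_zero]; exact h1.trans_lt a2)
  have h4 : L * |h| ≤ |L| * (4 * (ε * (η - ε)⁻¹) ^ 2 + 4 * (ε * (η - ε)⁻¹ * ε) +
      (ε * (η - ε)⁻¹ * η + ε) * d) :=
    (mul_le_mul_of_nonneg_right (le_abs_self L) (abs_nonneg h)).trans
      (mul_le_mul_of_nonneg_left h1 (abs_nonneg L))
  rw [← hB] at h2 ⊢
  have h5 := mul_lt_mul_of_pos_left a3 hε.1
  refine le_of_mul_le_mul_left ?_ (show 0 < 1 - 3 * (ε * (η - ε)⁻¹) by linarith)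
  generalize (η - ε)⁻¹ = r at *
  nlinarith

/-- `u i = - (d / η) 1_{(1 - η, 1)}`, `b = 0`: nothing is deleted, `φ i 1 = 1 - d`. -/
theorem empty_of_min (hE : IsMin E) {L : ℝ}
    (hL : ∀ᶠ h in 𝓝 (0 : ℝ), -(L * |h|) ≤ Is (vol E + h) - Is (vol E)) (hd : Dens E lam c)
    (i : Fin 3) (h0 : aone E i = 0) : c i ≤ 0 :=
  e62_main hE hL hd i h0

end Crest.Agent.R214.Va
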