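import Crest.Agent.R214.CsDefs
import Crest.Agent.R214.MoDefs

/-! Row 214: the minimisation problem for down-sets (owner helper39; definitions are frozen). -/

set_option autoImplicit false
open MeasureTheory Set Filter Topology Real

noncomputable section
namespace Crest.Agent.R214.Va
open DS

/-- profile of the unit cube on `[0, 1/2]` -/
def Ic (V : ℝ) : ℝ := Mo.I3 V / 2

/-- profile of the unit cube on `[0, 1]` -/
def Is (V : ℝ) : ℝ := Ic (min V (1 - V))

/-- minimiser of `per - Is ∘ vol` among down-sets -/
def IsMin (E : Set E3) : Prop :=
  IsDS E ∧ ∀ F, IsDS F → per E - Is (vol E) ≤ per F - Is (vol F)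

/-- the point reflection in the centre of the cube -/
def flip (x : E3) : E3 := WithLp.toLp 2 fun i => 1 - x i

/-- the reflected complement -/
def cpl (E : Set E3) : Set E3 := {x | x ∈ cube ∧ flip x ∉ E}

end Crest.Agent.R214.Va
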