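import Crest.Agent.R214.VarStr

/-! Row 214, module VAR: second order estimate of the perimeter of a stretched set. -/

set_option autoImplicit false
open MeasureTheory Set Filter Topology Real

noncomputable section
namespace Crest.Agent.R214.Va
open DS Cs

variable {E : Set E3} {φ : Fin 3 → ℝ ≃o ℝ} {u : Fin 3 → ℝ → ℝ}

theorem h25_sq {a b s : ℝ} (hs : s ≤ 1) (ha : |a| ≤ s) (hb : |b| ≤ s) :
    ((1 + a) * (1 + b)) ^ 2 ≤ 1 + 2 * (a + b) + 11 * s ^ 2 := by
  have s0 : 0 ≤ s := (abs_nonneg a).trans ha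
  have hab : |a * b| ≤ s ^ 2 := by
    rw [abs_mul, pow_two]; exact mul_le_mul ha hb (abs_nonneg _) s0
  have hs2 : s ^ 2 ≤ s := by nlinarith
  obtain ⟨a1, a2⟩ := abs_le.1 ha
  obtain ⟨b1, b2⟩ := abs_le.1 hb
  obtain ⟨c1, c2⟩ := abs_le.1 hab
  have hd : (a + b + a * b) ^ 2 ≤ (3 * s) ^ 2 := sq_le_sq' (by linarith) (by linarith)
  nlinarith

theorem h25_pt {a b c x y z s : ℝ} (hs : s ≤ 1) (ha : |a| ≤ s) (hb : |b| ≤ s) (hc : |c| ≤ s)
    (h : x ^ 2 + y ^ 2 + z ^ 2 = 1) :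
    √(((1 + b) * (1 + c) * x) ^ 2 + ((1 + c) * (1 + a) * y) ^ 2 + ((1 + a) * (1 + b) * z) ^ 2) ≤
      1 + (a * (1 - x ^ 2) + b * (1 - y ^ 2) + c * (1 - z ^ 2)) + 6 * s ^ 2 := by
  set W := ((1 + b) * (1 + c) * x) ^ 2 + ((1 + c) * (1 + a) * y) ^ 2 + ((1 + a) * (1 + b) * z) ^ 2
    with hW
  have W0 : 0 ≤ W := by positivity
  have h1 : √W ≤ (1 + W) / 2 := by
    nlinarith [sq_nonneg (√W - 1), Real.sq_sqrt W0]
  have e1 := mul_le_mul_of_nonneg_right (h25_sq hs hb hc) (sq_nonneg x)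
  have e2 := mul_le_mul_of_nonneg_right (h25_sq hs hc ha) (sq_nonneg y)
  have e3 := mul_le_mul_of_nonneg_right (h25_sq hs ha hb) (sq_nonneg z)
  have hx : 1 - x ^ 2 = y ^ 2 + z ^ 2 := by linarith
  have hy : 1 - y ^ 2 = x ^ 2 + z ^ 2 := by linarith
  have hz : 1 - z ^ 2 = x ^ 2 + y ^ 2 := by linarith
  have e4 : s ^ 2 * (x ^ 2 + y ^ 2 + z ^ 2) = s ^ 2 := by rw [h, mul_one]
  rw [hx, hy, hz]
  simp only [mul_pow] at hW e1 e2 e3
  nlinarith [sq_nonneg s]

theorem h25_per_str_est (hE : IsDS E) (h : ∀ j, Rp (φ j) fun t => 1 + u j t)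
    (h1 : ∀ i, 1 ≤ φ i 1 ∨ aone E i = 0) {s : ℝ} (hs : s ≤ 1) (hu : ∀ j t, |u j t| ≤ s) :
    per (str E φ) ≤ per E - (1 - 3 * s) * (sig E).real {x | Ph φ x ∉ cube} +
      ∑ j, ∫ x, u j (x j) * (1 - nu E j x ^ 2) ∂(sig E) + 10 * s ^ 2 * per E := by
  have mS := strB_measS φ
  have mu' : ∀ j, Measurable (u j) := fun j => by
    have := (h j).meas.sub_const 1
    simpa using this
  have bd : ∀ j x, |u j (x j) * (1 - nu E j x ^ 2)| ≤ s := fun j (x : E3) => by
    have a0 := nu_nonneg E j x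
    have a1 := nu_le_one E j x
    have b0 : 0 ≤ 1 - nu E j x ^ 2 := by nlinarith
    have b1 : 1 - nu E j x ^ 2 ≤ 1 := by nlinarith
    rw [abs_mul, abs_of_nonneg b0]
    nlinarith [hu j (x j), abs_nonneg (u j (x j))]
  have iu : ∀ j, Integrable (fun x : E3 => u j (x j) * (1 - nu E j x ^ 2)) (sig E) := fun j =>
    Integrable.of_bound (C := s) (((mu' j).comp (by fun_prop)).mul
      (measurable_const.sub ((measurable_nu E j).pow_const 2))).aestronglyMeasurable
      (Eventually.of_forall fun x => bd j x)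
  set F : E3 → ℝ := fun x => 1 + ∑ j, u j (x j) * (1 - nu E j x ^ 2) + 6 * s ^ 2 with hF
  have iS : Integrable (fun x : E3 => ∑ j, u j (x j) * (1 - nu E j x ^ 2)) (sig E) :=
    integrable_finset_sum _ fun j _ => iu j
  have i1 : Integrable (fun x : E3 => 1 + ∑ j, u j (x j) * (1 - nu E j x ^ 2)) (sig E) :=
    (integrable_const _).add iS
  have iF : Integrable F (sig E) := i1.add (integrable_const _)
  have e1 : ∫ x, F x ∂(sig E) =
      per E + ∑ j, ∫ x, u j (x j) * (1 - nu E j x ^ 2) ∂(sig E) + 6 * s ^ 2 * per E := by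
    simp only [hF]
    rw [integral_add i1 (integrable_const _), integral_add (integrable_const _) iS,
      integral_finset_sum _ fun j _ => iu j]
    simp only [integral_const, smul_eq_mul, mul_one, per_eq_real]
    ring
  have e2 := integral_add_compl mS iF
  have e3 : (1 - 3 * s) * (sig E).real {x | Ph φ x ∉ cube} ≤
      ∫ x in {x : E3 | Ph φ x ∈ cube}ᶜ, F x ∂(sig E) := by
    have := setIntegral_mono_on (μ := sig E) (s := {x : E3 | Ph φ x ∈ cube}ᶜ)
      (f := fun _ => 1 - 3 * s) (g := F) (integrable_const _).integrableOn iF.integrableOn mS.compl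
      fun x _ => by
        simp only [hF, Fin.sum_univ_three]
        have := (abs_le.1 (bd 0 x)).1
        have := (abs_le.1 (bd 1 x)).1
        have := (abs_le.1 (bd 2 x)).1
        nlinarith [sq_nonneg s]
    rw [setIntegral_const, smul_eq_mul, mul_comm] at this
    exact this
  have e4 : per (str E φ) ≤ ∫ x in {x : E3 | Ph φ x ∈ cube}, F x ∂(sig E) := by
    refine (per_str_le hE h h1).trans (integral_mono_of_nonneg
      (Eventually.of_forall fun x => Real.sqrt_nonneg _) iF.integrableOn ?_)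
    filter_upwards [ae_restrict_of_ae (nu_sq_ae E)] with x hx
    simp only [hF, Fin.sum_univ_three] at hx ⊢
    exact h25_pt hs (hu 0 (x 0)) (hu 1 (x 1)) (hu 2 (x 2)) hx
  have := mul_nonneg (sq_nonneg s) (per_nonneg E)
  linarith

end Crest.Agent.R214.Va
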