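import Crest.Agent.R214.VarStr

/-! Row 214, module VAR: volume part of the second order estimates (helper31). -/

set_option autoImplicit false
open MeasureTheory Set Filter Topology Real

noncomputable section
namespace Crest.Agent.R214.Va
open DS Cs

variable {E : Set E3} {φ : Fin 3 → ℝ ≃o ℝ} {u : Fin 3 → ℝ → ℝ}

theorem h31_integral_coord (hE : IsDS E) (j : Fin 3) {f : ℝ → ℝ} (hf : Measurable f) {K : ℝ}
    (hK : ∀ t, |f t| ≤ K) : ∫ x in E, f (x j) = ∫ t in Ioo (0 : ℝ) 1, f t * sec E j t := by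
  have hmp := measurePreserving_ins j
  have hg : Measurable fun x : E3 => f (x j) := hf.comp (c71_meas j)
  have hint : Integrable (E.indicator fun x : E3 => f (x j)) volume := by
    rw [integrable_indicator_iff hE.meas]
    exact Measure.integrableOn_of_bounded (dshtB_volume_lt hE).ne hg.aestronglyMeasurable
      (Eventually.of_forall fun x => hK (x j))
  have hint' : Integrable
      (fun p : ℝ × (ℝ × ℝ) => E.indicator (fun x : E3 => f (x j)) (ins j p.1 p.2))
      ((volume : Measure ℝ).prod volume) := hmp.integrable_comp_of_integrable hint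
  have h1 : ∫ x, E.indicator (fun x : E3 => f (x j)) x =
      ∫ p : ℝ × (ℝ × ℝ), E.indicator (fun x : E3 => f (x j)) (ins j p.1 p.2) := by
    rw [← hmp.map_eq, integral_map hmp.measurable.aemeasurable
      (hg.indicator hE.meas).aestronglyMeasurable]
  rw [← integral_indicator hE.meas, h1, Measure.volume_eq_prod, integral_prod _ hint',
    setIntegral_eq_integral_of_forall_compl_eq_zero]
  · refine integral_congr_ae (Eventually.of_forall fun t => ?_)
    have hS : MeasurableSet {w : ℝ × ℝ | ins j t w ∈ E} :=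
      ((continuous_ins j).measurable.comp measurable_prodMk_left) hE.meas
    have e : (fun w : ℝ × ℝ => E.indicator (fun x : E3 => f (x j)) (ins j t w)) =
        {w : ℝ × ℝ | ins j t w ∈ E}.indicator fun _ => f t := by
      funext w
      by_cases hw : ins j t w ∈ E
      · rw [indicator_of_mem hw, indicator_of_mem (show w ∈ {w : ℝ × ℝ | ins j t w ∈ E} from hw),
          ins_self]
      · rw [indicator_of_notMem hw,
          indicator_of_notMem (show w ∉ {w : ℝ × ℝ | ins j t w ∈ E} from hw)]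
    simp only
    rw [e, integral_indicator_const _ hS, smul_eq_mul, mul_comm]
    rfl
  · intro t ht
    have : {w : ℝ × ℝ | ins j t w ∈ E} = ∅ :=
      eq_empty_of_forall_notMem fun w hw => ht ((ins_mem_cube j t w).1 (hE.sub hw)).1
    simp [sec, this]

theorem h31_vol_le_one (hE : IsDS E) : volume.real E ≤ 1 := by
  have h := hE.integral_sec 0
  have h2 : ∫ t in Ioo (0 : ℝ) 1, sec E 0 t ≤ ∫ _ in Ioo (0 : ℝ) 1, (1 : ℝ) := by
    refine integral_mono_of_nonneg (Eventually.of_forall fun t => sec_nonneg E 0 t) ?_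
      (Eventually.of_forall fun t => hE.sec_le_one 0 t)
    exact integrable_const _
  rw [h] at h2
  simpa [vol, Measure.real] using h2

theorem h31_rem {a b c s : ℝ} (hs : s ≤ 1) (ha : |a| ≤ s) (hb : |b| ≤ s) (hc : |c| ≤ s) :
    |(1 + a) * (1 + b) * (1 + c) - (1 + (a + b + c))| ≤ 4 * s ^ 2 := by
  have h0 : 0 ≤ s := (abs_nonneg a).trans ha
  have e : (1 + a) * (1 + b) * (1 + c) - (1 + (a + b + c)) = a * b + a * c + b * c + a * b * c := by
    ring
  have hab : |a * b| ≤ s ^ 2 := by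
    rw [abs_mul, pow_two]; exact mul_le_mul ha hb (abs_nonneg _) h0
  have hac : |a * c| ≤ s ^ 2 := by
    rw [abs_mul, pow_two]; exact mul_le_mul ha hc (abs_nonneg _) h0
  have hbc : |b * c| ≤ s ^ 2 := by
    rw [abs_mul, pow_two]; exact mul_le_mul hb hc (abs_nonneg _) h0
  have habc : |a * b * c| ≤ s ^ 2 := by
    rw [abs_mul]
    calc |a * b| * |c| ≤ s ^ 2 * 1 :=
          mul_le_mul hab (hc.trans hs) (abs_nonneg _) (sq_nonneg _)
      _ = s ^ 2 := mul_one _
  rw [e]
  calc |a * b + a * c + b * c + a * b * c| ≤ |a * b + a * c + b * c| + |a * b * c| := abs_add_le _ _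
    _ ≤ |a * b + a * c| + |b * c| + |a * b * c| := by gcongr; exact abs_add_le _ _
    _ ≤ |a * b| + |a * c| + |b * c| + |a * b * c| := by gcongr; exact abs_add_le _ _
    _ ≤ 4 * s ^ 2 := by linarith

theorem h31_vol_str_est (hE : IsDS E) (h : ∀ j, Rp (φ j) fun t => 1 + u j t)
    {s : ℝ} (hs : s ≤ 1) (hu : ∀ j t, |u j t| ≤ s) :
    |vol (str E φ) - (vol E - volume.real (E ∩ {x | Ph φ x ∉ cube}) +
      ∑ j, ∫ t in Ioo (0 : ℝ) 1, u j t * sec E j t)| ≤
        4 * s ^ 2 + 3 * s * volume.real (E ∩ {x | Ph φ x ∉ cube}) := by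
  have h0 : 0 ≤ s := (abs_nonneg _).trans (hu 0 0)
  have hum : ∀ j, Measurable (u j) := fun j => by
    have := (h j).meas.sub_const 1
    simpa using this
  have hA : MeasurableSet {x : E3 | Ph φ x ∈ cube} := measurable_Ph φ measurableSet_cube
  set A : Set E3 := {x | Ph φ x ∈ cube} with hAdef
  have hAc : {x : E3 | Ph φ x ∉ cube} = Aᶜ := rfl
  rw [hAc]
  have hfin : ∀ S : Set E3, volume (E ∩ S) ≠ ⊤ := fun S =>
    ne_top_of_le_ne_top (dshtB_volume_lt hE).ne (measure_mono inter_subset_left)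
  -- the linear part
  set L : E3 → ℝ := fun x => u 0 (x 0) + u 1 (x 1) + u 2 (x 2) with hL
  set P : E3 → ℝ := fun x => (1 + u 0 (x 0)) * (1 + u 1 (x 1)) * (1 + u 2 (x 2)) with hP
  have hm : ∀ j, Measurable fun x : E3 => u j (x j) := fun j => (hum j).comp (c71_meas j)
  have hLm : Measurable L := ((hm 0).add (hm 1)).add (hm 2)
  have hPm : Measurable P :=
    (((hm 0).const_add 1).mul ((hm 1).const_add 1)).mul ((hm 2).const_add 1)
  have hLb : ∀ x, |L x| ≤ 3 * s := fun x => by
    have := hu 0 (x 0); have := hu 1 (x 1); have := hu 2 (x 2)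
    simp only [hL]
    calc |u 0 (x 0) + u 1 (x 1) + u 2 (x 2)| ≤ |u 0 (x 0) + u 1 (x 1)| + |u 2 (x 2)| :=
          abs_add_le _ _
      _ ≤ |u 0 (x 0)| + |u 1 (x 1)| + |u 2 (x 2)| := by gcongr; exact abs_add_le _ _
      _ ≤ 3 * s := by linarith
  have hRb : ∀ x, |P x - (1 + L x)| ≤ 4 * s ^ 2 := fun x =>
    h31_rem hs (hu 0 (x 0)) (hu 1 (x 1)) (hu 2 (x 2))
  have hint : ∀ (S : Set E3), volume S ≠ ⊤ → ∀ (F : E3 → ℝ) (C : ℝ), Measurable F →
      (∀ x, |F x| ≤ C) → IntegrableOn F S volume := fun S hS F C hF hC =>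
    Measure.integrableOn_of_bounded hS hF.aestronglyMeasurable (Eventually.of_forall hC)
  have hEfin := (dshtB_volume_lt hE).ne
  have hsum : ∑ j, ∫ t in Ioo (0 : ℝ) 1, u j t * sec E j t = ∫ x in E, L x := by
    rw [Fin.sum_univ_three, ← h31_integral_coord hE 0 (hum 0) (hu 0),
      ← h31_integral_coord hE 1 (hum 1) (hu 1), ← h31_integral_coord hE 2 (hum 2) (hu 2)]
    have i0 := hint E hEfin _ s (hm 0) fun x => hu 0 (x 0)
    have i1 := hint E hEfin _ s (hm 1) fun x => hu 1 (x 1)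
    have i2 := hint E hEfin _ s (hm 2) fun x => hu 2 (x 2)
    simp only [hL]
    have i01 : IntegrableOn (fun x : E3 => u 0 (x 0) + u 1 (x 1)) E volume := i0.add i1
    rw [integral_add i01 i2, integral_add i0 i1]
  have hsplit : ∫ x in E, L x = (∫ x in E ∩ A, L x) + ∫ x in E ∩ Aᶜ, L x := by
    rw [← integral_inter_add_sdiff hA (hint E hEfin L _ hLm hLb), sdiff_eq]
  have hvol : vol E = volume.real (E ∩ A) + volume.real (E ∩ Aᶜ) := by
    rw [← sdiff_eq, measureReal_inter_add_sdiff hA hEfin]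
    rfl
  have hstr : vol (str E φ) = ∫ x in E ∩ A, P x := vol_str hE h
  have hR : ∫ x in E ∩ A, P x =
      (∫ x in E ∩ A, (P x - (1 + L x))) + (volume.real (E ∩ A) + ∫ x in E ∩ A, L x) := by
    have iR : IntegrableOn (fun x => P x - (1 + L x)) (E ∩ A) volume :=
      hint (E ∩ A) (hfin A) _ _ (hPm.sub (hLm.const_add 1)) hRb
    have iL := hint (E ∩ A) (hfin A) _ _ hLm hLb
    have i1 : IntegrableOn (fun _ : E3 => (1 : ℝ)) (E ∩ A) volume :=
      hint (E ∩ A) (hfin A) _ 1 measurable_const fun _ => by simp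
    have e1 : volume.real (E ∩ A) = ∫ _ in E ∩ A, (1 : ℝ) := by simp
    have i1L : IntegrableOn (fun x => 1 + L x) (E ∩ A) volume := i1.add iL
    rw [e1, ← integral_add i1 iL, ← integral_add iR i1L]
    refine integral_congr_ae (Eventually.of_forall fun x => ?_)
    simp
  have b1 : |∫ x in E ∩ A, (P x - (1 + L x))| ≤ 4 * s ^ 2 := by
    have := norm_setIntegral_le_of_norm_le_const (μ := volume) (s := E ∩ A)
      (f := fun x => P x - (1 + L x)) (C := 4 * s ^ 2) (hfin A).lt_top fun x _ => hRb x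
    rw [Real.norm_eq_abs] at this
    refine this.trans ?_
    have h1 : volume.real (E ∩ A) ≤ 1 :=
      (measureReal_mono inter_subset_left hEfin).trans (h31_vol_le_one hE)
    have : 0 ≤ 4 * s ^ 2 := by positivity
    nlinarith
  have b2 : |∫ x in E ∩ Aᶜ, L x| ≤ 3 * s * volume.real (E ∩ Aᶜ) := by
    have := norm_setIntegral_le_of_norm_le_const (μ := volume) (s := E ∩ Aᶜ)
      (f := L) (C := 3 * s) (hfin Aᶜ).lt_top fun x _ => hLb x
    rwa [Real.norm_eq_abs] at this
  rw [hstr, hR, hsum, hsplit, hvol]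
  have e : (∫ x in E ∩ A, (P x - (1 + L x))) + (volume.real (E ∩ A) + ∫ x in E ∩ A, L x) -
      (volume.real (E ∩ A) + volume.real (E ∩ Aᶜ) - volume.real (E ∩ Aᶜ) +
        ((∫ x in E ∩ A, L x) + ∫ x in E ∩ Aᶜ, L x)) =
      (∫ x in E ∩ A, (P x - (1 + L x))) - ∫ x in E ∩ Aᶜ, L x := by ring
  rw [e]
  exact (abs_sub _ _).trans (add_le_add b1 b2)

end Crest.Agent.R214.Va
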