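import Crest.Agent.R214.VarStr
import Crest.Agent.R214.VarEst31
import Crest.Agent.R214.VarEst25

/-! Row 214, module VAR: second order estimates (architect helper39; statements are frozen). -/

set_option autoImplicit false
open MeasureTheory Set Filter Topology Real

noncomputable section
namespace Crest.Agent.R214.Va
open DS Cs

variable {E : Set E3} {φ : Fin 3 → ℝ ≃o ℝ} {u : Fin 3 → ℝ → ℝ}

theorem integral_coord (hE : IsDS E) (j : Fin 3) {f : ℝ → ℝ} (hf : Measurable f) {K : ℝ}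
    (hK : ∀ t, |f t| ≤ K) : ∫ x in E, f (x j) = ∫ t in Ioo (0 : ℝ) 1, f t * sec E j t :=
  h31_integral_coord hE j hf hK

/-- `√W ≤ (1 + W) / 2` -/
theorem per_str_est (hE : IsDS E) (h : ∀ j, Rp (φ j) fun t => 1 + u j t)
    (h1 : ∀ i, 1 ≤ φ i 1 ∨ aone E i = 0) {s : ℝ} (hs : s ≤ 1) (hu : ∀ j t, |u j t| ≤ s) :
    per (str E φ) ≤ per E - (1 - 3 * s) * (sig E).real {x | Ph φ x ∉ cube} +
      ∑ j, ∫ x, u j (x j) * (1 - nu E j x ^ 2) ∂(sig E) + 10 * s ^ 2 * per E :=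
  h25_per_str_est hE h h1 hs hu

theorem vol_str_est (hE : IsDS E) (h : ∀ j, Rp (φ j) fun t => 1 + u j t)
    {s : ℝ} (hs : s ≤ 1) (hu : ∀ j t, |u j t| ≤ s) :
    |vol (str E φ) - (vol E - volume.real (E ∩ {x | Ph φ x ∉ cube}) +
      ∑ j, ∫ t in Ioo (0 : ℝ) 1, u j t * sec E j t)| ≤
        4 * s ^ 2 + 3 * s * volume.real (E ∩ {x | Ph φ x ∉ cube}) :=
  h31_vol_str_est hE h hs hu

end Crest.Agent.R214.Va
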