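import Crest.Agent.R214.VarDefs
import Crest.Agent.R214.MoReal

/-! Row 214, module VAR: real analysis of the profile `Is` (helper51). -/

set_option autoImplicit false
open MeasureTheory Set Filter Topology Real

noncomputable section
namespace Crest.Agent.R214.Va.G51
open DS

/-- ball branch of `Ic` -/
def vgA (V : ℝ) : ℝ := (36 * π) ^ ((1 : ℝ) / 3) * V ^ ((2 : ℝ) / 3) / 2

/-- tube branch of `Ic` -/
def vgB (V : ℝ) : ℝ := Real.sqrt (π * V)

theorem Ic_eq (V : ℝ) : Ic V = min (min (vgA V) (vgB V)) 1 := by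
  unfold Ic Mo.I3 vgA vgB
  rw [← min_div_div_right (by norm_num : (0 : ℝ) ≤ 2), ← min_div_div_right (by norm_num : (0 : ℝ) ≤ 2)]
  congr 1
  · congr 1; ring
  · norm_num

theorem continuous_vgA : Continuous vgA :=
  (continuous_const.mul (Real.continuous_rpow_const (by norm_num))).div_const _

theorem continuous_vgB : Continuous vgB := by unfold vgB; fun_prop

theorem continuous_Ic : Continuous Ic := by
  have : Ic = fun V => min (min (vgA V) (vgB V)) 1 := funext Ic_eq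
  rw [this]
  exact (continuous_vgA.min continuous_vgB).min continuous_const

theorem continuous_Is : Continuous Is :=
  continuous_Ic.comp (continuous_id.min (continuous_const.sub continuous_id))

theorem Ic_le_one (V : ℝ) : Ic V ≤ 1 := by rw [Ic_eq]; exact min_le_right _ _

theorem Is_le_one (V : ℝ) : Is V ≤ 1 := Ic_le_one _

theorem Ic_zero : Ic 0 = 0 := by
  rw [Ic_eq]; simp [vgA, vgB]

theorem Is_zero : Is 0 = 0 := by simp [Is, Ic_zero]

theorem Is_one : Is 1 = 0 := by simp [Is, Ic_zero]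

theorem Is_symm (V : ℝ) : Is (1 - V) = Is V := by
  unfold Is; rw [sub_sub_cancel, min_comm]

theorem Is_eq_Ic {V : ℝ} (h : V ≤ 1 / 2) : Is V = Ic V := by
  unfold Is; rw [min_eq_left (by linarith)]

theorem vgA_cube {V : ℝ} (h : 0 ≤ V) : vgA V ^ 3 = 9 * π / 2 * V ^ 2 := by
  unfold vgA
  rw [div_pow, Mo.a_cube h]; ring

theorem vgB_sq {V : ℝ} (h : 0 ≤ V) : vgB V ^ 2 = π * V :=
  Real.sq_sqrt (mul_nonneg pi_pos.le h)

/-- the three perimeter fields of `Crit` -/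
theorem per_bounds {V A : ℝ} (hV : 0 ≤ V) (hA : 0 ≤ A) (h : A ≤ Ic V) :
    A ^ 3 ≤ 9 * π / 2 * V ^ 2 ∧ A ^ 2 ≤ π * V ∧ A ≤ 1 := by
  rw [Ic_eq, le_min_iff, le_min_iff] at h
  refine ⟨?_, ?_, h.2⟩
  · rw [← vgA_cube hV]; exact pow_le_pow_left₀ hA h.1.1 3
  · rw [← vgB_sq hV]; exact pow_le_pow_left₀ hA h.1.2 2

theorem Ic_ball {W : ℝ} (h0 : 0 < W) (h : W ≤ 4 * π / 81) : Ic W = vgA W := by
  unfold Ic vgA; rw [Mo.I3_ball h0 h]

theorem Ic_tube {W : ℝ} (h0 : 4 * π / 81 ≤ W) (h : W ≤ 1 / π) : Ic W = vgB W := by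
  unfold Ic vgB; rw [Mo.I3_tube h0 h]; ring

theorem Ic_slab {W : ℝ} (h : 1 / π ≤ W) : Ic W = 1 := by
  unfold Ic; rw [Mo.I3_slab h]; norm_num

theorem vgA_pos {V : ℝ} (h : 0 < V) : 0 < vgA V := by
  unfold vgA; have := pi_pos; positivity

theorem vgA_deriv {V : ℝ} (h : 0 < V) :
    ∃ l, HasDerivAt vgA l V ∧ 0 < l ∧ 3 * l ^ 3 * V = 4 * π := by
  refine ⟨2 * vgA V / (3 * V), ?_, by have := vgA_pos h; positivity, ?_⟩
  · have h1 := ((Real.hasDerivAt_rpow_const (x := V) (p := (2 : ℝ) / 3) (Or.inl h.ne')).const_mul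
      ((36 * π) ^ ((1 : ℝ) / 3))).div_const 2
    refine h1.congr_deriv ?_
    rw [Real.rpow_sub_one h.ne']
    unfold vgA; field_simp
  · rw [div_pow, mul_pow, vgA_cube h.le]; field_simp; ring

theorem vgB_deriv {V : ℝ} (h : 0 < V) :
    ∃ l, HasDerivAt vgB l V ∧ 0 < l ∧ 4 * l ^ 2 * V = π := by
  have hp : 0 < π * V := mul_pos pi_pos h
  have hs : 0 < Real.sqrt (π * V) := Real.sqrt_pos.2 hp
  refine ⟨π / (2 * Real.sqrt (π * V)), ?_, by have := pi_pos; positivity, ?_⟩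
  · have h1 := ((hasDerivAt_id V).const_mul π).sqrt (by simpa using hp.ne')
    exact h1.congr_deriv (by simp)
  · rw [div_pow, mul_pow, Real.sq_sqrt hp.le]; have := pi_pos.ne'; field_simp; ring

theorem vg_small {f : ℝ → ℝ} {l V : ℝ} (hf : HasDerivAt f l V) {d : ℝ} (hd : 0 < d) :
    ∀ᶠ u in 𝓝 (0 : ℝ), |f (V + u) - f V - l * u| ≤ d * |u| := by
  have h1 := (hasDerivAt_iff_isLittleO_nhds_zero.1 hf).def hd
  filter_upwards [h1] with u hu
  simpa [mul_comm] using hu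

theorem vg_right {f : ℝ → ℝ} {l V lam : ℝ} (hf : HasDerivAt f l V) (h0 : Is V = f V)
    (he : ∀ᶠ u in 𝓝[>] (0 : ℝ), Is (V + u) = f (V + u))
    (h : ∀ d > 0, ∀ᶠ u in 𝓝 (0 : ℝ), Is (V + u) ≤ Is V + lam * u + d * |u|) : l ≤ lam := by
  refine le_of_forall_pos_le_add fun d hd => ?_
  have h2 := half_pos hd
  obtain ⟨u, ⟨⟨h1, h3⟩, h4⟩, hu⟩ := (((((h _ h2).filter_mono
    nhdsWithin_le_nhds).and ((vg_small hf h2).filter_mono nhdsWithin_le_nhds)).and he).and
    self_mem_nhdsWithin).exists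
  have hu : 0 < u := hu
  have h1 : Is (V + u) ≤ Is V + lam * u + d / 2 * |u| := h1
  have h3 : |f (V + u) - f V - l * u| ≤ d / 2 * |u| := h3
  rw [abs_of_pos hu] at h1 h3
  have h5 := (abs_le.1 h3).1
  refine le_of_mul_le_mul_right ?_ hu
  nlinarith

theorem vg_left {f : ℝ → ℝ} {l V lam : ℝ} (hf : HasDerivAt f l V) (h0 : Is V = f V)
    (he : ∀ᶠ u in 𝓝[<] (0 : ℝ), Is (V + u) = f (V + u))
    (h : ∀ d > 0, ∀ᶠ u in 𝓝 (0 : ℝ), Is (V + u) ≤ Is V + lam * u + d * |u|) : lam ≤ l := by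
  refine le_of_forall_pos_le_add fun d hd => ?_
  have h2 := half_pos hd
  obtain ⟨u, ⟨⟨h1, h3⟩, h4⟩, hu⟩ := (((((h _ h2).filter_mono
    nhdsWithin_le_nhds).and ((vg_small hf h2).filter_mono nhdsWithin_le_nhds)).and he).and
    self_mem_nhdsWithin).exists
  have hu : u < 0 := hu
  have h1 : Is (V + u) ≤ Is V + lam * u + d / 2 * |u| := h1
  have h3 : |f (V + u) - f V - l * u| ≤ d / 2 * |u| := h3
  rw [abs_of_neg hu] at h1 h3
  have h5 := (abs_le.1 h3).1
  refine le_of_mul_le_mul_right ?_ (neg_pos.2 hu)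
  nlinarith

theorem vg_lt {V a : ℝ} (h : V < a) : ∀ᶠ u in 𝓝 (0 : ℝ), V + u < a := by
  have : Tendsto (fun u : ℝ => V + u) (𝓝 0) (𝓝 V) := by
    simpa using (tendsto_const_nhds (x := V)).add (tendsto_id (x := 𝓝 (0 : ℝ)))
  exact this.eventually (gt_mem_nhds h)

theorem vg_gt {V a : ℝ} (h : a < V) : ∀ᶠ u in 𝓝 (0 : ℝ), a < V + u := by
  have : Tendsto (fun u : ℝ => V + u) (𝓝 0) (𝓝 V) := by
    simpa using (tendsto_const_nhds (x := V)).add (tendsto_id (x := 𝓝 (0 : ℝ)))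
  exact this.eventually (lt_mem_nhds h)

theorem inv_pi_lt : 1 / π < 1 / 2 := one_div_lt_one_div_of_lt (by norm_num) (by linarith [pi_gt_three])

theorem kink_lt : 4 * π / 81 < 1 / π := by
  rw [div_lt_div_iff₀ (by norm_num) pi_pos]; nlinarith [pi_lt_four, pi_pos]

theorem Is_ball {W : ℝ} (h0 : 0 < W) (h : W ≤ 4 * π / 81) : Is W = vgA W := by
  rw [Is_eq_Ic (by linarith [kink_lt, inv_pi_lt]), Ic_ball h0 h]

theorem Is_tube {W : ℝ} (h0 : 4 * π / 81 ≤ W) (h : W ≤ 1 / π) : Is W = vgB W := by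
  rw [Is_eq_Ic (by linarith [inv_pi_lt]), Ic_tube h0 h]

theorem Is_slab {W : ℝ} (h0 : 1 / π ≤ W) (h : W ≤ 1 - 1 / π) : Is W = 1 :=
  Ic_slab (le_min h0 (by linarith))

/-- a Fréchet supergradient of `Is` lies on `Graph` -/
theorem graph_of_super {V lam : ℝ} (hV : 0 < V) (hV2 : V ≤ 1 / 2)
    (h : ∀ d > 0, ∀ᶠ u in 𝓝 (0 : ℝ), Is (V + u) ≤ Is V + lam * u + d * |u|) : Cs.Graph V lam := by
  obtain ⟨la, hla, hla0, hla3⟩ := vgA_deriv hV
  obtain ⟨lb, hlb, hlb0, hlb2⟩ := vgB_deriv hV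
  have hc : HasDerivAt (fun _ : ℝ => (1 : ℝ)) 0 V := hasDerivAt_const V 1
  have k1 := kink_lt
  have k2 := inv_pi_lt
  have AL : V ≤ 4 * π / 81 → lam ≤ la := fun hk =>
    vg_left hla (Is_ball hV hk) (by
      filter_upwards [nhdsWithin_le_nhds (vg_gt hV), self_mem_nhdsWithin] with u h1 h2
      have h2 : u < 0 := h2
      exact Is_ball h1 (by linarith)) h
  have AR : V < 4 * π / 81 → la ≤ lam := fun hk =>
    vg_right hla (Is_ball hV hk.le) (by
      filter_upwards [nhdsWithin_le_nhds (vg_lt hk), self_mem_nhdsWithin] with u h1 h2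
      have h2 : 0 < u := h2
      exact Is_ball (by linarith) (le_of_lt h1)) h
  have BL : 4 * π / 81 < V → V ≤ 1 / π → lam ≤ lb := fun hk hk' =>
    vg_left hlb (Is_tube hk.le hk') (by
      filter_upwards [nhdsWithin_le_nhds (vg_gt hk), self_mem_nhdsWithin] with u h1 h2
      have h2 : u < 0 := h2
      exact Is_tube (le_of_lt h1) (by linarith)) h
  have BR : 4 * π / 81 ≤ V → V < 1 / π → lb ≤ lam := fun hk hk' =>
    vg_right hlb (Is_tube hk hk'.le) (by
      filter_upwards [nhdsWithin_le_nhds (vg_lt hk'), self_mem_nhdsWithin] with u h1 h2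
      have h2 : 0 < u := h2
      exact Is_tube (by linarith) (le_of_lt h1)) h
  have CL : 1 / π < V → lam ≤ 0 := fun hk =>
    vg_left hc (Is_slab hk.le (by linarith)) (by
      filter_upwards [nhdsWithin_le_nhds (vg_gt hk), self_mem_nhdsWithin] with u h1 h2
      have h2 : u < 0 := h2
      exact Is_slab (le_of_lt h1) (by linarith)) h
  have CR : 1 / π ≤ V → 0 ≤ lam := fun hk =>
    vg_right hc (Is_slab hk (by linarith)) (by
      filter_upwards [nhdsWithin_le_nhds (vg_lt (show V < 1 - 1 / π by linarith)),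
        self_mem_nhdsWithin] with u h1 h2
      have h2 : 0 < u := h2
      exact Is_slab (by linarith) (le_of_lt h1)) h
  unfold Cs.Graph
  rcases lt_trichotomy V (4 * π / 81) with h1 | h1 | h1
  · have : lam = la := le_antisymm (AL h1.le) (AR h1)
    exact Or.inl ⟨h1.le, this ▸ hla0, this ▸ hla3⟩
  · refine Or.inr (Or.inl ⟨h1, ?_, ?_⟩)
    · have e : lb ^ 2 = (9 / 4) ^ 2 := by
        rw [h1] at hlb2
        have := pi_pos
        have h5 : π * (16 / 81 * lb ^ 2 - 1) = 0 := by linarith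
        have h6 := (mul_eq_zero.1 h5).resolve_left this.ne'
        linarith
      have e2 : lb = 9 / 4 := (pow_left_inj₀ hlb0.le (by norm_num) two_ne_zero).1 e
      exact e2 ▸ BR h1.ge (by linarith)
    · have e : la ^ 3 = 3 ^ 3 := by
        rw [h1] at hla3
        have := pi_pos
        have h5 : π * (4 / 27 * la ^ 3 - 4) = 0 := by linarith
        have h6 := (mul_eq_zero.1 h5).resolve_left this.ne'
        linarith
      have e2 : la = 3 := (pow_left_inj₀ hla0.le (by norm_num) three_ne_zero).1 e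
      exact e2 ▸ AL h1.le
  · rcases lt_trichotomy V (1 / π) with h2 | h2 | h2
    · have : lam = lb := le_antisymm (BL h1 h2.le) (BR h1.le h2)
      exact Or.inr (Or.inr (Or.inl ⟨h1.le, h2.le, this ▸ hlb0, this ▸ hlb2⟩))
    · refine Or.inr (Or.inr (Or.inr (Or.inl ⟨h2, CR h2.ge, ?_⟩)))
      have e : lb ^ 2 = (π / 2) ^ 2 := by
        rw [h2] at hlb2
        have := pi_pos.ne'
        field_simp at hlb2
        linarith
      have e2 : lb = π / 2 := (pow_left_inj₀ hlb0.le (by have := pi_pos; positivity) two_ne_zero).1 e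
      exact e2 ▸ BL h1 h2.le
    · exact Or.inr (Or.inr (Or.inr (Or.inr ⟨h2.le, le_antisymm (CL h2) (CR h2.le)⟩)))

theorem exists_graph {V : ℝ} (hV : 0 < V) : ∃ lam, Cs.Graph V lam := by
  obtain ⟨la, -, hla0, hla3⟩ := vgA_deriv hV
  obtain ⟨lb, -, hlb0, hlb2⟩ := vgB_deriv hV
  unfold Cs.Graph
  rcases le_total V (4 * π / 81) with h1 | h1
  · exact ⟨la, Or.inl ⟨h1, hla0, hla3⟩⟩
  · rcases le_total V (1 / π) with h2 | h2
    · exact ⟨lb, Or.inr (Or.inr (Or.inl ⟨h1, h2, hlb0, hlb2⟩))⟩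
    · exact ⟨0, Or.inr (Or.inr (Or.inr (Or.inr ⟨h2, rfl⟩)))⟩

theorem vg_lip {f : ℝ → ℝ} {l V : ℝ} (hf : HasDerivAt f l V) :
    ∀ᶠ u in 𝓝 (0 : ℝ), |f (V + u) - f V| ≤ (|l| + 1) * |u| := by
  filter_upwards [vg_small hf one_pos] with u hu
  have h1 := abs_add_le (f (V + u) - f V - l * u) (l * u)
  rw [sub_add_cancel, abs_mul] at h1
  linarith

/-- `Is` is Lipschitz at `V` -/
theorem Is_lip {V : ℝ} (hV : 0 < V) (hV2 : V ≤ 1 / 2) :
    ∃ L, 0 ≤ L ∧ ∀ᶠ u in 𝓝 (0 : ℝ), |Is (V + u) - Is V| ≤ L * |u| := by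
  obtain ⟨la, hla, -⟩ := vgA_deriv hV
  obtain ⟨lb, hlb, -⟩ := vgB_deriv hV
  have hI : ∀ᶠ u in 𝓝 (0 : ℝ), |Ic (V + u) - Ic V| ≤ (|la| + |lb| + 1) * |u| := by
    filter_upwards [vg_lip hla, vg_lip hlb] with u h1 h2
    rw [Ic_eq, Ic_eq]
    refine (abs_min_sub_min_le_max _ _ _ _).trans (max_le ((abs_min_sub_min_le_max _ _ _ _).trans
      (max_le ?_ ?_)) ?_)
    · nlinarith [abs_nonneg u, abs_nonneg lb]
    · nlinarith [abs_nonneg u, abs_nonneg la]
    · rw [sub_self, abs_zero]; positivity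
  have hb : ∀ u : ℝ, |min (V + u) (1 - (V + u)) - V| ≤ |u| := fun u => by
    have := abs_min_sub_min_le_max (V + u) (1 - (V + u)) V (1 - V)
    rw [min_eq_left (show V ≤ 1 - V by linarith)] at this
    refine this.trans (max_le (by simp) ?_)
    rw [show 1 - (V + u) - (1 - V) = -u by ring, abs_neg]
  have ht : Tendsto (fun u : ℝ => min (V + u) (1 - (V + u)) - V) (𝓝 0) (𝓝 0) := by
    refine squeeze_zero_norm (fun u => hb u) ?_
    simpa using (continuous_abs.tendsto (0 : ℝ))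
  refine ⟨|la| + |lb| + 1, by positivity, ?_⟩
  filter_upwards [ht.eventually hI] with u hu
  rw [add_sub_cancel] at hu
  rw [Is_eq_Ic hV2]
  exact hu.trans (mul_le_mul_of_nonneg_left (hb u) (by positivity))

theorem sup_of {V lp lm : ℝ} {f g : ℝ → ℝ} (hf : HasDerivAt f lp V) (hg : HasDerivAt g lm V)
    (h0 : Is V = f V) (h0' : Is V = g V)
    (hr : ∀ᶠ u in 𝓝 (0 : ℝ), 0 < u → Is (V + u) = f (V + u))
    (hl : ∀ᶠ u in 𝓝 (0 : ℝ), u < 0 → Is (V + u) = g (V + u)) :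
    ∀ η, 0 < η → ∀ᶠ h in 𝓝 (0 : ℝ), min (lp * h) (lm * h) - η * |h| ≤ Is (V + h) - Is V := by
  intro η hη
  filter_upwards [vg_small hf hη, vg_small hg hη, hr, hl] with u h1 h2 h3 h4
  rcases lt_trichotomy u 0 with hu | rfl | hu
  · rw [h4 hu, h0']
    linarith [(abs_le.1 h2).1, min_le_right (lp * u) (lm * u)]
  · simp
  · rw [h3 hu, h0]
    linarith [(abs_le.1 h1).1, min_le_left (lp * u) (lm * u)]

theorem exists_sup {V : ℝ} (hV : 0 < V) (hV2 : V ≤ 1 / 2) :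
    ∃ lp lm, lp ≤ lm ∧ (∀ lam ∈ Icc lp lm, Cs.Graph V lam) ∧
      ∀ η, 0 < η → ∀ᶠ h in 𝓝 (0 : ℝ), min (lp * h) (lm * h) - η * |h| ≤ Is (V + h) - Is V := by
  obtain ⟨la, hla, hla0, hla3⟩ := vgA_deriv hV
  obtain ⟨lb, hlb, hlb0, hlb2⟩ := vgB_deriv hV
  have hc : HasDerivAt (fun _ : ℝ => (1 : ℝ)) 0 V := hasDerivAt_const V 1
  have k1 := kink_lt
  have k2 := inv_pi_lt
  have AL : V ≤ 4 * π / 81 → ∀ᶠ u in 𝓝 (0 : ℝ), u < 0 → Is (V + u) = vgA (V + u) := fun hk => by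
    filter_upwards [vg_gt hV] with u h1 h2
    exact Is_ball h1 (by linarith)
  have AR : V < 4 * π / 81 → ∀ᶠ u in 𝓝 (0 : ℝ), 0 < u → Is (V + u) = vgA (V + u) := fun hk => by
    filter_upwards [vg_lt hk] with u h1 h2
    exact Is_ball (by linarith) h1.le
  have BL : 4 * π / 81 < V → V ≤ 1 / π → ∀ᶠ u in 𝓝 (0 : ℝ), u < 0 → Is (V + u) = vgB (V + u) :=
    fun hk hk' => by
      filter_upwards [vg_gt hk] with u h1 h2
      exact Is_tube h1.le (by linarith)
  have BR : 4 * π / 81 ≤ V → V < 1 / π → ∀ᶠ u in 𝓝 (0 : ℝ), 0 < u → Is (V + u) = vgB (V + u) :=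
    fun hk hk' => by
      filter_upwards [vg_lt hk'] with u h1 h2
      exact Is_tube (by linarith) h1.le
  have CL : 1 / π < V → ∀ᶠ u in 𝓝 (0 : ℝ), u < 0 → Is (V + u) = 1 := fun hk => by
    filter_upwards [vg_gt hk] with u h1 h2
    exact Is_slab h1.le (by linarith)
  have CR : 1 / π ≤ V → ∀ᶠ u in 𝓝 (0 : ℝ), 0 < u → Is (V + u) = 1 := fun hk => by
    filter_upwards [vg_lt (show V < 1 - 1 / π by linarith)] with u h1 h2
    exact Is_slab (by linarith) h1.le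
  unfold Cs.Graph
  rcases lt_trichotomy V (4 * π / 81) with h1 | h1 | h1
  · refine ⟨la, la, le_rfl, fun lam h => ?_,
      sup_of hla hla (Is_ball hV h1.le) (Is_ball hV h1.le) (AR h1) (AL h1.le)⟩
    obtain rfl : lam = la := le_antisymm h.2 h.1
    exact Or.inl ⟨h1.le, hla0, hla3⟩
  · have e : lb ^ 2 = (9 / 4) ^ 2 := by
      rw [h1] at hlb2
      have := pi_pos
      have h5 : π * (16 / 81 * lb ^ 2 - 1) = 0 := by linarith
      have h6 := (mul_eq_zero.1 h5).resolve_left this.ne'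
      linarith
    have e2 : lb = 9 / 4 := (pow_left_inj₀ hlb0.le (by norm_num) two_ne_zero).1 e
    have e' : la ^ 3 = 3 ^ 3 := by
      rw [h1] at hla3
      have := pi_pos
      have h5 : π * (4 / 27 * la ^ 3 - 4) = 0 := by linarith
      have h6 := (mul_eq_zero.1 h5).resolve_left this.ne'
      linarith
    have e3 : la = 3 := (pow_left_inj₀ hla0.le (by norm_num) three_ne_zero).1 e'
    refine ⟨lb, la, by rw [e2, e3]; norm_num, fun lam h => ?_,
      sup_of hlb hla (Is_tube h1.ge (by linarith)) (Is_ball hV h1.le) (BR h1.ge (by linarith))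
        (AL h1.le)⟩
    exact Or.inr (Or.inl ⟨h1, e2 ▸ h.1, e3 ▸ h.2⟩)
  · rcases lt_trichotomy V (1 / π) with h2 | h2 | h2
    · refine ⟨lb, lb, le_rfl, fun lam h => ?_,
        sup_of hlb hlb (Is_tube h1.le h2.le) (Is_tube h1.le h2.le) (BR h1.le h2) (BL h1 h2.le)⟩
      obtain rfl : lam = lb := le_antisymm h.2 h.1
      exact Or.inr (Or.inr (Or.inl ⟨h1.le, h2.le, hlb0, hlb2⟩))
    · have e : lb ^ 2 = (π / 2) ^ 2 := by
        rw [h2] at hlb2
        have := pi_pos.ne'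
        field_simp at hlb2
        linarith
      have e2 : lb = π / 2 := (pow_left_inj₀ hlb0.le (by have := pi_pos; positivity) two_ne_zero).1 e
      refine ⟨0, lb, hlb0.le, fun lam h => ?_,
        sup_of hc hlb (Is_slab h2.ge (by linarith)) (Is_tube h1.le h2.le) (CR h2.ge) (BL h1 h2.le)⟩
      exact Or.inr (Or.inr (Or.inr (Or.inl ⟨h2, h.1, e2 ▸ h.2⟩)))
    · refine ⟨0, 0, le_rfl, fun lam h => ?_,
        sup_of hc hc (Is_slab h2.le (by linarith)) (Is_slab h2.le (by linarith)) (CR h2.le) (CL h2)⟩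
      exact Or.inr (Or.inr (Or.inr (Or.inr ⟨h2.le, le_antisymm h.2 h.1⟩)))

end Crest.Agent.R214.Va.G51
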