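import Crest.Agent.R214.VarGraph
import Crest.Agent.R214.DSDiv

/-! Row 214, module VAR: existence of a minimiser (Helly selection for down-sets; helper51). -/

set_option autoImplicit false
open MeasureTheory Set Filter Topology Real
open scoped Pointwise

noncomputable section
namespace Crest.Agent.R214.Va.G51
open DS

/-- rational points -/
def vmQ (q : Fin 3 → ℚ) : E3 := WithLp.toLp 2 fun j => (q j : ℝ)

@[simp] theorem vmQ_apply (q : Fin 3 → ℚ) (j : Fin 3) : vmQ q j = (q j : ℝ) := rfl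

theorem isDS_empty : IsDS (∅ : Set E3) :=
  ⟨MeasurableSet.empty, empty_subset _, fun _ h => h.elim⟩

theorem vm_volume_cube : volume cube < ⊤ :=
  dshtB_volume_lt ⟨measurableSet_cube, subset_rfl, fun _ _ _ hy _ => hy⟩

/-- the points outside a down-set all of whose strict lower neighbours are inside form a null set -/
theorem vm_null {E : Set E3} (hE : IsDS E) :
    volume {x | x ∈ cube ∧ x ∉ E ∧ ∀ y ∈ cube, (∀ j, y j < x j) → y ∈ E} = 0 := by
  set N := {x | x ∈ cube ∧ x ∉ E ∧ ∀ y ∈ cube, (∀ j, y j < x j) → y ∈ E}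
  have hfin := dshtB_volume_lt hE
  have key : ∀ r : ℝ, 1 < r → volume N ≤ ENNReal.ofReal (r ^ 3 - 1) * volume E := by
    intro r hr
    have hr0 : 0 < r := by linarith
    have hin : ∀ x ∈ cube, r⁻¹ • x ∈ cube ∧ ∀ j, (r⁻¹ • x) j < x j := by
      intro x hx
      have h1 : ∀ j, (r⁻¹ • x) j < x j := fun j => by
        simp only [PiLp.smul_apply, smul_eq_mul]
        exact mul_lt_of_lt_one_left (hx j).1 (inv_lt_one_of_one_lt₀ hr)
      refine ⟨fun j => ⟨?_, (h1 j).trans (hx j).2⟩, h1⟩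
      simp only [PiLp.smul_apply, smul_eq_mul]
      exact mul_pos (inv_pos.2 hr0) (hx j).1
    have h1 : N ⊆ (r • E) \ E := fun x hx =>
      ⟨(mem_smul_set_iff_inv_smul_mem₀ hr0.ne' _ _).2 (hx.2.2 _ (hin x hx.1).1 (hin x hx.1).2), hx.2.1⟩
    have h2 : E ⊆ r • E := fun x hx =>
      (mem_smul_set_iff_inv_smul_mem₀ hr0.ne' _ _).2
        (hE.down x hx _ (hin x (hE.sub hx)).1 fun j => ((hin x (hE.sub hx)).2 j).le)
    have h3 : volume (r • E) = ENNReal.ofReal (r ^ 3) * volume E := by
      rw [Measure.addHaar_smul, finrank_euclideanSpace_fin, abs_of_pos (by positivity)]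
    refine (measure_mono h1).trans ?_
    rw [measure_diff h2 hE.meas.nullMeasurableSet hfin.ne, h3]
    have h4 : ENNReal.ofReal (r ^ 3) = ENNReal.ofReal (r ^ 3 - 1) + 1 := by
      rw [← ENNReal.ofReal_one, ← ENNReal.ofReal_add (sub_nonneg.2 (one_le_pow₀ hr.le)) zero_le_one,
        sub_add_cancel]
    rw [h4, add_mul, one_mul, ENNReal.add_sub_cancel_right hfin.ne]
  have ht : Tendsto (fun r : ℝ => ENNReal.ofReal (r ^ 3 - 1) * volume E) (𝓝[>] 1) (𝓝 0) := by
    have h1 : Tendsto (fun r : ℝ => ENNReal.ofReal (r ^ 3 - 1)) (𝓝[>] 1) (𝓝 0) := by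
      have : Tendsto (fun r : ℝ => ENNReal.ofReal (r ^ 3 - 1)) (𝓝 1)
          (𝓝 (ENNReal.ofReal ((1 : ℝ) ^ 3 - 1))) :=
        (ENNReal.continuous_ofReal.comp (by fun_prop : Continuous fun r : ℝ => r ^ 3 - 1)).tendsto 1
      simpa using this.mono_left nhdsWithin_le_nhds
    simpa using ENNReal.Tendsto.mul_const h1 (Or.inr hfin.ne)
  exact le_antisymm (ge_of_tendsto ht (by
    filter_upwards [self_mem_nhdsWithin] with r hr using key r hr)) zero_le

theorem vm_rat {y x : E3} (h : ∀ j, y j < x j) : ∃ q : Fin 3 → ℚ, ∀ j, y j < q j ∧ (q j : ℝ) < x j := by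
  choose q hq using fun j => exists_rat_btwn (h j)
  exact ⟨q, hq⟩

/-- Helly selection for down-sets -/
theorem exists_subseq (F : ℕ → Set E3) (hF : ∀ n, IsDS (F n)) :
    ∃ E, IsDS E ∧ ∃ φ : ℕ → ℕ, StrictMono φ ∧
      ∀ᵐ x : E3, ∀ᶠ n in atTop, (x ∈ F (φ n) ↔ x ∈ E) := by
  classical
  obtain ⟨b, φ, hφ, hb⟩ := CompactSpace.tendsto_subseq
    (fun n => (fun q : Fin 3 → ℚ => decide (vmQ q ∈ F n)))
  have hb' : ∀ q, ∀ᶠ n in atTop, (vmQ q ∈ F (φ n) ↔ b q = true) := fun q => by
    have h1 := tendsto_pi_nhds.1 hb q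
    rw [nhds_discrete, tendsto_pure] at h1
    filter_upwards [h1] with n hn
    rw [← hn]; simp
  set E : Set E3 := {x | x ∈ cube ∧ ∃ q : Fin 3 → ℚ, b q = true ∧ ∀ j, x j ≤ q j} with hEdef
  have hE : IsDS E := by
    refine ⟨?_, fun x hx => hx.1, fun x hx y hy hyx => ⟨hy, ?_⟩⟩
    · have : E = cube ∩ ⋃ q : {q : Fin 3 → ℚ // b q = true}, ⋂ j, {x : E3 | x j ≤ (q.1 j : ℝ)} := by
        ext x; simp [hEdef]
      rw [this]
      exact measurableSet_cube.inter (MeasurableSet.iUnion fun q => MeasurableSet.iInter fun j =>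
        measurableSet_le (by fun_prop) measurable_const)
    · obtain ⟨q, hq, hx⟩ := hx.2
      exact ⟨q, hq, fun j => (hyx j).trans (hx j)⟩
  refine ⟨E, hE, φ, hφ, ?_⟩
  filter_upwards [measure_eq_zero_iff_ae_notMem.1 (vm_null hE)] with x hx
  by_cases hc : x ∈ cube
  · by_cases hxE : x ∈ E
    · obtain ⟨q, hq, hxq⟩ := hxE.2
      filter_upwards [hb' q] with n hn
      exact iff_of_true ((hF _).down _ (hn.2 hq) x hc hxq) hxE
    · have : ∃ y ∈ cube, (∀ j, y j < x j) ∧ y ∉ E := by
        by_contra hcon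
        push Not at hcon
        exact hx ⟨hc, hxE, hcon⟩
      obtain ⟨y, hy, hyx, hyE⟩ := this
      obtain ⟨q, hq⟩ := vm_rat hyx
      have hbq : b q ≠ true := fun h => hyE ⟨hy, q, h, fun j => (hq j).1.le⟩
      filter_upwards [hb' q] with n hn
      refine iff_of_false (fun h => hbq (hn.1 ((hF _).down x h _ (fun j => ?_) fun j => (hq j).2.le))) hxE
      exact ⟨(hy j).1.trans (hq j).1, (hq j).2.trans (hc j).2⟩
  · exact Eventually.of_forall fun n =>
      iff_of_false (fun h => hc ((hF _).sub h)) fun h => hc (hE.sub h)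

theorem exists_min : ∃ E, IsMin E := by
  set S : Set ℝ := {g | ∃ F, IsDS F ∧ g = per F - Is (vol F)}
  have hne : S.Nonempty := ⟨_, ∅, isDS_empty, rfl⟩
  have hbd : BddBelow S := ⟨-1, by
    rintro g ⟨F, -, rfl⟩
    linarith [per_nonneg F, Is_le_one (vol F)]⟩
  obtain ⟨u, -, hu, hS⟩ := exists_seq_tendsto_sInf hne hbd
  choose F hF hFu using hS
  obtain ⟨E, hE, φ, hφ, hae⟩ := exists_subseq F hF
  have h1 : Tendsto (fun n => volume (symmDiff (F (φ n)) E)) atTop (𝓝 0) := by
    have := tendsto_measure_of_ae_tendsto_indicator (μ := (volume : Measure E3)) atTop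
      (As := fun n => symmDiff (F (φ n)) E) (A := ∅) MeasurableSet.empty
      (fun n => (hF _).meas.symmDiff hE.meas) measurableSet_cube vm_volume_cube.ne
      (Eventually.of_forall fun n => symmDiff_le_sup.trans (union_subset (hF _).sub hE.sub))
      (by
        filter_upwards [hae] with x hx
        filter_upwards [hx] with n hn
        simp only [mem_symmDiff, mem_empty_iff_false, iff_false]
        tauto)
    simpa using this
  have h2 : Tendsto (fun n => vol (F (φ n))) atTop (𝓝 (vol E)) :=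
    (ENNReal.tendsto_toReal (dshtB_volume_lt hE).ne).comp
      (tendsto_measure_of_ae_tendsto_indicator (μ := (volume : Measure E3)) atTop hE.meas
        (fun n => (hF _).meas) measurableSet_cube vm_volume_cube.ne
        (Eventually.of_forall fun n => (hF _).sub) hae)
  have h3 : Tendsto (fun n => per (F (φ n))) atTop (𝓝 (sInf S + Is (vol E))) := by
    refine ((hu.comp hφ.tendsto_atTop).add ((continuous_Is.tendsto _).comp h2)).congr fun n => ?_
    simp only [Function.comp, hFu]; ring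
  have h4 : per E ≤ sInf S + Is (vol E) :=
    per_le_of_tendsto (fun n => hF _) hE h1 fun ε hε =>
      (h3.eventually (ge_mem_nhds (lt_add_of_pos_right _ hε))).frequently
  exact ⟨E, hE, fun G hG => by linarith [csInf_le hbd (⟨G, hG, rfl⟩ : _ ∈ S)]⟩

theorem vol_empty : vol (∅ : Set E3) = 0 := by simp [vol]

theorem per_empty : per (∅ : Set E3) = 0 := by
  refine le_antisymm ((per_le_sum _).trans (le_of_eq (Finset.sum_eq_zero fun i _ => ?_))) (per_nonneg _)
  have : dom (∅ : Set E3) i = ∅ := by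
    refine eq_empty_of_forall_notMem fun w hw => ?_
    have h := hw.2.1
    simp [ht] at h
  simp [mu, this]

/-- the minimal value is `≤ 0` -/
theorem isMin_per_le {E : Set E3} (h : IsMin E) : per E ≤ Is (vol E) := by
  have := h.2 ∅ isDS_empty
  rw [per_empty, vol_empty, Is_zero] at this
  linarith

end Crest.Agent.R214.Va.G51
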