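import Crest.Agent.R214.VarA
import Crest.Agent.R214.MoReal

/-! Row 214, module VAR: the superdifferential of the profile (helper93). -/

set_option autoImplicit false
open MeasureTheory Set Filter Topology Real

noncomputable section
namespace Crest.Agent.R214.Va.PB
open DS Cs

/-- ball branch -/
def f1 (V : ℝ) : ℝ := (36 * π) ^ ((1 : ℝ) / 3) * V ^ ((2 : ℝ) / 3) / 2

/-- tube branch -/
def f2 (V : ℝ) : ℝ := Real.sqrt (π * V)

theorem touch {f : ℝ → ℝ} {d V lp lm η : ℝ} (hf : HasDerivAt f d V) (h1 : lp ≤ d) (h2 : d ≤ lm)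
    (hη : 0 < η) : ∀ᶠ h in 𝓝 (0 : ℝ), min (lp * h) (lm * h) - η * |h| ≤ f (V + h) - f V := by
  have h := (hasDerivAt_iff_isLittleO_nhds_zero.1 hf).def hη
  filter_upwards [h] with h hh
  rw [Real.norm_eq_abs, Real.norm_eq_abs, smul_eq_mul] at hh
  have h3 := (abs_le.1 hh).1
  have h4 : min (lp * h) (lm * h) ≤ h * d := by
    rcases le_total 0 h with h0 | h0
    · exact (min_le_left _ _).trans (by nlinarith)
    · exact (min_le_right _ _).trans (by nlinarith)
  linarith

theorem f1_deriv {V : ℝ} (h0 : 0 < V) :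
    ∃ d, 0 < d ∧ 3 * d ^ 3 * V = 4 * π ∧ HasDerivAt f1 d V := by
  have hp := Real.pi_pos
  have h := ((Real.hasDerivAt_rpow_const (x := V) (p := (2 : ℝ) / 3) (Or.inl h0.ne')).const_mul
    ((36 * π) ^ ((1 : ℝ) / 3))).div_const 2
  refine ⟨_, ?_, ?_, h⟩
  · positivity
  · rw [Real.rpow_sub_one h0.ne']
    have h3 := Mo.a_cube h0.le
    have : (36 * π) ^ ((1 : ℝ) / 3) * (2 / 3 * (V ^ ((2 : ℝ) / 3) / V)) / 2
        = ((36 * π) ^ ((1 : ℝ) / 3) * V ^ ((2 : ℝ) / 3)) / (3 * V) := by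
      field_simp
    rw [this, div_pow, h3]
    field_simp
    ring

theorem f2_deriv {V : ℝ} (h0 : 0 < V) :
    ∃ d, 0 < d ∧ 4 * d ^ 2 * V = π ∧ HasDerivAt f2 d V := by
  have hp := Real.pi_pos
  have hx : 0 < π * V := by positivity
  have h := ((hasDerivAt_id V).const_mul π).sqrt (by simpa using hx.ne')
  have hs : 0 < Real.sqrt (π * V) := Real.sqrt_pos.2 hx
  refine ⟨π / (2 * Real.sqrt (π * V)), by positivity, ?_, ?_⟩
  · rw [div_pow, mul_pow, Real.sq_sqrt hx.le]
    field_simp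
    ring
  · have h' : HasDerivAt (fun y => Real.sqrt (π * y)) (π / (2 * Real.sqrt (π * V))) V := by
      simpa using h
    exact h'

theorem inv_pi_lt : 1 / π < 1 / 2 := by
  have := Real.pi_gt_three
  rw [div_lt_div_iff₀ (by positivity) (by norm_num)]
  linarith

theorem Is_eq {W : ℝ} (h : W ≤ 1 / 2) : Is W = Mo.I3 W / 2 := by
  rw [Is, min_eq_left (by linarith), Ic]

theorem Is_ball {W : ℝ} (h0 : 0 < W) (h : W ≤ 4 * π / 81) : Is W = f1 W := by
  rw [Is_eq (h.trans (Mo.kink_le.trans inv_pi_lt.le)), Mo.I3_ball h0 h, f1]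

theorem Is_tube {W : ℝ} (h0 : 4 * π / 81 ≤ W) (h : W ≤ 1 / π) : Is W = f2 W := by
  rw [Is_eq (h.trans inv_pi_lt.le), Mo.I3_tube h0 h, f2]
  ring

theorem Is_slab {W : ℝ} (h0 : 1 / π ≤ W) (h : 1 / π ≤ 1 - W) : Is W = 1 := by
  rw [Is, Ic, Mo.I3_slab (le_min h0 h)]
  norm_num

theorem ev_lt {V a : ℝ} (h : V < a) : ∀ᶠ h in 𝓝 (0 : ℝ), V + h < a := by
  filter_upwards [Iio_mem_nhds (show (0 : ℝ) < a - V by linarith)] with h hh
  have : h < a - V := hh
  linarith

theorem ev_gt {V a : ℝ} (h : a < V) : ∀ᶠ h in 𝓝 (0 : ℝ), a < V + h := by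
  filter_upwards [Ioi_mem_nhds (show a - V < (0 : ℝ) by linarith)] with h hh
  have : a - V < h := hh
  linarith

theorem kink_lt : 4 * π / 81 < 1 / π := by
  have hp := Real.pi_pos
  have := Real.pi_lt_d2
  rw [div_lt_div_iff₀ (by norm_num) hp]
  nlinarith

theorem exists_sup {V : ℝ} (h0 : 0 < V) (h1 : V ≤ 1 / 2) :
    ∃ lp lm, lp ≤ lm ∧ (∀ lam ∈ Icc lp lm, Graph V lam) ∧ Sup V lp lm := by
  have hp := Real.pi_pos
  obtain ⟨d1, hd1, e1, D1⟩ := f1_deriv h0
  obtain ⟨d2, hd2, e2, D2⟩ := f2_deriv h0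
  rcases lt_trichotomy V (4 * π / 81) with hV | hV | hV
  · refine ⟨d1, d1, le_rfl, fun lam hl => ?_, fun η hη => ?_⟩
    · have : lam = d1 := le_antisymm hl.2 hl.1
      subst this
      exact Or.inl ⟨hV.le, hd1, e1⟩
    · filter_upwards [touch D1 le_rfl le_rfl hη, ev_lt hV, ev_gt h0] with h a b c
      rwa [Is_ball c b.le, Is_ball h0 hV.le]
  · have k1 : d1 = 3 := by
      refine (pow_left_inj₀ hd1.le (by norm_num) (n := 3) (by norm_num)).1 ?_
      rw [hV] at e1
      have : π * (d1 ^ 3 - 27) = 0 := by linarith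
      rcases mul_eq_zero.1 this with h | h
      · exact absurd h hp.ne'
      · linarith
    have k2 : d2 = 9 / 4 := by
      refine (pow_left_inj₀ hd2.le (by norm_num) (n := 2) (by norm_num)).1 ?_
      rw [hV] at e2
      have : π * (d2 ^ 2 - 81 / 16) = 0 := by linarith
      rcases mul_eq_zero.1 this with h | h
      · exact absurd h hp.ne'
      · linarith
    have hk : V < 1 / π := hV ▸ kink_lt
    refine ⟨9 / 4, 3, by norm_num, fun lam hl => Or.inr (Or.inl ⟨hV, hl.1, hl.2⟩), fun η hη => ?_⟩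
    filter_upwards [touch (lp := 9 / 4) (lm := 3) D1 (by linarith) (by linarith) hη,
      touch (lp := 9 / 4) (lm := 3) D2 (by linarith) (by linarith) hη, ev_lt hk, ev_gt h0]
      with h a a' b c
    rcases le_total (V + h) (4 * π / 81) with hh | hh
    · rwa [Is_ball c hh, Is_ball h0 hV.le]
    · rwa [Is_tube hh b.le, Is_tube hV.ge hk.le]
  · rcases lt_trichotomy V (1 / π) with hW | hW | hW
    · refine ⟨d2, d2, le_rfl, fun lam hl => ?_, fun η hη => ?_⟩
      · have : lam = d2 := le_antisymm hl.2 hl.1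
        subst this
        exact Or.inr (Or.inr (Or.inl ⟨hV.le, hW.le, hd2, e2⟩))
      · filter_upwards [touch D2 le_rfl le_rfl hη, ev_lt hW, ev_gt hV] with h a b c
        rwa [Is_tube c.le b.le, Is_tube hV.le hW.le]
    · have k2 : d2 = π / 2 := by
        refine (pow_left_inj₀ hd2.le (by positivity) (n := 2) (by norm_num)).1 ?_
        rw [hW] at e2
        field_simp at e2
        linarith
      have hk : V < 1 / 2 := hW ▸ inv_pi_lt
      refine ⟨0, π / 2, by positivity,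
        fun lam hl => Or.inr (Or.inr (Or.inr (Or.inl ⟨hW, hl.1, hl.2⟩))), fun η hη => ?_⟩
      filter_upwards [touch (lp := 0) (lm := π / 2) D2 hd2.le k2.le hη,
        touch (lp := 0) (lm := π / 2) (hasDerivAt_const V (1 : ℝ)) le_rfl (by positivity) hη,
        ev_lt hk, ev_gt hV] with h a a' b c
      have := inv_pi_lt
      rcases le_total (V + h) (1 / π) with hh | hh
      · rwa [Is_tube c.le hh, Is_tube hV.le hW.le]
      · rwa [Is_slab hh (by linarith), Is_slab hW.ge (by linarith)]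
    · have := inv_pi_lt
      refine ⟨0, 0, le_rfl, fun lam hl => ?_, fun η hη => ?_⟩
      · exact Or.inr (Or.inr (Or.inr (Or.inr ⟨hW.le, le_antisymm hl.2 hl.1⟩)))
      · filter_upwards [touch (lp := 0) (lm := 0) (hasDerivAt_const V (1 : ℝ)) le_rfl le_rfl hη,
          ev_gt hW, ev_lt (show V < 1 - 1 / π by linarith)] with h a b c
        rwa [Is_slab b.le (by linarith), Is_slab hW.le (by linarith)]

end Crest.Agent.R214.Va.PB
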