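import Crest.Agent.R214.VarA
import Crest.Agent.R214.MoReal
import Crest.Agent.R214.VarProfB

/-! Row 214, module VAR: the profile (architect helper39; statements are frozen). -/

set_option autoImplicit false
open MeasureTheory Set Filter Topology Real

noncomputable section
namespace Crest.Agent.R214.Va
open DS Cs

theorem continuous_Is : Continuous Is := by
  have h1 : Continuous fun V : ℝ => V ^ ((2 : ℝ) / 3) := Real.continuous_rpow_const (by norm_num)
  have h2 : Continuous Mo.I3 := by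
    unfold Mo.I3
    exact ((continuous_const.mul h1).min
      (continuous_const.mul (Real.continuous_sqrt.comp (continuous_const.mul continuous_id)))).min
      continuous_const
  have h3 : Continuous Ic := h2.div_const 2
  exact h3.comp (continuous_id.min (continuous_const.sub continuous_id))

theorem Is_le_one (V : ℝ) : Is V ≤ 1 := by
  unfold Is Ic Mo.I3
  have := min_le_right (min ((36 * π) ^ ((1 : ℝ) / 3) * (min V (1 - V)) ^ ((2 : ℝ) / 3))
    (2 * Real.sqrt (π * min V (1 - V)))) 2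
  linarith

theorem Is_zero : Is 0 = 0 := by
  unfold Is Ic Mo.I3
  have h : min (0 : ℝ) (1 - 0) = 0 := by norm_num
  rw [h, Real.zero_rpow (by norm_num)]
  norm_num

theorem Is_one_sub (V : ℝ) : Is (1 - V) = Is V := by
  unfold Is
  rw [sub_sub_cancel, min_comm]

theorem Is_of_le {V : ℝ} (h : V ≤ 1 / 2) : Is V = Ic V := by
  unfold Is
  rw [min_eq_left (by linarith)]

theorem exists_sup {V : ℝ} (h0 : 0 < V) (h1 : V ≤ 1 / 2) :
    ∃ lp lm, lp ≤ lm ∧ (∀ lam ∈ Icc lp lm, Graph V lam) ∧ Sup V lp lm := by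
  exact PB.exists_sup h0 h1

theorem Sup.lip {V lp lm : ℝ} (h : Sup V lp lm) :
    ∃ L, ∀ᶠ h in 𝓝 (0 : ℝ), -(L * |h|) ≤ Is (V + h) - Is V := by
  refine ⟨|lp| + |lm| + 1, (h 1 one_pos).mono fun t ht => le_trans ?_ ht⟩
  have h1 : -(|lp| * |t|) ≤ lp * t := by rw [← abs_mul]; exact neg_abs_le _
  have h2 : -(|lm| * |t|) ≤ lm * t := by rw [← abs_mul]; exact neg_abs_le _
  have h3 : 0 ≤ |lp| * |t| := by positivity
  have h4 : 0 ≤ |lm| * |t| := by positivity
  have h5 : -(|lp| * |t| + |lm| * |t|) ≤ min (lp * t) (lm * t) :=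
    le_min (by linarith) (by linarith)
  linarith

theorem bounds_of_le {A V : ℝ} (hA : 0 ≤ A) (h0 : 0 < V) (h : A ≤ Ic V) :
    A ^ 3 ≤ 9 * π / 2 * V ^ 2 ∧ A ^ 2 ≤ π * V ∧ A ≤ 1 := by
  unfold Ic Mo.I3 at h
  have h' : 2 * A ≤ min (min ((36 * π) ^ ((1 : ℝ) / 3) * V ^ ((2 : ℝ) / 3))
      (2 * Real.sqrt (π * V))) 2 := by linarith
  rw [le_min_iff, le_min_iff] at h'
  obtain ⟨⟨h1, h2⟩, h3⟩ := h'
  refine ⟨?_, ?_, by linarith⟩
  · have := pow_le_pow_left₀ (by positivity) h1 3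
    rw [Mo.a_cube h0.le] at this
    linarith
  · have := pow_le_pow_left₀ (by positivity) h2 2
    rw [Mo.b_sq h0.le] at this
    linarith

theorem per_of_model {E : Set E3} (h0 : 0 < vol E) (hA : 0 ≤ per E) (h : Model E) :
    per E = Ic (vol E) := by
  unfold Ic
  rcases h with ⟨h1, h2, -⟩ | ⟨h1, h2, h3, -⟩ | ⟨h1, h2, -⟩
  · rw [Mo.I3_ball h0 h1]
    refine (pow_left_inj₀ hA (by positivity) (n := 3) (by norm_num)).1 ?_
    rw [div_pow, Mo.a_cube h0.le, h2]
    ring
  · rw [Mo.I3_tube h1 h2]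
    refine (pow_left_inj₀ hA (by positivity) (n := 2) (by norm_num)).1 ?_
    rw [div_pow, Mo.b_sq h0.le, h3]
    ring
  · rw [Mo.I3_slab h1, h2]
    norm_num

end Crest.Agent.R214.Va
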