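import Crest.Agent.R214.VarDefs
import Crest.Agent.R214.DSHt

/-! Row 214, module VAR: one-dimensional reparametrisations (architect helper39; statements are frozen). -/

set_option autoImplicit false
open MeasureTheory Set Filter Topology Real

noncomputable section
namespace Crest.Agent.R214.Va
open DS Cs

/-- `φ` is an increasing homeomorphism of the line with derivative `g` and `φ 0 ≤ 0` -/
structure Rp (φ : ℝ ≃o ℝ) (g : ℝ → ℝ) : Prop where
  meas : Measurable g
  nonneg : ∀ t, 0 ≤ g t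
  le : ∀ t, g t ≤ 2
  map : (volume.withDensity fun t => ENNReal.ofReal (g t)).map φ = volume
  zero : φ 0 ≤ 0

/-- the product map -/
def Ph (φ : Fin 3 → ℝ ≃o ℝ) (x : E3) : E3 := WithLp.toLp 2 fun j => φ j (x j)

/-- the reparametrised set -/
def str (E : Set E3) (φ : Fin 3 → ℝ ≃o ℝ) : Set E3 :=
  {y | y ∈ cube ∧ (WithLp.toLp 2 fun j => (φ j).symm (y j) : E3) ∈ E}

/-- `t ↦ b + ∫₀ᵗ g` is strictly increasing, continuous and onto; the two measures agree on `Ioc`. -/
theorem exists_rp (g : ℝ → ℝ) (hg : Measurable g) (h1 : ∀ t, 1 / 2 ≤ g t) (h2 : ∀ t, g t ≤ 2)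
    (b : ℝ) (hb : b ≤ 0) :
    ∃ φ : ℝ ≃o ℝ, Rp φ g ∧ ∀ t, φ t = b + ∫ s in (0 : ℝ)..t, g s := by
  have hint : ∀ a c : ℝ, IntervalIntegrable g volume a c := fun a c =>
    (intervalIntegrable_const (c := (2 : ℝ))).mono_fun' hg.aestronglyMeasurable
      (Eventually.of_forall fun t => by
        have := h1 t
        have := h2 t
        simp only [Real.norm_eq_abs]
        rw [abs_of_nonneg (by linarith)]
        exact h2 t)
  set f : ℝ → ℝ := fun t => b + ∫ s in (0 : ℝ)..t, g s with hf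
  have hsub : ∀ a c : ℝ, f c - f a = ∫ s in a..c, g s := fun a c => by
    simp only [hf]
    rw [← intervalIntegral.integral_add_adjacent_intervals (hint 0 a) (hint a c)]
    ring
  have hlow : ∀ a c : ℝ, a ≤ c → (c - a) / 2 ≤ f c - f a := fun a c hac => by
    rw [hsub]
    have := intervalIntegral.integral_mono_on hac (intervalIntegrable_const (c := (1 / 2 : ℝ)))
      (hint a c) (fun t _ => h1 t)
    simp only [intervalIntegral.integral_const, smul_eq_mul] at this
    linarith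
  have hmono : StrictMono f := fun a c hac => by
    have := hlow a c hac.le
    linarith
  have hcont : Continuous f :=
    continuous_const.add (intervalIntegral.continuous_primitive hint 0)
  have hsurj : Function.Surjective f := by
    intro y
    have h0 : f (-(2 * |y - f 0|)) ≤ y := by
      have := hlow (-(2 * |y - f 0|)) 0 (by have := abs_nonneg (y - f 0); linarith)
      have := neg_abs_le (y - f 0)
      linarith
    have h3 : y ≤ f (2 * |y - f 0|) := by
      have := hlow 0 (2 * |y - f 0|) (by have := abs_nonneg (y - f 0); linarith)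
      have := le_abs_self (y - f 0)
      linarith
    exact mem_range_of_exists_le_of_exists_ge hcont ⟨_, h0⟩ ⟨_, h3⟩
  have hnn : ∀ t, 0 ≤ g t := fun t => by have := h1 t; linarith
  refine ⟨hmono.orderIsoOfSurjective f hsurj, ⟨hg, hnn, h2, ?_, ?_⟩, fun t => rfl⟩
  · set φ := hmono.orderIsoOfSurjective f hsurj with hφ
    have hφf : ∀ t, φ t = f t := fun t => rfl
    have hm : Measurable φ := hcont.measurable
    refine (Measure.ext_of_Ioc volume _ fun a c hac => ?_).symm
    rw [Measure.map_apply hm measurableSet_Ioc, OrderIso.preimage_Ioc,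
      withDensity_apply _ measurableSet_Ioc, Real.volume_Ioc]
    have hle : φ.symm a ≤ φ.symm c := φ.symm.monotone hac.le
    rw [← ofReal_integral_eq_lintegral_ofReal (hint _ _).1 (Eventually.of_forall hnn),
      ← intervalIntegral.integral_of_le hle, ← hsub, ← hφf, ← hφf, φ.apply_symm_apply,
      φ.apply_symm_apply]
  · show b + ∫ s in (0 : ℝ)..0, g s ≤ 0
    simpa using hb

/-- abstract change of variables -/
theorem rp_cov {α β : Type*} [MeasurableSpace α] [MeasurableSpace β] {μ : Measure α}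
    {ν : Measure β} (e : α ≃ᵐ β) {ρ : α → ℝ} (hρ : Measurable ρ) (h0 : ∀ x, 0 ≤ ρ x)
    (hm : (μ.withDensity fun x => ENNReal.ofReal (ρ x)).map e = ν) (F : β → ℝ) :
    ∫ y, F y ∂ν = ∫ x, F (e x) * ρ x ∂μ := by
  rw [← hm, integral_map_equiv, integral_withDensity_eq_integral_toReal_smul
    hρ.ennreal_ofReal (Eventually.of_forall fun _ => ENNReal.ofReal_lt_top)]
  refine integral_congr_ae (Eventually.of_forall fun x => ?_)
  simp only [ENNReal.toReal_ofReal (h0 x), smul_eq_mul]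
  ring

/-- product of two measure identities -/
theorem rp_prod {α β γ δ : Type*} [MeasurableSpace α] [MeasurableSpace β] [MeasurableSpace γ]
    [MeasurableSpace δ] {μ : Measure α} {ν : Measure β} {μ' : Measure γ} {ν' : Measure δ}
    [SFinite μ] [SFinite μ'] (e : α ≃ᵐ β) (e' : γ ≃ᵐ δ) {ρ : α → ℝ} {ρ' : γ → ℝ}
    (hρ : Measurable ρ) (hρ' : Measurable ρ') (h0 : ∀ x, 0 ≤ ρ x)
    (hm : (μ.withDensity fun x => ENNReal.ofReal (ρ x)).map e = ν)
    (hm' : (μ'.withDensity fun x => ENNReal.ofReal (ρ' x)).map e' = ν') :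
    ((μ.prod μ').withDensity fun w => ENNReal.ofReal (ρ w.1 * ρ' w.2)).map (e.prodCongr e')
      = ν.prod ν' := by
  rw [← hm, ← hm', Measure.map_prod_map _ _ e.measurable e'.measurable,
    prod_withDensity hρ.ennreal_ofReal hρ'.ennreal_ofReal]
  have : (fun w : α × γ => ENNReal.ofReal (ρ w.1 * ρ' w.2))
      = fun w => ENNReal.ofReal (ρ w.1) * ENNReal.ofReal (ρ' w.2) :=
    funext fun w => ENNReal.ofReal_mul (h0 _)
  rw [this]
  rfl

/-- change of variables -/
theorem Rp.integral {φ : ℝ ≃o ℝ} {g : ℝ → ℝ} (h : Rp φ g) (F : ℝ → ℝ) :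
    ∫ y, F y = ∫ t, F (φ t) * g t := by
  rw [rp_cov φ.toHomeomorph.toMeasurableEquiv h.meas h.nonneg h.map F]
  rfl

/-- change of variables in the plane -/
theorem Rp.integral2 {φ ψ : ℝ ≃o ℝ} {g k : ℝ → ℝ} (h : Rp φ g) (h' : Rp ψ k) (F : ℝ × ℝ → ℝ) :
    ∫ w, F w = ∫ w : ℝ × ℝ, F (φ w.1, ψ w.2) * (g w.1 * k w.2) := by
  have hm := rp_prod (μ := volume) (μ' := volume) φ.toHomeomorph.toMeasurableEquiv
    ψ.toHomeomorph.toMeasurableEquiv h.meas h'.meas h.nonneg h.map h'.map
  have hρ : Measurable fun w : ℝ × ℝ => g w.1 * k w.2 :=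
    (h.meas.comp measurable_fst).mul (h'.meas.comp measurable_snd)
  exact rp_cov _ hρ (fun w => mul_nonneg (h.nonneg _) (h'.nonneg _)) hm F

/-- coordinates of space as a measurable equivalence -/
def insEq0 : ℝ × (ℝ × ℝ) ≃ᵐ E3 where
  toFun p := ins 0 p.1 p.2
  invFun x := (x 0, (x 1, x 2))
  left_inv p := by simp [ins]
  right_inv x := ins_eta 0 x
  measurable_toFun := (continuous_ins 0).measurable
  measurable_invFun := by
    show Measurable fun x : E3 => (x 0, (x 1, x 2))
    fun_prop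

/-- change of variables in space -/
theorem Rp.integral3 {φ : Fin 3 → ℝ ≃o ℝ} {g : Fin 3 → ℝ → ℝ} (h : ∀ j, Rp (φ j) (g j))
    (F : E3 → ℝ) :
    ∫ y, F y = ∫ x : E3, F (Ph φ x) * (g 0 (x 0) * g 1 (x 1) * g 2 (x 2)) := by
  have hm2 := rp_prod (μ := volume) (μ' := volume) (φ 1).toHomeomorph.toMeasurableEquiv
    (φ 2).toHomeomorph.toMeasurableEquiv (h 1).meas (h 2).meas (h 1).nonneg (h 1).map (h 2).map
  have hρ2 : Measurable fun w : ℝ × ℝ => g 1 w.1 * g 2 w.2 :=
    ((h 1).meas.comp measurable_fst).mul ((h 2).meas.comp measurable_snd)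
  have hm3 := rp_prod (μ := volume) (μ' := (volume : Measure ℝ).prod volume)
    (φ 0).toHomeomorph.toMeasurableEquiv _ (h 0).meas hρ2 (h 0).nonneg (h 0).map hm2
  have hρ3 : Measurable fun w : ℝ × (ℝ × ℝ) => g 0 w.1 * (g 1 w.2.1 * g 2 w.2.2) :=
    ((h 0).meas.comp measurable_fst).mul (hρ2.comp measurable_snd)
  have key := rp_cov _ hρ3
    (fun w => mul_nonneg ((h 0).nonneg _) (mul_nonneg ((h 1).nonneg _) ((h 2).nonneg _))) hm3
    (fun p => F (ins 0 p.1 p.2))
  have hmp : MeasurePreserving insEq0 volume volume := measurePreserving_ins 0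
  rw [← hmp.integral_comp' F,
    ← hmp.integral_comp' fun x : E3 => F (Ph φ x) * (g 0 (x 0) * g 1 (x 1) * g 2 (x 2))]
  refine key.trans (integral_congr_ae (Eventually.of_forall fun p => ?_))
  have e1 : Ph φ (ins 0 p.1 p.2) = ins 0 (φ 0 p.1) (φ 1 p.2.1, φ 2 p.2.2) := by
    ext j
    fin_cases j <;> simp [Ph, ins]
  show F (ins 0 (φ 0 p.1) (φ 1 p.2.1, φ 2 p.2.2)) * (g 0 p.1 * (g 1 p.2.1 * g 2 p.2.2))
    = F (Ph φ (ins 0 p.1 p.2)) * (g 0 (ins 0 p.1 p.2 0) * g 1 (ins 0 p.1 p.2 1)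
      * g 2 (ins 0 p.1 p.2 2))
  rw [e1]
  have a0 : ins 0 p.1 p.2 0 = p.1 := ins_self 0 _ _
  have a1 : ins 0 p.1 p.2 1 = p.2.1 := ins_succ 0 _ _
  have a2 : ins 0 p.1 p.2 2 = p.2.2 := ins_succ2 0 _ _
  rw [a0, a1, a2, mul_assoc (g 0 p.1)]

theorem measurable_Ph (φ : Fin 3 → ℝ ≃o ℝ) : Measurable (Ph φ) := by
  refine Continuous.measurable ?_
  unfold Ph
  refine (PiLp.continuous_toLp 2 _).comp (continuous_pi fun j => ?_)
  exact (φ j).continuous.comp (by fun_prop)

end Crest.Agent.R214.Va
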