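import Crest.Agent.R214.VarRp
import Crest.Agent.R214.DSSig

/-! Row 214, module VAR: measures of a reparametrised down-set (architect helper39; statements are frozen). -/

set_option autoImplicit false
open MeasureTheory Set Filter Topology Real

noncomputable section
namespace Crest.Agent.R214.Va
open DS Cs

variable {E : Set E3} {φ : Fin 3 → ℝ ≃o ℝ} {g : Fin 3 → ℝ → ℝ}

theorem isDS_str (hE : IsDS E) (h0 : ∀ j, φ j 0 ≤ 0) : IsDS (str E φ) := by
  refine ⟨?_, fun y hy => hy.1, ?_⟩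
  · exact measurableSet_cube.inter (measurable_Ph (fun j => (φ j).symm) hE.meas)
  · intro x hx y hy hle
    refine ⟨hy, hE.down _ hx.2 _ (fun j => ⟨?_, ?_⟩) (fun j => (φ j).symm.monotone (hle j))⟩
    · show 0 < (φ j).symm (y j)
      rw [OrderIso.lt_symm_apply]
      exact (h0 j).trans_lt (hy j).1
    · exact lt_of_le_of_lt ((φ j).symm.monotone (hle j)) (hE.sub hx.2 j).2

theorem strA_ins (φ : Fin 3 → ℝ ≃o ℝ) (i : Fin 3) (t : ℝ) (w : ℝ × ℝ) :
    (WithLp.toLp 2 fun j => (φ j).symm (ins i t (φ (i + 1) w.1, φ (i + 2) w.2) j) : E3) =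
      ins i ((φ i).symm t) w := by
  ext j
  rcases fin3_cases i j with rfl | rfl | rfl <;> simp

theorem ht_str (hE : IsDS E) (h0 : ∀ j, φ j 0 ≤ 0) (i : Fin 3) {w : ℝ × ℝ}
    (hw : (φ (i + 1) w.1, φ (i + 2) w.2) ∈ sq) :
    ht (str E φ) i (φ (i + 1) w.1, φ (i + 2) w.2) = min 1 (max 0 (φ i (ht E i w))) := by
  have hS := isDS_str hE h0
  apply le_antisymm
  · refine le_min (ht_le_one _ _ _) ?_
    refine csSup_le ⟨0, mem_insert _ _⟩ ?_
    rintro t (rfl | ⟨h1, -⟩)
    · exact le_max_left _ _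
    · refine le_trans ?_ (le_max_right _ _)
      have h2 := h1.2
      rw [strA_ins] at h2
      exact ((φ i).symm_apply_le).1 (hE.le_ht h2)
  · refine le_of_forall_lt_imp_le_of_dense fun s hs => ?_
    rcases le_or_gt s 0 with h1 | h1
    · exact h1.trans (ht_nonneg _ _ _)
    · have h2 : s < 1 := hs.trans_le (min_le_left _ _)
      have h3 : s < φ i (ht E i w) := by
        rcases lt_max_iff.1 (hs.trans_le (min_le_right _ _)) with h4 | h4
        · exact absurd h4 (not_lt.2 h1.le)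
        · exact h4
      refine hS.le_ht ⟨(ins_mem_cube _ _ _).2 ⟨⟨h1, h2⟩, hw⟩, ?_⟩
      rw [strA_ins]
      refine hE.mem_of_lt_ht ?_ ((φ i).symm_apply_lt.2 h3)
      rw [OrderIso.lt_symm_apply]
      exact (h0 i).trans_lt h1

theorem strB_Ph_ins (φ : Fin 3 → ℝ ≃o ℝ) (i : Fin 3) (t : ℝ) (w : ℝ × ℝ) :
    Ph φ (ins i t w) = ins i (φ i t) (φ (i + 1) w.1, φ (i + 2) w.2) := by
  ext j
  rcases fin3_cases i j with rfl | rfl | rfl
  · simp [Ph]
  · simp [Ph]
  · simp [Ph]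

theorem strB_iff (hE : IsDS E) (h0 : ∀ j, φ j 0 ≤ 0) (i : Fin 3) (w : ℝ × ℝ)
    (hw : 1 ≤ φ i 1 ∨ ¬ (w ∈ sq ∧ ht E i w = 1)) :
    (φ (i + 1) w.1, φ (i + 2) w.2) ∈ dom (str E φ) i ↔
      (w ∈ dom E i ∧ Ph φ (gr E i w) ∈ cube) := by
  rw [gr, strB_Ph_ins, ins_mem_cube]
  constructor
  · rintro ⟨hs, ha, hb⟩
    rw [ht_str hE h0 i hs] at ha hb
    have hb' : φ i (ht E i w) < 1 := by
      rcases min_lt_iff.1 hb with h | h
      · exact absurd h (lt_irrefl _)
      · exact (le_max_right _ _).trans_lt h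
    have ha' : 0 < φ i (ht E i w) := by
      rcases lt_max_iff.1 (lt_min_iff.1 ha).2 with h | h
      · exact absurd h (lt_irrefl _)
      · exact h
    have hp : 0 < ht E i w := (φ i).lt_iff_lt.1 ((h0 i).trans_lt ha')
    have hsq : w ∈ sq := by
      by_contra hn
      exact hp.ne' (hE.ht_of_not_mem hn)
    refine ⟨⟨hsq, hp, lt_of_le_of_ne (ht_le_one E i w) fun he => ?_⟩, ⟨ha', hb'⟩, hs⟩
    rcases hw with hw | hw
    · rw [he] at hb'; exact absurd hb' hw.not_gt
    · exact hw ⟨hsq, he⟩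
  · rintro ⟨_, ⟨ha, hb⟩, hs⟩
    refine ⟨hs, ?_, ?_⟩ <;> rw [ht_str hE h0 i hs, max_eq_right ha.le, min_eq_right hb.le]
    · exact ha
    · exact hb

theorem strB_gr (hE : IsDS E) (h0 : ∀ j, φ j 0 ≤ 0) (i : Fin 3) (w : ℝ × ℝ)
    (hw : Ph φ (gr E i w) ∈ cube) :
    gr (str E φ) i (φ (i + 1) w.1, φ (i + 2) w.2) = Ph φ (gr E i w) := by
  rw [gr, strB_Ph_ins, ins_mem_cube] at hw
  obtain ⟨⟨ha, hb⟩, hs⟩ := hw
  rw [gr, gr, strB_Ph_ins, ht_str hE h0 i hs, max_eq_right ha.le, min_eq_right hb.le]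

theorem strB_measS (φ : Fin 3 → ℝ ≃o ℝ) : MeasurableSet {x : E3 | Ph φ x ∈ cube} :=
  measurable_Ph φ measurableSet_cube

theorem strB_measG (h : ∀ j, Rp (φ j) (g j)) (i : Fin 3) :
    Measurable fun x : E3 => g (i + 1) (x (i + 1)) * g (i + 2) (x (i + 2)) :=
  ((h _).meas.comp (c71_meas _)).mul ((h _).meas.comp (c71_meas _))

theorem integral_mu_str (hE : IsDS E) (h : ∀ j, Rp (φ j) (g j)) (i : Fin 3)
    (h1 : 1 ≤ φ i 1 ∨ aone E i = 0) (u : E3 → ℝ) (hu : Measurable u) (hu1 : ∀ x, |u x| ≤ 1) :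
    ∫ y, u y ∂(mu (str E φ) i) = ∫ x in {x | Ph φ x ∈ cube},
      u (Ph φ x) * (g (i + 1) (x (i + 1)) * g (i + 2) (x (i + 2))) ∂(mu E i) := by
  have h0 : ∀ j, φ j 0 ≤ 0 := fun j => (h j).zero
  have hS := isDS_str hE h0
  have hG : Measurable fun x : E3 =>
      u (Ph φ x) * (g (i + 1) (x (i + 1)) * g (i + 2) (x (i + 2))) :=
    (hu.comp (measurable_Ph φ)).mul (strB_measG h i)
  rw [hS.integral_mu i hu, ← integral_indicator (hS.measurableSet_dom i),
    Rp.integral2 (h (i + 1)) (h (i + 2)), ← integral_indicator (strB_measS φ),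
    hE.integral_mu i (hG.indicator (strB_measS φ)), ← integral_indicator (hE.measurableSet_dom i)]
  have hae : ∀ᵐ w : ℝ × ℝ, 1 ≤ φ i 1 ∨ ¬ (w ∈ sq ∧ ht E i w = 1) := by
    rcases h1 with h1 | h1
    · exact Eventually.of_forall fun w => Or.inl h1
    · have hz : volume {w : ℝ × ℝ | w ∈ sq ∧ ht E i w = 1} = 0 := by
        rcases (ENNReal.toReal_eq_zero_iff _).1 h1 with h2 | h2
        · exact h2
        · exact absurd h2 (c71_fin fun w hw => hw.1)
      filter_upwards [measure_eq_zero_iff_ae_notMem.1 hz] with w hw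
      exact Or.inr hw
  refine integral_congr_ae ?_
  filter_upwards [hae] with w hw
  have hiff := strB_iff hE h0 i w hw
  by_cases hd : (φ (i + 1) w.1, φ (i + 2) w.2) ∈ dom (str E φ) i
  · obtain ⟨hd1, hd2⟩ := hiff.1 hd
    rw [indicator_of_mem hd, indicator_of_mem hd1,
      indicator_of_mem (show gr E i w ∈ {x : E3 | Ph φ x ∈ cube} from hd2), strB_gr hE h0 i w hd2]
    simp [gr]
  · rw [indicator_of_notMem hd, zero_mul]
    by_cases hd1 : w ∈ dom E i
    · rw [indicator_of_mem hd1, indicator_of_notMem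
        (show gr E i w ∉ {x : E3 | Ph φ x ∈ cube} from fun hd2 => hd (hiff.2 ⟨hd1, hd2⟩))]
    · rw [indicator_of_notMem hd1]

theorem vol_str (hE : IsDS E) (h : ∀ j, Rp (φ j) (g j)) :
    vol (str E φ) = ∫ x in E ∩ {x | Ph φ x ∈ cube}, g 0 (x 0) * g 1 (x 1) * g 2 (x 2) := by
  have hS := isDS_str hE (fun j => (h j).zero)
  have hm : MeasurableSet (E ∩ {x | Ph φ x ∈ cube}) :=
    hE.meas.inter (measurable_Ph φ measurableSet_cube)
  have e1 : vol (str E φ) = ∫ y, (str E φ).indicator (fun _ => (1 : ℝ)) y := by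
    rw [integral_indicator hS.meas]
    simp only [integral_const, smul_eq_mul, mul_one, Measure.real, Measure.restrict_apply_univ]
    rfl
  rw [e1, Rp.integral3 h, ← integral_indicator hm]
  refine integral_congr_ae (Eventually.of_forall fun x => ?_)
  have e2 : (WithLp.toLp 2 fun j => (φ j).symm (Ph φ x j) : E3) = x := by
    ext j
    exact (φ j).symm_apply_apply (x j)
  have e3 : Ph φ x ∈ str E φ ↔ x ∈ E ∩ {x | Ph φ x ∈ cube} := by
    constructor
    · intro k
      have k2 := k.2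
      rw [e2] at k2
      exact ⟨k2, k.1⟩
    · intro k
      refine ⟨k.2, ?_⟩
      rw [e2]
      exact k.1
  by_cases hx : x ∈ E ∩ {x | Ph φ x ∈ cube}
  · simp only [indicator_of_mem hx, indicator_of_mem (e3.2 hx), one_mul]
  · simp only [indicator_of_notMem hx, indicator_of_notMem (fun k => hx (e3.1 k)), zero_mul]

theorem per_str_le (hE : IsDS E) (h : ∀ j, Rp (φ j) (g j)) (h1 : ∀ i, 1 ≤ φ i 1 ∨ aone E i = 0) :
    per (str E φ) ≤ ∫ x in {x | Ph φ x ∈ cube},
      √(∑ i, (g (i + 1) (x (i + 1)) * g (i + 2) (x (i + 2)) * nu E i x) ^ 2) ∂(sig E) := by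
  refine per_le_param' (str E φ) ((sig E).restrict {x | Ph φ x ∈ cube}) (Ph φ) (measurable_Ph φ)
    (fun i x => g (i + 1) (x (i + 1)) * g (i + 2) (x (i + 2)) * nu E i x)
    (fun i => (strB_measG h i).mul (measurable_nu E i)) (fun i => ?_) (fun i u hu hu1 => ?_)
  · refine Integrable.of_bound ((strB_measG h i).mul (measurable_nu E i)).aestronglyMeasurable
      (2 * 2 * 1) (Eventually.of_forall fun x => ?_)
    have a1 := (h (i + 1)).nonneg (x (i + 1))
    have a2 := (h (i + 2)).nonneg (x (i + 2))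
    rw [Real.norm_of_nonneg (mul_nonneg (mul_nonneg a1 a2) (nu_nonneg E i x))]
    exact mul_le_mul (mul_le_mul ((h _).le _) ((h _).le _) a2 zero_le_two) (nu_le_one E i x)
      (nu_nonneg E i x) (by norm_num)
  · rw [integral_mu_str hE h i (h1 i) u hu hu1, ← integral_indicator (strB_measS φ),
      integral_mu_nu, ← integral_indicator (strB_measS φ)]
    refine integral_congr_ae (Eventually.of_forall fun x => ?_)
    by_cases hx : x ∈ {x : E3 | Ph φ x ∈ cube}
    · simp only [indicator_of_mem hx]; ring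
    · simp only [indicator_of_notMem hx, zero_mul]

end Crest.Agent.R214.Va
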